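import Vale.Agent.P116D.A1a

/-!
A1: admissible intervals.
-/

namespace Vale.P116D

open Set Filter Topology MeasureTheory Complex
open scoped ContDiff

variable {D : Dom} {S : Gens D} {φ ψ χ η g d v w : ℂ → ℝ} {s σ r τ u : D.End → ℝ} {y : D.End}
  {U : Set ℂ} {z : ℂ}

theorem a1_u (hη : D.Cut η u) (y : D.End) : |u y| ≤ 1 := by
  rcases hη.val y with h | h <;> simp [h]

theorem a1_bd (hη : D.Cut η u) : D.Bd η :=
  ⟨1, fun z _ => abs_le.2 ⟨by linarith [(hη.mem z).1], (hη.mem z).2⟩⟩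

theorem a1_nonneg {M : ℝ} (h : D.Le φ M) : 0 ≤ M := by
  obtain ⟨z, hz⟩ := (G_conn D).nonempty
  exact (abs_nonneg _).trans (h z hz)

theorem a1_nl (hη : D.Cut η u) (hs : Sq s) (hr : Sq r) (y : D.End) :
    nl (upd (fun y' => u y' * (s y' + r y')) y 0) ≤
      nl (upd (fun y' => u y' * s y') y 0) + nl (upd (fun y' => u y' * r y') y 0) := by
  have e : upd (fun y' => u y' * (s y' + r y')) y 0 = fun y' =>
      upd (fun y' => u y' * s y') y 0 y' + upd (fun y' => u y' * r y') y 0 y' := by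
    funext y'
    unfold upd
    split_ifs <;> ring
  rw [e]
  exact nl_add ((hs.bmul (a1_u hη)).upd y 0) ((hr.bmul (a1_u hη)).upd y 0)

theorem a1_nl_upd (hs : Sq s) (y : D.End) : nl (upd s y 0) ≤ nl s := by
  refine nl_mono hs fun y' => ?_
  unfold upd
  split_ifs <;> simp

theorem a1_abs {T : ℝ → ℝ} {C : ℝ} (h : ∀ x, deriv T x ∈ Icc 0 C) (x : ℝ) : |deriv T x| ≤ C := by
  rw [abs_of_nonneg (h x).1]
  exact (h x).2

theorem a1_nr {T : ℝ → ℝ} {C : ℝ} (hT : ContDiff ℝ ∞ T) (h : ∀ x, |deriv T x| ≤ C) (hφ : D.Fn φ) :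
    D.nr (fun z => T (φ z)) ≤ C * D.nr φ := by
  refine nr_mono hφ ((abs_nonneg _).trans (h 0)) fun z hz => ?_
  rw [gr_comp (hT.differentiable (by simp) _) (hφ.diffAt hz), norm_smul, Real.norm_eq_abs]
  exact mul_le_mul_of_nonneg_right (h _) (norm_nonneg _)

theorem a1_cert (h : Cert S y φ) (e : φ =ᶠ[D.nb y] ψ) : Cert S y ψ := fun ε hε U hU => by
  obtain ⟨ζ, r, h1, h2, h3, h4, h5⟩ := h ε hε U hU
  exact ⟨ζ, r, h1, h2, h3, h4, h5.trans e⟩

theorem a1_adm (h : Cert S y φ) : Adm S y φ 0 0 := fun δ hδ ε hε U hU => by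
  obtain ⟨ζ, r, h1, h2, h3, h4, h5⟩ := h ε hε U hU
  refine ⟨ζ, r, h1, h2, h3, (a1_nl_upd h1.1.co.2 y).trans h4, h5.mono fun z hz => ?_⟩
  rw [hz, sub_self]
  exact ⟨by linarith, by linarith⟩

theorem a1_delta {a b : ℝ} (h : ∀ δ > 0, Adm S y φ (a - δ) (b + δ)) : Adm S y φ a b :=
  fun δ hδ ε hε U hU => by
    obtain ⟨ζ, r, h1, h2, h3, h4, h5⟩ := h (δ / 2) (half_pos hδ) (δ / 2) (half_pos hδ) ε hε U hU
    exact ⟨ζ, r, h1, h2, h3, h4, h5.mono fun z hz => ⟨by linarith [hz.1], by linarith [hz.2]⟩⟩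

/-- from approximating sequences -/
theorem adm_of_seq (hS : Str S) {f : ℕ → ℂ → ℝ} {a : ℕ → D.End → ℝ} {t C : ℝ} (hφ : InB S φ s)
    (he : ψ =ᶠ[D.nb y] φ) (hψ : D.Fn ψ) (h : ∀ n, InB S (f n) (a n)) (hc : D.Conv f ψ)
    (ha : ∀ ε > 0, ∃ U ∈ D.nb y, ∀ᶠ n in atTop, ∀ η u, D.Cut η u → D.Supp η U →
      nl (upd (fun y' => u y' * a n y') y 0) ≤ ε)
    (ho : ∀ ε > 0, ∀ᶠ n in atTop, D.osc y (f n) ≤ t + ε) (ht : 0 ≤ t) (hC : D.Le φ C) :
    ∃ p, Adm S y φ p (p + t) := by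
  have hC0 := a1_nonneg hC
  obtain ⟨T, hT, hd, hid, hr, -⟩ := clamp_ex (a := -C) (b := C) (by linarith) one_pos
  have hd' := a1_abs hd
  have hb : ∀ x, |T x| ≤ C + 1 := fun x => abs_le.2 ⟨by linarith [(hr x).1], (hr x).2⟩
  have hg : ∀ n, In S (fun z => T (f n z)) (a n) := fun n =>
    hS.trunc _ _ (h n).1 T hT hd' ⟨_, hb⟩
  have gb : ∀ n, D.Bd fun z => T (f n z) := fun n => ⟨_, fun z _ => hb _⟩
  have cg := hc.comp (fun n => (h n).1.fn) hψ hT hd'
  have hm : ∀ n, D.lo y (fun z => T (f n z)) ∈ Icc (-C - 1) (C + 1) := fun n => by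
    have h1 := cluster_sub (D := D) (y := y) (Eventually.of_forall fun z => hr (f n z))
    exact ⟨h1.1, (lo_le_hi (gb n) y).trans h1.2⟩
  obtain ⟨p, -, k, hk, hp⟩ := isCompact_Icc.tendsto_subseq hm
  refine ⟨p, fun δ hδ ε hε U hU => ?_⟩
  obtain ⟨U1, hU1, h1⟩ := ha (ε / 2) (half_pos hε)
  obtain ⟨U2, hU2, h2⟩ := nb_tail hφ.1.co.2 y (half_pos hε)
  obtain ⟨η, u, hη, hu, hs⟩ := cut_ex (inter_mem (inter_mem hU hU1) (inter_mem hU2 he))
  have cw := (cg.wmul (fun n => (hg n).fn) (hψ.comp hT fun z _ => hd' _) hη.wd).1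
  have hδ3 : 0 < δ / 3 := by positivity
  obtain ⟨n, ⟨e1, e2⟩, e3, e4⟩ := (((hk.tendsto_atTop.eventually h1).and
    (hk.tendsto_atTop.eventually (ho _ hδ3))).and ((Metric.tendsto_nhds.1 hp _ hδ3).and
      (hk.tendsto_atTop.eventually (cw.eventually (ge_mem_nhds hε))))).exists
  refine ⟨fun z => η z * (φ z - T (f (k n) z)), fun y' => u y' * (s y' + a (k n) y'),
    ⟨(hφ.1.sub (hg _) hS).cut hS hη, (a1_bd hη).mul (hφ.2.sub (gb _))⟩, fun z hz hzU => ?_, ?_,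
    ?_, ?_⟩
  · simp only [hs z hz fun h' => hzU h'.1.1, zero_mul]
  · have e : EqOn (fun z => η z * (φ z - T (f (k n) z)))
        (fun z => -(η z * T (f (k n) z) - η z * T (ψ z))) D.G := fun z hz => by
      by_cases h0 : η z = 0
      · simp [h0]
      · have h3 : ψ z = φ z := by
          by_contra h3
          exact h0 (hs z hz fun h' => h3 h'.2.2)
        simp only [h3, hid _ (abs_le.1 (hC z hz))]
        ring
    rw [nr_congr e]
    simpa only [Dom.nr, gr_neg, norm_neg] using e4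
  · have h3 := a1_nl hη hφ.1.co.2 (h (k n)).1.co.2 y
    have h4 := h2 η u hη fun z hz hzU => hs z hz fun h' => hzU h'.2.1
    have h5 := e1 η u hη fun z hz hzU => hs z hz fun h' => hzU h'.1.2
    linarith
  · have h3 := osc_lip (h (k n)).2 zero_le_one (lip_of_deriv hT hd') y
    have h4 := abs_lt.1 (show |D.lo y (fun z => T (f (k n) z)) - p| < δ / 3 from e3)
    filter_upwards [hη.wd.ev y, ev_mem (gb (k n)) y hδ3] with z z1 z2
    rw [z1, hu, one_mul, sub_sub_cancel]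
    unfold Dom.osc at h3 e2
    exact ⟨by linarith [z2.1], by linarith [z2.2]⟩

/-- a certificate with values in `[0, 1]` for the set where `φ` is off the interval -/
theorem Adm.xi {a b δ ε : ℝ} (ha : Adm S y φ a b) (hS : Str S) (h : InB S φ s) (hδ : 0 < δ)
    (hε : 0 < ε) (hU : U ∈ D.nb y) : ∃ ξ r, In S ξ r ∧ (∀ z, ξ z ∈ Icc (0 : ℝ) 1) ∧ D.Supp ξ U ∧
      D.nr ξ ≤ ε ∧ nl r ≤ ε ∧ Cert S y ξ ∧
      ∀ᶠ z in D.nb y, φ z ∉ Icc (a - δ) (b + δ) → ξ z = 1 := by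
  obtain ⟨T, C, hT, -, -, h0, h1⟩ := off_ex ha.le hδ
  obtain ⟨P, C', hP, hP01, hPd, hP0, hP1, -⟩ := step_ex (zero_lt_one (α := ℝ))
  have hC' : 0 ≤ C' := (hPd 0).1.trans (hPd 0).2
  have hε' : 0 < ε / (C' + 1) := by positivity
  have hle : C' * (ε / (C' + 1)) ≤ ε := by
    rw [← mul_div_assoc, div_le_iff₀ (by positivity)]
    linarith
  obtain ⟨ζ, r, hζ, hs, hn, hl, he⟩ := cert_one hS h ha hT (half_pos hδ) h0 _ hε' U hU
  refine ⟨fun z => P (ζ z), fun y' => C' * r y', (hζ.1.comp hS hP hC' (a1_abs hPd) (M := 1)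
    fun x => abs_le.2 ⟨by linarith [(hP01 x).1], (hP01 x).2⟩).1, fun z => hP01 _,
    fun z hz hzU => ?_, ?_, ?_, ?_, ?_⟩
  · simp only [hs z hz hzU, hP0 0 le_rfl]
  · exact (a1_nr hP (a1_abs hPd) hζ.1.fn).trans ((mul_le_mul_of_nonneg_left hn hC').trans hle)
  · rw [nl_cmul, abs_of_nonneg hC']
    exact (mul_le_mul_of_nonneg_left hl hC').trans hle
  · refine a1_cert (cert_one (T := fun x => P (T x)) hS h ha (hP.comp hT) (half_pos hδ)
      fun x hx => by rw [h0 x hx, hP0 0 le_rfl]) (he.mono fun z hz => ?_)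
    simp only [hz]
  · filter_upwards [he] with z hz hz'
    rw [hz, h1 _ hz', hP1 1 le_rfl]

theorem Cert.mul (h : Cert S y φ) (hS : Str S) (hφ : InB S φ s) (hψ : InB S ψ r) :
    Cert S y fun z => ψ z * φ z := by
  obtain ⟨M, hM⟩ := hφ.2
  obtain ⟨M', hM'⟩ := hψ.2
  have hM0 := a1_nonneg hM
  have hM1 := a1_nonneg hM'
  obtain ⟨C, hC, hA⟩ := exhaust D
  have hCm : Monotone C := monotone_nat_of_le_succ fun n => (hC n).2.2.trans interior_subset
  choose ζ ρ z1 z2 z3 z4 z5 using fun n : ℕ =>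
    h (1 / (n + 1)) Nat.one_div_pos_of_nat (C n)ᶜ (compl_mem (hC n).1 (hC n).2.1 y)
  obtain ⟨T, hT, hd, hid, hr, -⟩ := clamp_ex (a := -M) (b := M) (by linarith) one_pos
  have hd' := a1_abs hd
  have hb : ∀ x, |T x| ≤ M + 1 := fun x => abs_le.2 ⟨by linarith [(hr x).1], (hr x).2⟩
  have hg : ∀ n, In S (fun z => T (ζ n z)) (ρ n) := fun n =>
    hS.trunc _ _ (z1 n).1 T hT hd' ⟨_, hb⟩
  have cg : D.Conv (fun n z => T (ζ n z)) fun _ => 0 := by
    refine ⟨squeeze_zero (fun n => nr_nonneg _ _) (fun n => ?_)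
      tendsto_one_div_add_atTop_nhds_zero_nat, fun A hA1 hA2 => ?_⟩
    · simp only [sub_zero]
      exact (a1_nr hT hd' (z1 n).1.fn).trans (by rw [one_mul]; exact z3 n)
    · obtain ⟨m, hm⟩ := hA A hA1 hA2
      refine tendsto_const_nhds.congr' ((eventually_ge_atTop m).mono fun n hn => ?_)
      refine (setIntegral_eq_zero_of_forall_eq_zero fun z hz => ?_).symm
      simp [z2 n z (hA2 hz) (not_not.2 (hCm hn (hm hz))), hid 0 ⟨by linarith, hM0⟩]
  have gf : ∀ n, InB S (fun z => T (ζ n z) * ψ z) fun y' => M' * ρ n y' + (M + 1) * r y' :=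
    fun n => ⟨(hg n).mul hψ.1 hS (fun z _ => hb _) hM', Dom.Bd.mul ⟨_, fun z _ => hb _⟩ hψ.2⟩
  have cb := cg.bmul (M := M + 1) (fun n => (hg n).fn) (fn_const D 0) (fun n z _ => hb _)
    (fun z _ => by rw [abs_zero]; linarith) hψ.1.fn hψ.2
  have had : Adm S y (fun z => ψ z * φ z) 0 0 :=
    adm_comp hS (f := ![ψ, φ]) (c := ![r, s]) (a := ![D.lo y ψ, 0]) (b := ![D.hi y ψ, 0])
      (Θ := fun x => x 0 * x 1) (Fin.forall_fin_two.2 ⟨hψ, hφ⟩)
      (Fin.forall_fin_two.2 ⟨adm_cluster hS hψ.2 y, a1_adm h⟩) (by fun_prop) fun x hx => by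
        have h1 : x 1 = 0 := le_antisymm (hx 1).2 (hx 1).1
        simp [h1]
  intro ε hε U hU
  obtain ⟨U1, hU1, h1⟩ := nb_tail (hψ.1.co.2.cmul (M + 1)) y (half_pos hε)
  obtain ⟨η, u, hη, hu, hs⟩ := cut_ex (inter_mem hU hU1)
  have cw := (cb.wmul (fun n => (gf n).1.fn) (hψ.1.fn.cmul 0) hη.wd).1
  have c2 := tendsto_one_div_add_atTop_nhds_zero_nat (𝕜 := ℝ) |>.const_mul M'
  rw [mul_zero] at c2
  obtain ⟨n, e1, e2⟩ := ((cw.eventually (ge_mem_nhds hε)).and
    (c2.eventually (ge_mem_nhds (half_pos hε)))).exists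
  have hin : InB S (fun z => η z * (T (ζ n z) * ψ z))
      fun y' => u y' * (M' * ρ n y' + (M + 1) * r y') :=
    ⟨(gf n).1.cut hS hη, (a1_bd hη).mul (gf n).2⟩
  have hev : (fun z => η z * (T (ζ n z) * ψ z)) =ᶠ[D.nb y] fun z => ψ z * φ z := by
    filter_upwards [hη.wd.ev y, z5 n, G_mem y] with z a1 a2 a3
    rw [a1, hu, one_mul, a2, hid _ (abs_le.1 (hM z a3)), mul_comm]
  refine ⟨_, _, ⟨(had.congr hev).cost hS hin, hin.2⟩, fun z hz hzU => ?_, ?_, ?_, hev⟩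
  · simp only [hs z hz fun h' => hzU h'.1, zero_mul]
  · simpa only [zero_mul, mul_zero, sub_zero] using e1
  · have hρ := (z1 n).1.co.2.cmul M'
    have h3 := a1_nl hη hρ (hψ.1.co.2.cmul (M + 1)) y
    have h4 := h1 η u hη fun z hz hzU => hs z hz fun h' => hzU h'.2
    have h5 := a1_nl_upd (hρ.bmul (a1_u hη)) y
    have h6 : nl (fun y' => u y' * (M' * ρ n y')) ≤ nl fun y' => M' * ρ n y' :=
      nl_mono hρ fun y' => by
        rw [abs_mul]
        exact mul_le_of_le_one_left (abs_nonneg _) (a1_u hη y')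
    rw [nl_cmul, abs_of_nonneg hM1] at h6
    have h7 := mul_le_mul_of_nonneg_left (z4 n) hM1
    rw [sub_zero]
    linarith

theorem Adm.clip {a b : ℝ} (h : Adm S y φ a b) (hS : Str S) (hφ : InB S φ s) :
    ∃ a' b', Adm S y φ a' b' ∧ D.lo y φ ≤ a' ∧ b' ≤ D.hi y φ ∧ b' - a' ≤ b - a ∧
      (a ≤ D.hi y φ → D.lo y φ ≤ b → a ≤ a' ∧ b' ≤ b) := by
  have hl := lo_le_hi hφ.2 y
  have hab := h.le
  refine ⟨max (D.lo y φ) (min a (D.hi y φ)), max (D.lo y φ) (min b (D.hi y φ)),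
    a1_delta fun δ hδ => ?_, le_max_left _ _, max_le hl (min_le_right _ _), ?_, fun h1 h2 =>
      ⟨le_max_of_le_right (le_min le_rfl h1), max_le h2 (min_le_left _ _)⟩⟩
  · obtain ⟨T, hT, hd, hid, hr, -⟩ := clamp_ex (a := D.lo y φ - δ / 2) (b := D.hi y φ + δ / 2)
      (by linarith) (half_pos hδ)
    have hm := mono_of_deriv hT fun x => (hd x).1
    have h1 : Adm S y (fun z => T (φ z)) (T a) (T b) :=
      adm_comp hS (f := fun _ : Fin 1 => φ) (c := fun _ => s) (a := fun _ => a) (b := fun _ => b)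
        (Θ := fun x => T (x 0)) (fun _ => hφ) (fun _ => h) (hT.comp (by fun_prop))
        fun x hx => ⟨hm (hx 0).1, hm (hx 0).2⟩
    have hi : ∀ x, D.lo y φ ≤ x → x ≤ D.hi y φ → T x = x := fun x x1 x2 =>
      hid x ⟨by linarith, by linarith⟩
    refine (h1.congr ((ev_mem hφ.2 y (half_pos hδ)).mono fun z hz =>
      (hid _ (Ioo_subset_Icc_self hz)).symm)).mono ?_ ?_
    · rcases le_total a (D.lo y φ) with c1 | c1
      · rw [max_eq_left ((min_le_left _ _).trans c1)]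
        linarith [(hr a).1]
      · have h2 := hm (min_le_left a (D.hi y φ))
        rw [hi _ (le_min c1 hl) (min_le_right _ _)] at h2
        rw [max_eq_right (le_min c1 hl)]
        linarith
    · rcases le_total b (D.hi y φ) with c1 | c1
      · have h2 := hm (le_max_right (D.lo y φ) b)
        rw [hi _ (le_max_left _ _) (max_le hl c1)] at h2
        rw [min_eq_left c1]
        linarith
      · rw [min_eq_right c1, max_eq_right hl]
        linarith [(hr b).2]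
  · simp only [max_def, min_def]
    split_ifs <;> linarith

theorem boxAt_adm (hS : Str S) {k : ℕ} {f : Fin k → ℂ → ℝ} {c a : Fin k → D.End → ℝ}
    (h : ∀ i, InB S (f i) (c i)) (ha : ∀ i y, Adm S y (f i) (a i y) (a i y + c i y)) :
    BoxAt S f c a := by
  classical
  intro Θ hΘ η v hη r hr ho
  refine In.wmul ?_ hS hη
  choose M hM using fun i => (h i).2
  obtain ⟨C, -, hl⟩ := in_lipB hS hΘ (∑ i, M i)
  have h1 := hl f c (fun i => (h i).1) fun i z hz => (hM i z hz).trans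
    (Finset.single_le_sum (fun j _ => a1_nonneg (hM j)) (Finset.mem_univ i))
  refine in_of_pw hS hr h1.1.co fun F => ?_
  induction F using Finset.induction_on with
  | empty =>
    have e : pw ∅ r (fun y => C * ∑ i, c i y) = fun y => C * ∑ i, c i y := by
      funext y
      simp [pw]
    rw [e]
    exact h1.1
  | insert y F _ ih =>
    obtain ⟨x0, hx0, hmin⟩ := (isCompact_univ_pi fun i =>
      isCompact_Icc (a := a i y) (b := a i y + c i y)).exists_isMinOn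
      ⟨fun i => a i y, fun i _ => ⟨le_rfl, le_add_of_nonneg_right ((h i).1.co.1 y)⟩⟩
      hΘ.continuous.continuousOn
    have h2 := (adm_comp hS (p := Θ x0) (q := Θ x0 + r y) h (fun i => ha i y) hΘ fun x hx =>
      ⟨hmin fun i _ => hx i, by linarith [ho y x x0 hx fun i => hx0 i trivial]⟩).cost hS
      ⟨ih, h1.2⟩
    have e : pw (insert y F) r (fun y => C * ∑ i, c i y) =
        upd (pw F r fun y => C * ∑ i, c i y) y (Θ x0 + r y - Θ x0) := by
      funext y'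
      by_cases hy : y' = y
      · simp [pw, upd, hy]
      · simp [pw, upd, hy]
    rw [e]
    exact h2

end Vale.P116D
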