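import Vale.Agent.P116D.S2

/-!
A1a: admissible intervals, first part.
-/

namespace Vale.P116D

open Set Filter Topology MeasureTheory Complex
open scoped ContDiff

variable {D : Dom} {S : Gens D} {φ ψ χ η g d v w : ℂ → ℝ} {s σ r τ u : D.End → ℝ} {y : D.End}
  {U : Set ℂ} {z : ℂ}

theorem Adm.congr {a b : ℝ} (h : Adm S y φ a b) (e : ψ =ᶠ[D.nb y] φ) : Adm S y ψ a b := by
  intro δ hδ ε hε U hU
  obtain ⟨ζ, r, h1, h2, h3, h4, h5⟩ := h δ hδ ε hε U hU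
  refine ⟨ζ, r, h1, h2, h3, h4, ?_⟩
  filter_upwards [h5, e] with z hz he
  rwa [he]

theorem Adm.mono {a b a' b' : ℝ} (h : Adm S y φ a b) (e : a' ≤ a) (e' : b ≤ b') :
    Adm S y φ a' b' := by
  intro δ hδ ε hε U hU
  obtain ⟨ζ, r, h1, h2, h3, h4, h5⟩ := h δ hδ ε hε U hU
  exact ⟨ζ, r, h1, h2, h3, h4, h5.mono fun z hz => ⟨by linarith [hz.1], by linarith [hz.2]⟩⟩

theorem adm_cluster (hS : Str S) (h : D.Bd φ) (y : D.End) :
    Adm S y φ (D.lo y φ) (D.hi y φ) := by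
  intro δ hδ ε hε U _
  refine ⟨fun _ => 0, fun _ => 0, ⟨in_wd hS (wd_const D 0), bd_const D 0⟩, fun _ _ _ => rfl, ?_, ?_,
    (ev_mem h y hδ).mono fun z hz => ?_⟩
  · simpa [Dom.nr, gr_const] using hε.le
  · simpa [nl, upd] using hε.le
  · rw [sub_zero]
    exact Ioo_subset_Icc_self hz

theorem Adm.le {a b : ℝ} (h : Adm S y φ a b) : a ≤ b := by
  refine le_of_not_gt fun hlt => ?_
  obtain ⟨ζ, r, -, -, -, -, h5⟩ := h ((a - b) / 3) (by linarith) 1 one_pos univ univ_mem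
  obtain ⟨z, hz⟩ := h5.exists
  linarith [hz.1, hz.2]

theorem a1a_nr_neg (e : ∀ z ∈ D.G, ψ z = -φ z) : D.nr ψ = D.nr φ := by
  rw [nr_congr (ψ := fun z => -φ z) e]
  simp [Dom.nr, gr_neg]

theorem Adm.cost {a b : ℝ} (h : Adm S y φ a b) (hS : Str S) (hφ : InB S φ s) :
    In S φ (upd s y (b - a)) := by
  have hc : Cost (upd s y (b - a)) := hφ.1.co.upd y (sub_nonneg.2 h.le)
  refine in_of_eps hS hφ.1.fn hc fun ε hε => ?_
  obtain ⟨ζ, r, h1, -, h3, h4, h5⟩ := h (ε / 4) (by linarith) (ε / 2) (by linarith) univ univ_mem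
  have hψ : InB S (fun z => φ z - ζ z) fun y => s y + r y := ⟨hφ.1.sub h1.1 hS, hφ.2.sub h1.2⟩
  have hr : Cost (upd r y (ε / 2)) := h1.1.co.upd y (by linarith)
  have ho := osc_le_of h5
  refine ⟨fun z => φ z - ζ z, upd r y (ε / 2), hr, ?_,
    (hψ.osc_upd hS y).mono hS (hc.add hr) fun y' => ?_, ?_⟩
  · have h6 := nl_upd_le h1.1.co.2 y (ε / 2)
    rw [abs_of_pos (half_pos hε)] at h6
    linarith
  · by_cases e : y' = y
    · simp only [upd, e, if_true]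
      linarith
    · simp only [upd, e, if_false, le_refl]
  · rw [a1a_nr_neg (φ := ζ) fun z _ => by ring]
    linarith

theorem a1a_clamp {k : ℕ} {Θ : (Fin k → ℝ) → ℝ} (hΘ : ContDiff ℝ ∞ Θ) {M : ℝ} (hM : 0 ≤ M) :
    ∃ (Θ' : (Fin k → ℝ) → ℝ) (L : ℝ), ContDiff ℝ ∞ Θ' ∧ 0 ≤ L ∧
      (∀ x x', |Θ' x - Θ' x'| ≤ L * ∑ i, |x i - x' i|) ∧ (∀ x, ‖fderiv ℝ Θ' x‖ ≤ L * k) ∧
      ∀ x, (∀ i, |x i| ≤ M) → Θ' x = Θ x := by
  obtain ⟨T, hT, hd, hi, hb, -⟩ := clamp_ex (a := -M) (b := M) (by linarith) one_pos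
  obtain ⟨L, hL, hl⟩ := lip_cube hΘ (M + 1)
  have hT1 : ∀ x, |T x| ≤ M + 1 := fun x => abs_le.2 ⟨by linarith [(hb x).1], (hb x).2⟩
  have hlip : ∀ x x' : Fin k → ℝ,
      |Θ (fun i => T (x i)) - Θ fun i => T (x' i)| ≤ L * ∑ i, |x i - x' i| := fun x x' => by
    refine (hl _ _ (fun i => hT1 _) fun i => hT1 _).trans
      (mul_le_mul_of_nonneg_left (Finset.sum_le_sum fun i _ => ?_) hL)
    have := lip_of_deriv (C := 1) hT (fun x => abs_le.2 ⟨by linarith [(hd x).1], (hd x).2⟩)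
      (x i) (x' i)
    rwa [one_mul] at this
  refine ⟨fun x => Θ fun i => T (x i), L,
    hΘ.comp (contDiff_pi.2 fun i => hT.comp (contDiff_apply ℝ ℝ i)), hL, hlip, fun x => ?_,
    fun x hx => ?_⟩
  · refine norm_fderiv_le_of_lip' ℝ (by positivity) (Eventually.of_forall fun x' => ?_)
    refine (hlip x' x).trans ?_
    rw [mul_assoc]
    refine mul_le_mul_of_nonneg_left ?_ hL
    have h1 : ∑ i, |x' i - x i| ≤ ∑ _i : Fin k, ‖x' - x‖ :=
      Finset.sum_le_sum fun i _ => norm_le_pi_norm (x' - x) i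
    simpa using h1
  · show Θ _ = Θ x
    congr 1
    funext i
    exact hi _ (abs_le.1 (hx i))

theorem a1a_bound {k : ℕ} (m a b : Fin k → ℝ) :
    ∃ M, 0 ≤ M ∧ ∀ i, m i ≤ M ∧ |a i| + 1 ≤ M ∧ |b i| + 1 ≤ M := by
  refine ⟨∑ i, (|m i| + |a i| + |b i| + 1), by positivity, fun i => ?_⟩
  have h1 : |m i| + |a i| + |b i| + 1 ≤ ∑ i, (|m i| + |a i| + |b i| + 1) :=
    Finset.single_le_sum (f := fun i => |m i| + |a i| + |b i| + 1) (fun i _ => by positivity)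
      (Finset.mem_univ i)
  have h2 := le_abs_self (m i)
  have h3 := abs_nonneg (m i)
  have h4 := abs_nonneg (a i)
  have h5 := abs_nonneg (b i)
  exact ⟨by linarith, by linarith, by linarith⟩

theorem a1a_abs {x a b δ M : ℝ} (hδ : δ ≤ 1) (h : x ∈ Icc (a - δ) (b + δ)) (ha : |a| + 1 ≤ M)
    (hb : |b| + 1 ≤ M) : |x| ≤ M :=
  abs_le.2 ⟨by linarith [h.1, neg_abs_le a], by linarith [h.2, le_abs_self b]⟩

theorem a1a_conv {C : ℕ → Set ℂ} {ζ : ℕ → ℂ → ℝ}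
    (hC : ∀ n, C n ⊆ interior (C (n + 1))) (hA : ∀ A, IsCompact A → A ⊆ D.G → ∃ n, A ⊆ C n)
    (hs : ∀ n, D.Supp (ζ n) (C n)ᶜ) (hn : ∀ n, D.nr (ζ n) ≤ 1 / ((n : ℝ) + 1)) :
    D.Conv (fun n z => φ z - ζ n z) φ := by
  have hm : Monotone C := monotone_nat_of_le_succ fun n => (hC n).trans interior_subset
  refine ⟨squeeze_zero (fun n => nr_nonneg D _) (fun n => ?_)
    tendsto_one_div_add_atTop_nhds_zero_nat, fun A hA1 hA2 => ?_⟩
  · rw [a1a_nr_neg (φ := ζ n) fun z _ => by ring]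
    exact hn n
  · obtain ⟨n₀, h0⟩ := hA A hA1 hA2
    refine tendsto_const_nhds.congr' ?_
    filter_upwards [eventually_ge_atTop n₀] with n hn
    refine (setIntegral_eq_zero_of_forall_eq_zero fun z hz => ?_).symm
    rw [hs n z (hA2 hz) fun h => h (hm hn (h0 hz))]
    ring

theorem a1a_core (hS : Str S) {k : ℕ} {f : Fin k → ℂ → ℝ} {c : Fin k → D.End → ℝ}
    {a b : Fin k → ℝ} {Θ : (Fin k → ℝ) → ℝ} (h : ∀ i, InB S (f i) (c i))
    (ha : ∀ i, Adm S y (f i) (a i) (b i)) (hΘ : ContDiff ℝ ∞ Θ) {δ ε : ℝ} (hδ : 0 < δ)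
    (hδ1 : δ ≤ 1) (hε : 0 < ε) (hU : U ∈ D.nb y) :
    ∃ (ζ : ℂ → ℝ) (r : D.End → ℝ) (g : Fin k → ℂ → ℝ), InB S ζ r ∧ D.Supp ζ U ∧ D.nr ζ ≤ ε ∧
      nl (upd r y 0) ≤ ε ∧ ∀ᶠ z in D.nb y, (∀ i, g i z ∈ Icc (a i - δ) (b i + δ)) ∧
        Θ (fun i => f i z) - ζ z = Θ fun i => g i z := by
  choose m hm using fun i => (h i).2
  obtain ⟨M, hM0, hM⟩ := a1a_bound m a b
  obtain ⟨Θ', L, hΘ', hL, hlip, hder, heq⟩ := a1a_clamp hΘ hM0
  obtain ⟨C, hC, hA⟩ := exhaust D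
  choose ζ r h1 h2 h3 h4 h5 using fun i (n : ℕ) => ha i δ hδ (1 / ((n : ℝ) + 1)) (by positivity)
    (C n)ᶜ (compl_mem (hC n).1 (hC n).2.1 y)
  have hg : ∀ i n, InB S (fun z => f i z - ζ i n z) fun y => c i y + r i n y := fun i n =>
    ⟨(h i).1.sub (h1 i n).1 hS, (h i).2.sub (h1 i n).2⟩
  have hcs : Cost fun y => 2 * L * ∑ i, c i y :=
    (Cost.sum _ fun i _ => (h i).1.co).cmul (by positivity)
  obtain ⟨U₁, hU₁, ht⟩ := nb_tail hcs.2 y (half_pos hε)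
  obtain ⟨η, u, hη, hu, hsupp⟩ := cut_ex (inter_mem hU hU₁)
  have i0 := in_lip hS h hΘ' hL hlip
  have i1 := fun n => in_lip hS (fun i => hg i n) hΘ' hL hlip
  have hconv := ((conv_compN (f := fun i n z => f i z - ζ i n z)
    (fun i => a1a_conv (fun n => (hC n).2.2) hA (h2 i) (h3 i)) (fun i n => (hg i n).1.fn)
    (fun i => (h i).1.fn) hΘ' hder).wmul (fun n => (i1 n).1.fn) i0.1.fn hη.wd).1
  have hz : Tendsto (fun n : ℕ => L * k * (1 / ((n : ℝ) + 1))) atTop (𝓝 0) := by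
    simpa using tendsto_one_div_add_atTop_nhds_zero_nat.const_mul (L * k)
  obtain ⟨n, hn1, hn2⟩ := ((hconv.eventually (ge_mem_nhds hε)).and
    (hz.eventually (ge_mem_nhds (half_pos hε)))).exists
  obtain ⟨B, hB, -⟩ := hη.wd.bd
  refine ⟨fun z => η z * (Θ' (fun i => f i z) - Θ' fun i => f i z - ζ i n z),
    fun y => u y * (L * ∑ i, c i y + L * ∑ i, (c i y + r i n y)), fun i z => f i z - ζ i n z,
    ⟨(i0.1.sub (i1 n).1 hS).cut hS hη, Dom.Bd.mul ⟨B, hB⟩ (i0.2.sub (i1 n).2)⟩,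
    fun z hz hzU => ?_, ?_, ?_, ?_⟩
  · simp only [hsupp z hz fun h => hzU h.1, zero_mul]
  · refine le_trans (a1a_nr_neg fun z _ => ?_).le hn1
    ring
  · have hu01 : ∀ y', 0 ≤ u y' ∧ u y' ≤ 1 := fun y' => by
      rcases hη.val y' with e | e <;> simp [e]
    have c1 : Cost (upd (fun y' => u y' * (2 * L * ∑ i, c i y')) y 0) :=
      (hcs.bmul hu01).upd y le_rfl
    have c2 : ∀ i, Cost (upd (r i n) y 0) := fun i => (h1 i n).1.co.upd y le_rfl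
    have c3 : Cost fun y' => ∑ i, upd (r i n) y 0 y' := Cost.sum _ fun i _ => c2 i
    have c4 := c3.cmul hL
    have n1 := ht η u hη fun z hz hzU => hsupp z hz fun h => hzU h.2
    have n2 := nl_add c1.2 c4.2
    have n3 := nl_sum Finset.univ fun i _ => (c2 i).2
    have n4 : ∑ i, nl (upd (r i n) y 0) ≤ ∑ _i : Fin k, 1 / ((n : ℝ) + 1) :=
      Finset.sum_le_sum fun i _ => h4 i n
    rw [Finset.sum_const, Finset.card_univ, Fintype.card_fin, nsmul_eq_mul] at n4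
    rw [nl_cmul, abs_of_nonneg hL] at n2
    have n5 := mul_le_mul_of_nonneg_left (n3.trans n4) hL
    refine (nl_mono (c1.add c4).2 fun y' => ?_).trans (by linarith)
    by_cases e : y' = y
    · simp [upd, e]
    · simp only [upd, e, if_false, Finset.sum_add_distrib]
      rcases hη.val y' with e' | e'
      · rw [e', zero_mul, abs_zero]
        exact abs_nonneg _
      · rw [e']
        refine le_of_eq ?_
        congr 1
        ring
  · filter_upwards [G_mem y, hη.one_mem hu, eventually_all.2 fun i => h5 i n] with z hz h1 h2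
    refine ⟨h2, ?_⟩
    have e1 : η z = 1 := h1
    rw [e1, heq _ fun i => (hm i z hz).trans (hM i).1,
      heq _ fun i => a1a_abs hδ1 (h2 i) (hM i).2.1 (hM i).2.2]
    ring

theorem adm_comp (hS : Str S) {k : ℕ} {f : Fin k → ℂ → ℝ} {c : Fin k → D.End → ℝ} {a b : Fin k → ℝ}
    {Θ : (Fin k → ℝ) → ℝ} {p q : ℝ} (h : ∀ i, InB S (f i) (c i)) (ha : ∀ i, Adm S y (f i) (a i) (b i))
    (hΘ : ContDiff ℝ ∞ Θ) (hr : ∀ x, (∀ i, x i ∈ Icc (a i) (b i)) → Θ x ∈ Icc p q) :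
    Adm S y (fun z => Θ fun i => f i z) p q := by
  intro δ hδ ε hε U hU
  obtain ⟨M, -, hM⟩ := a1a_bound a a b
  obtain ⟨L, hL, hl⟩ := lip_cube hΘ M
  have hp : 0 < L * k + 1 := by positivity
  have hδ' : 0 < min 1 (δ / (L * k + 1)) := lt_min one_pos (div_pos hδ hp)
  have h1 : min 1 (δ / (L * k + 1)) ≤ 1 := min_le_left _ _
  have h2 : min 1 (δ / (L * k + 1)) * (L * k + 1) ≤ δ := (le_div_iff₀ hp).1 (min_le_right _ _)
  generalize min 1 (δ / (L * k + 1)) = δ' at hδ' h1 h2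
  obtain ⟨ζ, r, g, a1, a2, a3, a4, a5⟩ := a1a_core hS h ha hΘ hδ' h1 hε hU
  refine ⟨ζ, r, a1, a2, a3, a4, a5.mono fun z hz => ?_⟩
  rw [hz.2]
  have hx : ∀ i, max (a i) (min (g i z) (b i)) ∈ Icc (a i) (b i) := fun i =>
    ⟨le_max_left _ _, max_le (ha i).le (min_le_right _ _)⟩
  have hd : ∀ i, |g i z - max (a i) (min (g i z) (b i))| ≤ δ' := fun i => by
    have e1 := (hz.1 i).1
    have e2 := (hz.1 i).2
    have e3 := (ha i).le
    rw [abs_le, max_def, min_def]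
    split_ifs <;> constructor <;> linarith
  have h3 := hl (fun i => g i z) (fun i => max (a i) (min (g i z) (b i)))
    (fun i => a1a_abs h1 (hz.1 i) (hM i).2.1 (hM i).2.2)
    fun i => a1a_abs h1 ⟨by linarith [(hx i).1], by linarith [(hx i).2]⟩ (hM i).2.1 (hM i).2.2
  have h4 : ∑ i, |g i z - max (a i) (min (g i z) (b i))| ≤ ∑ _i : Fin k, δ' :=
    Finset.sum_le_sum fun i _ => hd i
  rw [Finset.sum_const, Finset.card_univ, Fintype.card_fin, nsmul_eq_mul] at h4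
  have h5 := abs_le.1 (h3.trans (mul_le_mul_of_nonneg_left h4 hL))
  have h6 := hr _ hx
  exact ⟨by linarith [h5.1, h6.1], by linarith [h5.2, h6.2]⟩

theorem cert_comp (hS : Str S) {k : ℕ} {f : Fin k → ℂ → ℝ} {c : Fin k → D.End → ℝ} {a b : Fin k → ℝ}
    {Θ : (Fin k → ℝ) → ℝ} {δ : ℝ} (h : ∀ i, InB S (f i) (c i)) (ha : ∀ i, Adm S y (f i) (a i) (b i))
    (hΘ : ContDiff ℝ ∞ Θ) (hδ : 0 < δ)
    (h0 : ∀ x, (∀ i, x i ∈ Icc (a i - δ) (b i + δ)) → Θ x = 0) :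
    Cert S y fun z => Θ fun i => f i z := by
  intro ε hε U hU
  obtain ⟨ζ, r, g, a1, a2, a3, a4, a5⟩ :=
    a1a_core hS h ha hΘ (lt_min hδ one_pos) (min_le_right _ _) hε hU
  have hm := min_le_left δ 1
  have e : ζ =ᶠ[D.nb y] fun z => Θ fun i => f i z := a5.mono fun z hz => by
    have h1 := hz.2
    rw [h0 (fun i => g i z) fun i => ⟨by linarith [(hz.1 i).1], by linarith [(hz.1 i).2]⟩] at h1
    exact (sub_eq_zero.1 h1).symm
  have h2 : Adm S y (fun z => Θ fun i => f i z) 0 0 := adm_comp hS h ha hΘ fun x hx => by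
    rw [h0 x fun i => ⟨by linarith [(hx i).1], by linarith [(hx i).2]⟩]
    exact ⟨le_rfl, le_rfl⟩
  have h3 := (h2.congr e).cost hS a1
  rw [sub_zero] at h3
  exact ⟨ζ, _, ⟨h3, a1.2⟩, a2, a3, a4, e⟩

theorem cert_one {T : ℝ → ℝ} {a b δ : ℝ} (hS : Str S) (h : InB S φ s) (ha : Adm S y φ a b)
    (hT : ContDiff ℝ ∞ T) (hδ : 0 < δ) (h0 : ∀ x ∈ Icc (a - δ) (b + δ), T x = 0) :
    Cert S y fun z => T (φ z) :=
  cert_comp hS (k := 1) (f := fun _ => φ) (c := fun _ => s) (a := fun _ => a) (b := fun _ => b)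
    (Θ := fun x => T (x 0)) (fun _ => h) (fun _ => ha) (hT.comp (contDiff_apply ℝ ℝ 0)) hδ
    fun _ hx => h0 _ (hx 0)

end Vale.P116D
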