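import Vale.Agent.P116D.FR

/-!
FRF: freezing at finitely many ends.
-/

namespace Vale.P116D

open Set Filter Topology MeasureTheory Complex
open scoped ContDiff

variable {D : Dom} {S : Gens D} {φ ψ χ η g d v w : ℂ → ℝ} {s σ r τ u : D.End → ℝ} {y : D.End}
  {U : Set ℂ} {z : ℂ}

theorem frF {C : Set ℂ} (hS : Max S) (hφ : InB S φ s) (hC : IsCompact C) (hG : C ⊆ D.G)
    (F : Finset D.End) {ε : ℝ} (hε : 0 < ε) :
    ∃ ψ r η u, Cost r ∧ nl r ≤ ε ∧ InB S ψ (fun y => s y + r y) ∧ D.nr (fun z => ψ z - φ z) ≤ ε ∧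
      EqOn ψ φ C ∧ D.Cut η u ∧ (∀ y ∈ F, u y = 1) ∧
      ∀ y, u y = 1 → Frz S ψ (fun y => s y + r y) y := by
  classical
  induction F using Finset.induction_on generalizing ε with
  | empty =>
    exact ⟨φ, fun _ => 0, fun _ => 0, fun _ => 0, cost_zero, s1_nl_zero.trans_le hε.le,
      by simpa using hφ, (s1_nr_self D φ).trans_le hε.le, fun _ _ => rfl,
      ⟨wd_const D 0, fun _ => by simp, fun _ => Or.inl rfl⟩, by simp, by simp⟩
  | insert y F hy ih =>
    have h3 : 0 < ε / 3 := by positivity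
    obtain ⟨ψ₁, r₁, η₁, u₁, c1, n1, i1, e1, q1, k1, f1, z1⟩ := ih h3
    rcases k1.val y with h0 | h1
    swap
    · exact ⟨ψ₁, r₁, η₁, u₁, c1, by linarith, i1, by linarith, q1, k1,
        (Finset.forall_mem_insert _ _ _).2 ⟨h1, f1⟩, z1⟩
    have hU : Cᶜ ∩ {z | η₁ z = 0} ∈ D.nb y := inter_mem (compl_mem hC hG y) (h0 ▸ k1.wd.ev y)
    obtain ⟨ψ, r, c2, n2, i2, e2, s2, ⟨p, hp, hq⟩, o2⟩ := fr hS i1 h3 hU
    have hr := hS.1.reg p hp
    obtain ⟨N, hN, hT⟩ := nb_tail hr.co.2 y h3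
    obtain ⟨f, a, k2, a1, s3⟩ := cut_ex (inter_mem hq hN)
    have c3 : Cost (upd (fun y' => a y' * p.2 y') y 0) := (hr.co.bmul k2.s1_mem).upd y le_rfl
    have n3 := hT f a k2 fun z hz hz' => s3 z hz fun h => hz' h.2
    have c4 := (c1.add c2).add c3
    refine ⟨ψ, fun y' => r₁ y' + r y' + upd (fun y' => a y' * p.2 y') y 0 y',
      fun z => 1 - (1 - η₁ z) * (1 - f z), fun y' => 1 - (1 - u₁ y') * (1 - a y'), c4, ?_,
      ⟨i2.1.mono hS.1 (hφ.1.co.add c4) fun y' => by linarith [c3.1 y'], i2.2⟩, ?_, fun z hz => ?_,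
      (k1.compl.mul k2.compl).compl, ?_, fun y' hy' => ?_⟩
    · linarith [nl_add (c1.add c2).2 c3.2, nl_add c1.2 c2.2]
    · have h4 := nr_add (i2.1.fn.sub i1.1.fn) (i1.1.fn.sub hφ.1.fn)
      simp only [sub_add_sub_cancel] at h4
      linarith
    · rw [← q1 hz]
      exact sub_eq_zero.1 (s2 z (hG hz) fun h => h.1 hz)
    · exact (Finset.forall_mem_insert _ _ _).2 ⟨by simp [a1], fun y' h => by simp [f1 y' h]⟩
    · by_cases hu : u₁ y' = 1
      · have e : ψ =ᶠ[D.nb y'] ψ₁ := by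
          filter_upwards [k1.one_mem hu, G_mem y'] with z h1 h2
          exact sub_eq_zero.1 (s2 z h2 fun h => one_ne_zero (h1.symm.trans h.2))
        obtain ⟨⟨p', hp', hq'⟩, o1⟩ := z1 y' hu
        refine ⟨⟨p', hp', e.trans hq'⟩, ?_⟩
        rw [osc_congr e]
        linarith [c2.1 y', c3.1 y']
      · have ha : a y' = 1 := by simpa [(k1.val y').resolve_right hu] using hy'
        have e : ψ =ᶠ[D.nb y'] p.1 := mem_of_superset (k2.mem_of s3 ha) inter_subset_left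
        refine ⟨⟨p, hp, e⟩, ?_⟩
        by_cases hyy : y' = y
        · subst hyy
          linarith [c3.1 y']
        · rw [osc_congr e]
          simp only [upd, if_neg hyy, ha, one_mul]
          linarith [hφ.1.co.1 y', c1.1 y', c2.1 y', hr.le y']

end Vale.P116D
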