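import Vale.Agent.P116D.DEN
import Vale.Agent.P116D.FRF

/-!
AP0: one approximation without constraints.
-/

namespace Vale.P116D

open Set Filter Topology MeasureTheory Complex
open scoped ContDiff

variable {D : Dom} {S : Gens D} {φ ψ χ η g d v w : ℂ → ℝ} {s σ r τ u : D.End → ℝ} {y : D.End}
  {U : Set ℂ} {z : ℂ}

theorem ap0 {θ ε : ℝ} {C : Set ℂ} (hS : Max S) (hφ : InB S φ s) (hθ : 0 < θ) (hε : 0 < ε)
    (hC : IsCompact C) (hG : C ⊆ D.G) :
    ∃ ψ r η u, Cost r ∧ nl r ≤ ε ∧ InB S ψ (fun y => s y + r y) ∧ D.nr (fun z => ψ z - φ z) ≤ ε ∧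
      ∫ z in C, (ψ z - φ z) ^ 2 ≤ ε ∧ D.Cut η u ∧ (∀ y, u y = 1 → Frz S ψ (fun y => s y + r y) y) ∧
      ∀ y, u y = 0 → D.osc y ψ < θ := by
  obtain ⟨F, hF⟩ := hφ.1.co.2.tail (ε := θ / 6) (by positivity)
  obtain ⟨ψ₁, r₁, η, u, hr₁, nr₁, hψ₁, eψ₁, qψ₁, hη, hu, hfr⟩ :=
    frF hS hφ hC hG F (ε := min (ε / 3) (θ / 12)) (by positivity)
  have hη' := hη.compl
  have hφ' : InB S (fun z => (1 - η z) * ψ₁ z) fun y => (1 - u y) * (s y + r₁ y) :=
    ⟨hψ₁.1.cut hS.1 hη', hη'.s1_bd.mul hψ₁.2⟩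
  have hpw : Cost (pw F (fun _ => 0) s) := hφ.1.co.pw F fun _ _ => le_rfl
  have hn : nl (fun y => (1 - u y) * (s y + r₁ y)) < θ / 3 := by
    have h1 : nl (fun y => (1 - u y) * (s y + r₁ y)) ≤
        nl fun y => pw F (fun _ => 0) s y + r₁ y := by
      refine nl_mono (hpw.2.add hr₁.2) fun y => ?_
      by_cases hy : y ∈ F
      · rw [hu y hy, sub_self, zero_mul, abs_zero]
        exact abs_nonneg _
      · have e : pw F (fun _ => 0) s y = s y := if_neg hy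
        rw [e, abs_mul, hη'.s1_abs y]
        exact mul_le_of_le_one_left (abs_nonneg _) (hη'.s1_mem y).2
    have h2 := nl_add hpw.2 hr₁.2
    have h3 := hF F subset_rfl
    have h4 := nr₁.trans (min_le_right _ _)
    linarith
  obtain ⟨f, hf, hc⟩ := conv_of_eps (D := D) (φ := fun _ => 0)
    (P := fun f => ∃ τ, InB S f τ ∧ nl τ ≤ ε / 3 ∧
      ∀ y, D.osc y (fun z => (1 - η z) * ψ₁ z - f z) < θ)
    (fun e he A hA hAG => by
      obtain ⟨d, τ, hd, h1, h2, h3, h4⟩ :=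
        den hS hφ' hn (ε := min e (ε / 3)) (by positivity) hA hAG
      refine ⟨d, ⟨τ, hd, h2.trans (min_le_right _ _), h4⟩, hd.1.fn, ?_, ?_⟩
      · simpa only [sub_zero] using h1.trans (min_le_left _ _)
      · simpa only [sub_zero] using h3.trans (min_le_left _ _)) (fn_const D 0)
  have hc' := hc.wmul (fun n => (hf n).choose_spec.1.1.fn) (fn_const D 0) hη'.wd
  have t1 := hc'.1.eventually (gt_mem_nhds (show (0 : ℝ) < ε / 3 by positivity))
  have t2 := (hc'.2 C hC hG).eventually (gt_mem_nhds hε)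
  obtain ⟨n, n1, n2⟩ := (t1.and t2).exists
  simp only [mul_zero, sub_zero] at n1 n2
  obtain ⟨τ, hτ, nτ, ho⟩ := hf n
  have hd := hτ.1.cut hS.1 hη'
  have h1 := nr₁.trans (min_le_left _ _)
  have h2 := eψ₁.trans (min_le_left _ _)
  refine ⟨fun z => ψ₁ z - (1 - η z) * f n z, fun y => r₁ y + (1 - u y) * τ y, η, u,
    hr₁.add hd.co, ?_, ⟨?_, hψ₁.2.sub (hη'.s1_bd.mul hτ.2)⟩, ?_, ?_, hη, fun y hy => ?_,
    fun y hy => ?_⟩
  · have h3 := nl_add hr₁.2 hd.co.2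
    have h4 : nl (fun y => (1 - u y) * τ y) ≤ nl τ := by
      refine nl_mono hτ.1.co.2 fun y => ?_
      rw [abs_mul, hη'.s1_abs y]
      exact mul_le_of_le_one_left (abs_nonneg _) (hη'.s1_mem y).2
    linarith
  · simpa only [add_assoc] using hψ₁.1.sub hd hS.1
  · have h3 := nr_sub (hψ₁.1.fn.sub hφ.1.fn) hd.fn
    have e : D.nr (fun z => ψ₁ z - (1 - η z) * f n z - φ z) =
        D.nr fun z => ψ₁ z - φ z - (1 - η z) * f n z := nr_congr fun z _ => by ring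
    linarith
  · refine le_trans (le_of_eq ?_) n2.le
    refine setIntegral_congr_fun hC.measurableSet fun z hz => ?_
    simp only [qψ₁ hz]
    ring
  · have e : (fun z => ψ₁ z - (1 - η z) * f n z) =ᶠ[D.nb y] ψ₁ :=
      (hη.wd.ev y).mono fun z hz => by simp only [hz, hy, sub_self, zero_mul, sub_zero]
    obtain ⟨⟨p, hp, ep⟩, hle⟩ := hfr y hy
    refine ⟨⟨p, hp, e.trans ep⟩, ?_⟩
    rw [osc_congr e]
    have h3 := hd.co.1 y
    simp only at hle h3 ⊢
    linarith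
  · have e : (fun z => ψ₁ z - (1 - η z) * f n z) =ᶠ[D.nb y] fun z => (1 - η z) * ψ₁ z - f n z :=
      (hη.wd.ev y).mono fun z hz => by simp only [hz, hy, sub_zero, one_mul]
    rw [osc_congr e]
    exact ho y

end Vale.P116D
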