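import Vale.Agent.P116D.AP0

/-!
AP1: one step of the iteration.
-/

namespace Vale.P116D

open Set Filter Topology MeasureTheory Complex
open scoped ContDiff

variable {D : Dom} {S : Gens D} {φ ψ χ η g d v w : ℂ → ℝ} {s σ r τ u : D.End → ℝ} {y : D.End}
  {U : Set ℂ} {z : ℂ}

theorem ap1_abs {T : ℝ → ℝ} (h : ∀ x, deriv T x ∈ Icc (0 : ℝ) 1) (x : ℝ) : |deriv T x| ≤ 1 := by
  rw [abs_of_nonneg (h x).1]
  exact (h x).2

theorem ap1_seq {θ' ε : ℝ} (hS : Max S) (hφ : InB S φ s) (hθ' : 0 < θ') (hε : 0 < ε) :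
    ∃ g : ℕ → ℂ → ℝ, (∀ m, ∃ r η' u', Cost r ∧ nl r ≤ ε ∧ InB S (g m) (fun y => s y + r y) ∧
      D.Cut η' u' ∧ (∀ y, u' y = 1 → Frz S (g m) (fun y => s y + r y) y) ∧
      ∀ y, u' y = 0 → D.osc y (g m) < θ') ∧ D.Conv g φ := by
  refine conv_of_eps (P := fun g => ∃ r η' u', Cost r ∧ nl r ≤ ε ∧ InB S g (fun y => s y + r y) ∧
    D.Cut η' u' ∧ (∀ y, u' y = 1 → Frz S g (fun y => s y + r y) y) ∧
    ∀ y, u' y = 0 → D.osc y g < θ') (fun e he C hC hG => ?_) hφ.1.fn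
  obtain ⟨g, r, η', u', a1, a2, a3, a4, a5, a6, a7, a8⟩ := ap0 hS hφ hθ' (lt_min he hε) hC hG
  exact ⟨g, ⟨r, η', u', a1, a2.trans (min_le_right _ _), a3, a6, a7, a8⟩, a3.1.fn,
    a4.trans (min_le_left _ _), a5.trans (min_le_left _ _)⟩

theorem ap1 {θ θ' ε : ℝ} {C : Set ℂ} (hS : Max S) (hφ : InB S φ s) (hη : D.Cut η u)
    (h1 : ∀ y, u y = 1 → Frz S φ s y) (h0 : ∀ y, u y = 0 → D.osc y φ < θ) (hθ : 0 < θ)
    (hθ' : 0 < θ') (hε : 0 < ε) (hC : IsCompact C) (hG : C ⊆ D.G) :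
    ∃ ψ r η' u', Cost r ∧ nl r ≤ ε ∧ InB S ψ (fun y => s y + r y) ∧ D.nr (fun z => ψ z - φ z) ≤ ε ∧
      EqOn ψ φ C ∧ (∀ z ∈ D.G, η z = 1 → ψ z = φ z ∧ η' z = 1) ∧ D.Le (fun z => ψ z - φ z) (2 * θ) ∧
      D.Cut η' u' ∧ (∀ y, u' y = 1 → Frz S ψ (fun y => s y + r y) y) ∧
      ∀ y, u' y = 0 → D.osc y ψ < θ' := by
  have hW : ∀ y, ∃ (W : Set ℂ) (A B : ℝ), u y = 0 →
      W ∈ D.nb y ∧ W ⊆ Cᶜ ∧ A ≤ B ∧ B - A < θ ∧ ∀ z ∈ W, φ z ∈ Icc A B := fun y => by
    by_cases hy : u y = 0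
    · obtain ⟨U, hU, A, B, a1, a2, a3, a4⟩ := range_of_lt hφ.2 (h0 y hy)
      have := lo_le_hi hφ.2 y
      exact ⟨U ∩ Cᶜ, A, B, fun _ => ⟨inter_mem hU (compl_mem hC hG y), inter_subset_right,
        by linarith, a1, fun z hz => a4 z hz.1⟩⟩
    · exact ⟨∅, 0, 0, fun h => absurd h hy⟩
  choose W A B hW using hW
  obtain ⟨n, p, f, a, O, hc, hd, hs⟩ := cover hη W fun y hy => (hW y hy).1
  have hT := fun i => clamp_ex (hW (p i) (hc i).1).2.2.1 (half_pos hθ)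
  choose T T1 T2 T3 T4 T5 using hT
  obtain ⟨g, hg, hconv⟩ := ap1_seq hS hφ hθ' hε
  have gfn : ∀ m, D.Fn (g m) := fun m => by
    obtain ⟨_, _, _, _, _, h, _⟩ := hg m
    exact h.1.fn
  have Tg : ∀ i m, D.Fn fun z => T i (g m z) := fun i m =>
    (gfn m).comp (T1 i) fun _ _ => ap1_abs (T2 i) _
  have Tφ : ∀ i, D.Fn fun z => T i (φ z) := fun i =>
    hφ.1.fn.comp (T1 i) fun _ _ => ap1_abs (T2 i) _
  have hlim : Tendsto (fun m => ∑ i, D.nr fun z => f i z * T i (g m z) - f i z * T i (φ z)) atTop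
      (𝓝 0) := by
    have := tendsto_finsetSum Finset.univ fun i _ =>
      ((hconv.comp gfn hφ.1.fn (T1 i) (ap1_abs (T2 i))).wmul (Tg i) (Tφ i) (hc i).2.1.wd).1
    simpa using this
  obtain ⟨m, hm⟩ := (hlim.eventually (ge_mem_nhds hε)).exists
  obtain ⟨r, η', u', b1, b2, b3, b4, b5, b6⟩ := hg m
  set ψ : ℂ → ℝ := fun z => φ z + ∑ i, (f i z * T i (g m z) - f i z * T i (φ z)) with hψ
  have out : ∀ z ∈ D.G, (∀ i, z ∉ O i) → ψ z = φ z := fun z hz h => by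
    simp only [hψ]
    rw [Finset.sum_eq_zero, add_zero]
    intro i _
    rw [(hc i).2.2.1 z hz (h i), zero_mul, zero_mul, sub_zero]
  have idO : ∀ i, ∀ z ∈ O i, T i (φ z) = φ z := fun i z hz =>
    T3 i _ ((hW (p i) (hc i).1).2.2.2.2 z ((hc i).2.2.2.1 hz))
  have ins : ∀ z ∈ D.G, ∀ i, z ∈ O i → ψ z = φ z + f i z * (T i (g m z) - T i (φ z)) :=
    fun z hz i hi => by
    simp only [hψ]
    rw [Finset.sum_eq_single i, mul_sub]
    · intro j _ hj
      rw [(hc j).2.2.1 z hz fun h => disjoint_left.1 (hd j i hj) h hi, zero_mul, zero_mul, sub_zero]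
    · simp
  have hLe : D.Le (fun z => ψ z - φ z) (2 * θ) := fun z hz => by
    by_cases h : ∀ i, z ∉ O i
    · simp only [out z hz h, sub_self, abs_zero]
      positivity
    · push Not at h
      obtain ⟨i, hi⟩ := h
      simp only [ins z hz i hi, add_sub_cancel_left, abs_mul]
      have c1 := ((hc i).2.1.mem z)
      have c2 := T4 i (g m z)
      have c3 := T4 i (φ z)
      have c4 := (hW (p i) (hc i).1).2.2.2.1
      have c5 : |T i (g m z) - T i (φ z)| ≤ 2 * θ :=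
        abs_le.2 ⟨by linarith [c2.1, c3.2], by linarith [c2.2, c3.1]⟩
      rw [abs_of_nonneg c1.1]
      nlinarith [c1.1, c1.2, abs_nonneg (T i (g m z) - T i (φ z))]
  have hBd : D.Bd ψ := by
    have := Dom.Bd.add ⟨_, hLe⟩ hφ.2
    simpa using this
  have hIn : In S ψ fun y => s y + r y := by
    obtain ⟨η0, e1, e2⟩ := cut_sum Finset.univ (fun i _ => ⟨(hc i).2.1, (hc i).2.2.1⟩)
      fun i _ j _ hij => hd i j hij
    have i1 := in_sum Finset.univ hS.1 fun i _ => (hS.1.trunc _ _ b3.1 (T i) (T1 i) (ap1_abs (T2 i))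
      ⟨|A (p i) - θ / 2| + |B (p i) + θ / 2|, fun x => abs_le.2
        ⟨by linarith [(T4 i x).1, neg_abs_le (A (p i) - θ / 2), abs_nonneg (B (p i) + θ / 2)],
          by linarith [(T4 i x).2, le_abs_self (B (p i) + θ / 2),
            abs_nonneg (A (p i) - θ / 2)]⟩⟩).cut hS.1 (hc i).2.1
    have i2 := (i1.add (hφ.1.cut hS.1 e1.compl) hS.1).mono hS.1 b3.1.co fun y => by
      rw [← Finset.sum_mul, hs y]
      have c1 := hη.s1_mem y
      have c2 := b1.1 y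
      nlinarith [c1.1, c1.2]
    refine i2.congr fun z hz => ?_
    have e3 : ∑ i, f i z * T i (φ z) = ∑ i, f i z * φ z := Finset.sum_congr rfl fun i _ => by
      by_cases hi : z ∈ O i
      · rw [idO i z hi]
      · rw [(hc i).2.2.1 z hz hi, zero_mul, zero_mul]
    simp only [hψ, e2 hz]
    rw [Finset.sum_sub_distrib, e3, ← Finset.sum_mul]
    ring
  have one : ∀ z ∈ D.G, η z = 1 → ψ z = φ z := fun z hz h => out z hz fun i hi => by
    have := (hc i).2.2.2.2 z hi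
    linarith
  have near : ∀ y, u y = 0 → ∃ i, ψ =ᶠ[D.nb y] fun z => T i (g m z) := fun y hy => by
    have : ∃ i, a i y = 1 := by
      by_contra hn
      push Not at hn
      have c1 := hs y
      rw [Finset.sum_eq_zero fun i _ => ((hc i).2.1.val y).resolve_right (hn i), hy] at c1
      norm_num at c1
    obtain ⟨i, hi⟩ := this
    refine ⟨i, ?_⟩
    filter_upwards [G_mem y, (hc i).2.1.one_mem hi, (hc i).2.1.mem_of (hc i).2.2.1 hi]
      with z c1 c2 c3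
    rw [ins z c1 i c3, show f i z = 1 from c2, idO i z c3]
    ring
  have hosc : ∀ y i, (ψ =ᶠ[D.nb y] fun z => T i (g m z)) → D.osc y ψ ≤ D.osc y (g m) :=
    fun y i h => by
    rw [osc_congr h]
    simpa using osc_lip b3.2 zero_le_one (lip_of_deriv (T1 i) (ap1_abs (T2 i))) y
  refine ⟨ψ, r, _, _, b1, b2, ⟨hIn, hBd⟩, ?_, fun z hz => ?_, fun z hz h => ⟨one z hz h, ?_⟩, hLe,
    (hη.compl.mul b4.compl).compl, fun y hy => ?_, fun y hy => ?_⟩
  · refine le_trans (le_of_eq (nr_congr fun z _ => ?_)) ((nr_sum Finset.univ fun i _ =>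
      ((Tg i m).wmul (hc i).2.1.wd (hc i).2.1.s1_bd).sub
        ((Tφ i).wmul (hc i).2.1.wd (hc i).2.1.s1_bd)).trans hm)
    simp only [hψ, add_sub_cancel_left]
  · exact out z (hG hz) fun i hi => (hW (p i) (hc i).1).2.1 ((hc i).2.2.2.1 hi) hz
  · rw [h]
    ring
  · rcases hη.val y with hu | hu
    · have hu' : u' y = 1 := by
        rw [hu] at hy
        linarith
      obtain ⟨⟨q, hq, e⟩, ho⟩ := b5 y hu'
      obtain ⟨i, hi⟩ := near y hu
      refine ⟨⟨(fun z => T i (q.1 z), q.2), hS.comp_mem hq (T1 i) (T2 i), ?_⟩,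
        (hosc y i hi).trans ho⟩
      filter_upwards [hi, e] with z c1 c2
      rw [c1, c2]
    · obtain ⟨⟨q, hq, e⟩, ho⟩ := h1 y hu
      have e' : ψ =ᶠ[D.nb y] φ := by
        filter_upwards [G_mem y, hη.one_mem hu] with z c1 c2
        exact one z c1 c2
      refine ⟨⟨q, hq, e'.trans e⟩, ?_⟩
      rw [osc_congr e']
      linarith [b1.1 y]
  · rcases hη.val y with hu | hu
    · have hu' : u' y = 0 := by
        rw [hu] at hy
        linarith
      obtain ⟨i, hi⟩ := near y hu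
      exact (hosc y i hi).trans_lt (b6 y hu')
    · rw [hu] at hy
      norm_num at hy

end Vale.P116D
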