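import Vale.Agent.P116D.K2
import Vale.Agent.P116D.K4

/-!
AP2: the limit of the iteration.  Put `w z = f 0 z + ∑' n, (f (n + 1) z - f n z)`.  On the
interior of `C n` the limit is `f n`, so it is smooth; the energy bound holds on each `C n` and passes
to `G` by monotone convergence.
-/

namespace Vale.P116D

open Set Filter Topology MeasureTheory Complex
open scoped ContDiff

variable {D : Dom} {S : Gens D} {φ ψ χ η g d v w : ℂ → ℝ} {s σ r τ u : D.End → ℝ} {y : D.End}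
  {U : Set ℂ} {z : ℂ}

theorem ap2_nr {f : ℕ → ℂ → ℝ} {e : ℕ → ℝ} (hf : ∀ n, D.Fn (f n))
    (h1 : ∀ n, D.nr (fun z => f (n + 1) z - f n z) ≤ e n) (n m : ℕ) :
    D.nr (fun z => f (m + n) z - f n z) ≤ ∑ k ∈ Finset.range m, e (k + n) := by
  induction m with
  | zero => simp [Dom.nr, gr_const]
  | succ m ih =>
    have h2 := nr_add ((hf (m + n)).sub (hf n)) ((hf (m + n + 1)).sub (hf (m + n)))
    simp only [sub_add_sub_cancel'] at h2
    rw [Finset.sum_range_succ, Nat.add_right_comm]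
    linarith [h1 (m + n)]

theorem ap2_lim {C : ℕ → Set ℂ} {B : ℝ} (hB : 0 ≤ B) (hC : ∀ n, MeasurableSet (C n))
    (hG : ∀ z ∈ D.G, ∀ᶠ n in atTop, z ∈ C n)
    (h : ∀ n, ∃ ψ, D.Fn ψ ∧ D.nr ψ ≤ B ∧ ∀ z ∈ C n, gr φ z = gr ψ z) :
    MemLp (gr φ) 2 (volume.restrict D.G) ∧ D.nr φ ≤ B := by
  have hc : AECover (volume.restrict D.G) atTop C :=
    ⟨(ae_restrict_mem (G_meas D)).mono hG, hC⟩
  have key : ∀ n, IntegrableOn (fun z => ‖gr φ z‖ ^ 2) (C n) (volume.restrict D.G) ∧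
      ∫ z in C n, ‖gr φ z‖ ^ 2 ∂volume.restrict D.G ≤ B ^ 2 := fun n => by
    obtain ⟨ψ, hψ, hb, e⟩ := h n
    have i1 : Integrable (fun z => ‖gr ψ z‖ ^ 2) (volume.restrict D.G) := int_sq hψ
    have e' : EqOn (fun z => ‖gr ψ z‖ ^ 2) (fun z => ‖gr φ z‖ ^ 2) (C n) := fun z hz => by
      simp only [e z hz]
    refine ⟨i1.integrableOn.congr_fun e' (hC n), ?_⟩
    rw [← setIntegral_congr_fun (hC n) e']
    exact (setIntegral_le_integral i1 (ae_of_all _ fun z => sq_nonneg _)).trans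
      ((Real.sqrt_le_left hB).1 hb)
  have hi := hc.integrable_of_integral_bounded_of_nonneg_ae (B ^ 2) (fun n => (key n).1)
    (ae_of_all _ fun z => sq_nonneg _) (Eventually.of_forall fun n => (key n).2)
  exact ⟨(memLp_two_iff_integrable_sq_norm (gr_meas φ).aestronglyMeasurable).2 hi,
    (Real.sqrt_le_left hB).2 (le_of_tendsto' (hc.integral_tendsto_of_countably_generated hi)
      fun n => (key n).2)⟩

theorem ap2 {f : ℕ → ℂ → ℝ} {e e' : ℕ → ℝ} {C : ℕ → Set ℂ} (hf : ∀ n, D.Fn (f n)) (h0 : D.Bd (f 0))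
    (he : Summable e) (he' : Summable e') (h1 : ∀ n, D.nr (fun z => f (n + 1) z - f n z) ≤ e n)
    (h2 : ∀ n, D.Le (fun z => f (n + 1) z - f n z) (e' n))
    (hC : ∀ n, IsCompact (C n) ∧ C n ⊆ D.G ∧ C n ⊆ interior (C (n + 1)))
    (hC' : ∀ A, IsCompact A → A ⊆ D.G → ∃ n, A ⊆ C n) (h3 : ∀ n, EqOn (f (n + 1)) (f n) (C n)) :
    ∃ w, D.Fn w ∧ D.Bd w ∧ (∀ n, D.nr (fun z => w z - f n z) ≤ ∑' k, e (k + n)) ∧
      (∀ n, D.Le (fun z => w z - f n z) (∑' k, e' (k + n))) ∧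
      ∀ n, ∀ z ∈ D.G, (∀ k ≥ n, f (k + 1) z = f k z) → w z = f n z := by
  obtain ⟨w, hw⟩ : ∃ w : ℂ → ℝ, ∀ n, ∀ z ∈ D.G,
      w z - f n z = ∑' k, (f (k + n + 1) z - f (k + n) z) := by
    refine ⟨fun z => f 0 z + ∑' k, (f (k + 1) z - f k z), fun n z hz => ?_⟩
    have hs : Summable fun k => f (k + 1) z - f k z := he'.of_norm_bounded fun k => h2 k z hz
    have h4 := hs.sum_add_tsum_nat_add n
    rw [Finset.sum_range_sub fun k => f k z] at h4
    linarith
  have a1 : ∀ n, D.Le (fun z => w z - f n z) (∑' k, e' (k + n)) := fun n z hz => by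
    show ‖w z - f n z‖ ≤ _
    rw [hw n z hz]
    exact tsum_of_norm_bounded ((summable_nat_add_iff n).2 he').hasSum fun k => h2 _ z hz
  have a2 : ∀ n, ∀ z ∈ D.G, (∀ k ≥ n, f (k + 1) z = f k z) → w z = f n z := fun n z hz h => by
    rw [← sub_eq_zero, hw n z hz]
    simp only [h _ (Nat.le_add_left _ _), sub_self, tsum_zero]
  have hm : Monotone C := monotone_nat_of_le_succ fun n => (hC n).2.2.trans interior_subset
  have a3 : ∀ n m, n < m → ∀ z ∈ C n, w =ᶠ[𝓝 z] f m := fun n m hnm z hz =>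
    mem_of_superset (mem_interior_iff_mem_nhds.1 ((hC n).2.2 hz)) fun x hx =>
      a2 m x ((hC _).2.1 hx) fun k hk => h3 k (hm (hnm.trans_le hk) hx)
  have a4 : ∀ z ∈ D.G, ∃ n, z ∈ C n := fun z hz =>
    (hC' {z} isCompact_singleton (singleton_subset_iff.2 hz)).imp fun _ h => h rfl
  have a5 : ContDiffOn ℝ ∞ w D.G := fun z hz => by
    obtain ⟨n, hn⟩ := a4 z hz
    exact (((hf (n + 1)).cdAt hz).congr_of_eventuallyEq
      (a3 n _ n.lt_succ_self z hn)).contDiffWithinAt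
  have e0 : ∀ k, 0 ≤ e k := fun k => (nr_nonneg D _).trans (h1 k)
  have a6 : ∀ n, MemLp (gr fun z => w z - f n z) 2 (volume.restrict D.G) ∧
      D.nr (fun z => w z - f n z) ≤ ∑' k, e (k + n) := fun n =>
    ap2_lim (C := C) (tsum_nonneg fun k => e0 _) (fun k => (hC k).1.measurableSet)
      (fun z hz => by
        obtain ⟨k, hk⟩ := a4 z hz
        exact (eventually_ge_atTop k).mono fun j hj => hm hj hk)
      fun k => ⟨_, (hf (k + 1 + n)).sub (hf n), (ap2_nr hf h1 n (k + 1)).trans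
        (((summable_nat_add_iff n).2 he).sum_le_tsum _ fun _ _ => e0 _), fun z hz =>
        gr_congr ((a3 k _ (by omega) z hz).sub EventuallyEq.rfl)⟩
  have a7 : D.Fn fun z => w z - f 0 z := ⟨a5.sub (hf 0).sm, (a6 0).1⟩
  have a8 : D.Bd fun z => w z - f 0 z := ⟨_, a1 0⟩
  refine ⟨w, ?_, ?_, fun n => (a6 n).2, a1, a2⟩
  · simpa only [sub_add_cancel] using a7.add (hf 0)
  · simpa only [sub_add_cancel] using a8.add h0

end Vale.P116D
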