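import Vale.Agent.P116D.AP1
import Vale.Agent.P116D.AP2

/-!
APX: approximation by functions to which the general move applies (PROOF69 section 5).
-/

namespace Vale.P116D

open Set Filter Topology MeasureTheory Complex
open scoped ContDiff

variable {D : Dom} {S : Gens D} {φ ψ χ η g d v w : ℂ → ℝ} {s σ r τ u : D.End → ℝ} {y : D.End}
  {U : Set ℂ} {z : ℂ}

theorem ad_of_gen {R : Rect} (hS : Str S) (h : (g, σ) ∈ S) (e : w =ᶠ[D.nb y] g) : AD S w R y := by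
  obtain ⟨W, hW, ho, h1, -⟩ := nb_open (U := {z | w z = g z}) e
  refine ⟨σ, (hS.reg _ h).co, fun ε hε => ⟨W, hW, g, (hS.reg _ h).fn, fun z _ hz _ =>
    gr_congr (mem_of_superset (ho.mem_nhds hz) fun z' hz' => (h1 hz').symm), fun χ s a _ _ => ?_⟩⟩
  have := a.le _ h
  rw [ip_comm] at this
  linarith

theorem apx_rec {α : Type} {P : ℕ → α → Prop} {Q : ℕ → α → α → Prop} {a : α} (h0 : P 0 a)
    (h : ∀ n x, P n x → ∃ x', P (n + 1) x' ∧ Q n x x') :
    ∃ f : ℕ → α, f 0 = a ∧ ∀ n, P n (f n) ∧ Q n (f n) (f (n + 1)) := by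
  choose! g hg using h
  let f : ℕ → α := fun n => Nat.rec a g n
  have : ∀ n, P n (f n) := fun n => by
    induction n with
    | zero => exact h0
    | succ n ih => exact (hg n _ ih).1
  exact ⟨f, rfl, fun n => ⟨this n, (hg n _ (this n)).2⟩⟩

theorem apx {ε : ℝ} {C : Set ℂ} {y₀ : D.End} (hS : Max S) (hφ : InB S φ s) (h0 : Cert S y₀ φ)
    (hC : IsCompact C) (hG : C ⊆ D.G) (hε : 0 < ε) :
    ∃ w r, Cost r ∧ nl r ≤ ε ∧ In S w (fun y => s y + r y) ∧ Reg D w (fun y => s y + r y) ∧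
      D.nr (fun z => w z - φ z) ≤ ε ∧ EqOn w φ C ∧ D.Van y₀ w ∧
      ∀ y, 0 < D.osc y w → ∃ p ∈ S, w =ᶠ[D.nb y] p.1 := by
  have hS' := hS.1
  obtain ⟨ζ, r₀, z1, z2, z3, z4, z5⟩ := h0 (ε / 2) (half_pos hε) Cᶜ (compl_mem hC hG y₀)
  have i0 : InB S (fun z => φ z - ζ z) fun y => s y + r₀ y := ⟨hφ.1.sub z1.1 hS', hφ.2.sub z1.2⟩
  have v0 : {z | φ z - ζ z = 0} ∈ D.nb y₀ := z5.mono fun z hz => by simp [hz]
  obtain ⟨η₀, u₀, c1, c2, c3⟩ := cut_ex v0
  obtain ⟨M, hM⟩ := i0.2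
  have M0 : 0 ≤ M := by
    obtain ⟨z, hz⟩ := (G_conn D).nonempty
    exact (abs_nonneg _).trans (hM z hz)
  obtain ⟨A, hA, hA'⟩ := exhaust D
  obtain ⟨θ, hθ⟩ : ∃ θ : ℕ → ℝ, θ = fun n => (4 * M + 2) / 2 / 2 ^ n := ⟨_, rfl⟩
  obtain ⟨e, he⟩ : ∃ e : ℕ → ℝ, e = fun n => ε / 2 / 2 / 2 ^ n := ⟨_, rfl⟩
  have θ0 : ∀ n, 0 < θ n := fun n => by rw [hθ]; positivity
  have e0 : ∀ n, 0 < e n := fun n => by rw [he]; positivity
  have sθ : Summable θ := hθ ▸ (hasSum_geometric_two' _).summable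
  have se : HasSum e (ε / 2) := he ▸ hasSum_geometric_two' _
  obtain ⟨x, x0, hx⟩ := apx_rec (α := (ℂ → ℝ) × (D.End → ℝ) × (ℂ → ℝ) × (D.End → ℝ))
    (P := fun n x => InB S x.1 x.2.1 ∧ D.Cut x.2.2.1 x.2.2.2 ∧
      (∀ y, x.2.2.2 y = 1 → Frz S x.1 x.2.1 y) ∧ ∀ y, x.2.2.2 y = 0 → D.osc y x.1 < θ n)
    (Q := fun n x x' => Cost (fun y => x'.2.1 y - x.2.1 y) ∧ nl (fun y => x'.2.1 y - x.2.1 y) ≤ e n ∧
      D.nr (fun z => x'.1 z - x.1 z) ≤ e n ∧ EqOn x'.1 x.1 (C ∪ A n) ∧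
      (∀ z ∈ D.G, x.2.2.1 z = 1 → x'.1 z = x.1 z ∧ x'.2.2.1 z = 1) ∧
      D.Le (fun z => x'.1 z - x.1 z) (2 * θ n))
    (a := (fun z => φ z - ζ z, fun y => s y + r₀ y, η₀, u₀))
    ⟨i0, c1, fun y hy => by
      have := c1.mem_of c3 hy
      exact ⟨⟨_, hS.zero_mem, this⟩, (osc_const this).trans_le (i0.1.co.1 y)⟩,
      fun y _ => (osc_le_two hM y).trans_lt (by rw [hθ]; simp only [pow_zero]; linarith)⟩
    fun n x ⟨a1, a2, a3, a4⟩ => by
      obtain ⟨ψ, r, η', u', b1, b2, b3, b4, b5, b6, b7, b8, b9, b10⟩ := ap1 hS a1 a2 a3 a4 (θ0 n)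
        (θ0 (n + 1)) (e0 n) (hC.union (hA n).1) (union_subset hG (hA n).2.1)
      exact ⟨(ψ, fun y => x.2.1 y + r y, η', u'), ⟨b3, b8, b9, b10⟩, by simpa using b1,
        by simpa using b2, b4, b5, b6, b7⟩
  have f0 : (x 0).1 = fun z => φ z - ζ z := by rw [x0]
  obtain ⟨w, w1, w2, w3, w4, w5⟩ := ap2 (f := fun n => (x n).1) (fun n => (hx n).1.1.1.fn)
    (hx 0).1.1.2 se.summable (sθ.mul_left 2) (fun n => (hx n).2.2.2.1)
    (fun n => (hx n).2.2.2.2.2.2) hA hA' fun n => (hx n).2.2.2.2.1.mono subset_union_right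
  obtain ⟨k1, k2, k3, k4⟩ := cost_tsum (fun n => (hx n).2.1) se.summable fun n => (hx n).2.2.1
  rw [se.tsum_eq] at k2
  have hσ : ∀ n y, (x n).2.1 y =
      s y + r₀ y + ∑ k ∈ Finset.range n, ((x (k + 1)).2.1 y - (x k).2.1 y) := fun n y => by
    rw [Finset.sum_range_sub (fun k => (x k).2.1 y), x0]; ring
  have hr := z1.1.co.add k1
  have hfz : ∀ n y, (x n).2.2.2 y = 1 → w =ᶠ[D.nb y] (x n).1 := by
    intro n y hy
    filter_upwards [(hx n).1.2.1.one_mem hy, G_mem y] with z hz hzG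
    have : ∀ k, n ≤ k → (x k).2.2.1 z = 1 := fun k hk => by
      induction k, hk using Nat.le_induction with
      | base => exact hz
      | succ k _ ih => exact ((hx k).2.2.2.2.2.1 z hzG ih).2
    exact w5 n z hzG fun k hk => ((hx k).2.2.2.2.2.1 z hzG (this k hk)).1
  have key : ∀ y, (∃ n, (x n).2.2.2 y = 1) ∨ D.osc y w ≤ 0 := by
    intro y
    by_cases h : ∃ n, (x n).2.2.2 y = 1
    · exact Or.inl h
    refine Or.inr (ge_of_tendsto' (x := atTop) (f := fun n => θ n + 2 * ∑' k, 2 * θ (k + n)) ?_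
      fun n => ?_)
    · simpa using sθ.tendsto_atTop_zero.add
        ((tendsto_sum_nat_add fun k => 2 * θ k).const_mul 2)
    · have h1 := (hx n).1.2.2.2 y (((hx n).1.2.1.val y).resolve_right fun h' => h ⟨n, h'⟩)
      have h2 := osc_near (y := y) (hx n).1.1.2 (mem_of_superset (G_mem y) (w4 n))
      linarith
  have hin : In S w fun y => s y + (r₀ y + ∑' k, ((x (k + 1)).2.1 y - (x k).2.1 y)) := by
    refine in_lim hS' (fun n => (hx n).1.1.1) w1 (hφ.1.co.add hr) ?_ (k4.congr fun n => ?_)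
    · refine squeeze_zero (fun n => nr_nonneg _ _) (fun n => ?_) (tendsto_sum_nat_add e)
      have := nr_cmul (w1.sub (hx n).1.1.1.fn) (-1)
      simp only [neg_mul, one_mul, neg_sub, abs_neg, abs_one] at this
      exact this.trans_le (w3 n)
    · congr 1
      funext y
      rw [hσ n y]; ring
  refine ⟨w, _, hr, (nl_add z1.1.co.2 k1.2).trans (by linarith), hin, ⟨w1, w2, hin.co, fun y => ?_⟩,
    ?_, fun z hz => ?_, ?_, fun y hy => ?_⟩
  · rcases key y with ⟨n, h⟩ | h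
    · have h1 := ((hx n).1.2.2.1 y h).2
      have h2 := (k3 y).sum_le_tsum (Finset.range n) fun k _ => (hx k).2.1.1 y
      rw [osc_congr (hfz n y h)]
      linarith [hσ n y]
    · exact h.trans (hin.co.1 y)
  · have h1 := w3 0
    simp only [add_zero, se.tsum_eq, f0] at h1
    have h2 := nr_sub (w1.sub i0.1.fn) z1.1.fn
    have h3 : (fun z => w z - (φ z - ζ z) - ζ z) = fun z => w z - φ z := by funext z; ring
    rw [h3] at h2
    linarith
  · rw [w5 0 z (hG hz) fun k _ => (hx k).2.2.2.2.1 (Or.inl hz), f0]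
    simp [z2 z (hG hz) (by simpa using hz)]
  · filter_upwards [hfz 0 y₀ (by rw [x0]; exact c2), v0] with z a b
    rw [a, f0]; exact b
  · rcases key y with ⟨n, h⟩ | h
    · obtain ⟨p, hp, e⟩ := ((hx n).1.2.2.1 y h).1
      exact ⟨p, hp, (hfz n y h).trans e⟩
    · exact absurd hy (not_lt.2 h)

end Vale.P116D
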