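import Vale.Agent.P116D.TDefs

/-!
C1b: the box computation behind positivity.
Take a clamp `T` (`clamp_ex` with `a = 0`, `b = 1`) and the corners of `hS.box` for the family
`Fin.cons ζ (Fin.cons d ξ)`; `a` is the corner of `d` at `y`.  With
`Δ x = Θ (Fin.tail x) - Θ (Fin.cons a (Fin.tail (Fin.tail x)))` apply `BoxAt` (with `wd_const D 1`) to
`Δ x * T (x 0)` and to `x 1 - t * (Δ x * T (x 0))`.  `Θ` is `C`-Lipschitz for the sup norm
(`lipschitzWith_of_nnnorm_fderiv_le` or `Convex.norm_image_sub_le_of_norm_fderiv_le`), `|Δ| ≤ 1`,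
`|T| ≤ 2`.  On the box at `y`: `0 ≤ Δ ≤ C (x 1 - a)` and `-δ ≤ T ≤ 2`, so the second function has values
in `[a, a + τ y + t C δ τ y]`.
-/

namespace Vale.P116D

open Set Filter Topology MeasureTheory Complex
open scoped ContDiff

variable {D : Dom} {S : Gens D} {φ ψ χ η ξ ζ g d e v w : ℂ → ℝ} {s σ r τ u : D.End → ℝ}
  {y : D.End} {U V O : Set ℂ} {z : ℂ} {Θ : ℂ → ℝ} {L M c ε κ ρ C : ℝ} {dm : ℕ → ℂ → ℝ}
  {τm : ℕ → D.End → ℝ} {x : ℕ → (ℂ → ℝ) × (D.End → ℝ) × ℝ}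

theorem c1b_cons {k : ℕ} {Θ : (Fin (k + 1) → ℝ) → ℝ} (hΘ : ContDiff ℝ ∞ Θ)
    (hC : ∀ p, ‖fderiv ℝ Θ p‖ ≤ C) {α α' τ : ℝ} {p p' b : Fin k → ℝ} (h1 : |α - α'| ≤ τ)
    (h2 : ∀ i, |p i - p' i| ≤ b i) :
    |Θ (Fin.cons α p) - Θ (Fin.cons α' p')| ≤ C * (τ + ∑ i, b i) := by
  have hb : ∀ i, 0 ≤ b i := fun i => (abs_nonneg _).trans (h2 i)
  have hs : 0 ≤ ∑ i, b i := Finset.sum_nonneg fun i _ => hb i
  have hτ : 0 ≤ τ := (abs_nonneg _).trans h1
  have h3 := convex_univ.norm_image_sub_le_of_norm_fderiv_le (𝕜 := ℝ) (f := Θ)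
    (fun x _ => hΘ.differentiable (by simp) x) (fun x _ => hC x) (mem_univ (Fin.cons α' p'))
    (mem_univ (Fin.cons α p))
  refine h3.trans (mul_le_mul_of_nonneg_left ((pi_norm_le_iff_of_nonneg (by linarith)).2 fun i => ?_)
    ((norm_nonneg _).trans (hC 0)))
  refine Fin.cases ?_ (fun j => ?_) i
  · exact h1.trans (by linarith)
  · exact (h2 j).trans ((Finset.single_le_sum (fun i _ => hb i) (Finset.mem_univ j)).trans
      (by linarith))

theorem c1b_sm {k : ℕ} {Θ : (Fin (k + 1) → ℝ) → ℝ} (hΘ : ContDiff ℝ ∞ Θ)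
    {α : (Fin (k + 2) → ℝ) → ℝ} (hα : ContDiff ℝ ∞ α) :
    ContDiff ℝ ∞ fun x : Fin (k + 2) → ℝ => Θ (Fin.cons (α x) fun i => x i.succ.succ) :=
  hΘ.comp (contDiff_pi.2 fun i => Fin.cases hα (fun j => contDiff_apply ℝ ℝ j.succ.succ) i)

theorem c1b_abs {p q a s : ℝ} (hp : p ∈ Icc a (a + s)) (hq : q ∈ Icc a (a + s)) : |p - q| ≤ s :=
  abs_le.2 ⟨by linarith [hp.1, hq.2], by linarith [hp.2, hq.1]⟩

theorem c1b_mul {u u' T T' A B : ℝ} (h1 : |u - u'| ≤ A) (h2 : |T - T'| ≤ B) (h3 : |u'| ≤ 1)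
    (h4 : |T| ≤ 2) : |u * T - u' * T'| ≤ 2 * A + B := by
  have e : u * T - u' * T' = (u - u') * T + u' * (T - T') := by ring
  rw [e]
  refine (abs_add_le _ _).trans (add_le_add ?_ ?_)
  · rw [abs_mul, mul_comm]
    exact mul_le_mul h4 h1 (abs_nonneg _) zero_le_two
  · rw [abs_mul]
    exact (mul_le_of_le_one_left (abs_nonneg _) h3).trans h2

theorem pos_box {k : ℕ} {ξ : Fin k → ℂ → ℝ} {b : Fin k → D.End → ℝ} {Θ : (Fin (k + 1) → ℝ) → ℝ}
    {δ t : ℝ} (hS : Str S) (hd : InB S d τ) (hξ : ∀ i, InB S (ξ i) (b i)) (hζ : In S ζ r)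
    (hζ1 : ∀ z ∈ D.G, ζ z ∈ Icc (0 : ℝ) 1) (hΘ : ContDiff ℝ ∞ Θ) (h01 : ∀ p, Θ p ∈ Icc (0 : ℝ) 1)
    (hC : ∀ p, ‖fderiv ℝ Θ p‖ ≤ C) (hm : ∀ p : Fin k → ℝ, Monotone fun a => Θ (Fin.cons a p))
    (hδ : 0 < δ) (hδ1 : δ ≤ 1) (ht : 0 < t) (htC : 2 * t * C ≤ 1) (y : D.End) : ∃ a : ℝ,
      In S (fun z => (Θ (Fin.cons (d z) fun i => ξ i z) - Θ (Fin.cons a fun i => ξ i z)) * ζ z)
        (fun y' => 2 * C * (τ y' + 2 * ∑ i, b i y') + r y') ∧
      In S (fun z => d z -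
          t * ((Θ (Fin.cons (d z) fun i => ξ i z) - Θ (Fin.cons a fun i => ξ i z)) * ζ z))
        (fun y' => τ y' +
          t * upd (fun y' => 2 * C * (τ y' + 2 * ∑ i, b i y') + r y') y (C * δ * τ y) y') := by
  obtain ⟨T, T1, T2, T3, T4, -⟩ := clamp_ex (a := 0) (b := 1) zero_le_one hδ
  have T5 := lip_of_deriv (C := 1) T1 fun x => abs_le.2 ⟨by linarith [(T2 x).1], (T2 x).2⟩
  have T6 : ∀ x, |T x| ≤ 2 := fun x => abs_le.2 ⟨by linarith [(T4 x).1], by linarith [(T4 x).2]⟩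
  have C0 : 0 ≤ C := (norm_nonneg _).trans (hC 0)
  obtain ⟨c, hc⟩ := hS.box (k + 2) (Fin.cons ζ (Fin.cons d ξ)) (Fin.cons r (Fin.cons τ b)) fun i =>
    Fin.cases ⟨hζ, 1, fun z hz =>
      abs_le.2 ⟨(neg_nonpos.2 zero_le_one).trans (hζ1 z hz).1, (hζ1 z hz).2⟩⟩
      (fun j => Fin.cases hd hξ j) i
  obtain ⟨a, ha⟩ : ∃ a, a = c (Fin.succ 0) y := ⟨_, rfl⟩
  obtain ⟨Δ, hΔ⟩ : ∃ Δ : (Fin (k + 2) → ℝ) → ℝ, Δ = fun x =>
      Θ (Fin.cons (x (Fin.succ 0)) fun i => x i.succ.succ) -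
        Θ (Fin.cons a fun i => x i.succ.succ) := ⟨_, rfl⟩
  have s1 : ContDiff ℝ ∞ fun x : Fin (k + 2) → ℝ => Δ x * T (x 0) := by
    rw [hΔ]
    exact ((c1b_sm hΘ (contDiff_apply ℝ ℝ _)).sub (c1b_sm hΘ contDiff_const)).mul
      (T1.comp (contDiff_apply ℝ ℝ 0))
  have c1 : Cost fun y' => 2 * C * (τ y' + 2 * ∑ i, b i y') + r y' :=
    ((hd.1.co.add ((Cost.sum _ fun i _ => (hξ i).1.co).cmul zero_le_two)).cmul
      (by positivity)).add hζ.co
  have key : ∀ y' (x x' : Fin (k + 2) → ℝ),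
      (∀ i, x i ∈ Icc (c i y') (c i y' + (Fin.cons r (Fin.cons τ b) : Fin (k + 2) → _) i y')) →
      (∀ i, x' i ∈ Icc (c i y') (c i y' + (Fin.cons r (Fin.cons τ b) : Fin (k + 2) → _) i y')) →
      |Δ x * T (x 0) - Δ x' * T (x' 0)| ≤ 2 * C * (τ y' + 2 * ∑ i, b i y') + r y' := by
    intro y' x x' hx hx'
    have h0 : |x 0 - x' 0| ≤ r y' := c1b_abs (hx 0) (hx' 0)
    have h1 : |x (Fin.succ 0) - x' (Fin.succ 0)| ≤ τ y' := c1b_abs (hx _) (hx' _)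
    have h2 : ∀ i : Fin k, |x i.succ.succ - x' i.succ.succ| ≤ b i y' := fun i =>
      c1b_abs (hx _) (hx' _)
    have h3 := abs_le.1 (c1b_cons hΘ hC h1 h2)
    have h4 := abs_le.1 (c1b_cons hΘ hC (α := a) (α' := a) (τ := 0) (by simp) h2)
    refine (c1b_mul (A := C * (τ y' + 2 * ∑ i, b i y')) ?_ ((T5 _ _).trans ((one_mul _).trans_le h0)) ?_
      (T6 _)).trans_eq (by ring)
    · simp only [hΔ]
      exact abs_le.2 ⟨by linarith [h3.1, h4.2], by linarith [h3.2, h4.1]⟩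
    · simp only [hΔ]
      exact c1b_abs (a := 0) (by rw [zero_add]; exact h01 _) (by rw [zero_add]; exact h01 _)
  have val : ∀ x : Fin (k + 2) → ℝ, x (Fin.succ 0) ∈ Icc a (a + τ y) →
      x (Fin.succ 0) - t * (Δ x * T (x 0)) ∈ Icc a (a + (τ y + t * (C * δ * τ y))) := by
    intro x hx
    have h1 : 0 ≤ Δ x := by
      simp only [hΔ]
      exact sub_nonneg.2 (hm _ hx.1)
    have h2 : Δ x ≤ C * (x (Fin.succ 0) - a) := by
      have h3 := c1b_cons hΘ hC (p := fun i => x i.succ.succ) (p' := fun i => x i.succ.succ)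
        (b := fun _ => 0) (abs_of_nonneg (sub_nonneg.2 hx.1)).le (by simp)
      simp only [Finset.sum_const_zero, add_zero] at h3
      simp only [hΔ]
      exact (le_abs_self _).trans h3
    have h3 := mul_le_mul_of_nonneg_left ((le_abs_self _).trans (T6 (x 0))) h1
    have h4 := mul_le_mul_of_nonneg_left (T4 (x 0)).1 h1
    have h5 := mul_le_mul_of_nonneg_left h3 ht.le
    have h6 := mul_le_mul_of_nonneg_left h4 ht.le
    have h7 := mul_le_mul_of_nonneg_left h2 ht.le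
    have h8 := mul_le_mul_of_nonneg_right htC (sub_nonneg.2 hx.1)
    have h9 : Δ x ≤ C * τ y := h2.trans (mul_le_mul_of_nonneg_left (by linarith [hx.2]) C0)
    have h10 := mul_le_mul_of_nonneg_left h9 (mul_pos ht hδ).le
    exact ⟨by linarith, by linarith [hx.2]⟩
  refine ⟨a, ?_, ?_⟩
  · have h1 := hc _ s1 _ _ (wd_const D 1) _ c1 fun y' x x' hx hx' =>
      (le_abs_self _).trans (key y' x x' hx hx')
    simp only [abs_one, one_mul] at h1
    refine h1.congr fun z hz => ?_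
    simp only [hΔ, Fin.cons_zero, Fin.cons_succ, T3 _ (hζ1 z hz)]
  · have h1 := hc (fun x => x (Fin.succ 0) - t * (Δ x * T (x 0)))
      ((contDiff_apply ℝ ℝ _).sub (contDiff_const.mul s1)) _ _ (wd_const D 1) _
      (hd.1.co.add ((c1.upd y (c := C * δ * τ y)
        (mul_nonneg (mul_nonneg C0 hδ.le) (hd.1.co.1 y))).cmul ht.le)) fun y' x x' hx hx' => ?_
    · simp only [abs_one, one_mul] at h1
      refine h1.congr fun z hz => ?_
      simp only [hΔ, Fin.cons_zero, Fin.cons_succ, T3 _ (hζ1 z hz)]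
    · by_cases e : y' = y
      · subst e
        simp only [upd, if_true]
        exact (le_abs_self _).trans (c1b_abs (val x (ha ▸ hx _)) (val x' (ha ▸ hx' _)))
      · simp only [upd, if_neg e]
        have h2 : |x (Fin.succ 0) - x' (Fin.succ 0)| ≤ τ y' := c1b_abs (hx _) (hx' _)
        have h3 := mul_le_mul_of_nonneg_left (abs_le.1 (key y' x x' hx hx')).1 ht.le
        linarith [le_abs_self (x (Fin.succ 0) - x' (Fin.succ 0))]

end Vale.P116D
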