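import Vale.Agent.P116D.C1a
import Vale.Agent.P116D.C1b

/-!
C1: consequences of criticality at one end (PROOF69 section 2: DL, AD, POS).
`pos_mul`: `split`, `pos_box` for each `dm m` (corner `a m`), `ip_near`; the left side is the limit of
the same expression with `dm m` (`conv_compN`, `Dom.Conv.bmul`, `Dom.Conv.wmul`, `om_tendsto`) because
`e = d` on the support of `η`.
-/

namespace Vale.P116D

open Set Filter Topology MeasureTheory Complex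
open scoped ContDiff

variable {D : Dom} {S : Gens D} {φ ψ χ η ξ ζ g d e v w : ℂ → ℝ} {s σ r τ u : D.End → ℝ}
  {y : D.End} {U V O : Set ℂ} {z : ℂ} {Θ : ℂ → ℝ} {L M c ε κ ρ C : ℝ} {dm : ℕ → ℂ → ℝ}
  {τm : ℕ → D.End → ℝ} {x : ℕ → (ℂ → ℝ) × (D.End → ℝ) × ℝ}

theorem C1_cons {k : ℕ} (f : ℂ → ℝ) (ξ : Fin k → ℂ → ℝ) (z : ℂ) :
    (fun i => (Fin.cons f ξ : Fin (k + 1) → ℂ → ℝ) i z) = Fin.cons (f z) fun i => ξ i z := by
  funext i
  refine Fin.cases ?_ (fun i => ?_) i <;> simp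

theorem C1_fn {k : ℕ} {ξ : Fin k → ℂ → ℝ} {Θ : (Fin (k + 1) → ℝ) → ℝ} (hd : D.Fn d)
    (hξ : ∀ i, D.Fn (ξ i)) (hΘ : ContDiff ℝ ∞ Θ) (hC : ∀ x, ‖fderiv ℝ Θ x‖ ≤ C) :
    D.Fn fun z => Θ (Fin.cons (d z) fun i => ξ i z) := by
  have := fn_compN (f := Fin.cons d ξ) (D := D)
    (fun i => Fin.cases (by simpa using hd) (fun i => by simpa using hξ i) i) hΘ fun z _ => hC _
  simpa only [C1_cons] using this

theorem C1_conv {k : ℕ} {ξ : Fin k → ℂ → ℝ} {Θ : (Fin (k + 1) → ℝ) → ℝ} {C' : ℝ}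
    (hs : Seq S e dm τm C') (hξ : ∀ i, D.Fn (ξ i)) (hΘ : ContDiff ℝ ∞ Θ)
    (hC : ∀ x, ‖fderiv ℝ Θ x‖ ≤ C) :
    D.Conv (fun m z => Θ (Fin.cons (dm m z) fun i => ξ i z))
      fun z => Θ (Fin.cons (e z) fun i => ξ i z) := by
  have := conv_compN (D := D) (f := fun i m => (Fin.cons (dm m) ξ : Fin (k + 1) → ℂ → ℝ) i)
    (p := Fin.cons e ξ)
    (fun i => Fin.cases (by simpa using hs.conv) (fun i => by simpa using conv_const (hξ i)) i)
    (fun i m => Fin.cases (by simpa using (hs.mem m).1.fn) (fun i => by simpa using hξ i) i)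
    (fun i => Fin.cases (by simpa using hs.fn) (fun i => by simpa using hξ i) i) hΘ hC
  simpa only [C1_cons] using this

/-- positivity with a nonnegative factor -/
theorem Crit.pos_mul {k : ℕ} {ξ : Fin k → ℂ → ℝ} {b : Fin k → D.End → ℝ}
    {Θ : (Fin (k + 1) → ℝ) → ℝ} (h : Crit S d v c τ y) (hS : Str S) (hξ : ∀ i, InB S (ξ i) (b i))
    (hζ : In S ζ r) (hζ1 : ∀ z ∈ D.G, ζ z ∈ Icc (0 : ℝ) 1)
    (hΘ : ContDiff ℝ ∞ Θ) (h01 : ∀ x, Θ x ∈ Icc (0 : ℝ) 1) (hC : ∀ x, ‖fderiv ℝ Θ x‖ ≤ C)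
    (hm : ∀ p : Fin k → ℝ, Monotone fun x => Θ (Fin.cons x p)) (hε : 0 < ε) :
    ∃ U ∈ D.nb y, ∀ η u, D.Cut η u → D.Supp η U → ∃ a : ℝ,
      D.om (fun z => η z * (Θ (Fin.cons (d z) fun i => ξ i z) * ζ z)) v ≤
        D.om (fun z => η z * (Θ (Fin.cons a fun i => ξ i z) * ζ z)) v + ε := by
  obtain ⟨ε₀, e, dm, τm, C', hε₀, hed, hs, hsp⟩ := h.split hS
  have c0 := h.c0
  have C0 : 0 ≤ C := (norm_nonneg _).trans (hC 0)
  have C'0 : 0 ≤ C' := (nl_nonneg _).trans (hs.le 0)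
  have ty := h.co.1 y
  obtain ⟨U₁, hU₁, hsp⟩ := hsp (ε / 4) (by positivity)
  set K := 2 * C * (C' + 2 * nl fun y' => ∑ i, b i y') + nl r with hK
  obtain ⟨U₂, hU₂, hnear⟩ := ip_near h.co y K (ε := ε / 4 / (c + 1)) (by positivity)
  set δ := min 1 (ε / 4 / (c * τ y * C * C' + 1)) with hδ
  have hδ0 : 0 < δ := lt_min one_pos (by positivity)
  have hδ2 : δ * (c * τ y * C * C' + 1) ≤ ε / 4 :=
    (le_div_iff₀ (by positivity)).1 (min_le_right _ _)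
  set t := min ε₀ (1 / (2 * C + 1)) with ht
  have ht0 : 0 < t := lt_min hε₀ (by positivity)
  have ht2 : 2 * t * C ≤ 1 := by
    have : t * (2 * C + 1) ≤ 1 := (le_div_iff₀ (by positivity)).1 (min_le_right _ _)
    nlinarith
  refine ⟨U₁ ∩ U₂ ∩ {z | e z = d z}, inter_mem (inter_mem hU₁ hU₂) hed, fun η u hη hsu => ?_⟩
  have hsub : ∀ A : Set ℂ, U₁ ∩ U₂ ∩ {z | e z = d z} ⊆ A → D.Supp η A :=
    fun A hA z hz hzA => hsu z hz fun h => hzA (hA h)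
  choose a ha1 ha2 using fun m => pos_box hS (hs.mem m) hξ hζ hζ1 hΘ h01 hC hm hδ0
    (min_le_left _ _) ht0 ht2 y
  have hb : Cost fun y' => ∑ i, b i y' := Cost.sum _ fun i _ => (hξ i).1.co
  have hτm : ∀ m, Cost (τm m) := fun m => (hs.mem m).1.co
  have hcost : ∀ m, Cost (upd (fun y' => 2 * C * (τm m y' + 2 * ∑ i, b i y') + r y') y
      (C * δ * τm m y)) := fun m => (ha1 m).co.upd y (by have := (hτm m).1 y; positivity)
  have hev := hsp η u hη (hsub _ fun z h => h.1.1) t ht0 (min_le_left _ _) _ _ _ fun m =>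
    ⟨ha1 m, fun z hz => by
      have p1 := h01 (Fin.cons (dm m z) fun i => ξ i z)
      have p2 := h01 (Fin.cons (a m) fun i => ξ i z)
      have p3 := hζ1 z hz
      rw [abs_mul, abs_of_nonneg p3.1]
      exact mul_le_one₀ (abs_le.2 ⟨by linarith [p1.1, p2.2], by linarith [p1.2, p2.1]⟩) p3.1 p3.2,
      (hcost m).2, fun y' hy' => by simp [upd, hy'], ha2 m⟩
  have hξf : ∀ i, D.Fn (ξ i) := fun i => (hξ i).1.fn
  have hle : ∀ (p : ℂ → Fin (k + 1) → ℝ), D.Le (fun z => Θ (p z)) 1 := fun p z _ =>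
    abs_le.2 ⟨by linarith [(h01 (p z)).1], (h01 (p z)).2⟩
  have hζb : D.Bd ζ := ⟨1, fun z hz => abs_le.2 ⟨by linarith [(hζ1 z hz).1], (hζ1 z hz).2⟩⟩
  have hηb : D.Bd η := ⟨1, fun z _ => abs_le.2 ⟨by linarith [(hη.mem z).1], (hη.mem z).2⟩⟩
  have hF : ∀ f : ℂ → ℝ, D.Fn f → D.Fn fun z => Θ (Fin.cons (f z) fun i => ξ i z) * ζ z :=
    fun f hf => (C1_fn hf hξf hΘ hC).mul hζ.fn ⟨1, hle _⟩ hζb
  have hdm : ∀ m, D.Fn (dm m) := fun m => (hs.mem m).1.fn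
  have hcv := ((C1_conv hs hξf hΘ hC).bmul (fun m => C1_fn (hdm m) hξf hΘ hC)
    (C1_fn hs.fn hξf hΘ hC) (fun m => hle _) (hle _) hζ.fn hζb).wmul (fun m => hF _ (hdm m))
    (hF _ hs.fn) hη.wd
  have hlim := om_tendsto (fun m => (hF _ (hdm m)).wmul hη.wd hηb) ((hF _ hs.fn).wmul hη.wd hηb)
    h.fv hcv.1
  have heq : D.om (fun z => η z * (Θ (Fin.cons (d z) fun i => ξ i z) * ζ z)) v =
      D.om (fun z => η z * (Θ (Fin.cons (e z) fun i => ξ i z) * ζ z)) v := by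
    refine om_congr (fun z hz => ?_) fun _ _ => rfl
    by_cases h : e z = d z
    · simp only [h]
    · simp only [hsub _ (fun z h => h.2) z hz h, zero_mul]
  obtain ⟨m, hm1, hm2⟩ := (hev.and (hlim.eventually (lt_mem_nhds
    (sub_lt_self _ (show 0 < ε / 4 by positivity))))).exists
  refine ⟨a m, ?_⟩
  have q1 : upd (fun y' => 2 * C * (τm m y' + 2 * ∑ i, b i y') + r y') y
      (upd (fun y' => 2 * C * (τm m y' + 2 * ∑ i, b i y') + r y') y (C * δ * τm m y) y) =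
      upd (fun y' => 2 * C * (τm m y' + 2 * ∑ i, b i y') + r y') y (C * δ * τm m y) := by
    funext y'
    simp [upd]
  have q2 : nl (upd (upd (fun y' => 2 * C * (τm m y' + 2 * ∑ i, b i y') + r y') y
      (C * δ * τm m y)) y 0) ≤ K := by
    refine (nl_mono (ha1 m).co.2 fun y' => ?_).trans ?_
    · by_cases h : y' = y <;> simp [upd, h]
    have a1 := nl_add (((hτm m).2.add (hb.2.cmul 2)).cmul (2 * C)) hζ.co.2
    have a2 := nl_add (hτm m).2 (hb.2.cmul 2)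
    rw [nl_cmul, abs_of_nonneg (by positivity)] at a1
    rw [nl_cmul, abs_two] at a2
    have a3 := mul_le_mul_of_nonneg_left (a2.trans (add_le_add (hs.le m) le_rfl))
      (show 0 ≤ 2 * C by positivity)
    linarith
  have q3 := hnear η u hη (hsub _ fun z h => h.1.2) _ (hcost m) q2
  have q4 : upd (fun y' => 2 * C * (τm m y' + 2 * ∑ i, b i y') + r y') y (C * δ * τm m y) y =
      C * δ * τm m y := by simp [upd]
  rw [q1] at hm1
  rw [q4] at q3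
  have q5 : τm m y ≤ C' := ((le_abs_self _).trans (abs_le_nl (hτm m).2 y)).trans (hs.le m)
  have q6 : c * (τ y * (C * δ * τm m y)) ≤ ε / 4 := by
    have : c * τ y * C * δ * τm m y ≤ c * τ y * C * δ * C' :=
      mul_le_mul_of_nonneg_left q5 (by positivity)
    nlinarith
  have q7 : c * (ε / 4 / (c + 1)) ≤ ε / 4 := by
    rw [← mul_div_assoc, div_le_iff₀ (by positivity)]
    nlinarith
  have q8 := mul_le_mul_of_nonneg_left q3 c0
  have q9 := om_sub ((hF _ (hdm m)).wmul hη.wd hηb)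
    ((hF _ (fn_const D (a m))).wmul hη.wd hηb) h.fv
  rw [om_congr (φ' := fun z => η z * ((Θ (Fin.cons (dm m z) fun i => ξ i z) -
    Θ (Fin.cons (a m) fun i => ξ i z)) * ζ z)) (ψ' := v) (fun z _ => by ring) fun _ _ => rfl] at q9
  rw [heq]
  linarith

/-- positivity -/
theorem Crit.pos {c ε C : ℝ} {k : ℕ} {ξ : Fin k → ℂ → ℝ} {ρ : Fin k → D.End → ℝ}
    {Θ : (Fin (k + 1) → ℝ) → ℝ} (h : Crit S d v c τ y) (hS : Str S) (hξ : ∀ i, InB S (ξ i) (ρ i))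
    (hΘ : ContDiff ℝ ∞ Θ) (h01 : ∀ x, Θ x ∈ Icc (0 : ℝ) 1) (hC : ∀ x, ‖fderiv ℝ Θ x‖ ≤ C)
    (hm : ∀ p : Fin k → ℝ, Monotone fun x => Θ (Fin.cons x p)) (hε : 0 < ε) :
    ∃ U ∈ D.nb y, ∀ η u, D.Cut η u → D.Supp η U → ∃ a : ℝ,
      D.om (fun z => η z * Θ (Fin.cons (d z) fun i => ξ i z)) v ≤
        D.om (fun z => η z * Θ (Fin.cons a fun i => ξ i z)) v + ε := by
  simpa only [mul_one] using h.pos_mul hS hξ (in_wd hS (wd_const D 1))
    (fun _ _ => ⟨zero_le_one, le_rfl⟩) hΘ h01 hC hm hε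

end Vale.P116D
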