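import Vale.Agent.P116D.TDefs

/-!
C1a: splitting a small cutoff into an inner part and a shell.
`split`: take the data of `h.svi`; given `ε`, `U` is the set of `h.loc` for `ε / 2`.  Choose cuts
`f m` with values `w m`, `w m y = 1`, supported in the set `U m` of `svi` (`cut_ex`, `choose`).
`η χ = (η f) χ + (η (1 - f)) χ` (`om_add`); the first part by `svi` with the cuts `η * f m`
(`Dom.Cut.mul`) and `δ = ε / 2`, the second by `loc` (`In.cut`, it vanishes near `y`).  Pointwise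
`u w r + u (1 - w) s ≤ u * upd s y (r y)`, then `ip_add`, `ip_mono`, `ip_comm`.
`dl`: `split` with constant `χ`, `r = s`, `t = ε₀` (`In.sub`, `In.cmul`), for `χ` and for `-χ`.
`ad`: take a cut `η` at `y` supported in the set of `dl`, `U = {η = 1}`, `η χ = χ` on `G`.
-/

namespace Vale.P116D

open Set Filter Topology MeasureTheory Complex
open scoped ContDiff

variable {D : Dom} {S : Gens D} {φ ψ χ η ξ ζ g d e v w : ℂ → ℝ} {s σ r τ u : D.End → ℝ}
  {y : D.End} {U V O : Set ℂ} {z : ℂ} {Θ : ℂ → ℝ} {L M c ε κ ρ C : ℝ} {dm : ℕ → ℂ → ℝ}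
  {τm : ℕ → D.End → ℝ} {x : ℕ → (ℂ → ℝ) × (D.End → ℝ) × ℝ}

theorem c1a_le (hη : D.Cut η u) (h : D.Le χ 1) : D.Le (fun z => η z * χ z) 1 := fun z hz => by
  rw [abs_mul, abs_of_nonneg (hη.mem z).1]
  exact mul_le_one₀ (hη.mem z).2 (abs_nonneg _) (h z hz)

theorem c1a_sq (hη : D.Cut η u) (h : Sq s) : Sq fun y => u y * s y :=
  h.bmul (C := 1) fun y => by rw [hη.s1_abs]; exact (hη.s1_mem y).2

theorem c1a_upd (s : D.End → ℝ) (y : D.End) : upd s y (s y) = s := by
  funext y'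
  unfold upd
  split_ifs with h
  · rw [h]
  · rfl

theorem Crit.split (h : Crit S d v c τ y) (hS : Str S) :
    ∃ (ε₀ : ℝ) (e : ℂ → ℝ) (dm : ℕ → ℂ → ℝ) (τm : ℕ → D.End → ℝ) (C : ℝ), 0 < ε₀ ∧
      e =ᶠ[D.nb y] d ∧ Seq S e dm τm C ∧ ∀ ε > 0, ∃ U ∈ D.nb y, ∀ η u, D.Cut η u → D.Supp η U →
        ∀ t, 0 < t → t ≤ ε₀ → ∀ (χ : ℕ → ℂ → ℝ) (r s : ℕ → D.End → ℝ),
          (∀ m, In S (χ m) (s m) ∧ D.Le (χ m) 1 ∧ Sq (r m) ∧ (∀ y', y' ≠ y → r m y' ≤ s m y') ∧
            In S (fun z => dm m z - t * χ m z) fun y' => τm m y' + t * r m y') →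
          ∀ᶠ m in atTop, D.om (fun z => η z * χ m z) v ≤
            c * ip τ (fun y' => u y' * upd (s m) y (r m y) y') + ε := by
  obtain ⟨ε₀, e, dm, τm, Um, C, h0, fe, ee, cv, hm, H⟩ := h.svi
  refine ⟨ε₀, e, dm, τm, C, h0, ee, ⟨fe, cv, fun m => (hm m).1, fun m => (hm m).2.2⟩,
    fun ε hε => ?_⟩
  obtain ⟨U, hU, hl⟩ := h.loc (ε / 2) (half_pos hε)
  refine ⟨U, hU, fun η u hη hs t t0 t1 χ r s hχ => ?_⟩
  choose f w hf hw hfs using fun m => cut_ex (hm m).2.1
  have H1 := H t t0 t1 χ r (fun m z => η z * f m z) (fun m y' => u y' * w m y')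
    (fun m => ⟨(hχ m).1.fn, (hχ m).2.1, (hχ m).2.2.1, hη.mul (hf m),
      fun z hz hz' => by simp [hfs m z hz hz'], (hχ m).2.2.2.2⟩) (ε / 2) (half_pos hε)
  filter_upwards [H1] with m h1
  obtain ⟨hin, hle, hr, hrs, -⟩ := hχ m
  have hc := hη.mul (hf m).compl
  have h2 := hl _ _ (hin.cut hS hc) (c1a_le hc hle) (fun z hz hz' => by simp [hs z hz hz']) (by
    filter_upwards [(hf m).one_mem (hw m)] with z hz
    simp [show f m z = 1 from hz])
  have e1 : D.om (fun z => η z * χ m z) v = D.om (fun z => η z * f m z * χ m z) v +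
      D.om (fun z => η z * (1 - f m z) * χ m z) v := by
    rw [← om_add (hin.cut hS (hη.mul (hf m))).fn (hin.cut hS hc).fn h.fv]
    congr 1
    funext z
    ring
  have s1 := c1a_sq (hη.mul (hf m)) hr
  have s2 := c1a_sq hc hin.co.2
  have e2 : ip τ (fun y' => u y' * w m y' * r m y') + ip τ (fun y' => u y' * (1 - w m y') * s m y')
      ≤ ip τ fun y' => u y' * upd (s m) y (r m y) y' := by
    rw [ip_comm τ, ip_comm τ, ip_comm τ, ← ip_add s1 s2 h.co.2]
    refine ip_mono (s1.add s2) (c1a_sq hη (hin.co.2.upd y _)) h.co fun y' => ?_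
    unfold upd
    split_ifs with hy
    · rw [hy, hw m]
      linarith
    · have := mul_nonneg (mul_nonneg (hη.s1_mem y').1 ((hf m).s1_mem y').1)
        (sub_nonneg.2 (hrs y' hy))
      linarith
  have := mul_le_mul_of_nonneg_left e2 h.c0
  linarith

theorem Crit.dl (h : Crit S d v c τ y) (hS : Str S) (hε : 0 < ε) :
    ∃ U ∈ D.nb y, ∀ η u, D.Cut η u → D.Supp η U → ∀ χ s, In S χ s → D.Le χ 1 →
      |D.om (fun z => η z * χ z) v| ≤ c * ip τ (fun y' => u y' * s y') + ε := by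
  obtain ⟨ε₀, e, dm, τm, C, h0, -, hq, H⟩ := h.split hS
  obtain ⟨U, hU, H⟩ := H ε hε
  refine ⟨U, hU, fun η u hη hs => ?_⟩
  have key : ∀ χ s, In S χ s → D.Le χ 1 →
      D.om (fun z => η z * χ z) v ≤ c * ip τ (fun y' => u y' * s y') + ε := fun χ s hin hle => by
    have h1 := (H η u hη hs ε₀ h0 le_rfl (fun _ => χ) (fun _ => s) (fun _ => s) fun m =>
      ⟨hin, hle, hin.co.2, fun _ _ => le_rfl, by
        simpa only [abs_of_pos h0] using (hq.mem m).1.sub (hin.cmul ε₀) hS⟩).exists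
    obtain ⟨m, hm⟩ := h1
    rwa [c1a_upd] at hm
  intro χ s hin hle
  have h2 := key _ s hin.neg fun z hz => by simpa using hle z hz
  simp only [mul_neg] at h2
  rw [om_neg] at h2
  exact abs_le.2 ⟨by linarith, key χ s hin hle⟩

theorem Crit.ad (h : Crit S d v c τ y) (hS : Str S) (hε : 0 < ε) :
    ∃ U ∈ D.nb y, ∀ χ s, In S χ s → D.Le χ 1 → D.Supp χ U → |D.om χ v| ≤ c * ip τ s + ε := by
  obtain ⟨U, hU, H⟩ := h.dl hS hε
  obtain ⟨η, u, hη, hy, hs⟩ := cut_ex hU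
  refine ⟨_, hη.one_mem hy, fun χ s hin hle hsp => ?_⟩
  have e : EqOn χ (fun z => η z * χ z) D.G := fun z hz => by
    by_cases h1 : η z = 1
    · simp [h1]
    · simp [hsp z hz h1]
  rw [om_congr e fun _ _ => rfl]
  refine (H η u hη hs χ s hin hle).trans ?_
  have : ip τ (fun y' => u y' * s y') ≤ ip τ s := by
    rw [ip_comm τ, ip_comm τ]
    exact ip_mono (c1a_sq hη hin.co.2) hin.co.2 h.co fun y' =>
      mul_le_of_le_one_left (hin.co.1 y') (hη.s1_mem y').2
  have := mul_le_mul_of_nonneg_left this h.c0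
  linarith

/-- the form in which `dl` and `split` are used: the other ends contribute little
(`nb_tail` for `τ`, `ip_split`, `abs_ip_le`) -/
theorem ip_near (hτ : Cost τ) (y : D.End) (C : ℝ) (hε : 0 < ε) : ∃ U ∈ D.nb y, ∀ η u, D.Cut η u →
    D.Supp η U → ∀ s, Cost s → nl (upd s y 0) ≤ C →
      ip τ (fun y' => u y' * s y') ≤ τ y * s y + ε := by
  have hC : 0 < |C| + 1 := by positivity
  obtain ⟨U, hU, H⟩ := nb_tail hτ.2 y (div_pos hε hC)
  refine ⟨U, hU, fun η u hη hs s hc hn => ?_⟩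
  have e1 : ip τ (fun y' => u y' * s y') = ip (fun y' => u y' * τ y') s := by
    unfold ip
    congr 1
    funext y'
    ring
  have e2 : ip (upd (fun y' => u y' * τ y') y 0) s =
      ip (upd (fun y' => u y' * τ y') y 0) (upd s y 0) := by
    unfold ip upd
    congr 1
    funext y'
    split_ifs <;> simp
  have h1 := abs_ip_le ((c1a_sq hη hτ.2).upd y 0) (hc.2.upd y 0)
  have h2 : nl (upd (fun y' => u y' * τ y') y 0) * nl (upd s y 0) ≤ ε / (|C| + 1) * (|C| + 1) :=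
    mul_le_mul (H η u hη hs) (hn.trans (by linarith [le_abs_self C])) (nl_nonneg _)
      (div_pos hε hC).le
  rw [div_mul_cancel₀ _ hC.ne'] at h2
  have h3 : u y * τ y * s y ≤ τ y * s y := by
    rw [mul_assoc]
    exact mul_le_of_le_one_left (mul_nonneg (hτ.1 y) (hc.1 y)) (hη.s1_mem y).2
  rw [e1, ip_split (c1a_sq hη hτ.2) hc.2 y, e2]
  linarith [le_abs_self (ip (upd (fun y' => u y' * τ y') y 0) (upd s y 0))]

end Vale.P116D
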