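import Vale.Agent.P116D.C2f

/-!
C2g: the upper bound.  `pd_fin`: sets `W y'` from `Crit.pd` with error `ε / (card F + 1)`, disjoint
subsets (`nb_sepF`), cuts (`cut_ex`), their sum (`cut_sum`, `om_congr`, `om_sum`); the value of the sum at
`y' ∈ F` is at least one and lies in `{0, 1}`.  `test_in`: `Nice.isIn`, `In.mul`, `In.cut`.
`test_up`: split by the cut of `pd_fin` and its complement (`Dom.Cut.compl`, `om_add`); the second part
is the limit of the terms in `hB` (`Nice.conv`, `Dom.Conv.bmul`, `Dom.Conv.wmul`, `om_tendsto`,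
`le_of_tendsto'`), since `Θ (e + i v) ξ = Θ (d + i v) ξ` on `G`.
-/

namespace Vale.P116D

open Set Filter Topology MeasureTheory Complex
open scoped ContDiff

variable {D : Dom} {S : Gens D} {φ ψ χ η ξ ζ g d e v w : ℂ → ℝ} {s σ r τ u : D.End → ℝ}
  {y : D.End} {U V O : Set ℂ} {z : ℂ} {Θ : ℂ → ℝ} {L M c ε κ ρ C : ℝ} {dm : ℕ → ℂ → ℝ}
  {τm : ℕ → D.End → ℝ} {x : ℕ → (ℂ → ℝ) × (D.End → ℝ) × ℝ}

theorem c2g_le (h : ∀ z ∈ D.G, φ z ∈ Icc (0 : ℝ) 1) : D.Le φ 1 := fun z hz =>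
  abs_le.2 ⟨by linarith [(h z hz).1], (h z hz).2⟩

theorem c2g_fn (hd : D.Fn d) (hv : D.Fn v) (hΘ : Nice Θ L M) (hξ : D.Fn ξ)
    (h01 : ∀ z ∈ D.G, ξ z ∈ Icc (0 : ℝ) 1) : D.Fn fun z => Θ (d z + v z * I) * ξ z :=
  (hΘ.fn hd hv).mul hξ ⟨1, c2g_le fun _ _ => hΘ.mem _⟩ ⟨1, c2g_le h01⟩

theorem pd_fin (F : Finset D.End) (hS : Str S) (hc : ∀ y ∈ F, Crit S d v c τ y) (hd : D.Fn d)
    (hv : In S v σ) (hΘ : Nice Θ L M) (hξ : In S ξ r) (h01 : ∀ z ∈ D.G, ξ z ∈ Icc (0 : ℝ) 1)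
    (hε : 0 < ε) : ∃ η u, D.Cut η u ∧ (∀ y ∈ F, u y = 1) ∧
      D.om (fun z => η z * (Θ (d z + v z * I) * ξ z)) v ≤ c * ∑ y ∈ F, τ y * r y + ε := by
  have hχ := c2g_fn hd hv.fn hΘ hξ.fn h01
  have hε' : 0 < ε / ((F.card : ℝ) + 1) := by positivity
  have h1 : ∀ y, ∃ W, y ∈ F → W ∈ D.nb y ∧ ∀ η u, D.Cut η u → D.Supp η W →
      D.om (fun z => η z * (Θ (d z + v z * I) * ξ z)) v ≤
        c * (τ y * r y) + ε / ((F.card : ℝ) + 1) := fun y => by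
    by_cases hy : y ∈ F
    · obtain ⟨W, h⟩ := (hc y hy).pd hS hv hΘ hξ h01 hε'
      exact ⟨W, fun _ => h⟩
    · exact ⟨univ, fun h => absurd h hy⟩
  choose W hW using h1
  obtain ⟨U, hU, hd'⟩ := nb_sepF F W fun y hy => (hW y hy).1
  have h2 : ∀ y, ∃ f a, y ∈ F → D.Cut f a ∧ a y = 1 ∧ D.Supp f (U y) := fun y => by
    by_cases hy : y ∈ F
    · obtain ⟨f, a, h⟩ := cut_ex (hU y hy).1
      exact ⟨f, a, fun _ => h⟩
    · exact ⟨fun _ => 0, fun _ => 0, fun h => absurd h hy⟩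
  choose f a hf using h2
  obtain ⟨η, hη, e⟩ := cut_sum F (fun y hy => ⟨(hf y hy).1, (hf y hy).2.2⟩) hd'
  refine ⟨η, _, hη, fun y hy => (hη.val y).resolve_left fun h0 => ?_, ?_⟩
  · have := Finset.single_le_sum (f := fun i => a i y) (fun i hi => ((hf i hi).1.s1_mem y).1) hy
    rw [(hf y hy).2.1] at this
    linarith
  · rw [om_congr (φ' := fun z => ∑ y ∈ F, f y z * (Θ (d z + v z * I) * ξ z))
      (fun z hz => by simp only [e hz, Finset.sum_mul]) fun _ _ => rfl,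
      om_sum F (fun y hy => hχ.wmul (hf y hy).1.wd (hf y hy).1.s1_bd) hv.fn]
    refine (Finset.sum_le_sum fun y hy => (hW y hy).2 _ _ (hf y hy).1
      fun z hz hz' => (hf y hy).2.2 z hz fun h => hz' ((hU y hy).2 h)).trans ?_
    rw [Finset.sum_add_distrib, ← Finset.mul_sum, Finset.sum_const, nsmul_eq_mul,
      add_le_add_iff_left, ← mul_div_assoc, div_le_iff₀ (by positivity)]
    nlinarith

theorem test_in (hS : Str S) (hd : InB S d τ) (hv : In S v σ) (hΘ : Nice Θ L M) (hξ : In S ξ r)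
    (h01 : ∀ z ∈ D.G, ξ z ∈ Icc (0 : ℝ) 1) (hη : D.Cut η u) :
    In S (fun z => η z * (Θ (d z + v z * I) * ξ z)) (fun y => u y * (L * (τ y + σ y) + r y)) ∧
      ∀ z ∈ D.G, η z * (Θ (d z + v z * I) * ξ z) ∈ Icc (0 : ℝ) 1 := by
  refine ⟨?_, fun z hz => ⟨mul_nonneg (hη.mem z).1 (mul_nonneg (hΘ.mem _).1 (h01 z hz).1),
    mul_le_one₀ (hη.mem z).2 (mul_nonneg (hΘ.mem _).1 (h01 z hz).1)
      (mul_le_one₀ (hΘ.mem _).2 (h01 z hz).1 (h01 z hz).2)⟩⟩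
  simpa only [one_mul] using ((hΘ.isIn hS hd hv).mul hξ hS (c2g_le fun _ _ => hΘ.mem _)
    (c2g_le h01)).cut hS hη

theorem test_up {B : ℝ} (F : Finset D.End) (hS : Str S) (hc : ∀ y ∈ F, Crit S d v c τ y)
    (hd : D.Fn d) (hv : In S v σ) (hΘ : Nice Θ L M) (hξ : In S ξ r)
    (h01 : ∀ z ∈ D.G, ξ z ∈ Icc (0 : ℝ) 1) (hs : Seq S e dm τm C)
    (he : ∀ z ∈ D.G, ξ z ≠ 0 → e z = d z)
    (hB : ∀ η u, D.Cut η u → (∀ y ∈ F, u y = 0) → ∀ m,
      D.om (fun z => η z * (Θ (dm m z + v z * I) * ξ z)) v ≤ B) :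
    D.om (fun z => Θ (d z + v z * I) * ξ z) v ≤ c * ∑ y ∈ F, τ y * r y + B := by
  refine le_of_forall_pos_le_add fun ε hε => ?_
  obtain ⟨η, u, hη, hu, h1⟩ := pd_fin F hS hc hd hv hΘ hξ h01 hε
  have hχ := c2g_fn hd hv.fn hΘ hξ.fn h01
  have hχ' := c2g_fn hs.fn hv.fn hΘ hξ.fn h01
  have hm := fun m => c2g_fn (hs.mem m).1.fn hv.fn hΘ hξ.fn h01
  have h2 := ((hΘ.conv hs hv.fn).bmul (fun m => hΘ.fn (hs.mem m).1.fn hv.fn) (hΘ.fn hs.fn hv.fn)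
    (fun m => c2g_le fun _ _ => hΘ.mem _) (c2g_le fun _ _ => hΘ.mem _) hξ.fn
    ⟨1, c2g_le h01⟩).wmul hm hχ' hη.compl.wd
  have h3 := le_of_tendsto' (om_tendsto (fun m => (hm m).wmul hη.compl.wd hη.compl.s1_bd)
    (hχ'.wmul hη.compl.wd hη.compl.s1_bd) hv.fn h2.1)
    (hB _ _ hη.compl fun y hy => by rw [hu y hy, sub_self])
  rw [om_congr (φ' := fun z => η z * (Θ (d z + v z * I) * ξ z) +
    (1 - η z) * (Θ (e z + v z * I) * ξ z)) (fun z hz => by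
      by_cases h0 : ξ z = 0
      · simp [h0]
      · simp only [he z hz h0]
        ring) fun _ _ => rfl, om_add (hχ.wmul hη.wd hη.s1_bd)
    (hχ'.wmul hη.compl.wd hη.compl.s1_bd) hv.fn]
  linarith

/-- a cost that vanishes on the head of `τ` pairs to a small number (`abs_ip_le`, `nl_mono`, `nl_add`) -/
theorem ip_rest {F : Finset D.End} {a b : D.End → ℝ} (hτ : Cost τ) (ha : Cost a) (hb : Sq b)
    (hF : nl (pw F (fun _ => 0) τ) ≤ ε) (h0 : ∀ y ∈ F, τ y * a y = 0) (hl : ∀ y, a y ≤ b y) :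
    ip τ a ≤ ε * nl b := by
  have e : ip τ a = ip (pw F (fun _ => 0) τ) a := tsum_congr fun y => by
    unfold pw
    split_ifs with hy
    · rw [h0 y hy, zero_mul]
    · rfl
  rw [e]
  refine ((le_abs_self _).trans (abs_ip_le (hτ.2.pw F _) ha.2)).trans
    (mul_le_mul hF (nl_mono hb fun y => ?_) (nl_nonneg _) ((nl_nonneg _).trans hF))
  rw [abs_of_nonneg (ha.1 y)]
  exact (hl y).trans (le_abs_self _)

end Vale.P116D
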