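import Vale.Agent.P116D.C2e
import Vale.Agent.P116D.C2g

/-!
C2: the projection lemma and regularity of the conjugate (PROOF69 section 2: PL, REG).
-/

namespace Vale.P116D

open Set Filter Topology MeasureTheory Complex
open scoped ContDiff

variable {D : Dom} {S : Gens D} {φ ψ χ η ξ ζ g d e v w : ℂ → ℝ} {s σ r τ u : D.End → ℝ}
  {y : D.End} {U V O : Set ℂ} {z : ℂ} {Θ : ℂ → ℝ} {L M c ε κ ρ C : ℝ} {dm : ℕ → ℂ → ℝ}
  {τm : ℕ → D.End → ℝ} {x : ℕ → (ℂ → ℝ) × (D.End → ℝ) × ℝ}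

theorem pl {c a b δ ε : ℝ} (hS : Str S) (hU : U ∈ D.nb y)
    (hc : ∀ y', U ∈ D.nb y' → Crit S d v c τ y') (hv : In S v σ) (hφ : InB S φ s)
    (ha : Adm S y φ a b) (hδ : 0 < δ) (hε : 0 < ε) : ∃ W ∈ D.nb y,
      volume (v '' {z ∈ W ∩ D.G | φ z ∉ Icc (a - δ) (b + δ)}) ≤ ENNReal.ofReal ε := by
  classical
  have hy := hc y hU
  have c0 := hy.c0
  obtain ⟨-, e, dm, τm, C, -, hed, hs, -⟩ := hy.split hS
  obtain ⟨U₁, hU₁, hloc⟩ := hy.loc (ε / 2) (by positivity)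
  obtain ⟨V, hV, hVo, hol⟩ := hy.hol
  obtain ⟨η₀, u₀, hη₀, hu₀, hs₀⟩ := cut_ex hU
  have n1 := nl_nonneg τ
  have n2 := nr_nonneg D v
  set ε₁ := ε / 2 / (c * nl τ + D.nr v + 1) with hε₁
  have hε₁0 : 0 < ε₁ := by positivity
  have hε₁' : c * (nl τ * ε₁) + ε₁ * D.nr v ≤ ε / 2 := by
    have : ε₁ * (c * nl τ + D.nr v + 1) = ε / 2 := by rw [hε₁]; field_simp
    nlinarith
  have hU₂ : ({z | η₀ z = 1} ∩ U₁ ∩ V ∩ {z | e z = d z}) ∈ D.nb y :=
    inter_mem (inter_mem (inter_mem (hη₀.one_mem hu₀) hU₁) hV) hed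
  obtain ⟨ξ, r, hξ, h01, hsξ, hξ1, hr1, -, hev⟩ := ha.xi hS hφ hδ hε₁0 hU₂
  obtain ⟨W, hW, hWo, hWs, hWG⟩ := nb_open (inter_mem hev hV)
  refine ⟨W, hW, ?_⟩
  by_contra hlt
  obtain ⟨m, -, hm1, hm2⟩ := ENNReal.lt_iff_exists_real_btwn.1 (not_le.1 hlt)
  have hεm : ε < m := (ENNReal.ofReal_lt_ofReal_iff_of_nonneg hε.le).1 hm1
  have hO : IsOpen {z ∈ W ∩ D.G | φ z ∉ Icc (a - δ) (b + δ)} :=
    (hφ.1.fn.contOn.mono inter_subset_right).isOpen_inter_preimage (hWo.inter (G_open D))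
      isClosed_Icc.isOpen_compl
  have h01' : ∀ z ∈ D.G, ξ z ∈ Icc (0 : ℝ) 1 := fun z _ => h01 z
  have hsub : ∀ A : Set ℂ, {z | η₀ z = 1} ∩ U₁ ∩ V ∩ {z | e z = d z} ⊆ A → D.Supp ξ A :=
    fun A hA z hz hzA => hsξ z hz fun h => hzA (hA h)
  obtain ⟨Θ, L, M, hΘ, hlow⟩ := low hy.fd hy.fv hVo hol hξ.fn h01' (hsub V fun z h => h.1.2) hO
    (fun z h => (hWs h.1.1).2) (fun z h => h.1.2) (fun z h => (hWs h.1.1).1 h.2) hm2
  have L0 := hΘ.nonneg
  set K := L * (C + nl σ) + nl r with hK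
  have key : ∀ ε₂ > 0, D.om (fun z => Θ (d z + v z * I) * ξ z) v ≤
      c * (nl τ * ε₁) + (c * (ε₂ * K) + ε / 2) := by
    intro ε₂ hε₂
    obtain ⟨F₀, hF₀⟩ := hy.co.2.tail hε₂
    have hup := test_up (B := c * (ε₂ * K) + ε / 2) ((insert y F₀).filter fun y' => u₀ y' = 1) hS
      (fun y' hy' => hc y' (hη₀.mem_of hs₀ (Finset.mem_filter.1 hy').2)) hy.fd hv hΘ hξ h01' hs
      (fun z hz hne => by
        by_contra h
        exact hne (hsub _ (fun z h => h.2) z hz h)) ?_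
    · have h1 := sum_le_ip hy.co hξ.co ((insert y F₀).filter fun y' => u₀ y' = 1)
      have h2 := (le_abs_self _).trans (abs_ip_le hy.co.2 hξ.co.2)
      have h3 : nl τ * nl r ≤ nl τ * ε₁ := mul_le_mul_of_nonneg_left hr1 n1
      have := mul_le_mul_of_nonneg_left (h1.trans (h2.trans h3)) c0
      linarith
    intro η u hη hu m
    obtain ⟨t1, t2⟩ := test_in hS (hs.mem m) hv hΘ hξ h01' hη
    have hsp : ∀ A : Set ℂ, {z | η₀ z = 1} ∩ U₁ ∩ V ∩ {z | e z = d z} ⊆ A →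
        D.Supp (fun z => η z * (Θ (dm m z + v z * I) * ξ z)) A := fun A hA z hz hzA => by
      simp only [hsub A hA z hz hzA, mul_zero]
    have t3 := t1.supp hS hη₀ (hsp _ fun z h => h.1.1.1)
    have hvan : D.Van y fun z => η z * (Θ (dm m z + v z * I) * ξ z) := by
      filter_upwards [hη.wd.ev y] with z hz
      rw [hz, hu y (Finset.mem_filter.2 ⟨Finset.mem_insert_self _ _, hu₀⟩), zero_mul]
    have t4 := hloc _ _ t3 (fun z hz => abs_le.2 ⟨by linarith [(t2 z hz).1], (t2 z hz).2⟩)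
      (hsp _ fun z h => h.1.1.2) hvan
    have hb : Cost fun y' => L * (τm m y' + σ y') + r y' :=
      (((hs.mem m).1.co.add hv.co).cmul L0).add hξ.co
    have t5 := ip_rest (F := F₀) hy.co t3.co hb.2 (hF₀ F₀ Finset.Subset.rfl) (fun y' hy' => by
      rcases hη₀.val y' with h | h
      · simp only [h, zero_mul, mul_zero]
      · simp only [hu y' (Finset.mem_filter.2 ⟨Finset.mem_insert_of_mem hy', h⟩), zero_mul,
          mul_zero]) (fun y' => by
      have := hb.1 y'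
      rcases hη₀.val y' with h | h <;> rcases hη.val y' with h' | h' <;> simp only [h, h'] <;>
        linarith)
    have t6 : nl (fun y' => L * (τm m y' + σ y') + r y') ≤ K := by
      have a1 := nl_add (((hs.mem m).1.co.2.add hv.co.2).cmul L) hξ.co.2
      have a2 := nl_add (hs.mem m).1.co.2 hv.co.2
      rw [nl_cmul, abs_of_nonneg L0] at a1
      have a3 := mul_le_mul_of_nonneg_left (a2.trans (add_le_add (hs.le m) le_rfl)) L0
      linarith
    have := mul_le_mul_of_nonneg_left (t5.trans (mul_le_mul_of_nonneg_left t6 hε₂.le)) c0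
    linarith
  have hξ2 : D.nr ξ * D.nr v ≤ ε₁ * D.nr v := mul_le_mul_of_nonneg_right hξ1 n2
  have p0 : 0 < c * |K| + 1 := by positivity
  have k1 := key ((m - ε) / (c * |K| + 1)) (div_pos (by linarith) p0)
  have k2 : c * ((m - ε) / (c * |K| + 1) * K) < m - ε := by
    have q1 : c * K < c * |K| + 1 := by
      have := mul_le_mul_of_nonneg_left (le_abs_self K) c0
      linarith
    have q2 : 0 < (m - ε) / (c * |K| + 1) := div_pos (by linarith) p0
    calc c * ((m - ε) / (c * |K| + 1) * K) = (m - ε) / (c * |K| + 1) * (c * K) := by ring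
      _ < (m - ε) / (c * |K| + 1) * (c * |K| + 1) := mul_lt_mul_of_pos_left q1 q2
      _ = m - ε := by field_simp
  linarith

theorem reg_adm {c a b M : ℝ} {T : ℝ → ℝ} (hS : Str S) (hU : U ∈ D.nb y)
    (hc : ∀ y', U ∈ D.nb y' → Crit S d v c τ y') (hv : In S v σ) (hT : ContDiff ℝ ∞ T)
    (h1 : ∀ x, |deriv T x| ≤ 1) (hM : ∀ x, |T x| ≤ M) (ha : Adm S y (fun z => T (v z)) a b) :
    D.osc y (fun z => T (v z)) ≤ b - a := by
  have hφ := hv.comp hS hT zero_le_one h1 hM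
  have hab := ha.le
  refine le_of_forall_pos_le_add fun ε hε => ?_
  obtain ⟨W, hW, hvol⟩ := pl hS hU hc hv hφ ha (δ := ε / 4) (ε := ε / 2) (by positivity)
    (by positivity)
  have hsub := Ioo_sub_image hφ.1.fn.contOn hφ.2 hW
  have hL : LipschitzWith 1 T := LipschitzWith.of_dist_le_mul fun x x' => by
    simpa [Real.dist_eq] using lip_of_deriv hT h1 x x'
  set A := v '' {z ∈ W ∩ D.G | T (v z) ∉ Icc (a - ε / 4) (b + ε / 4)} with hA
  have h2 : volume (T '' A) ≤ volume A := by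
    have := hL.hausdorffMeasure_image_le (d := 1) zero_le_one A
    simpa [hausdorffMeasure_real] using this
  have h3 : Ioo (D.lo y fun z => T (v z)) (D.hi y fun z => T (v z)) ⊆
      Icc (a - ε / 4) (b + ε / 4) ∪ T '' A := by
    intro t ht
    obtain ⟨z, hz, rfl⟩ := hsub ht
    by_cases h : T (v z) ∈ Icc (a - ε / 4) (b + ε / 4)
    · exact Or.inl h
    · exact Or.inr ⟨v z, ⟨z, ⟨hz, h⟩, rfl⟩, rfl⟩
  have h4 := (measure_mono (μ := volume) h3).trans
    ((measure_union_le _ _).trans (add_le_add le_rfl (h2.trans hvol)))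
  rw [Real.volume_Ioo, Real.volume_Icc, ← ENNReal.ofReal_add (by linarith) (by positivity),
    ENNReal.ofReal_le_ofReal_iff (by linarith)] at h4
  unfold Dom.osc
  linarith

end Vale.P116D
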