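import Vale.Agent.P116D.TDefs

/-!
C2a: construction of test functions.  `IsCompact.induction_on`.  Empty set: `Θ = 0`.  Near a
point `t₀ = p.im`, `p ∈ P`: a closed square around `p` lies in `P`; `Θ q = T q.re * g q.im` with a step
`T` (`step_ex`) and a bump `g` (`bump_ex`).  Union: `Θ = 1 - (1 - Θ₁) * (1 - Θ₂)`, `Q = Q₁ ∪ Q₂`,
`L = L₁ + L₂`, `M`, `X` the maxima.
-/

namespace Vale.P116D

open Set Filter Topology MeasureTheory Complex
open scoped ContDiff

variable {D : Dom} {S : Gens D} {φ ψ χ η ξ ζ g d e v w : ℂ → ℝ} {s σ r τ u : D.End → ℝ}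
  {y : D.End} {U V O : Set ℂ} {z : ℂ} {Θ : ℂ → ℝ} {L M c ε κ ρ C : ℝ} {dm : ℕ → ℂ → ℝ}
  {τm : ℕ → D.End → ℝ} {x : ℕ → (ℂ → ℝ) × (D.End → ℝ) × ℝ}

/-- The conclusion of `nice_ex` as a property of the set of levels. -/
def C2aPr (P : Set ℂ) (A : Set ℝ) : Prop :=
  ∃ (Θ : ℂ → ℝ) (L M X : ℝ) (Q : Set ℂ), Nice Θ L M ∧ IsCompact Q ∧ Q ⊆ P ∧
      (∀ p, p ∉ Q → fderiv ℝ Θ p 1 = 0) ∧ (∀ p : ℂ, p.re ≤ -X → Θ p = 0) ∧
      ∀ p : ℂ, X ≤ p.re → p.im ∈ A → Θ p = 1

theorem C2a_empty (P : Set ℂ) : C2aPr P ∅ := by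
  refine ⟨fun _ => 0, 0, 0, 0, ∅, ⟨contDiff_const, fun _ => ⟨le_rfl, zero_le_one⟩, fun p => ?_,
    fun _ => monotone_const, fun _ _ => rfl⟩, isCompact_empty, empty_subset _, fun p _ => ?_,
    fun _ _ => rfl, fun _ _ h => h.elim⟩
  · simp
  · simp

theorem C2a_mono {P : Set ℂ} {A B : Set ℝ} (h : A ⊆ B) (hB : C2aPr P B) : C2aPr P A := by
  obtain ⟨Θ, L, M, X, Q, h1, h2, h3, h4, h5, h6⟩ := hB
  exact ⟨Θ, L, M, X, Q, h1, h2, h3, h4, h5, fun p hp hA => h6 p hp (h hA)⟩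

theorem C2a_union {P : Set ℂ} {A B : Set ℝ} (hA : C2aPr P A) (hB : C2aPr P B) :
    C2aPr P (A ∪ B) := by
  obtain ⟨Θ₁, L₁, M₁, X₁, Q₁, a1, a2, a3, a4, a5, a6⟩ := hA
  obtain ⟨Θ₂, L₂, M₂, X₂, Q₂, b1, b2, b3, b4, b5, b6⟩ := hB
  have hd : ∀ p, HasFDerivAt (fun p => 1 - (1 - Θ₁ p) * (1 - Θ₂ p))
      ((1 - Θ₁ p) • fderiv ℝ Θ₂ p + (1 - Θ₂ p) • fderiv ℝ Θ₁ p) p := by
    intro p
    have d1 : HasFDerivAt Θ₁ (fderiv ℝ Θ₁ p) p :=
      (a1.sm.differentiable (by simp)).differentiableAt.hasFDerivAt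
    have d2 : HasFDerivAt Θ₂ (fderiv ℝ Θ₂ p) p :=
      (b1.sm.differentiable (by simp)).differentiableAt.hasFDerivAt
    have := ((d1.const_sub 1).mul (d2.const_sub 1)).const_sub 1
    refine this.congr_fderiv ?_
    ext v <;> simp <;> ring
  refine ⟨fun p => 1 - (1 - Θ₁ p) * (1 - Θ₂ p), L₁ + L₂, max M₁ M₂, max X₁ X₂, Q₁ ∪ Q₂,
    ⟨?_, fun p => ?_, fun p => ?_, fun t x x' hx => ?_, fun p hp => ?_⟩, a2.union b2,
    union_subset a3 b3, fun p hp => ?_, fun p hp => ?_, fun p hp hp' => ?_⟩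
  · exact contDiff_const.sub ((contDiff_const.sub a1.sm).mul (contDiff_const.sub b1.sm))
  · obtain ⟨u1, u2⟩ := a1.mem p
    obtain ⟨v1, v2⟩ := b1.mem p
    constructor <;> nlinarith
  · obtain ⟨u1, u2⟩ := a1.mem p
    obtain ⟨v1, v2⟩ := b1.mem p
    rw [(hd p).fderiv]
    refine (norm_add_le _ _).trans ?_
    rw [norm_smul, norm_smul, Real.norm_of_nonneg (by linarith), Real.norm_of_nonneg (by linarith)]
    have e1 := a1.lip p
    have e2 := b1.lip p
    have n1 := norm_nonneg (fderiv ℝ Θ₁ p)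
    have n2 := norm_nonneg (fderiv ℝ Θ₂ p)
    nlinarith
  · have e1 := a1.mono t hx
    have e2 := b1.mono t hx
    obtain ⟨u1, u2⟩ := a1.mem (x' + t * I)
    obtain ⟨v1, v2⟩ := b1.mem (x' + t * I)
    have := mul_le_mul (sub_le_sub_left e1 1) (sub_le_sub_left e2 1) (by linarith)
      (by linarith [(a1.mem (x + t * I)).2])
    simp only at this ⊢
    linarith
  · rw [a1.van p ((le_max_left _ _).trans hp), b1.van p ((le_max_right _ _).trans hp)]
    ring
  · rw [(hd p).fderiv]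
    simp only [mem_union, not_or] at hp
    simp [a4 p hp.1, b4 p hp.2]
  · simp only
    rw [a5 p (hp.trans (neg_le_neg (le_max_left _ _))),
      b5 p (hp.trans (neg_le_neg (le_max_right _ _)))]
    ring
  · simp only
    rcases hp' with h | h
    · rw [a6 p ((le_max_left _ _).trans hp) h]; ring
    · rw [b6 p ((le_max_right _ _).trans hp) h]; ring

theorem C2a_loc {P : Set ℂ} (hP : IsOpen P) {p : ℂ} (hp : p ∈ P) :
    ∃ δ > 0, C2aPr P (Icc (p.im - δ) (p.im + δ)) := by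
  obtain ⟨r, hr, hsub⟩ := Metric.nhds_basis_closedBall.mem_iff.1 (hP.mem_nhds hp)
  obtain ⟨T, C₁, t1, t2, t3, t4, t5, -⟩ :=
    step_ex (a := p.re - r / 2) (b := p.re + r / 2) (by linarith)
  obtain ⟨g, g1, g2, ⟨C₂, g3⟩, g4⟩ := bump_ex (a' := p.im - r / 2) (a := p.im - r / 4)
    (b := p.im + r / 4) (b' := p.im + r / 2) (by linarith) (by linarith) (by linarith)
  have hd : ∀ q : ℂ, HasFDerivAt (fun q : ℂ => T q.re * g q.im)
      (T q.re • (deriv g q.im • imCLM) + g q.im • (deriv T q.re • reCLM)) q := by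
    intro q
    have d1 : HasDerivAt T (deriv T q.re) q.re :=
      (t1.differentiable (by simp)).differentiableAt.hasDerivAt
    have d2 : HasDerivAt g (deriv g q.im) q.im :=
      (g1.1.differentiable (by simp)).differentiableAt.hasDerivAt
    have e1 := d1.comp_hasFDerivAt q reCLM.hasFDerivAt
    have e2 := d2.comp_hasFDerivAt q imCLM.hasFDerivAt
    exact e1.mul e2
  have hg0 : ∀ t, r / 2 < |t - p.im| → g t = 0 := by
    intro t ht
    by_contra hne
    have := g1.2 t hne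
    have : |t - p.im| ≤ r / 2 := abs_le.2 ⟨by linarith [this.1], by linarith [this.2]⟩
    linarith
  refine ⟨r / 4, by linarith, fun q => T q.re * g q.im, C₂ + C₁, |p.im| + r, |p.re| + r,
    Metric.closedBall p r, ⟨?_, fun q => ?_, fun q => ?_, fun t x x' hx => ?_, fun q hq => ?_⟩,
    isCompact_closedBall p r, hsub, fun q hq => ?_, fun q hq => ?_, fun q hq hq' => ?_⟩
  · exact (t1.comp reCLM.contDiff).mul (g1.1.comp imCLM.contDiff)
  · obtain ⟨u1, u2⟩ := t2 q.re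
    obtain ⟨v1, v2⟩ := g2 q.im
    constructor <;> nlinarith
  · obtain ⟨u1, u2⟩ := t2 q.re
    obtain ⟨v1, v2⟩ := g2 q.im
    rw [(hd q).fderiv]
    refine (norm_add_le _ _).trans ?_
    rw [norm_smul, norm_smul, norm_smul, norm_smul, Real.norm_of_nonneg u1,
      Real.norm_of_nonneg v1, imCLM_norm, reCLM_norm, Real.norm_eq_abs,
      Real.norm_of_nonneg (t3 q.re).1]
    have e1 := g3 q.im
    have e2 := t3 q.re
    have n1 := abs_nonneg (deriv g q.im)
    nlinarith [e2.1, e2.2]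
  · have hm : Monotone T :=
      monotone_of_deriv_nonneg (t1.differentiable (by simp)) fun x => (t3 x).1
    have := mul_le_mul_of_nonneg_right (hm hx) (g2 t).1
    simpa using this
  · have : r / 2 < |q.im - p.im| := by
      have := abs_sub_abs_le_abs_sub q.im p.im
      linarith
    rw [hg0 _ this, mul_zero]
  · rw [(hd q).fderiv]
    have hq' : r < ‖q - p‖ := by simpa [dist_eq_norm] using hq
    have hn := norm_le_abs_re_add_abs_im (q - p)
    rw [sub_re, sub_im] at hn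
    by_cases him : r / 2 < |q.im - p.im|
    · simp [hg0 _ him]
    · have hre : r / 2 < |q.re - p.re| := by linarith
      have hT : deriv T q.re = 0 := by
        rcases lt_abs.1 hre with h | h
        · have : T =ᶠ[𝓝 q.re] fun _ => 1 := by
            filter_upwards [Ioi_mem_nhds (show p.re + r / 2 < q.re by linarith)] with x hx
            exact t5 x (le_of_lt hx)
          rw [this.deriv_eq, deriv_const]
        · have : T =ᶠ[𝓝 q.re] fun _ => 0 := by
            filter_upwards [Iio_mem_nhds (show q.re < p.re - r / 2 by linarith)] with x hx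
            exact t4 x (le_of_lt hx)
          rw [this.deriv_eq, deriv_const]
      simp [hT]
  · have : q.re ≤ p.re - r / 2 := by linarith [neg_abs_le p.re]
    simp only
    rw [t4 _ this, zero_mul]
  · have : p.re + r / 2 ≤ q.re := by linarith [le_abs_self p.re]
    simp only
    rw [t5 _ this, g4 _ hq', one_mul]

theorem nice_ex {P : Set ℂ} {A : Set ℝ} (hP : IsOpen P) (hA : IsCompact A) (h : A ⊆ im '' P) :
    ∃ (Θ : ℂ → ℝ) (L M X : ℝ) (Q : Set ℂ), Nice Θ L M ∧ IsCompact Q ∧ Q ⊆ P ∧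
      (∀ p, p ∉ Q → fderiv ℝ Θ p 1 = 0) ∧ (∀ p : ℂ, p.re ≤ -X → Θ p = 0) ∧
      ∀ p : ℂ, X ≤ p.re → p.im ∈ A → Θ p = 1 := by
  refine hA.induction_on (p := C2aPr P) (C2a_empty P) (fun _ _ h1 h2 => C2a_mono h1 h2)
    (fun _ _ h1 h2 => C2a_union h1 h2) fun t ht => ?_
  obtain ⟨p, hp, rfl⟩ := h ht
  obtain ⟨δ, hδ, hpr⟩ := C2a_loc hP hp
  exact ⟨_, mem_nhdsWithin_of_mem_nhds (Icc_mem_nhds (by linarith) (by linarith)), hpr⟩

end Vale.P116D
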