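import Vale.Agent.P116D.C2a

/-!
C2b: the mass of the derivative of a test function.  `Nice.dx_nonneg`: a monotone function has a
nonnegative derivative (`Monotone.deriv_nonneg` or slopes).  `nice_int`: Fubini through
`Complex.volume_preserving_equiv_real_prod` (`integral_prod_symm`), on each horizontal line
`∫ x, fderiv Θ (x + t I) 1 = Θ (Y + t I) - Θ (-Y + t I)` for large `Y`
(`intervalIntegral.integral_eq_sub_of_hasDerivAt`), which is nonnegative and is one for `t ∈ A`.
`rect_ex`: `im '' P` is open (`isOpenMap_im`), inner regularity `IsOpen.exists_lt_isCompact`.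
-/

namespace Vale.P116D

open Set Filter Topology MeasureTheory Complex
open scoped ContDiff

variable {D : Dom} {S : Gens D} {φ ψ χ η ξ ζ g d e v w : ℂ → ℝ} {s σ r τ u : D.End → ℝ}
  {y : D.End} {U V O : Set ℂ} {z : ℂ} {Θ : ℂ → ℝ} {L M c ε κ ρ C : ℝ} {dm : ℕ → ℂ → ℝ}
  {τm : ℕ → D.End → ℝ} {x : ℕ → (ℂ → ℝ) × (D.End → ℝ) × ℝ}

theorem c2b_line (h : Nice Θ L M) (t x : ℝ) :
    HasDerivAt (fun x : ℝ => Θ (x + t * I)) (fderiv ℝ Θ (x + t * I) 1) x := by
  have h1 : HasDerivAt (fun x : ℝ => (x : ℂ) + t * I) 1 x := by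
    simpa using (Complex.ofRealCLM.hasDerivAt (x := x)).add_const (t * I)
  exact ((h.sm.differentiable (by simp)) _).hasFDerivAt.comp_hasDerivAt x h1

theorem Nice.dx_nonneg (h : Nice Θ L M) (p : ℂ) : 0 ≤ fderiv ℝ Θ p 1 := by
  have h1 := (c2b_line h p.im p.re).nonneg_of_monotone (h.mono p.im)
  rwa [re_add_im] at h1

theorem Nice.dx_cont (h : Nice Θ L M) : Continuous fun p => fderiv ℝ Θ p 1 :=
  (h.sm.continuous_fderiv (by simp)).clm_apply continuous_const

theorem Nice.nonneg (h : Nice Θ L M) : 0 ≤ L := (norm_nonneg _).trans (h.lip 0)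

theorem nice_int {A : Set ℝ} {X : ℝ} {Q : Set ℂ} (h : Nice Θ L M) (hA : IsCompact A)
    (hQ : IsCompact Q) (h0 : ∀ p, p ∉ Q → fderiv ℝ Θ p 1 = 0) (h1 : ∀ p : ℂ, p.re ≤ -X → Θ p = 0)
    (h2 : ∀ p : ℂ, X ≤ p.re → p.im ∈ A → Θ p = 1) :
    (volume A).toReal ≤ ∫ p, fderiv ℝ Θ p 1 := by
  have hc : HasCompactSupport fun p => fderiv ℝ Θ p 1 := HasCompactSupport.intro hQ h0
  have hi : Integrable fun p => fderiv ℝ Θ p 1 := h.dx_cont.integrable_of_hasCompactSupport hc
  have hm := Complex.volume_preserving_equiv_real_prod.symm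
  have hi' : Integrable (fun q : ℝ × ℝ => fderiv ℝ Θ (q.1 + q.2 * I) 1)
      ((volume : Measure ℝ).prod volume) := by
    have := (hm.integrable_comp_emb (MeasurableEquiv.measurableEmbedding _)).2 hi
    refine this.congr (Eventually.of_forall fun q => ?_)
    simp [Function.comp, Complex.measurableEquivRealProd_symm_apply, Complex.mk_eq_add_mul_I]
  have e1 : ∫ p, fderiv ℝ Θ p 1 = ∫ t : ℝ, ∫ x : ℝ, fderiv ℝ Θ (x + t * I) 1 := by
    rw [← hm.integral_comp' (fun p => fderiv ℝ Θ p 1), ← integral_prod_symm _ hi']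
    refine integral_congr_ae (Eventually.of_forall fun q => ?_)
    simp [Complex.measurableEquivRealProd_symm_apply, Complex.mk_eq_add_mul_I]
  have e2 : (volume A).toReal = ∫ t, A.indicator (fun _ => (1 : ℝ)) t := by
    rw [integral_indicator hA.measurableSet]
    simp [Measure.real]
  rw [e1, e2]
  refine integral_mono_ae ((integrable_indicator_iff hA.measurableSet).2
    (integrableOn_const hA.measure_lt_top.ne)) hi'.integral_prod_right ?_
  filter_upwards [hi'.prod_left_ae] with t ht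
  by_cases hA' : t ∈ A
  · rw [indicator_of_mem hA']
    have e3 : ∫ x in (-|X|)..|X|, fderiv ℝ Θ (x + t * I) 1 = 1 := by
      rw [intervalIntegral.integral_eq_sub_of_hasDerivAt (fun x _ => c2b_line h t x)
        ht.intervalIntegrable, h2 _ (by simpa using le_abs_self X) (by simpa using hA'),
        h1 _ (by simpa using le_abs_self X), sub_zero]
    rw [← e3, intervalIntegral.integral_of_le (by linarith [abs_nonneg X])]
    exact setIntegral_le_integral ht (Eventually.of_forall fun x => h.dx_nonneg _)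
  · rw [indicator_of_notMem hA']
    exact integral_nonneg fun x => h.dx_nonneg _

theorem rect_ex {P : Set ℂ} {m : ℝ} (hP : IsOpen P) (hm : ENNReal.ofReal m < volume (im '' P)) :
    ∃ (Θ : ℂ → ℝ) (L M : ℝ) (Q : Set ℂ), Nice Θ L M ∧ IsCompact Q ∧ Q ⊆ P ∧
      (∀ p, p ∉ Q → fderiv ℝ Θ p 1 = 0) ∧ m ≤ ∫ p, fderiv ℝ Θ p 1 := by
  obtain ⟨A, hAP, hA, hlt⟩ := (isOpenMap_im P hP).exists_lt_isCompact hm
  obtain ⟨Θ, L, M, X, Q, h, hQ, hQP, h0, h1, h2⟩ := nice_ex hP hA hAP
  refine ⟨Θ, L, M, Q, h, hQ, hQP, h0, le_trans ?_ (nice_int h hA hQ h0 h1 h2)⟩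
  exact (ENNReal.ofReal_le_iff_le_toReal hA.measure_lt_top.ne).1 hlt.le

end Vale.P116D
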