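import Vale.Agent.P116D.TDefs

/-!
C2c: the critical values of a holomorphic function are countable.  `O' = {z ∈ O | deriv F z ≠ 0}`.
`F '' O'` is open by `HasStrictDerivAt.map_nhds_eq` (analytic functions are strictly
differentiable).  At a point of `O \ O'` either `deriv F` vanishes near the point, then `F` is
constant on a ball, or it has no other zero nearby (`AnalyticAt.eventually_eq_zero_or_eventually_ne_zero`);
so each point `z` of `O \ O'` has a neighbourhood `N` with `F '' (N ∩ (O \ O')) ⊆ {F z}`, and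
`TopologicalSpace.countable_cover_nhdsWithin` shows that `F '' (O \ O')` is countable.
-/

namespace Vale.P116D

open Set Filter Topology MeasureTheory Complex
open scoped ContDiff

variable {D : Dom} {S : Gens D} {φ ψ χ η ξ ζ g d e v w : ℂ → ℝ} {s σ r τ u : D.End → ℝ}
  {y : D.End} {U V O : Set ℂ} {z : ℂ} {Θ : ℂ → ℝ} {L M c ε κ ρ C : ℝ} {dm : ℕ → ℂ → ℝ}
  {τm : ℕ → D.End → ℝ} {x : ℕ → (ℂ → ℝ) × (D.End → ℝ) × ℝ}

theorem c2c_loc {F : ℂ → ℂ} (hO : IsOpen O) (hF : DifferentiableOn ℂ F O) (hz : z ∈ O) :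
    {p | F p = F z} ∈ 𝓝[{p ∈ O | deriv F p = 0}] z := by
  rcases ((hF.analyticOnNhd hO).deriv z hz).eventually_eq_zero_or_eventually_ne_zero with h | h
  · obtain ⟨δ, hδ, hb⟩ := Metric.mem_nhds_iff.1 (inter_mem h (hO.mem_nhds hz))
    refine mem_nhdsWithin_of_mem_nhds (mem_of_superset (Metric.ball_mem_nhds z hδ) fun p hp => ?_)
    exact Metric.isOpen_ball.is_const_of_deriv_eq_zero (convex_ball z δ).isPreconnected
      (hF.mono fun q hq => (hb hq).2) (fun q hq => (hb hq).1) hp (Metric.mem_ball_self hδ)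
  · rw [eventually_nhdsWithin_iff] at h
    refine eventually_nhdsWithin_iff.2 (h.mono fun p hp hp' => ?_)
    by_cases e : p = z
    · rw [e]
    · exact absurd hp'.2 (hp e)

theorem img_open {F : ℂ → ℂ} (hO : IsOpen O) (hF : DifferentiableOn ℂ F O) :
    ∃ O' ⊆ O, IsOpen O' ∧ IsOpen (F '' O') ∧
      volume (im '' (F '' O)) ≤ volume (im '' (F '' O')) := by
  have ha := hF.analyticOnNhd hO
  have ho : IsOpen (O ∩ deriv F ⁻¹' {0}ᶜ) :=
    ha.deriv.continuousOn.isOpen_inter_preimage hO isOpen_compl_singleton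
  refine ⟨O ∩ deriv F ⁻¹' {0}ᶜ, inter_subset_left, ho, isOpen_iff_mem_nhds.2 ?_, ?_⟩
  · rintro _ ⟨z, hz, rfl⟩
    rw [← (ha z hz.1).hasStrictDerivAt.map_nhds_eq hz.2]
    exact image_mem_map (ho.mem_nhds hz)
  · obtain ⟨t, -, ht, hc⟩ := TopologicalSpace.countable_cover_nhdsWithin
      (f := fun z => {p | F p = F z}) (s := {p ∈ O | deriv F p = 0}) fun z hz => c2c_loc hO hF hz.1
    have h0 : volume (im '' (F '' t)) = 0 := ((ht.image F).image im).measure_zero _
    rw [← add_zero (volume (im '' (F '' (O ∩ deriv F ⁻¹' {0}ᶜ)))), ← h0]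
    refine le_trans (measure_mono ?_) (measure_union_le _ _)
    rintro _ ⟨_, ⟨z, hz, rfl⟩, rfl⟩
    by_cases e : deriv F z = 0
    · obtain ⟨q, hq, hq'⟩ := mem_iUnion₂.1 (hc ⟨hz, e⟩)
      exact Or.inr ⟨_, ⟨q, hq, hq'.symm⟩, rfl⟩
    · exact Or.inl ⟨_, ⟨z, ⟨hz, e⟩, rfl⟩, rfl⟩

end Vale.P116D
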