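import Vale.Agent.P116D.C2b

/-!
C2d: calculus of the test functions `Θ (d + i v)`.  Convert to functions on `Fin 2 → ℝ` by
`Θ' p = Θ (p 0 + p 1 * I)` (`Nice.two`; the linear map has norm at most two) and use `fn_compN`,
`conv_compN`, `in_lip`.  `Nice.clamp`: `clamp_ex` on `[-|M| - 1, |M| + 1]`; it is monotone
(`mono_of_deriv`), so `|t| ≥ |M| + 1` gives `|T t| ≥ |M| + 1` and both sides vanish.
`Nice.isIn`: replace `v` by `T v` (`In.comp`), Lipschitz bound `L * (|Δ re| + |Δ im|)` (`Nice.lips`).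
-/

namespace Vale.P116D

open Set Filter Topology MeasureTheory Complex
open scoped ContDiff

variable {D : Dom} {S : Gens D} {φ ψ χ η ξ ζ g d e v w : ℂ → ℝ} {s σ r τ u : D.End → ℝ}
  {y : D.End} {U V O : Set ℂ} {z : ℂ} {Θ : ℂ → ℝ} {L M c ε κ ρ C : ℝ} {dm : ℕ → ℂ → ℝ}
  {τm : ℕ → D.End → ℝ} {x : ℕ → (ℂ → ℝ) × (D.End → ℝ) × ℝ}

/-- the linear map from pairs to complex numbers -/
noncomputable def c2dA : (Fin 2 → ℝ) →L[ℝ] ℂ :=
  (ContinuousLinearMap.proj (R := ℝ) (φ := fun _ : Fin 2 => ℝ) 0).smulRight (1 : ℂ) +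
    (ContinuousLinearMap.proj (R := ℝ) (φ := fun _ : Fin 2 => ℝ) 1).smulRight I

theorem c2dA_apply (p : Fin 2 → ℝ) : c2dA p = p 0 + p 1 * I := by
  simp [c2dA]

theorem c2d_norm (a b : ℝ) : ‖(a : ℂ) + b * I‖ ≤ |a| + |b| := by
  simpa using norm_le_abs_re_add_abs_im ((a : ℂ) + b * I)

theorem c2dA_norm : ‖c2dA‖ ≤ 2 := by
  refine ContinuousLinearMap.opNorm_le_bound _ (by norm_num) fun p => ?_
  rw [c2dA_apply]
  have h0 := norm_le_pi_norm p 0
  have h1 := norm_le_pi_norm p 1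
  rw [Real.norm_eq_abs] at h0 h1
  linarith [c2d_norm (p 0) (p 1)]

theorem c2d_lin (f : ℂ →L[ℝ] ℝ) (a b : ℝ) : f (a + b * I) = a * f 1 + b * f I := by
  have e : (a : ℂ) + b * I = a • (1 : ℂ) + b • I := by simp
  rw [e, map_add, map_smul, map_smul, smul_eq_mul, smul_eq_mul]

theorem Nice.c2d_diff (h : Nice Θ L M) : Differentiable ℝ Θ := h.sm.differentiable (by simp)

theorem Nice.c2d_nonneg (h : Nice Θ L M) : 0 ≤ L := (norm_nonneg _).trans (h.lip 0)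

theorem Nice.lips (h : Nice Θ L M) (a b a' b' : ℝ) :
    |Θ (a + b * I) - Θ (a' + b' * I)| ≤ L * (|a - a'| + |b - b'|) := by
  have h1 := (convex_univ (𝕜 := ℝ) (E := ℂ)).norm_image_sub_le_of_norm_fderiv_le
    (fun x _ => h.c2d_diff x) (fun x _ => h.lip x) (mem_univ ((a' : ℂ) + b' * I))
    (mem_univ ((a : ℂ) + b * I))
  have e : (a : ℂ) + b * I - (a' + b' * I) = ((a - a' : ℝ) : ℂ) + ((b - b' : ℝ) : ℂ) * I := by
    push_cast
    ring
  rw [e, Real.norm_eq_abs] at h1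
  exact h1.trans (mul_le_mul_of_nonneg_left (c2d_norm _ _) h.c2d_nonneg)

theorem Nice.two (h : Nice Θ L M) : ContDiff ℝ ∞ (fun p : Fin 2 → ℝ => Θ (p 0 + p 1 * I)) ∧
    ∀ q, ‖fderiv ℝ (fun p : Fin 2 → ℝ => Θ (p 0 + p 1 * I)) q‖ ≤ 2 * L := by
  have e : (fun p : Fin 2 → ℝ => Θ (p 0 + p 1 * I)) = Θ ∘ c2dA := by
    funext p
    rw [Function.comp_apply, c2dA_apply]
  rw [e]
  refine ⟨h.sm.comp c2dA.contDiff, fun q => ?_⟩
  rw [((h.c2d_diff (c2dA q)).hasFDerivAt.comp q c2dA.hasFDerivAt).fderiv, mul_comm]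
  exact (ContinuousLinearMap.opNorm_comp_le _ _).trans
    (mul_le_mul (h.lip _) c2dA_norm (norm_nonneg _) h.c2d_nonneg)

theorem Nice.clamp (h : Nice Θ L M) : ∃ T : ℝ → ℝ, ∃ B, ContDiff ℝ ∞ T ∧ (∀ t, |deriv T t| ≤ 1) ∧
    (∀ t, |T t| ≤ B) ∧ ∀ a t : ℝ, Θ (a + T t * I) = Θ (a + t * I) := by
  have hM := abs_nonneg M
  have hM' := le_abs_self M
  obtain ⟨T, h1, h2, h3, h4, -⟩ := clamp_ex (a := -(|M| + 1)) (b := |M| + 1) (δ := 1)
    (by linarith) one_pos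
  have hm := mono_of_deriv h1 fun x => (h2 x).1
  refine ⟨T, |M| + 2, h1, fun t => ?_, fun t => ?_, fun a t => ?_⟩
  · rw [abs_of_nonneg (h2 t).1]
    exact (h2 t).2
  · have := h4 t
    rw [abs_le]
    constructor <;> linarith [this.1, this.2]
  · have hv : ∀ u : ℝ, M ≤ |u| → Θ (a + u * I) = 0 := fun u hu => h.van _ (by simpa using hu)
    rcases le_total t (|M| + 1) with ht | ht
    · rcases le_total (-(|M| + 1)) t with ht' | ht'
      · rw [h3 t ⟨ht', ht⟩]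
      · have a1 := hm ht'
        rw [h3 _ ⟨le_rfl, by linarith⟩] at a1
        rw [hv (T t) (by linarith [neg_le_abs (T t)]), hv t (by linarith [neg_le_abs t])]
    · have a1 := hm ht
      rw [h3 _ ⟨by linarith, le_rfl⟩] at a1
      rw [hv (T t) (by linarith [le_abs_self (T t)]), hv t (by linarith [le_abs_self t])]

theorem Nice.fn (h : Nice Θ L M) (hd : D.Fn d) (hv : D.Fn v) :
    D.Fn fun z => Θ (d z + v z * I) :=
  fn_compN (f := ![d, v]) (Θ := fun p : Fin 2 → ℝ => Θ (p 0 + p 1 * I))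
    (Fin.forall_fin_two.2 ⟨hd, hv⟩) h.two.1 fun _ _ => h.two.2 _

theorem Nice.wd (h : Nice Θ L M) (hd : DifferentiableAt ℝ d z) (hv : DifferentiableAt ℝ v z) :
    wd (gr (fun z => Θ (d z + v z * I)) z) (gr v z) =
      fderiv ℝ Θ (d z + v z * I) 1 * wd (gr d z) (gr v z) := by
  have h1 : HasFDerivAt (fun z => (d z : ℂ) + v z * I)
      ((fderiv ℝ d z).smulRight (1 : ℂ) + (fderiv ℝ v z).smulRight I) z := by
    have a1 := (hd.hasFDerivAt.smul_const (1 : ℂ)).add (hv.hasFDerivAt.smul_const I)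
    refine a1.congr_of_eventuallyEq (Eventually.of_forall fun p => ?_)
    simp
  have h2 : HasFDerivAt (fun z => Θ (d z + v z * I)) _ z :=
    (h.c2d_diff (d z + v z * I)).hasFDerivAt.comp z h1
  have h3 : ∀ p : ℂ, fderiv ℝ (fun z => Θ (d z + v z * I)) z p =
      fderiv ℝ d z p * fderiv ℝ Θ (d z + v z * I) 1 +
        fderiv ℝ v z p * fderiv ℝ Θ (d z + v z * I) I := fun p => by
    rw [h2.fderiv, ← c2d_lin]
    simp
  simp only [P116D.wd, gr, h3]
  ring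

theorem Nice.isIn (h : Nice Θ L M) (hS : Str S) (hd : InB S d τ) (hv : In S v σ) :
    In S (fun z => Θ (d z + v z * I)) fun y => L * (τ y + σ y) := by
  obtain ⟨T, B, h1, h2, h3, h4⟩ := h.clamp
  have a1 := hv.comp hS h1 zero_le_one h2 h3
  have a2 := (in_lip hS (f := ![d, fun z => T (v z)]) (a := ![τ, fun y => 1 * σ y])
    (Θ := fun p : Fin 2 → ℝ => Θ (p 0 + p 1 * I)) (Fin.forall_fin_two.2 ⟨hd, a1⟩) h.two.1
    h.c2d_nonneg fun x x' => by
      rw [Fin.sum_univ_two]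
      exact h.lips _ _ _ _).1
  simp only [Fin.sum_univ_two, Matrix.cons_val_zero, Matrix.cons_val_one, one_mul, h4] at a2
  exact a2

theorem Nice.conv (h : Nice Θ L M) (hs : Seq S e dm τm C) (hv : D.Fn v) :
    D.Conv (fun m z => Θ (dm m z + v z * I)) fun z => Θ (e z + v z * I) :=
  conv_compN (f := ![dm, fun _ => v]) (p := ![e, v])
    (Θ := fun p : Fin 2 → ℝ => Θ (p 0 + p 1 * I))
    (Fin.forall_fin_two.2 ⟨hs.conv, conv_const hv⟩)
    (Fin.forall_fin_two.2 ⟨fun n => (hs.mem n).1.fn, fun _ => hv⟩)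
    (Fin.forall_fin_two.2 ⟨hs.fn, hv⟩) h.two.1 h.two.2

/-- the slices of a test function -/
theorem Nice.slice (h : Nice Θ L M) (a : ℝ) : ContDiff ℝ ∞ (fun t : ℝ => Θ (a + t * I)) ∧
    ∀ t, |deriv (fun t : ℝ => Θ (a + t * I)) t| ≤ L := by
  have h1 : ContDiff ℝ ∞ fun t : ℝ => (a : ℂ) + t * I :=
    contDiff_const.add (ofRealCLM.contDiff.mul contDiff_const)
  refine ⟨h.sm.comp h1, fun t => ?_⟩
  have h2 : HasDerivAt (fun t : ℝ => (a : ℂ) + t * I) I t := by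
    simpa using ((ofRealCLM.hasDerivAt (x := t)).mul_const I).const_add (a : ℂ)
  have h3 : HasDerivAt (fun t : ℝ => Θ (a + t * I)) _ t :=
    (h.c2d_diff (a + t * I)).hasFDerivAt.comp_hasDerivAt t h2
  rw [h3.deriv, ← Real.norm_eq_abs]
  have := (fderiv ℝ Θ (a + t * I)).le_opNorm I
  rw [norm_I, mul_one] at this
  exact this.trans (h.lip _)

end Vale.P116D
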