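import Vale.Agent.P116D.C2c
import Vale.Agent.P116D.C2d

/-!
C2e: the lower bound.  `F z = d z + v z * I`; `v '' O = im '' (F '' O)`.  Take `O'` from `img_open`,
`Θ`, `Q` from `rect_ex` for `P = F '' O'`, `h p = fderiv Θ p 1`.  By `gr_mul` and `Nice.wd` the integrand of
`om (Θ(F) ξ) v` is `Θ(F) * wd (gr ξ) (gr v) + ξ * h(F) * wd (gr d) (gr v)`.  The first integral is at least
`-nr ξ * nr v` (`abs_wd_le`, `int_mul_le`).  The second integrand is nonnegative on `G` (off `V` it is zero, on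
`V` `gr_hol` gives `wd (gr d) (gr v) = ‖deriv F‖ ^ 2`) and equals `h(F) * ‖deriv F‖ ^ 2` on `O'`; then
`area_ineq` and `setIntegral_eq_integral_of_forall_compl_eq_zero`.
-/

namespace Vale.P116D

open Set Filter Topology MeasureTheory Complex
open scoped ContDiff

variable {D : Dom} {S : Gens D} {φ ψ χ η ξ ζ g d e v w : ℂ → ℝ} {s σ r τ u : D.End → ℝ}
  {y : D.End} {U V O : Set ℂ} {z : ℂ} {Θ : ℂ → ℝ} {L M c ε κ ρ C : ℝ} {dm : ℕ → ℂ → ℝ}
  {τm : ℕ → D.End → ℝ} {x : ℕ → (ℂ → ℝ) × (D.End → ℝ) × ℝ}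

theorem C2e_pt (h : Nice Θ L M) (hd : DifferentiableAt ℝ d z) (hv : DifferentiableAt ℝ v z)
    (hξ : DifferentiableAt ℝ ξ z) (hΘ : DifferentiableAt ℝ (fun z => Θ (d z + v z * I)) z) :
    ξ z * (fderiv ℝ Θ (d z + v z * I) 1 * wd (gr d z) (gr v z)) ≤
      wd (gr (fun z => Θ (d z + v z * I) * ξ z) z) (gr v z) + ‖gr ξ z‖ * ‖gr v z‖ := by
  have h1 : wd (gr (fun z => Θ (d z + v z * I) * ξ z) z) (gr v z) =
      Θ (d z + v z * I) * wd (gr ξ z) (gr v z) +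
        ξ z * wd (gr (fun z => Θ (d z + v z * I)) z) (gr v z) := by
    rw [gr_mul hΘ hξ]
    simp only [wd, add_re, add_im, real_smul, re_ofReal_mul, im_ofReal_mul]
    ring
  obtain ⟨h2, h3⟩ := h.mem (d z + v z * I)
  have h4 := neg_le_of_abs_le (abs_wd_le (gr ξ z) (gr v z))
  have h5 : 0 ≤ ‖gr ξ z‖ * ‖gr v z‖ := by positivity
  rw [h1, h.wd hd hv]
  nlinarith [mul_le_mul_of_nonneg_left h4 h2]

theorem C2e_hol (hV : IsOpen V) (hol : DifferentiableOn ℂ (fun z => (d z : ℂ) + v z * I) V)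
    (hz : z ∈ V) : wd (gr d z) (gr v z) = ‖deriv (fun z => (d z : ℂ) + v z * I) z‖ ^ 2 := by
  obtain ⟨-, h1, h2⟩ := gr_hol hV hol hz
  rw [h1, h2, Complex.sq_norm, normSq_apply, dt]

theorem low {m : ℝ} (hd : D.Fn d) (hv : D.Fn v) (hV : IsOpen V)
    (hol : DifferentiableOn ℂ (fun z => (d z : ℂ) + v z * I) V) (hξ : D.Fn ξ)
    (h01 : ∀ z ∈ D.G, ξ z ∈ Icc (0 : ℝ) 1) (hs : D.Supp ξ V) (hO : IsOpen O) (hOV : O ⊆ V)
    (hOG : O ⊆ D.G) (h1 : ∀ z ∈ O, ξ z = 1) (hm : ENNReal.ofReal m < volume (v '' O)) :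
    ∃ Θ L M, Nice Θ L M ∧
      m ≤ D.om (fun z => Θ (d z + v z * I) * ξ z) v + D.nr ξ * D.nr v := by
  obtain ⟨O', hO'O, hO', hF, hvol⟩ := img_open hO (hol.mono hOV)
  have e : im '' ((fun z => (d z : ℂ) + v z * I) '' O) = v '' O := by
    rw [image_image]
    simp
  rw [e] at hvol
  obtain ⟨Θ, L, M, Q, hN, hQ, hQP, h0, hle⟩ := rect_ex hF (hm.trans_le hvol)
  refine ⟨Θ, L, M, hN, hle.trans ?_⟩
  have hO'G : O' ⊆ D.G := hO'O.trans hOG
  have hO'V : O' ⊆ V := hO'O.trans hOV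
  have hΘ := hN.fn hd hv
  have hm' : D.Fn fun z => Θ (d z + v z * I) * ξ z :=
    hΘ.mul hξ ⟨1, fun z _ => abs_le.2 ⟨by linarith [(hN.mem (d z + v z * I)).1], (hN.mem _).2⟩⟩
      ⟨1, fun z hz => abs_le.2 ⟨by linarith [(h01 z hz).1], (h01 z hz).2⟩⟩
  have hi := (int_wd hm' hv).add (int_mul hξ hv)
  have hpt : ∀ z ∈ D.G, ξ z * (fderiv ℝ Θ (d z + v z * I) 1 * wd (gr d z) (gr v z)) ≤
      wd (gr (fun z => Θ (d z + v z * I) * ξ z) z) (gr v z) + ‖gr ξ z‖ * ‖gr v z‖ := fun z hz =>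
    C2e_pt hN (hd.diffAt hz) (hv.diffAt hz) (hξ.diffAt hz) (hΘ.diffAt hz)
  have ha := area_ineq (h := fun p => fderiv ℝ Θ p 1) hO' (hol.mono hO'V)
    (((int_sq hd).mono_set hO'G).congr_fun (fun z hz => by
      simp only [(gr_hol hV hol (hO'V hz)).2.1]) hO'.measurableSet) hN.dx_cont hN.dx_nonneg
    (HasCompactSupport.intro hQ h0)
  rw [setIntegral_eq_integral_of_forall_compl_eq_zero fun p hp => h0 p fun hq => hp (hQP hq)] at ha
  refine ha.trans ?_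
  calc ∫ z in O', fderiv ℝ Θ (d z + v z * I) 1 * ‖deriv (fun z => (d z : ℂ) + v z * I) z‖ ^ 2
      ≤ ∫ z in O', (wd (gr (fun z => Θ (d z + v z * I) * ξ z) z) (gr v z) +
          ‖gr ξ z‖ * ‖gr v z‖) := by
        refine integral_mono_of_nonneg (ae_of_all _ fun z => mul_nonneg (hN.dx_nonneg _) (sq_nonneg _))
          (hi.mono_set hO'G)
          ((ae_restrict_iff' hO'.measurableSet).2 (ae_of_all _ fun z hz => ?_))
        have h2 := hpt z (hO'G hz)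
        rw [h1 z (hO'O hz), one_mul, C2e_hol hV hol (hO'V hz)] at h2
        exact h2
    _ ≤ ∫ z in D.G, (wd (gr (fun z => Θ (d z + v z * I) * ξ z) z) (gr v z) +
          ‖gr ξ z‖ * ‖gr v z‖) := by
        refine setIntegral_mono_set hi ((ae_restrict_iff' (G_meas D)).2 (ae_of_all _ fun z hz => ?_))
          hO'G.eventuallyLE
        refine le_trans ?_ (hpt z hz)
        by_cases hzV : z ∈ V
        · rw [C2e_hol hV hol hzV]
          exact mul_nonneg (h01 z hz).1 (mul_nonneg (hN.dx_nonneg _) (sq_nonneg _))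
        · rw [hs z hz hzV, zero_mul]
          rfl
    _ ≤ _ := by
        rw [integral_add (int_wd hm' hv) (int_mul hξ hv)]
        exact add_le_add le_rfl (int_mul_le hξ hv)

end Vale.P116D
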