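import Vale.Agent.P116D.C1
import Vale.Agent.P116D.C2d

/-!
C2f: positivity followed by duality at one end.  With `T` from `Nice.clamp` apply `Crit.pos_mul`
(`k = 1`, the family `![T ∘ v]`, the function of `Nice.two`, factor `ξ`, error `ε / 3`); it gives `a`.
`H z = Θ (a + v z * I)` has values in `[0, 1]` and cost `L * σ` (`Nice.slice`, `In.comp`).  `sub_const` with
`χ = ξ`, `M = 1`, `ζ = H`, `F = {y}`, a small `δ ≤ 1` gives a wired `η₁` with `|η₁| ≤ 2`;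
`om (η η₁ H) v = 0` by `om_fun`; `H (ξ - η₁) / 3` is bounded by one, so `Crit.dl` (error `ε / 9`) and
`ip_near` (with `C = nl (2 r + 3 L σ)`, independent of `a`) finish the proof.
-/

namespace Vale.P116D

open Set Filter Topology MeasureTheory Complex
open scoped ContDiff

variable {D : Dom} {S : Gens D} {φ ψ χ η ξ ζ g d e v w : ℂ → ℝ} {s σ r τ u : D.End → ℝ}
  {y : D.End} {U V O : Set ℂ} {z : ℂ} {Θ : ℂ → ℝ} {L M c ε κ ρ C : ℝ} {dm : ℕ → ℂ → ℝ}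
  {τm : ℕ → D.End → ℝ} {x : ℕ → (ℂ → ℝ) × (D.End → ℝ) × ℝ}

theorem Crit.pd (h : Crit S d v c τ y) (hS : Str S) (hv : In S v σ) (hΘ : Nice Θ L M)
    (hξ : In S ξ r) (h01 : ∀ z ∈ D.G, ξ z ∈ Icc (0 : ℝ) 1) (hε : 0 < ε) :
    ∃ U ∈ D.nb y, ∀ η u, D.Cut η u → D.Supp η U →
      D.om (fun z => η z * (Θ (d z + v z * I) * ξ z)) v ≤ c * (τ y * r y) + ε := by
  classical
  obtain ⟨T, B, hT, hT1, hTB, hTe⟩ := hΘ.clamp
  have hc := h.c0
  have hL := hΘ.nonneg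
  have h0 : 0 ≤ c * (τ y * r y) := mul_nonneg hc (mul_nonneg (h.co.1 y) (hξ.co.1 y))
  obtain ⟨U₁, hU₁, h1⟩ := h.pos_mul (k := 1) (ξ := fun _ z => T (v z)) (b := fun _ => σ)
    (Θ := fun p : Fin 2 → ℝ => Θ (p 0 + p 1 * I)) hS
    (fun _ => ⟨hS.trunc v σ hv T hT hT1 ⟨B, hTB⟩, B, fun z _ => hTB _⟩) hξ h01 hΘ.two.1
    (fun _ => hΘ.mem _) hΘ.two.2 (fun p => hΘ.mono (p 0)) (by positivity : 0 < ε / 4)
  obtain ⟨U₂, hU₂, h2⟩ := h.dl hS (by positivity : 0 < ε / 12)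
  obtain ⟨U₃, hU₃, h3⟩ := ip_near h.co y (nl fun y' => 2 * r y' + 3 * (L * σ y'))
    (by positivity : 0 < ε / (12 * (c + 1)))
  refine ⟨U₁ ∩ U₂ ∩ U₃, inter_mem (inter_mem hU₁ hU₂) hU₃, fun η u hη hs => ?_⟩
  obtain ⟨a, ha⟩ := h1 η u hη fun z hz hz' => hs z hz fun e => hz' e.1.1
  replace ha : D.om (fun z => η z * (Θ (d z + T (v z) * I) * ξ z)) v ≤
      D.om (fun z => η z * (Θ (a + T (v z) * I) * ξ z)) v + ε / 4 := ha
  simp only [hTe] at ha
  have hb : ∀ t : ℝ, |Θ (a + t * I)| ≤ 1 := fun t =>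
    abs_le.2 ⟨by linarith [(hΘ.mem (a + t * I)).1], (hΘ.mem _).2⟩
  have hH := hv.comp hS (hΘ.slice a).1 hL (hΘ.slice a).2 hb
  obtain ⟨δ, δ0, δ1, δ2⟩ : ∃ δ : ℝ, 0 < δ ∧ δ ≤ 1 ∧ δ * (c * (τ y * r y)) ≤ ε / 4 := by
    refine ⟨min 1 (ε / 4 / (c * (τ y * r y) + 1)), by positivity, min_le_left _ _, ?_⟩
    refine (mul_le_mul (min_le_right _ _) (le_add_of_nonneg_right zero_le_one) h0
      (by positivity)).trans_eq (div_mul_cancel₀ _ (by positivity))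
  obtain ⟨η₁, u₁, g1, g2, -, g3⟩ := sub_const hS hξ (M := 1)
    (fun z hz => abs_le.2 ⟨by linarith [(h01 z hz).1], (h01 z hz).2⟩) hH.1 (fun z _ => hΘ.mem _)
    {y} (fun _ => univ) (fun _ _ => univ_mem) δ0
  have g4 := g3.cmul (1 / 3)
  have g5 := h2 η u hη (fun z hz hz' => hs z hz fun e => hz' e.1.2) _ _ g4 fun z hz => by
    have k1 := abs_le.1 (g2 z hz)
    have k2 := h01 z hz
    have k3 : |ξ z - η₁ z| ≤ 3 := abs_le.2 ⟨by linarith [k2.1], by linarith [k2.2]⟩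
    rw [abs_mul, abs_mul, abs_of_pos (by norm_num : (0 : ℝ) < 1 / 3)]
    linarith [mul_le_mul (hb (v z)) k3 (abs_nonneg _) zero_le_one]
  have g6 := h3 η u hη (fun z hz hz' => hs z hz fun e => hz' e.2) _ g4.co
    (nl_mono ((hξ.co.2.cmul 2).add (hH.1.co.2.cmul 3)) fun y' => by
      have k1 := hξ.co.1 y'
      have k2 := hH.1.co.1 y'
      rw [upd, pw]
      split_ifs with k3 k4
      · rw [abs_zero]
        exact abs_nonneg _
      · exact absurd (Finset.mem_singleton.1 k4) k3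
      · rw [abs_of_pos (by norm_num : (0 : ℝ) < 1 / 3), abs_of_nonneg (by positivity),
          abs_of_nonneg (by positivity)]
        nlinarith)
  rw [pw, if_pos (Finset.mem_singleton_self y), abs_of_pos (by norm_num : (0 : ℝ) < 1 / 3)] at g6
  have g7 := (g4.cut hS hη).fn
  have g8 := hη.wd.mul g1
  have g9 : D.om (fun z => η z * (Θ (a + v z * I) * ξ z)) v =
      3 * D.om (fun z => η z * (1 / 3 * (Θ (a + v z * I) * (ξ z - η₁ z)))) v := by
    rw [← om_cmul g7, ← zero_add (D.om (fun z => 3 * _) v), ← om_fun g8 (hΘ.slice a).1 hb h.fv,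
      ← om_add (hH.1.fn.wmul g8 ⟨_, g8.bd.choose_spec.1⟩) (g7.cmul 3) h.fv]
    congr 1
    funext z
    ring
  have g10 : c * (ε / (12 * (c + 1))) ≤ ε / 12 := by
    rw [← mul_div_assoc, div_le_div_iff₀ (by positivity) (by positivity)]
    nlinarith
  rw [abs_of_pos (by norm_num : (0 : ℝ) < 1 / 3)] at g5
  have g11 := mul_le_mul_of_nonneg_left g6 hc
  linarith [le_abs_self (D.om (fun z => η z * (1 / 3 * (Θ (a + v z * I) * (ξ z - η₁ z)))) v)]

end Vale.P116D
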