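import Vale.Agent.P116D.K9
import Vale.Agent.P116D.K13
import Vale.Agent.P116D.K4

/-!
D0b: energy estimates for the density block.
-/

namespace Vale.P116D

open Set Filter Topology MeasureTheory Complex
open scoped ContDiff

variable {D : Dom} {S : Gens D} {φ ψ χ η g d v w : ℂ → ℝ} {s σ r τ u : D.End → ℝ} {y : D.End}
  {U : Set ℂ} {z : ℂ}

theorem d0b_nrm {μ : Measure ℂ} {a : ℂ → ℝ} (ha : MemLp a 2 μ) :
    √(∫ z, a z ^ 2 ∂μ) = ‖ha.toLp a‖ := by
  rw [← Real.sqrt_sq (norm_nonneg (ha.toLp a)), ← real_inner_self_eq_norm_sq, L2.inner_def]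
  refine congrArg _ (integral_congr_ae ?_)
  filter_upwards [ha.coeFn_toLp] with z hz
  rw [hz, real_inner_self_eq_norm_sq, Real.norm_eq_abs, sq_abs]

theorem d0b_mink {μ : Measure ℂ} {a b f : ℂ → ℝ} (ha : MemLp a 2 μ) (hb : MemLp b 2 μ)
    (h : ∀ᵐ z ∂μ, 0 ≤ f z ∧ f z ≤ a z + b z) :
    √(∫ z, f z ^ 2 ∂μ) ≤ √(∫ z, a z ^ 2 ∂μ) + √(∫ z, b z ^ 2 ∂μ) := by
  rw [d0b_nrm ha, d0b_nrm hb]
  refine le_trans ?_ (norm_add_le _ _)
  rw [← MemLp.toLp_add, ← d0b_nrm (ha.add hb)]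
  refine Real.sqrt_le_sqrt (integral_mono_of_nonneg (Eventually.of_forall fun z => sq_nonneg _)
    (ha.add hb).integrable_sq ?_)
  filter_upwards [h] with z hz using pow_le_pow_left₀ hz.1 hz.2 2

/-- pointwise the gradient is at most `‖gr ψ z‖ + U.indicator (‖gr φ ·‖) z` -/
theorem nr_comp_sub {T : ℝ → ℝ} (hφ : D.Fn φ) (hψ : D.Fn ψ) (hU : MeasurableSet U) (hs : D.Supp ψ U)
    (hT : ContDiff ℝ ∞ T) (h1 : ∀ x, deriv T x ∈ Icc (0 : ℝ) 1) :
    D.nr (fun z => T (φ z + ψ z) - T (φ z)) ≤ D.nr ψ + √(∫ z in U ∩ D.G, ‖gr φ z‖ ^ 2) := by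
  have hd : ∀ x, DifferentiableAt ℝ T x := fun x => hT.differentiable (by simp) x
  have e : ∫ z in U ∩ D.G, ‖gr φ z‖ ^ 2 =
      ∫ z in D.G, U.indicator (fun z => ‖gr φ z‖) z ^ 2 := by
    rw [← Measure.restrict_restrict hU, ← integral_indicator hU]
    refine integral_congr_ae (Eventually.of_forall fun z => ?_)
    by_cases h : z ∈ U
    · simp only [indicator_of_mem h]
    · simp only [indicator_of_notMem h, zero_pow two_ne_zero]
  rw [e]
  refine d0b_mink hψ.l2.norm (hφ.l2.norm.indicator hU) ?_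
  filter_upwards [ae_restrict_mem (G_meas D)] with z hz
  refine ⟨norm_nonneg _, ?_⟩
  have d1 := hφ.diffAt hz
  have d2 := hψ.diffAt hz
  have d3 : DifferentiableAt ℝ (fun z => φ z + ψ z) z := d1.add d2
  have e1 : gr (fun z => T (φ z + ψ z) - T (φ z)) z = deriv T (φ z + ψ z) • gr ψ z +
      (deriv T (φ z + ψ z) - deriv T (φ z)) • gr φ z := by
    rw [gr_sub (φ := fun z => T (φ z + ψ z)) (ψ := fun z => T (φ z)) ((hd _).comp z d3)
      ((hd _).comp z d1), gr_comp (φ := fun z => φ z + ψ z) (hd _) d3, gr_comp (hd _) d1,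
      gr_add d1 d2, smul_add, sub_smul]
    abel
  have a1 := h1 (φ z + ψ z)
  have a2 := h1 (φ z)
  rw [e1]
  refine (norm_add_le _ _).trans (add_le_add ?_ ?_)
  · rw [norm_smul, Real.norm_of_nonneg a1.1]
    exact mul_le_of_le_one_left (norm_nonneg _) a1.2
  · by_cases h : z ∈ U
    · rw [indicator_of_mem h, norm_smul, Real.norm_eq_abs]
      exact mul_le_of_le_one_left (norm_nonneg _)
        (abs_le.2 ⟨by linarith [a1.1, a2.2], by linarith [a1.2, a2.1]⟩)
    · rw [indicator_of_notMem h, hs z hz h, add_zero, sub_self, zero_smul, norm_zero]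

/-- an open neighbourhood of an end that carries little energy (`small_near`, `nb_open`) -/
theorem small_open {ε : ℝ} (hφ : D.Fn φ) (y : D.End) (hε : 0 < ε) : ∃ W ∈ D.nb y,
    ∀ U ⊆ W, √(∫ z in U ∩ D.G, ‖gr φ z‖ ^ 2) ≤ ε := by
  obtain ⟨W, hW, h⟩ := small_near (int_sq hφ) y (pow_pos hε 2)
  refine ⟨W, hW, fun U hU => Real.sqrt_le_iff.2 ⟨hε.le, le_trans ?_ h⟩⟩
  simp only [abs_pow, abs_norm]
  exact setIntegral_mono_set ((int_sq hφ).mono_set inter_subset_right)
    (Eventually.of_forall fun z => sq_nonneg _) (inter_subset_inter_left _ hU).eventuallyLE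

/-- `level_null` and dominated convergence along `δ = 1 / (n + 1)` -/
theorem level_small {ε : ℝ} (hv : D.Fn v) (a : ℝ) (hε : 0 < ε) : ∃ δ > 0, ∀ T T' : ℝ → ℝ,
    ContDiff ℝ ∞ T → ContDiff ℝ ∞ T' → (∀ x, |deriv T x - deriv T' x| ≤ 1) →
    (∀ x, x ∉ Icc (a - δ) (a + δ) → deriv T x = deriv T' x) →
    D.nr (fun z => T (v z) - T' (v z)) ≤ ε := by
  have hm : AEMeasurable v (volume.restrict D.G) := hv.contOn.aemeasurable (G_meas D)
  let f : ℕ → ℂ → ℝ := fun n z =>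
    (Icc (a - 1 / (n + 1 : ℝ)) (a + 1 / (n + 1 : ℝ))).indicator 1 (v z) * ‖gr v z‖ ^ 2
  have mf : ∀ n, AEStronglyMeasurable (f n) (volume.restrict D.G) := fun n =>
    (((measurable_one.indicator measurableSet_Icc).comp_aemeasurable hm).mul
      ((gr_meas v).norm.pow_const 2).aemeasurable).aestronglyMeasurable
  have bf : ∀ n z, ‖f n z‖ ≤ ‖gr v z‖ ^ 2 := fun n z => by
    simp only [f, indicator]
    split_ifs
    · simp
    · simp
  have hl := tendsto_integral_of_dominated_convergence (f := fun _ => (0 : ℝ)) _ mf (int_sq hv)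
    (fun n => Eventually.of_forall (bf n)) (by
      have h0 : ∀ᵐ z, z ∉ {z ∈ D.G | v z = a ∧ gr v z ≠ 0} :=
        measure_eq_zero_iff_ae_notMem.1 (level_null hv.sm a)
      filter_upwards [ae_restrict_of_ae h0, ae_restrict_mem (G_meas D)] with z h1 hz
      by_cases h2 : gr v z = 0
      · simp [f, h2]
      · have h3 : 0 < |v z - a| := abs_pos.2 (sub_ne_zero.2 fun h => h1 ⟨hz, h, h2⟩)
        refine tendsto_const_nhds.congr' ?_
        filter_upwards [tendsto_one_div_add_atTop_nhds_zero_nat.eventually (gt_mem_nhds h3)]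
          with n hn
        have : v z ∉ Icc (a - 1 / (n + 1 : ℝ)) (a + 1 / (n + 1 : ℝ)) := fun h =>
          hn.not_ge (abs_le.2 ⟨by linarith [h.1], by linarith [h.2]⟩)
        simp only [f, indicator_of_notMem this, zero_mul])
  rw [integral_zero] at hl
  obtain ⟨n, hn⟩ := (hl.eventually (gt_mem_nhds (pow_pos hε 2))).exists
  refine ⟨1 / (n + 1 : ℝ), by positivity, fun T T' hT hT' h1 h2 =>
    Real.sqrt_le_iff.2 ⟨hε.le, le_trans ?_ hn.le⟩⟩
  refine integral_mono_of_nonneg (Eventually.of_forall fun z => sq_nonneg _)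
    ((int_sq hv).mono' (mf n) (Eventually.of_forall (bf n))) ?_
  filter_upwards [ae_restrict_mem (G_meas D)] with z hz
  have hd : ∀ x, DifferentiableAt ℝ T x := fun x => hT.differentiable (by simp) x
  have hd' : ∀ x, DifferentiableAt ℝ T' x := fun x => hT'.differentiable (by simp) x
  have d1 := hv.diffAt hz
  rw [gr_sub (φ := fun z => T (v z)) (ψ := fun z => T' (v z)) ((hd _).comp z d1)
    ((hd' _).comp z d1), gr_comp (hd _) d1, gr_comp (hd' _) d1, ← sub_smul, norm_smul, mul_pow,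
    Real.norm_eq_abs]
  refine mul_le_mul_of_nonneg_right ?_ (sq_nonneg _)
  by_cases h : v z ∈ Icc (a - 1 / (n + 1 : ℝ)) (a + 1 / (n + 1 : ℝ))
  · rw [indicator_of_mem h]
    exact pow_le_one₀ (abs_nonneg _) (h1 _)
  · rw [indicator_of_notMem h, h2 _ h, sub_self, abs_zero, zero_pow two_ne_zero]

theorem const_of_gr (hd : D.Fn d) (h : ∀ z ∈ D.G, gr d z = 0) : ∃ c, ∀ z ∈ D.G, d z = c :=
  (G_open D).exists_is_const_of_fderiv_eq_zero (𝕜 := ℝ) (G_conn D).isPreconnected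
    (fun _ hz => (hd.diffAt hz).differentiableWithinAt) fun z hz =>
    norm_le_zero_iff.1 ((norm_fderiv_le d z).trans_eq (norm_eq_zero.2 (h z hz)))

theorem gr_of_nr (hd : D.Fn d) (h : D.nr d = 0) : ∀ z ∈ D.G, gr d z = 0 := by
  have h1 : ∫ z in D.G, ‖gr d z‖ ^ 2 = 0 :=
    (Real.sqrt_eq_zero (integral_nonneg fun z => sq_nonneg _)).1 h
  have h2 := Measure.eqOn_open_of_ae_eq
    ((integral_eq_zero_iff_of_nonneg (fun z => sq_nonneg _) (int_sq hd)).1 h1) (G_open D)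
    (hd.grCont.norm.pow 2) continuousOn_const
  exact fun z hz => norm_eq_zero.1 (pow_eq_zero_iff two_ne_zero |>.1 (h2 hz))

theorem nr_of_gr (h : ∀ z ∈ D.G, gr d z = 0) : D.nr d = 0 := by
  rw [Dom.nr, setIntegral_eq_zero_of_forall_eq_zero fun z hz => by simp [h z hz], Real.sqrt_zero]

end Vale.P116D
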