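import Vale.Agent.P116D.S2
import Vale.Agent.P116D.D0b

/-!
D0: small tools for the density block.
-/

namespace Vale.P116D

open Set Filter Topology MeasureTheory Complex
open scoped ContDiff

variable {D : Dom} {S : Gens D} {φ ψ χ η g d v w : ℂ → ℝ} {s σ r τ u : D.End → ℝ} {y : D.End}
  {U : Set ℂ} {z : ℂ}

/-- cutoffs with disjoint supports at finitely many ends (`nb_sepF`, `cut_ex`, `cut_sum`) -/
theorem cuts_ex (F : Finset D.End) (W : D.End → Set ℂ) (hW : ∀ y ∈ F, W y ∈ D.nb y) :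
    ∃ (f : D.End → ℂ → ℝ) (a : D.End → D.End → ℝ) (η : ℂ → ℝ),
      (∀ y ∈ F, D.Cut (f y) (a y) ∧ D.Supp (f y) (W y)) ∧ D.Cut η (fun y' => ∑ y ∈ F, a y y') ∧
      EqOn η (fun z => ∑ y ∈ F, f y z) D.G ∧ ∀ y' ∈ F, ∑ y ∈ F, a y y' = 1 := by
  obtain ⟨U, h1, h2⟩ := nb_sepF F W hW
  have h3 : ∀ y, ∃ η u, y ∈ F → D.Cut η u ∧ u y = 1 ∧ D.Supp η (U y) := fun y => by
    by_cases hy : y ∈ F
    · obtain ⟨η, u, h⟩ := cut_ex (h1 y hy).1
      exact ⟨η, u, fun _ => h⟩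
    · exact ⟨fun _ => 0, fun _ => 0, fun h => absurd h hy⟩
  choose f a h3 using h3
  obtain ⟨η, h4, h5⟩ := cut_sum F (fun y hy => ⟨(h3 y hy).1, (h3 y hy).2.2⟩) h2
  refine ⟨f, a, η, fun y hy => ⟨(h3 y hy).1, fun z hz hz' =>
    (h3 y hy).2.2 z hz fun h => hz' ((h1 y hy).2 h)⟩, h4, h5, fun y' hy' => ?_⟩
  rw [Finset.sum_eq_single_of_mem y' hy' fun y hy hne => ?_, (h3 y' hy').2.1]
  refine ((h3 y hy).1.val y').resolve_right fun h => ?_
  have := nb_neBot y'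
  exact Set.not_disjoint_iff_nonempty_inter.2
    (Filter.nonempty_of_mem (inter_mem ((h3 y hy).1.mem_of (h3 y hy).2.2 h) (h1 y' hy').1))
    (h2 y hy y' hy' hne)

theorem osc_sum {ι : Type} (F : Finset ι) {f : ι → ℂ → ℝ} (h : ∀ i ∈ F, D.Bd (f i)) (y : D.End) :
    D.osc y (fun z => ∑ i ∈ F, f i z) ≤ ∑ i ∈ F, D.osc y (f i) := by
  classical
  induction F using Finset.induction_on with
  | empty => exact (osc_const (c := 0) (Eventually.of_forall fun _ => rfl)).le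
  | insert i F hi ih =>
    have h1 : ∀ j ∈ F, D.Bd (f j) := fun j hj => h j (Finset.mem_insert_of_mem hj)
    simp only [Finset.sum_insert hi]
    exact (osc_add (h i (Finset.mem_insert_self i F)) (Dom.Bd.sum F h1) y).trans
      (add_le_add le_rfl (ih h1))

theorem d0_zero (S : Gens D) : In S (fun _ => 0) fun _ => 0 :=
  ⟨(wd_const D 0).fn, cost_zero, fun p _ => by rw [om_const, ip_zero, abs_zero]⟩

/-- if the local estimate fails, add up functions with disjoint supports: by induction on `N` there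
is `χ` with `In S χ s`, `D.Le χ 1`, `D.Van y χ` and `c * ip τ s + N * ε ≤ D.om χ v` -/
theorem loc_of_crude {c Λ ε : ℝ} (hS : Str S) (hv : D.Fn v) (hτ : Sq τ)
    (h : ∀ χ s, In S χ s → D.Le χ 1 → D.om χ v ≤ c * ip τ s + Λ) (y : D.End) (hε : 0 < ε) :
    ∃ U ∈ D.nb y, ∀ χ s, In S χ s → D.Le χ 1 → D.Supp χ U → D.Van y χ →
      D.om χ v ≤ c * ip τ s + ε := by
  by_contra hn
  push Not at hn
  have key : ∀ N : ℕ, ∃ χ s, In S χ s ∧ D.Le χ 1 ∧ D.Van y χ ∧
      c * ip τ s + N * ε ≤ D.om χ v := by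
    intro N
    induction N with
    | zero =>
      refine ⟨_, _, d0_zero S, fun z _ => by simp, Eventually.of_forall fun _ => rfl, ?_⟩
      rw [om_const, ip_comm, ip_zero]
      simp
    | succ N ih =>
      obtain ⟨χ, s, h1, h2, h3, h4⟩ := ih
      obtain ⟨χ', s', k1, k2, k3, k4, k5⟩ := hn {z | χ z = 0} h3
      refine ⟨_, _, h1.add k1 hS, fun z hz => ?_, ?_, ?_⟩
      · change |χ z + χ' z| ≤ 1
        by_cases h0 : χ z = 0
        · rw [h0, zero_add]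
          exact k2 z hz
        · rw [k3 z hz h0, add_zero]
          exact h2 z hz
      · filter_upwards [h3, k4] with z e1 e2
        rw [e1, e2, add_zero]
      · rw [om_add h1.fn k1.fn hv, ip_comm, ip_add h1.co.2 k1.co.2 hτ, ip_comm s, ip_comm s']
        push_cast
        linarith
  obtain ⟨N, hN⟩ := exists_nat_gt (Λ / ε)
  obtain ⟨χ, s, h1, h2, -, h4⟩ := key N
  have h5 := h χ s h1 h2
  rw [div_lt_iff₀ hε] at hN
  linarith

theorem Max.zero_mem (hS : Max S) : ((fun _ => 0), fun _ => 0) ∈ S :=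
  hS.mem (du_wd (wd_const D 0)) ⟨(wd_const D 0).fn, ⟨0, fun _ _ => by simp⟩, cost_zero,
    fun _ => (osc_const (c := 0) (Eventually.of_forall fun _ => rfl)).le⟩

theorem Max.add_mem {g' : ℂ → ℝ} {σ' : D.End → ℝ} (hS : Max S) (h : (g, σ) ∈ S) (h' : (g', σ') ∈ S) :
    (fun z => g z + g' z, fun y => σ y + σ' y) ∈ S :=
  have r := hS.1.reg _ h
  have r' := hS.1.reg _ h'
  hS.mem ((hS.1.du h).add (hS.1.du h')) ⟨r.fn.add r'.fn, r.bd.add r'.bd, r.co.add r'.co,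
    fun y => (osc_add r.bd r'.bd y).trans (add_le_add (r.le y) (r'.le y))⟩

theorem Max.cmul_mem (hS : Max S) (h : (g, σ) ∈ S) (c : ℝ) :
    (fun z => c * g z, fun y => |c| * σ y) ∈ S :=
  have r := hS.1.reg _ h
  hS.mem ((hS.1.du h).cmul c) ⟨r.fn.cmul c, r.bd.cmul c, r.co.cmul (abs_nonneg c),
    fun y => (osc_cmul r.bd c y).le.trans (mul_le_mul_of_nonneg_left (r.le y) (abs_nonneg c))⟩

theorem Max.add_const_mem (hS : Max S) (h : (g, σ) ∈ S) (c : ℝ) : (fun z => g z + c, σ) ∈ S := by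
  have r := hS.1.reg _ h
  have h1 := (hS.1.du h).add (du_wd (wd_const D c))
  simp only [add_zero] at h1
  exact hS.mem h1 ⟨h1.fn, r.bd.add ⟨|c|, fun _ _ => le_rfl⟩, r.co,
    fun y => (osc_add_const r.bd c y).le.trans (r.le y)⟩

theorem Max.comp_mem {T : ℝ → ℝ} (hS : Max S) (h : (g, σ) ∈ S) (hT : ContDiff ℝ ∞ T)
    (h1 : ∀ x, deriv T x ∈ Icc (0 : ℝ) 1) : (fun z => T (g z), σ) ∈ S := by
  have r := hS.1.reg _ h
  have h2 := (hS.1.du h).comp hS.1 r.bd hT h1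
  refine hS.mem h2 ⟨h2.fn, r.bd.comp hT.continuous, r.co, fun y => ?_⟩
  have h3 := osc_lip r.bd zero_le_one (lip_of_deriv hT fun x =>
    abs_le.2 ⟨by linarith [(h1 x).1], (h1 x).2⟩) y
  rw [one_mul] at h3
  exact h3.trans (r.le y)

end Vale.P116D
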