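import Vale.Agent.P116D.D0
import Vale.Agent.P116D.A1

/-!
D1: flattening at one end without raising the oscillation at the other ends.
Take `U` open in `nb y` on which `ψ` has little energy (`small_open`), values in `[p, q]` with
`q - p < θ + δ / 4` (`range_of_lt`), and little cost off `y` (`nb_tail`); a cut `η` at `y` supported
in `U`; `Adm.clip`; a clamp `T` to `[a', b']`; `cert_one` for `x - T x` gives `ξ₀` supported in an
open subset of `{η = 1}`; with a clamp `T₂` to `[p, q]` put `ξ = η * (T₂ ψ - T₂ (ψ - ξ₀))`.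
Energy: `nr_comp_sub`.  Cost: `ξ = ξ₀ + (ξ - ξ₀)`, the second term vanishes near `y` (`In.van`).
-/

namespace Vale.P116D

open Set Filter Topology MeasureTheory Complex
open scoped ContDiff

variable {D : Dom} {S : Gens D} {φ ψ χ η g d v w : ℂ → ℝ} {s σ r τ u : D.End → ℝ} {y : D.End}
  {U : Set ℂ} {z : ℂ}

theorem flatten {a b θ δ : ℝ} (hS : Str S) (hψ : InB S ψ σ) (ha : Adm S y ψ a b)
    (ho : ∀ y', D.osc y' ψ ≤ θ) (hδ : 0 < δ) : ∃ ξ r, InB S ξ r ∧ D.nr ξ ≤ δ ∧ nl r ≤ δ ∧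
      (∃ p, ∀ᶠ z in D.nb y, ψ z - ξ z ∈ Icc p (p + (b - a) + δ)) ∧
      ∀ y', D.osc y' (fun z => ψ z - ξ z) ≤ θ + δ := by
  have he : 0 < δ / 8 := by positivity
  obtain ⟨W1, hW1, h1⟩ := small_open hψ.1.fn y he
  obtain ⟨W2, hW2, p, q, hpq, hp, hq, h2⟩ :=
    range_of_lt (θ := θ + δ / 4) hψ.2 ((ho y).trans_lt (by linarith))
  obtain ⟨W3, hW3, h3⟩ := nb_tail hψ.1.co.2 y he
  obtain ⟨η, u, hη, hu, hs⟩ := cut_ex (inter_mem hW1 (inter_mem hW2 hW3))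
  obtain ⟨a', b', ha', hlo, hhi, hab, -⟩ := ha.clip hS hψ
  have hab' := ha'.le
  obtain ⟨T, hT, -, hTi, hTm, -⟩ := clamp_ex (a := a' - δ / 8) (b := b' + δ / 8) (by linarith) he
  obtain ⟨T₂, hT₂, hd₂, hi₂, hm₂, -⟩ :=
    clamp_ex (a := p - δ / 4) (b := q + δ / 4) (by linarith) he
  obtain ⟨O, hO, hOo, hOs, -⟩ := nb_open (inter_mem (hη.one_mem hu) hW1)
  obtain ⟨ξ, r, hξ, hsξ, hn, hr, hev⟩ := cert_one (T := fun x => x - T x) hS hψ ha'
    (contDiff_id.sub hT) he (fun x hx => by rw [hTi x hx, sub_self]) _ he O hO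
  have hM : ∀ x, |T₂ x| ≤ max |p - δ / 4 - δ / 8| |q + δ / 4 + δ / 8| := fun x =>
    abs_le_max_abs_abs (hm₂ x).1 (hm₂ x).2
  have i1 := hS.trunc _ _ hψ.1 T₂ hT₂ (a1_abs hd₂) ⟨_, hM⟩
  have i2 := hS.trunc _ _ (hψ.1.sub hξ.1 hS) T₂ hT₂ (a1_abs hd₂) ⟨_, hM⟩
  have e1 : ∀ z ∈ D.G, η z * (T₂ (ψ z) - T₂ (ψ z - ξ z)) = T₂ (ψ z) - T₂ (ψ z - ξ z) := by
    intro z hz
    by_cases h : z ∈ O
    · rw [show η z = 1 from (hOs h).1, one_mul]
    · rw [hsξ z hz h, sub_zero, sub_self, mul_zero]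
  have e2 : ∀ z ∈ D.G, η z * ξ z = ξ z := by
    intro z hz
    by_cases h : z ∈ O
    · rw [show η z = 1 from (hOs h).1, one_mul]
    · rw [hsξ z hz h, mul_zero]
  have e3 : ∀ z ∈ W2, T₂ (ψ z) = ψ z := fun z hz =>
    hi₂ _ ⟨by linarith [(h2 z hz).1], by linarith [(h2 z hz).2]⟩
  have e4 : ∀ᶠ z in D.nb y, ψ z - ξ z = T (ψ z) ∧ T₂ (ψ z - ξ z) = ψ z - ξ z := by
    filter_upwards [hev] with z hz
    have h : ψ z - ξ z = T (ψ z) := by
      rw [hz]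
      ring
    refine ⟨h, hi₂ _ ?_⟩
    rw [h]
    exact ⟨by linarith [(hTm (ψ z)).1], by linarith [(hTm (ψ z)).2]⟩
  have i3 := (((i1.sub i2 hS).sub hξ.1 hS).cut hS hη).van hS (y := y) (by
    filter_upwards [e4, hW2] with z hz hz'
    rw [e3 z hz', hz.2]
    ring)
  have i4 := hξ.1.add i3 hS
  have c1 := hψ.1.co.2
  have c2 := hξ.1.co.2
  refine ⟨fun z => η z * (T₂ (ψ z) - T₂ (ψ z - ξ z)), _, ⟨i4.congr fun z hz => ?_,
    (a1_bd hη).mul (Dom.Bd.sub ⟨_, fun z _ => hM _⟩ ⟨_, fun z _ => hM _⟩)⟩, ?_, ?_,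
    ⟨a' - δ / 4, ?_⟩, fun y' => ?_⟩
  · have := e2 z hz
    dsimp only
    linear_combination this
  · have n1 := nr_comp_sub hψ.1.fn hξ.1.fn.neg hOo.measurableSet
      (fun z hz h => by rw [hsξ z hz h, neg_zero]) hT₂ hd₂
    have n2 := a1a_nr_neg (D := D) (ψ := fun z => -ξ z) (φ := ξ) fun z _ => rfl
    have n3 := a1a_nr_neg (D := D) (ψ := fun z => η z * (T₂ (ψ z) - T₂ (ψ z - ξ z)))
      (φ := fun z => T₂ (ψ z + -ξ z) - T₂ (ψ z)) fun z hz => by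
        rw [e1 z hz, ← sub_eq_add_neg, neg_sub]
    have n4 := h1 O fun z hz => (hOs hz).2
    linarith
  · have n1 := nl_add c2 i3.co.2
    have n2 := a1_nl hη (c1.add (c1.add c2)) c2 y
    have n3 := a1_nl hη c1 (c1.add c2) y
    have n4 := a1_nl hη c1 c2 y
    have n5 := h3 η u hη fun z hz h => hs z hz fun h' => h h'.2.2
    have n6 := (a1_nl_upd (c2.bmul (a1_u hη)) y).trans (nl_mono c2 fun y' => by
      rw [abs_mul]
      exact mul_le_of_le_one_left (abs_nonneg _) (a1_u hη y'))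
    linarith
  · filter_upwards [e4, hW2, G_mem y] with z hz hz' hG
    rw [e1 z hG, e3 z hz', hz.2, sub_sub_cancel, hz.1]
    exact ⟨by linarith [(hTm (ψ z)).1], by linarith [(hTm (ψ z)).2]⟩
  · rcases hη.val y' with h | h
    · refine (osc_congr (ψ := ψ) ?_).trans_le ((ho y').trans (by linarith))
      filter_upwards [hη.wd.ev y'] with z hz
      rw [hz, h, zero_mul, sub_zero]
    · refine (osc_le_of (a := p - δ / 4 - δ / 8) (b := q + δ / 4 + δ / 8) ?_).trans (by linarith)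
      filter_upwards [hη.mem_of hs h, G_mem y'] with z hz hG
      rw [e1 z hG, e3 z hz.2.1, sub_sub_cancel]
      exact hm₂ _

end Vale.P116D
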