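import Vale.Agent.P116D.D0
import Vale.Agent.P116D.C1

/-!
D2: criticality at all ends.
-/

namespace Vale.P116D

open Set Filter Topology MeasureTheory Complex
open scoped ContDiff

variable {D : Dom} {S : Gens D} {φ ψ χ η g d v w : ℂ → ℝ} {s σ r τ u : D.End → ℝ} {y : D.End}
  {U : Set ℂ} {z : ℂ}

theorem d2_one {c Λ : ℝ} (hS : Str S) (hc : ∀ y, Crit S d v c τ y)
    (h : ∀ χ s (o : ℝ), InB S χ s → 0 < o → (∀ y, D.osc y χ ≤ o) → D.om χ v ≤ c * ip τ s + Λ * o)
    (hg : In S g σ) (hb : D.Le g 1) (ho : ∀ y, D.osc y g ≤ σ y) : D.om g v ≤ c * ip τ σ := by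
  refine le_of_forall_pos_le_add fun δ hδ => ?_
  have hv := (hc none).fv
  have hτ := (hc none).co.2
  have hB : D.Bd g := ⟨1, hb⟩
  obtain ⟨ε, hε, hεδ⟩ : ∃ ε > 0, ε + |Λ| * ε = δ :=
    ⟨δ / (1 + |Λ|), by positivity, by field_simp⟩
  obtain ⟨F, hF⟩ := hg.co.2.tail hε
  have hε' : 0 < ε / (F.card + 1) := by positivity
  choose W hW hW' using fun y => (hc y).dl hS hε'
  obtain ⟨f, a, η, h1, h2, h3, h4⟩ := cuts_ex F W fun y _ => hW y
  have i1 : ∀ y ∈ F, In S (fun z => f y z * g z) fun y' => a y y' * σ y' := fun y hy =>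
    hg.cut hS (h1 y hy).1
  have i2 := hg.cut hS h2.compl
  have e1 : D.om g v = ∑ y ∈ F, D.om (fun z => f y z * g z) v
      + D.om (fun z => (1 - η z) * g z) v := by
    rw [← om_sum F (fun y hy => (i1 y hy).fn) hv,
      ← om_add (Dom.Fn.sum F fun y hy => (i1 y hy).fn) i2.fn hv]
    refine om_congr (fun z hz => ?_) fun _ _ => rfl
    simp only [h3 hz, ← Finset.sum_mul]
    ring
  have e2 : ip τ σ = ∑ y ∈ F, ip τ (fun y' => a y y' * σ y')
      + ip τ fun y' => (1 - ∑ y ∈ F, a y y') * σ y' := by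
    simp only [ip_comm τ]
    rw [← ip_sum F (fun y hy => (i1 y hy).co.2) hτ,
      ← ip_add (Sq.sum F fun y hy => (i1 y hy).co.2) i2.co.2 hτ]
    refine congrArg (fun s => ip s τ) (funext fun y' => ?_)
    rw [← Finset.sum_mul]
    ring
  have k1 : ∑ y ∈ F, D.om (fun z => f y z * g z) v
      ≤ ∑ y ∈ F, (c * ip τ (fun y' => a y y' * σ y') + ε / (F.card + 1)) :=
    Finset.sum_le_sum fun y hy =>
      (le_abs_self _).trans (hW' y _ _ (h1 y hy).1 (h1 y hy).2 g σ hg hb)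
  have k2 := h _ _ ε ⟨i2, h2.compl.s1_bd.mul hB⟩ hε fun y => by
    rw [osc_wmul hB h2.compl.wd]
    by_cases hy : y ∈ F
    · rw [h4 y hy, sub_self, abs_zero, zero_mul]
      exact hε.le
    · have a1 := (abs_le_nl (hg.co.2.pw F fun _ => 0) y).trans (hF F le_rfl)
      simp only [pw, if_neg hy] at a1
      exact (mul_le_of_le_one_left (osc_nonneg hB y) (a1_u h2.compl y)).trans
        ((ho y).trans ((le_abs_self _).trans a1))
  have k3 : (F.card : ℝ) * (ε / (F.card + 1)) ≤ ε := by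
    rw [← mul_div_assoc, div_le_iff₀ (by positivity)]
    linarith
  have k4 := mul_le_mul_of_nonneg_right (le_abs_self Λ) hε.le
  rw [Finset.sum_add_distrib, ← Finset.mul_sum, Finset.sum_const, nsmul_eq_mul] at k1
  rw [e1, e2, mul_add]
  linarith

/-- for a generator `(g, σ)`, scaled so that `|g| ≤ 1`: `Crit.dl` on a finite set `F` that carries
almost all of `σ` (`cuts_ex`, `Sq.tail`, `abs_le_nl`), the hypothesis `h` on `(1 - η) * g` -/
theorem in_of_crit {c Λ : ℝ} (hS : Str S) (hc : ∀ y, Crit S d v c τ y)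
    (h : ∀ χ s (o : ℝ), InB S χ s → 0 < o → (∀ y, D.osc y χ ≤ o) → D.om χ v ≤ c * ip τ s + Λ * o) :
    In S v fun y => c * τ y := by
  refine ⟨(hc none).fv, (hc none).co.cmul (hc none).c0, fun p hp => ?_⟩
  have hr := hS.reg p hp
  obtain ⟨M, hM⟩ := hr.bd
  have hM0 : 0 < M + 1 := by linarith [hM.s1_nonneg]
  have key : ∀ k : ℝ, |k| = (M + 1)⁻¹ → k * D.om p.1 v ≤ (M + 1)⁻¹ * (c * ip τ p.2) := by
    intro k hk
    have h1 := d2_one hS hc h ((hS.iso p hp).cmul k) (fun z hz => by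
      rw [abs_mul, hk, inv_mul_le_iff₀ hM0]
      linarith [hM z hz]) fun y => by
      rw [osc_cmul hr.bd]
      exact mul_le_mul_of_nonneg_left (hr.le y) (abs_nonneg k)
    rw [om_cmul hr.fn, ip_comm, ip_cmul, ip_comm, hk] at h1
    linarith
  have hi : 0 < (M + 1)⁻¹ := inv_pos.2 hM0
  have a1 := le_of_mul_le_mul_left (key _ (abs_of_pos hi)) hi
  have a2 := key (-(M + 1)⁻¹) (by rw [abs_neg, abs_of_pos hi])
  rw [neg_mul, ← mul_neg] at a2
  have a3 := le_of_mul_le_mul_left a2 hi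
  rw [om_swap, abs_neg, ip_cmul, abs_le]
  constructor <;> linarith

end Vale.P116D
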