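import Vale.Agent.P116D.D0
import Vale.Agent.P116D.C1

/-!
D2b: positivity for products.
-/

namespace Vale.P116D

open Set Filter Topology MeasureTheory Complex
open scoped ContDiff

variable {D : Dom} {S : Gens D} {φ ψ χ η g d v w : ℂ → ℝ} {s σ r τ u : D.End → ℝ} {y : D.End}
  {U : Set ℂ} {z : ℂ}

/-- `Crit.pos` with `k = 1`, `Θ x = T (x 0) * (κ + cl (x 1))`, `cl` a clamp that is the identity on
`[0, 1 / 2]` with values in `[-κ, 1 / 2 + κ]`; the extra term `κ * om (η * T d) v` is bounded by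
`Crit.dl` -/
theorem Crit.pos_mulT {c ε C : ℝ} {T : ℝ → ℝ} {ζ : ℂ → ℝ} (h : Crit S d v c τ y) (hS : Str S)
    (hζ : In S ζ s) (h01 : ∀ z ∈ D.G, ζ z ∈ Icc (0 : ℝ) (1 / 2))
    (h0 : ∀ η u, D.Wd η u → D.om (fun z => η z * ζ z) v = 0) (hT : ContDiff ℝ ∞ T)
    (hT1 : ∀ x, T x ∈ Icc (0 : ℝ) 1) (hT2 : ∀ x, deriv T x ∈ Icc 0 C)
    (hd : In S (fun z => T (d z)) r) (hε : 0 < ε) : ∃ U ∈ D.nb y, ∀ η u, D.Cut η u → D.Supp η U →
      D.om (fun z => η z * (ζ z * T (d z))) v ≤ ε := by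
  have hdT : Differentiable ℝ T := hT.differentiable (by simp)
  have hC : ∀ x : Fin (0 + 1) → ℝ, ‖fderiv ℝ (fun x : Fin (0 + 1) → ℝ => T (x 0)) x‖ ≤ C := by
    intro x
    have e : HasFDerivAt (fun x : Fin (0 + 1) → ℝ => T (x 0))
        (deriv T (x 0) • ContinuousLinearMap.proj (R := ℝ) (φ := fun _ : Fin (0 + 1) => ℝ) 0) x :=
      (hdT (x 0)).hasDerivAt.comp_hasFDerivAt x (hasFDerivAt_apply 0 x)
    rw [e.fderiv]
    refine ContinuousLinearMap.opNorm_le_bound _ ((hT2 0).1.trans (hT2 0).2) fun p => ?_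
    rw [_root_.smul_apply, norm_smul, Real.norm_of_nonneg (hT2 _).1]
    exact mul_le_mul (hT2 _).2 (norm_le_pi_norm p 0) (norm_nonneg _) ((hT2 0).1.trans (hT2 0).2)
  obtain ⟨U, hU, H⟩ := Crit.pos_mul (k := 0) (ξ := fun i => i.elim0) (b := fun i => i.elim0)
    (Θ := fun x => T (x 0)) h hS (fun i => i.elim0) hζ
    (fun z hz => ⟨(h01 z hz).1, (h01 z hz).2.trans (by norm_num)⟩)
    (hT.comp (contDiff_apply ℝ ℝ 0)) (fun x => hT1 _) hC
    (fun _ => monotone_of_deriv_nonneg hdT fun x => (hT2 x).1) hε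
  refine ⟨U, hU, fun η u hη hs => ?_⟩
  obtain ⟨a, ha⟩ := H η u hη hs
  simp only [Fin.cons_zero] at ha
  have e1 : D.om (fun z => η z * (ζ z * T (d z))) v = D.om (fun z => η z * (T (d z) * ζ z)) v :=
    om_congr (fun z _ => by ring) fun _ _ => rfl
  have e2 : D.om (fun z => η z * (T a * ζ z)) v = D.om (fun z => T a * (η z * ζ z)) v :=
    om_congr (fun z _ => by ring) fun _ _ => rfl
  rw [e2, om_cmul (hζ.fn.wmul hη.wd hη.s1_bd), h0 η u hη.wd, mul_zero, zero_add] at ha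
  rw [e1]
  exact ha

/-- `U` from `loc` at `y`; for given `η`, `ζ` use `Crit.pos_mulT` on a finite set that contains `y`
and carries almost all of the cost of `ζ * T d`, and `loc` for the rest -/
theorem pos_loc {c ε C : ℝ} {T : ℝ → ℝ} (hS : Str S) (hc : ∀ y, Crit S d v c τ y)
    (hT : ContDiff ℝ ∞ T) (hT1 : ∀ x, T x ∈ Icc (0 : ℝ) 1) (hT2 : ∀ x, deriv T x ∈ Icc 0 C)
    (hd : In S (fun z => T (d z)) r) (y : D.End) (hε : 0 < ε) : ∃ U ∈ D.nb y, ∀ η u, D.Cut η u →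
      D.Supp η U → ∀ ζ s, In S ζ s → (∀ z ∈ D.G, ζ z ∈ Icc (0 : ℝ) (1 / 2)) →
      (∀ η u, D.Wd η u → D.om (fun z => η z * ζ z) v = 0) →
      D.om (fun z => η z * (ζ z * T (d z))) v ≤ ε := by
  classical
  obtain ⟨U, hU, HU⟩ := (hc y).loc (ε / 4) (by positivity)
  refine ⟨U, hU, fun η u hη hs ζ s hζ h01 h0 => ?_⟩
  have c0 := (hc y).c0
  have hτ := (hc y).co
  have hv := (hc y).fv
  have l1 : D.Le ζ (1 / 2) := fun z hz => abs_le.2 ⟨by linarith [(h01 z hz).1], (h01 z hz).2⟩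
  have l2 : D.Le (fun z => T (d z)) 1 := fun z _ =>
    abs_le.2 ⟨by linarith [(hT1 (d z)).1], (hT1 _).2⟩
  have hψ := hζ.mul hd hS l1 l2
  have hn := nl_nonneg τ
  obtain ⟨F₀, hF₀⟩ := hψ.co.2.tail (ε := ε / (4 * (c * nl τ + 1))) (by positivity)
  set F := insert y F₀ with hF
  have hε' : 0 < ε / (2 * ((F.card : ℝ) + 1)) := by positivity
  choose W hW HW using fun y' => (hc y').pos_mulT hS hζ h01 h0 hT hT1 hT2 hd hε'
  obtain ⟨f, a, η', hf, hη', he, h1⟩ := cuts_ex F W fun y' _ => hW y'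
  have hχ := (hψ.cut hS hη).cut hS hη'.compl
  have hfn : ∀ y' ∈ F, D.Fn fun z => η z * f y' z * (ζ z * T (d z)) := fun y' hy' =>
    (hψ.cut hS (hη.mul (hf y' hy').1)).fn
  have e : D.om (fun z => η z * (ζ z * T (d z))) v =
      D.om (fun z => ∑ y' ∈ F, η z * f y' z * (ζ z * T (d z)) +
        (1 - η' z) * (η z * (ζ z * T (d z)))) v := by
    refine om_congr (fun z hz => ?_) fun _ _ => rfl
    have := he hz
    beta_reduce at this ⊢
    rw [← Finset.sum_mul, ← Finset.mul_sum, ← this]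
    ring
  rw [e, om_add (Dom.Fn.sum F hfn) hχ.fn hv, om_sum F hfn hv]
  have b1 : ∑ y' ∈ F, D.om (fun z => η z * f y' z * (ζ z * T (d z))) v ≤ ε / 2 := by
    refine (Finset.sum_le_card_nsmul F _ _ fun y' hy' =>
      HW y' _ _ (hη.mul (hf y' hy').1) fun z hz hz' => by
        rw [(hf y' hy').2 z hz hz', mul_zero]).trans ?_
    rw [nsmul_eq_mul, mul_div_assoc', div_le_div_iff₀ (by positivity) (by positivity)]
    nlinarith
  have b2 := HU _ _ hχ (fun z hz => ?_) (fun z hz hz' => ?_) ?_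
  · have b3 : nl (fun y' => (1 - ∑ y ∈ F, a y y') * (u y' * (1 * s y' + 1 / 2 * r y'))) ≤
        ε / (4 * (c * nl τ + 1)) := by
      refine (nl_mono (hψ.co.2.pw F fun _ => 0) fun y' => ?_).trans
        (hF₀ F (Finset.subset_insert _ _))
      unfold pw
      split_ifs with hy'
      · rw [h1 y' hy']
        simp
      · rw [abs_mul, abs_mul, ← mul_assoc]
        refine mul_le_of_le_one_left (abs_nonneg _) (mul_le_one₀ ?_ (abs_nonneg _) ?_)
        · rw [hη'.compl.s1_abs y']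
          exact (hη'.compl.s1_mem y').2
        · rw [hη.s1_abs y']
          exact (hη.s1_mem y').2
    have b4 := (le_abs_self _).trans (abs_ip_le hτ.2 hχ.co.2)
    have b5 : c * ip τ (fun y' => (1 - ∑ y ∈ F, a y y') * (u y' * (1 * s y' + 1 / 2 * r y'))) ≤
        ε / 4 := by
      calc _ ≤ c * (nl τ * (ε / (4 * (c * nl τ + 1)))) :=
            mul_le_mul_of_nonneg_left (b4.trans (mul_le_mul_of_nonneg_left b3 hn)) c0
        _ ≤ ε / 4 := by
            rw [← mul_assoc, mul_div_assoc', div_le_div_iff₀ (by positivity) (by positivity)]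
            nlinarith [mul_nonneg c0 hn]
    linarith
  · have a1 := hη'.compl.mem z
    have a2 := hη.mem z
    have a3 := h01 z hz
    have a4 := hT1 (d z)
    beta_reduce at a1 ⊢
    rw [abs_of_nonneg (mul_nonneg a1.1 (mul_nonneg a2.1 (mul_nonneg a3.1 a4.1)))]
    exact mul_le_one₀ a1.2 (mul_nonneg a2.1 (mul_nonneg a3.1 a4.1))
      (mul_le_one₀ a2.2 (mul_nonneg a3.1 a4.1)
        (mul_le_one₀ (a3.2.trans (by norm_num)) a4.1 a4.2))
  · rw [hs z hz hz', zero_mul, mul_zero]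
  · filter_upwards [hη'.wd.ev y] with z hz
    rw [hz, h1 y (Finset.mem_insert_self _ _), sub_self, zero_mul]

end Vale.P116D
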