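import Vale.Agent.P116D.S1
import Vale.Agent.P116D.Box

/-!
D3: pairing with the approximations of the cycles.
-/

namespace Vale.P116D

open Set Filter Topology MeasureTheory Complex
open scoped ContDiff

variable {D : Dom} {S : Gens D} {φ ψ χ η g d v w : ℂ → ℝ} {s σ r τ u : D.End → ℝ} {y : D.End}
  {U : Set ℂ} {z : ℂ}

theorem d3_bdd {R : Rect} {l : ℝ → ℝ} (hl : Lam R l) : ∃ L, 0 ≤ L ∧ ∀ t, |l t| ≤ L := by
  obtain ⟨a, b, -, -, hs, h0⟩ := hl
  obtain ⟨C, hC⟩ := (isCompact_Icc (a := a) (b := b)).exists_bound_of_continuousOn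
    hs.continuous.continuousOn
  refine ⟨max C 0, le_max_right _ _, fun t => ?_⟩
  by_cases h : l t = 0
  · rw [h, abs_zero]
    exact le_max_right _ _
  · exact (hC t (h0 t h)).trans (le_max_left _ _)

theorem d3_wd_smul (c : ℝ) (p q : ℂ) : wd p (c • q) = c * wd p q := by
  simp only [wd, Complex.smul_re, Complex.smul_im, smul_eq_mul]
  ring

theorem d3_wd_cont (p : ℂ) : Continuous (wd p) := by
  unfold wd
  fun_prop

theorem d3_wd_meas (φ ψ : ℂ → ℝ) : Measurable fun z => wd (gr φ z) (gr ψ z) := by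
  have h1 := gr_meas φ
  have h2 := gr_meas ψ
  unfold wd
  fun_prop

theorem d3_contOn {R : Rect} {l : ℝ → ℝ} (hl : Lam R l) (hw : D.Fn w) (hψ : D.Fn ψ) :
    ContinuousOn (fun z => l (w z) * wd (gr ψ z) (gr w z)) D.G := by
  obtain ⟨a, b, -, -, hs, -⟩ := hl
  have h1 := hψ.grCont
  have h2 := hw.grCont
  refine (hs.continuous.comp_continuousOn hw.contOn).mul ?_
  exact ((Complex.continuous_re.comp_continuousOn h1).mul
    (Complex.continuous_im.comp_continuousOn h2)).sub
    ((Complex.continuous_im.comp_continuousOn h1).mul (Complex.continuous_re.comp_continuousOn h2))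

/-- pointwise equality of the integrands; where `l (w z') = 0` for all `z'` near `z` the function
`ζ n` vanishes near `z` -/
theorem Apx.om_eq {R : Rect} {l : ℝ → ℝ} {ζ M : ℕ → ℂ → ℝ} {m : ℂ → ℝ} (h : Apx S w R l ζ M m)
    (hl : Lam R l) (hw : D.Fn w) (hψ : D.Fn ψ)
    (e : ∀ z ∈ D.G, w z ∈ Ioo R.t₁ R.t₂ → gr v z = gr w z) (n : ℕ) :
    D.om (fun z => ζ n z * ψ z) v = D.om ψ (M n) := by
  refine setIntegral_congr_fun (G_meas D) fun z hz => ?_
  obtain ⟨s, hs⟩ := h.zin n
  rw [h.grM n z hz, d3_wd_smul]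
  by_cases hm : w z ∈ Ioo R.t₁ R.t₂
  · have h0 := h.zwd n z hz
    rw [e z hz hm, gr_mul (hs.1.fn.diffAt hz) (hψ.diffAt hz)]
    simp only [wd, Complex.smul_re, Complex.smul_im, smul_eq_mul, Complex.add_re,
      Complex.add_im] at h0 ⊢
    linear_combination ψ z * h0
  · obtain ⟨a, b, ha, hb, -, h0⟩ := hl
    have h1 : w z ∈ (Icc a b)ᶜ := fun hab => hm ⟨ha.trans_le hab.1, hab.2.trans_lt hb⟩
    have h2 : ∀ᶠ z' in 𝓝 z, w z' ∈ (Icc a b)ᶜ :=
      (hw.diffAt hz).continuousAt (isClosed_Icc.isOpen_compl.mem_nhds h1)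
    have h3 : ∀ᶠ z' in 𝓝 z, ζ n z' = 0 := by
      filter_upwards [h2, (G_open D).mem_nhds hz] with z' a1 a2
      obtain ⟨θ, -, hθ⟩ := h.zle n z' a2
      have : l (w z') = 0 := by
        by_contra hne
        exact a1 (h0 _ hne)
      rw [hθ, this, mul_zero]
    have h4 : (fun z => ζ n z * ψ z) =ᶠ[𝓝 z] fun _ => 0 := by
      filter_upwards [h3] with z' a1
      rw [a1, zero_mul]
    rw [gr_congr h4, gr_const, h3.self_of_nhds]
    simp [wd]

/-- dominated convergence, `bs_meas` -/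
theorem Apx.om_lim {R : Rect} {l : ℝ → ℝ} {ζ M : ℕ → ℂ → ℝ} {m : ℂ → ℝ} (h : Apx S w R l ζ M m)
    (hl : Lam R l) (hw : D.Fn w) (hψ : D.Fn ψ) :
    Tendsto (fun n => D.om ψ (M n)) atTop (𝓝 (omB D w R l ψ)) := by
  obtain ⟨L, hL0, hL⟩ := d3_bdd hl
  have key := tendsto_integral_of_dominated_convergence (μ := volume.restrict D.G)
    (F := fun n z => wd (gr ψ z) (gr (M n) z))
    (f := fun z => wd (gr ψ z) ((Bs D w R).indicator (fun z => l (w z) • gr w z) z))
    (fun z => L * (‖gr ψ z‖ * ‖gr w z‖)) (fun n => (d3_wd_meas ψ (M n)).aestronglyMeasurable)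
    ((int_mul hψ hw).const_mul L) (fun n => ?_) ?_
  · have e : ∫ z in D.G, wd (gr ψ z) ((Bs D w R).indicator (fun z => l (w z) • gr w z) z) =
        omB D w R l ψ := by
      have e1 : (fun z => wd (gr ψ z) ((Bs D w R).indicator (fun z => l (w z) • gr w z) z)) =
          (Bs D w R).indicator fun z => l (w z) * wd (gr ψ z) (gr w z) := by
        funext z
        by_cases hz : z ∈ Bs D w R
        · rw [indicator_of_mem hz, indicator_of_mem hz, d3_wd_smul]
        · rw [indicator_of_notMem hz, indicator_of_notMem hz]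
          simp [wd]
      have e2 : D.G ∩ Bs D w R = Bs D w R := inter_eq_right.2 fun z hz => hz.1
      rw [e1, setIntegral_indicator (bs_meas hw.contOn), e2, omB]
    rw [← e]
    exact key
  · filter_upwards [ae_restrict_mem (G_meas D)] with z hz
    obtain ⟨θ, hθ, e⟩ := h.zle n z hz
    rw [h.grM n z hz, d3_wd_smul, Real.norm_eq_abs, abs_mul]
    refine mul_le_mul ?_ (abs_wd_le _ _) (abs_nonneg _) hL0
    rw [e, abs_mul, abs_of_nonneg hθ.1]
    have := hL (w z)
    nlinarith [abs_nonneg (l (w z)), hθ.1, hθ.2]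
  · filter_upwards [ae_restrict_mem (G_meas D), h.lim] with z hz hlim
    have := ((d3_wd_cont (gr ψ z)).tendsto _).comp hlim
    refine this.congr fun n => ?_
    simp only [Function.comp_apply]
    rw [h.grM n z hz]

/-- a nonnegative integrand that is positive near a point of the core -/
theorem omB_pos {R : Rect} {l : ℝ → ℝ} (hR : IsBox D w R) (hl : Lam R l) (hw : D.Fn w) (hψ : D.Fn ψ)
    (h0 : ∀ z ∈ D.G, w z ∈ Ioo R.t₁ R.t₂ → 0 ≤ l (w z) * wd (gr ψ z) (gr w z))
    (hz : z ∈ interior (R.core w)) (h1 : 0 < l (w z) * wd (gr ψ z) (gr w z)) :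
    0 < omB D w R l ψ := by
  obtain ⟨L, hL0, hL⟩ := d3_bdd hl
  have hc := d3_contOn hl hw hψ
  have hm : MeasurableSet (Bs D w R) := bs_meas hw.contOn
  have hsub : Bs D w R ⊆ D.G := fun z hz => hz.1
  have hi : IntegrableOn (fun z => l (w z) * wd (gr ψ z) (gr w z)) D.G := by
    refine ((int_mul hψ hw).const_mul L).mono' (hc.aestronglyMeasurable (G_meas D))
      (Eventually.of_forall fun z => ?_)
    rw [Real.norm_eq_abs, abs_mul]
    exact mul_le_mul (hL _) (abs_wd_le _ _) (abs_nonneg _) hL0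
  have hnn : 0 ≤ᵐ[volume.restrict (Bs D w R)] fun z => l (w z) * wd (gr ψ z) (gr w z) := by
    filter_upwards [ae_restrict_mem hm] with z hz
    exact h0 z hz.1 hz.2.1
  rw [omB, setIntegral_pos_iff_support_of_nonneg_ae hnn (hi.mono_set hsub)]
  have hB : Bs D w R ∈ 𝓝 z :=
    mem_of_superset (mem_interior_iff_mem_nhds.1 hz) (hR.core_sub hw.contOn)
  have hG : D.G ∈ 𝓝 z := mem_of_superset hB hsub
  have hp : ∀ᶠ z' in 𝓝 z, 0 < l (w z') * wd (gr ψ z') (gr w z') :=
    (hc.continuousAt hG).eventually (lt_mem_nhds h1)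
  refine Measure.measure_pos_of_mem_nhds (x := z) volume ?_
  filter_upwards [hB, hp] with z' a1 a2
  exact ⟨a2.ne', a1⟩

end Vale.P116D
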