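import Vale.Agent.P116D.K8
import Vale.Agent.P116D.K6
import Vale.Agent.P116D.AP2

/-!
K12: a smooth representative of a limit.  Take cutoffs `b k` that are one on the sets of an
exhaustion and `g = f (n 0) + ∑ (1 - b k) * (f (n (k + 1)) - f (n k))` with `n k` growing fast; each
`b k * (f (n (k + 1)) - f (n k))` has compact support in `G`, so it pairs to zero.
-/

namespace Vale.P116D

open Set Filter Topology MeasureTheory Complex
open scoped ContDiff

variable {D : Dom} {S : Gens D} {φ ψ χ η g d v w : ℂ → ℝ} {s σ r τ u : D.End → ℝ} {y : D.End}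
  {U : Set ℂ} {z : ℂ}

theorem k12_bd (h : D.Cut η u) : D.Bd η :=
  ⟨1, fun z _ => abs_le.2 ⟨by linarith [(h.mem z).1], (h.mem z).2⟩⟩

theorem k12_nr {δ : ℝ} (h : D.Cut η u) (hφ : D.Fn φ) (hδ : 0 ≤ δ) (hb : D.Le φ δ) :
    D.nr (fun z => (1 - η z) * φ z) ≤ D.nr φ + δ * D.nr η := by
  have h1 := k2a_le (χ := fun z => (1 - η z) * φ z) hφ (h.wd.fn.cmul δ) fun z hz => by
    have d1 := h.wd.fn.diffAt hz
    rw [gr_mul (φ := fun z => 1 - η z) (d1.const_sub 1) (hφ.diffAt hz), gr_cmul δ d1,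
      gr_sub (φ := fun _ => 1) (differentiableAt_const _) d1, gr_const, zero_sub]
    refine (norm_add_le _ _).trans (add_le_add ?_ ?_)
    · rw [norm_smul, Real.norm_eq_abs, abs_of_nonneg (sub_nonneg.2 (h.mem z).2)]
      exact mul_le_of_le_one_left (norm_nonneg _) (sub_le_self _ (h.mem z).1)
    · rw [norm_smul, norm_smul, norm_neg, Real.norm_eq_abs, Real.norm_eq_abs, abs_of_nonneg hδ]
      exact mul_le_mul_of_nonneg_right (hb z hz) (norm_nonneg _)
  rwa [nr_cmul h.wd.fn, abs_of_nonneg hδ] at h1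

theorem k12_om {C : Set ℂ} (h : D.Cut η u) (hφ : D.Fn φ) (hC : IsCompact C) (hG : C ⊆ D.G)
    (h0 : ∀ z, z ∉ C → η z = 0) (hχ : D.Fn χ) :
    D.om (fun z => (1 - η z) * φ z) χ = D.om φ χ := by
  have h1 := hφ.wmul h.wd (k12_bd h)
  have h2 := om_cs h1 hC hG (fun z _ hz => by simp only [h0 z hz, zero_mul]) hχ
  have h3 := om_sub hφ h1 hχ
  rw [h2, sub_zero] at h3
  rw [← h3]
  exact om_congr (fun z _ => by ring) fun _ _ => rfl

theorem smooth_rep {f : ℕ → ℂ → ℝ} {m : ℂ → ℝ} {M : ℝ} (h : ∀ n, D.Fn (f n)) (hM : ∀ n, D.Le (f n) M)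
    (hc : ∀ ε > 0, ∃ N, ∀ n ≥ N, ∀ n' ≥ N, D.nr (fun z => f n z - f n' z) ≤ ε)
    (hu : TendstoUniformlyOn f m atTop D.G) :
    ∃ g, D.Fn g ∧ D.Bd g ∧ (∀ y, D.osc y g = D.osc y m) ∧
      ∀ χ, D.Fn χ → Tendsto (fun n => D.om χ (f n)) atTop (𝓝 (D.om χ g)) := by
  obtain ⟨C, hC, hA⟩ := exhaust D
  choose b C' hb hC' hs h0 h1 using fun k => cut_cpt (D := D) (hC k).1 isOpen_interior (hC k).2.2
    (interior_subset.trans (hC (k + 1)).2.1)
  have hG : ∀ k, C' k ⊆ D.G := fun k => (hs k).trans (interior_subset.trans (hC (k + 1)).2.1)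
  obtain ⟨e, he⟩ : ∃ e : ℕ → ℝ, ∀ k, e k = (1 / 2) ^ k := ⟨_, fun _ => rfl⟩
  have e0 : ∀ k, 0 < e k := fun k => by rw [he]; positivity
  have es : Summable e := by
    rw [funext he]
    exact summable_geometric_two
  obtain ⟨δ, hδ⟩ : ∃ δ : ℕ → ℝ, ∀ k, δ k = e k / (D.nr (b k) + 1) := ⟨_, fun _ => rfl⟩
  have δ0 : ∀ k, 0 < δ k := fun k => by
    rw [hδ]
    exact div_pos (e0 k) (by linarith [nr_nonneg D (b k)])
  have δ1 : ∀ k, δ k * D.nr (b k) + δ k = e k := fun k => by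
    rw [hδ, ← mul_add_one]
    exact div_mul_cancel₀ _ (by linarith [nr_nonneg D (b k)])
  have δ2 : ∀ k, δ k ≤ e k := fun k => by
    linarith [δ1 k, mul_nonneg (δ0 k).le (nr_nonneg D (b k))]
  have hN : ∀ k, ∃ N, (∀ n ≥ N, ∀ n' ≥ N, D.nr (fun z => f n z - f n' z) ≤ e k) ∧
      ∀ n ≥ N, ∀ z ∈ D.G, |f n z - m z| ≤ δ k / 2 := fun k => by
    obtain ⟨N, hN⟩ := hc _ (e0 k)
    obtain ⟨N', hN'⟩ := eventually_atTop.1
      (Metric.tendstoUniformlyOn_iff.1 hu (δ k / 2) (half_pos (δ0 k)))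
    refine ⟨max N N', fun n hn n' hn' => hN n (le_of_max_le_left hn) n' (le_of_max_le_left hn'),
      fun n hn z hz => ?_⟩
    have := hN' n (le_of_max_le_right hn) z hz
    rw [dist_comm, Real.dist_eq] at this
    exact this.le
  choose N hN hN' using hN
  obtain ⟨n, n1, n2⟩ : ∃ n : ℕ → ℕ, (∀ k, N k ≤ n k) ∧ ∀ k, N k ≤ n (k + 1) :=
    ⟨fun k => (Finset.range (k + 1)).sup N,
      fun k => Finset.le_sup (f := N) (Finset.mem_range.2 (by omega)),
      fun k => Finset.le_sup (f := N) (Finset.mem_range.2 (by omega))⟩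
  have q1 : ∀ k, D.Fn fun z => f (n (k + 1)) z - f (n k) z := fun k => (h _).sub (h _)
  have q2 : ∀ k, D.Le (fun z => f (n (k + 1)) z - f (n k) z) (δ k) := fun k z hz => by
    have a1 := abs_le.1 (hN' k _ (n1 k) z hz)
    have a2 := abs_le.1 (hN' k _ (n2 k) z hz)
    exact abs_le.2 ⟨by linarith [a1.2, a2.1], by linarith [a1.1, a2.2]⟩
  have q3 : ∀ k, D.Fn fun z => (1 - b k z) * (f (n (k + 1)) z - f (n k) z) := fun k =>
    (q1 k).wmul (hb k).compl.wd (k12_bd (hb k).compl)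
  obtain ⟨F, F0, F1⟩ : ∃ F : ℕ → ℂ → ℝ, F 0 = f (n 0) ∧
      ∀ k z, F (k + 1) z = F k z + (1 - b k z) * (f (n (k + 1)) z - f (n k) z) :=
    ⟨fun K z => f (n 0) z + ∑ k ∈ Finset.range K, (1 - b k z) * (f (n (k + 1)) z - f (n k) z),
      by simp, fun k z => by simp only [Finset.sum_range_succ, add_assoc]⟩
  have F2 : ∀ k, (fun z => F (k + 1) z - F k z) =
      fun z => (1 - b k z) * (f (n (k + 1)) z - f (n k) z) := fun k => by
    funext z
    rw [F1, add_sub_cancel_left]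
  have F3 : ∀ k, D.Fn (F k) := fun k => by
    induction k with
    | zero => exact F0 ▸ h _
    | succ k ih => exact (ih.add (q3 k)).congr fun z _ => F1 k z
  have F4 : ∀ χ, D.Fn χ → ∀ k, D.om (F k) χ = D.om (f (n k)) χ := fun χ hχ k => by
    induction k with
    | zero => rw [F0]
    | succ k ih =>
      rw [om_congr (fun z _ => F1 k z) (fun _ _ => rfl : EqOn χ χ D.G), om_add (F3 k) (q3 k) hχ,
        k12_om (hb k) (q1 k) (hC' k) (hG k) (h0 k) hχ, om_sub (h _) (h _) hχ, ih]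
      ring
  have F5 : ∀ y k, ∀ᶠ z in D.nb y, F k z = f (n k) z := fun y k => by
    induction k with
    | zero => exact Eventually.of_forall fun z => by rw [F0]
    | succ k ih =>
      filter_upwards [ih, (hb k).wd.ev y] with z a1 a2
      rw [F1, a1, a2]
      ring
  obtain ⟨w, w1, w2, w3, w4, -⟩ := ap2 (f := F) (e := fun k => 2 * e k) (e' := e) F3
    (F0 ▸ ⟨M, hM _⟩) (es.mul_left 2) es
    (fun k => by
      rw [F2]
      linarith [k12_nr (hb k) (q1 k) (δ0 k).le (q2 k), hN k _ (n2 k) _ (n1 k), δ1 k, δ0 k])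
    (fun k z hz => by
      rw [F2]
      show |(1 - b k z) * (f (n (k + 1)) z - f (n k) z)| ≤ _
      rw [abs_mul, abs_of_nonneg (sub_nonneg.2 ((hb k).mem z).2)]
      exact (mul_le_of_le_one_left (abs_nonneg _) (sub_le_self _ ((hb k).mem z).1)).trans
        ((q2 k z hz).trans (δ2 k)))
    hC hA (fun k z hz => by rw [F1, (h1 k).self_of_nhdsSet z hz, sub_self, zero_mul, add_zero])
  have t0 : Tendsto e atTop (𝓝 0) := es.tendsto_atTop_zero
  have t1 : Tendsto (fun K => ∑' k, e (k + K)) atTop (𝓝 0) := tendsto_sum_nat_add e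
  have t2 : Tendsto (fun K => ∑' k, 2 * e (k + K)) atTop (𝓝 0) :=
    tendsto_sum_nat_add fun k => 2 * e k
  have bm : D.Bd m := ⟨M + δ 0 / 2, fun z hz => by
    have a1 := abs_le.1 (hN' 0 _ le_rfl z hz)
    have a2 := abs_le.1 (hM (N 0) z hz)
    exact abs_le.2 ⟨by linarith [a1.2, a2.1], by linarith [a1.1, a2.2]⟩⟩
  have near : ∀ y K, ∀ᶠ z in D.nb y, |w z - m z| ≤ ∑' k, e (k + K) + e K := fun y K => by
    filter_upwards [F5 y K, G_mem y] with z a0 hz
    have a1 := abs_le.1 (hN' K _ (n1 K) z hz)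
    have a2 := abs_le.1 (w4 K z hz)
    simp only [a0] at a2
    exact abs_le.2 ⟨by linarith [a1.1, a2.1, δ2 K, δ0 K], by linarith [a1.2, a2.2, δ2 K, δ0 K]⟩
  have t3 : ∀ c : ℝ, Tendsto (fun K => c + 2 * (∑' k, e (k + K) + e K)) atTop (𝓝 c) := fun c => by
    simpa using ((t1.add t0).const_mul 2).const_add c
  refine ⟨w, w1, w2, fun y => le_antisymm ?_ ?_, fun χ hχ => ?_⟩
  · exact ge_of_tendsto' (t3 _) fun K => osc_near bm (near y K)
  · exact ge_of_tendsto' (t3 _) fun K => osc_near w2 ((near y K).mono fun z hz => by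
      rwa [abs_sub_comm])
  · have t4 : Tendsto (fun K => (e K + ∑' k, 2 * e (k + K)) * D.nr χ) atTop (𝓝 0) := by
      simpa using (t0.add t2).mul_const (D.nr χ)
    refine Metric.tendsto_atTop.2 fun ε hε => ?_
    obtain ⟨K, hK⟩ := (t4.eventually (gt_mem_nhds hε)).exists
    refine ⟨N K, fun j hj => lt_of_le_of_lt ?_ hK⟩
    have a1 := abs_om_le ((h j).sub (h (n K))) hχ
    have a2 := abs_om_le (w1.sub (F3 K)) hχ
    rw [om_sub (h _) (h _) hχ] at a1
    rw [om_sub w1 (F3 K) hχ, F4 χ hχ] at a2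
    have a3 := mul_le_mul_of_nonneg_right (hN K _ hj _ (n1 K)) (nr_nonneg D χ)
    have a4 := mul_le_mul_of_nonneg_right (w3 K) (nr_nonneg D χ)
    have a5 := abs_le.1 (a1.trans a3)
    have a6 := abs_le.1 (a2.trans a4)
    rw [Real.dist_eq, om_swap D χ, om_swap D χ w, add_mul]
    exact abs_le.2 ⟨by linarith [a5.2, a6.1], by linarith [a5.1, a6.2]⟩

end Vale.P116D
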