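import Vale.Agent.P116D.GB1
import Vale.Agent.P116D.K12

/-!
GB: the new generators.
-/

namespace Vale.P116D

open Set Filter Topology MeasureTheory Complex
open scoped ContDiff

variable {D : Dom} {S : Gens D} {φ ψ χ η ξ g w : ℂ → ℝ} {s σ r u : D.End → ℝ} {y : D.End}
  {U : Set ℂ} {z : ℂ} {R : Rect} {l : ℝ → ℝ}

variable {ζ M : ℕ → ℂ → ℝ} {m : ℂ → ℝ}

/-- on `Bs` the integrand is `l' (w z) * M n z * wd (gr η z) (gr w z)`; uniform convergence, `onB`;
the limit is `omB (l' * prim l) η = 0` (`Lam.mul`, `prim_smooth`, `Ctx.stokes`) -/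
theorem Apx.orth {l' : ℝ → ℝ} (h : Apx S w R l ζ M m) (X : Ctx S w σ R) (hl : Lam R l)
    (hl' : Lam R l') (hη : D.Wd η u) :
    Tendsto (fun n => omB D w R l' fun z => η z * M n z) atTop (𝓝 0) := by
  have hw := X.mem.fn
  obtain ⟨a, b, -, -, hab⟩ := hl
  have hp := hl'.mul (prim_smooth hab).1
  obtain ⟨B, hB, -⟩ := hη.bd
  have hm := bs_meas (R := R) hw.contOn
  have e : ∀ n, ∀ z ∈ Bs D w R, l' (w z) * wd (gr (fun z => η z * M n z) z) (gr w z) =
      M n z * (l' (w z) * wd (gr η z) (gr w z)) := fun n z hz => by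
    rw [gr_mul (hη.fn.diffAt hz.1) ((h.inM n).1.fn.diffAt hz.1), h.grM n z hz.1]
    simp only [wd, add_re, add_im, smul_re, smul_im, smul_eq_mul]
    ring
  have e' : ∀ z ∈ Bs D w R, l' (w z) * prim l (w z) * wd (gr η z) (gr w z) =
      m z * (l' (w z) * wd (gr η z) (gr w z)) := fun z hz => by
    rw [h.onB z hz, prim]
    ring
  rw [← X.stokes hp hη]
  refine tendsto_integral_filter_of_dominated_convergence
    (fun z => ‖l' (w z) * prim l (w z) * wd (gr η z) (gr w z)‖ +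
      ‖l' (w z) * wd (gr η z) (gr w z)‖) (Eventually.of_forall fun n =>
      ((omB_int hw ((h.inM n).1.fn.wmul hη ⟨B, hB⟩) hl').mono_set bs_sub).aestronglyMeasurable)
    ?_ (((omB_int hw hη.fn hp).mono_set bs_sub).norm.add
      ((omB_int hw hη.fn hl').mono_set bs_sub).norm) ?_
  · filter_upwards [Metric.tendstoUniformlyOn_iff.1 h.unif 1 one_pos] with n hn
    filter_upwards [ae_restrict_mem hm] with z hz
    rw [e n z hz, e' z hz, norm_mul (M n z), norm_mul (m z), ← add_one_mul]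
    refine mul_le_mul_of_nonneg_right ?_ (norm_nonneg _)
    have h1 := hn z hz.1
    rw [dist_comm, dist_eq_norm] at h1
    linarith [norm_sub_norm_le (M n z) (m z)]
  · filter_upwards [ae_restrict_mem hm] with z hz
    simp only [e _ z hz, e' z hz]
    exact (h.unif.tendsto_at hz.1).mul_const _

theorem GB_rep {ζ M : ℕ → ℂ → ℝ} {m : ℂ → ℝ} (h : Apx S w R l ζ M m) (hw : D.Fn w)
    (hl : Lam R l) : ∃ g, D.Fn g ∧ D.Bd g ∧ (∀ y, D.osc y g = D.osc y m) ∧
      (∀ χ, D.Fn χ → Tendsto (fun n => D.om χ (M n)) atTop (𝓝 (D.om χ g))) ∧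
      ∀ χ, D.Fn χ → D.om χ g = omB D w R l χ := by
  obtain ⟨N, hN⟩ := eventually_atTop.1 (Metric.tendstoUniformlyOn_iff.1 h.unif 1 one_pos)
  obtain ⟨B, hB⟩ := (h.inM N).2
  obtain ⟨g, g1, g2, g3, g4⟩ := smooth_rep (f := fun n => M (n + N)) (m := m) (M := B + 2)
    (fun n => (h.inM _).1.fn) (fun n z hz => by
      have a1 := abs_lt.1 (hN N le_rfl z hz)
      have a2 := abs_lt.1 (hN (n + N) (Nat.le_add_left _ _) z hz)
      have a3 := abs_le.1 (hB z hz)
      exact abs_le.2 ⟨by linarith [a1.1, a2.2, a3.1], by linarith [a1.2, a2.1, a3.2]⟩)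
    (fun ε hε => by
      obtain ⟨K, hK⟩ := h.cauchy hw hl ε hε
      exact ⟨K, fun n hn n' hn' => hK _ (le_add_right hn) _ (le_add_right hn')⟩)
    (fun V hV => (tendsto_add_atTop_nat N).eventually (h.unif V hV))
  have g5 : ∀ χ, D.Fn χ → Tendsto (fun n => D.om χ (M n)) atTop (𝓝 (D.om χ g)) := fun χ hχ =>
    (tendsto_add_atTop_iff_nat (f := fun n => D.om χ (M n)) N).1 (g4 χ hχ)
  exact ⟨g, g1, g2, g3, g5, fun χ hχ => tendsto_nhds_unique (g5 χ hχ) (h.tend hw hl hχ)⟩

/-- `smooth_rep` applied to a tail of `M` (uniformly bounded since `M N` is bounded and the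
convergence is uniform).  `mem`: limit of `inM`.  `orth`: take `g'` representing `l'` (first prove
existence with the fields `fn`, `om` and the limit property), then
`omB l' (η g) = om (η g) g' = om g (η g') = - lim om (η g') (M n) = lim omB l' (η M n)` -/
theorem gen_ex (X : Ctx S w σ R) (hl : Lam R l) : ∃ g, Gen S w R l g := by
  have hw := X.mem.fn
  obtain ⟨ζ, M, m, h⟩ := apx_ex X.str X.mem X.reg X.box hl
  obtain ⟨g, g1, g2, g3, g4, g5⟩ := GB_rep h hw hl
  refine ⟨g, g1, g2, fun y => (g3 y).trans_le (h.osc y), g5,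
    ⟨g1, (h.inM 0).1.co, fun p hp => ?_⟩, fun l' hl' η v hη => ?_⟩
  · rw [om_swap, abs_neg]
    refine le_of_tendsto' (g4 _ (X.str.reg p hp).fn).abs fun n => ?_
    rw [om_swap, abs_neg]
    exact (h.inM n).1.le p hp
  · obtain ⟨ζ', M', m', h'⟩ := apx_ex X.str X.mem X.reg X.box hl'
    obtain ⟨g', k1, -, -, -, k5⟩ := GB_rep h' hw hl'
    obtain ⟨B, hB, -⟩ := hη.bd
    have b : D.Bd η := ⟨B, hB⟩
    rw [← k5 _ (g1.wmul hη b), om_mul hη b g1 k1, om_swap, neg_eq_zero]
    refine tendsto_nhds_unique (g4 _ (k1.wmul hη b)) ?_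
    have t := (h.orth X hl hl' hη).neg
    rw [neg_zero] at t
    refine t.congr fun n => ?_
    rw [om_mul hη b k1 (h.inM n).1.fn, om_swap D g', k5 _ ((h.inM n).1.fn.wmul hη b)]

end Vale.P116D
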