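import Vale.Agent.P116D.T3a

/-!
TM: the move at one end (PROOF69 section 3).  `vv_glue`: `hS.glue` gives membership for `S`
(`In.anti`).  If `y₁ = y` use `EL.reg`.  Otherwise take a cut `η` with `u y = 1`, `u y₁ = 0` (`nb_sep`,
`cut_ex`, `Dom.Cut.mem_of`), `χ = η χ + (1 - η) χ`: the first part by hypothesis, the second
vanishes near `y` (`In.cut`, `osc_const`, `EL.reg`).  `vv_str`: `iso` by `EL.isIn`, `EL.reg`; `trunc` by
`vv_app`, `App.trunc`, `App.le`.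
-/

namespace Vale.P116D

open Set Filter Topology MeasureTheory Complex
open scoped ContDiff

variable {D : Dom} {S : Gens D} {φ ψ χ η ξ ζ g d e v w : ℂ → ℝ} {s σ r τ u : D.End → ℝ}
  {y : D.End} {U V O : Set ℂ} {z : ℂ} {Θ : ℂ → ℝ} {L M c ε κ ρ C : ℝ} {dm : ℕ → ℂ → ℝ}
  {τm : ℕ → D.End → ℝ} {x : ℕ → (ℂ → ℝ) × (D.End → ℝ) × ℝ}

theorem vv_glue {y₁ : D.End} (hS : Str S) (hχ : D.Fn χ) (hb : D.Bd χ) (hs : Cost s)
    (h : ∀ η u, D.Wd η u → u y₁ = 0 → In (VV S y) (fun z => η z * χ z) fun y' => |u y'| * s y') :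
    In (VV S y) χ (upd s y₁ (D.osc y₁ χ)) := by
  have h0 : In S χ (upd s y₁ (D.osc y₁ χ)) :=
    hS.glue χ s y₁ hχ hb hs fun η u a b => (h η u a b).anti (sub_vv hS y)
  refine ⟨h0.fn, h0.co, fun p hp => ?_⟩
  by_cases e : y = y₁
  · subst e
    exact hp.2.reg ⟨h0, hb⟩ (by simp [upd])
  obtain ⟨U, hU, hU'⟩ := Dom.eh_sep e
  obtain ⟨η, u, hη, h1, hs'⟩ := cut_ex hU
  have hu : u y₁ = 0 := Dom.Wd.eh_val_zero hη.wd hs' hU'
  have ha := h η u hη.wd hu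
  have hb' := h0.cut hS hη.compl
  have hbb : D.Bd fun z => (1 - η z) * χ z := hη.compl.s1_bd.mul hb
  have ho : D.osc y (fun z => (1 - η z) * χ z) = 0 :=
    osc_const (c := 0) (by
      filter_upwards [hη.one_mem h1] with z hz
      have hz' : η z = 1 := hz
      rw [hz']; ring)
  have h2 := hp.2.reg ⟨hb', hbb⟩ (by rw [ho]; exact hb'.co.1 y)
  have h3 := ha.le p hp
  have e1 : D.om χ p.1 = D.om (fun z => η z * χ z) p.1 + D.om (fun z => (1 - η z) * χ z) p.1 := by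
    rw [← om_add ha.fn hb'.fn hp.1.fn]
    exact om_congr (fun z _ => by ring) fun _ _ => rfl
  have e2 : ip (upd s y₁ (D.osc y₁ χ)) p.2 = ip (fun y' => |u y'| * s y') p.2 +
      ip (fun y' => (1 - u y') * upd s y₁ (D.osc y₁ χ) y') p.2 := by
    rw [← ip_add ha.co.2 hb'.co.2 hp.1.co.2]
    congr 1
    funext y'
    rw [hη.s1_abs]
    by_cases e' : y' = y₁
    · subst e'
      rw [hu]; ring
    · simp only [upd, if_neg e']; ring
  rw [e1, e2]
  exact (abs_add_le _ _).trans (add_le_add h3 h2)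

theorem vv_str (hS : Str S) (y : D.End) : Str (VV S y) := by
  refine ⟨fun p hp => hp.1, fun p hp => ⟨hp.1.fn, hp.1.co, fun q hq =>
    hq.2.reg ⟨hp.2.isIn hS, hp.1.bd⟩ (hp.1.le y)⟩, fun φ s h T hT h1 hM => ?_,
    vv_box hS y, fun χ s y₁ hχ hb hs h => vv_glue hS hχ hb hs h⟩
  obtain ⟨M, hM⟩ := hM
  have hf : D.Fn fun z => T (φ z) := h.fn.comp hT fun z _ => h1 _
  exact ⟨hf, h.co, fun q hq => ((vv_app hS h).trunc hS h.fn hT h1 hM).le hf h.co hq.2⟩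

theorem Max.tcl (hS : Max S) : Tcl S := fun _ _ hφ y =>
  (vv_app hS.1 (hφ.1.anti (hS.2 _ (vv_str hS.1 y) (sub_vv hS.1 y)))).adm hS.1 hφ

end Vale.P116D
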