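import Vale.Agent.P116D.GH
import Vale.Agent.P116D.GB
import Vale.Agent.P116D.TM

/-!
GM: the general move (PROOF69 section 4).
-/

namespace Vale.P116D

open Set Filter Topology MeasureTheory Complex
open scoped ContDiff

variable {D : Dom} {S : Gens D} {φ ψ χ η g d v w : ℂ → ℝ} {s σ r τ u : D.End → ℝ} {y : D.End}
  {U : Set ℂ} {z : ℂ}

/-- The enlarged set of generators. -/
def GS (S : Gens D) (w : ℂ → ℝ) (R : Rect) : Gens D :=
  S ∪ {p | ∃ l g η u, Lam R l ∧ Gen S w R l g ∧ D.Wd η u ∧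
    p = (fun z => η z * g z, fun y => |u y| * cl D w l y)}

theorem gm_om {R : Rect} {l : ℝ → ℝ} (hg : Gen S w R l g) (hη : D.Wd η u) (hχ : D.Fn χ) :
    D.om χ (fun z => η z * g z) = omB D w R l fun z => η z * χ z := by
  obtain ⟨M, hM, -⟩ := hη.bd
  rw [← om_mul hη ⟨M, hM⟩ hχ hg.fn, hg.om _ (hχ.wmul hη ⟨M, hM⟩)]

theorem gm_ip (a b c : D.End → ℝ) : ip a (fun y => c y * b y) = ip (fun y => c y * a y) b :=
  tsum_congr fun y => by ring

theorem gm_iff {R : Rect} (X : Ctx S w σ R) : In (GS S w R) χ s ↔ In S χ s ∧ Lin D w R ∅ χ s := by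
  refine ⟨fun h => ⟨h.anti subset_union_left, fun η u hη _ l hl => ?_⟩,
    fun h => ⟨h.1.fn, h.1.co, ?_⟩⟩
  · obtain ⟨g, hg⟩ := gen_ex X hl
    have := h.le _ (Or.inr ⟨l, g, η, u, hl, hg, hη, rfl⟩)
    rwa [gm_om hg hη h.fn, gm_ip] at this
  · rintro p (hp | ⟨l, g, η, u, hl, hg, hη, rfl⟩)
    · exact h.1.le p hp
    · rw [gm_om hg hη h.1.fn, gm_ip]
      exact h.2 η u hη (fun y hy => absurd hy (notMem_empty y)) l hl

theorem gm_str {R : Rect} (hS : Max S) (X : Ctx S w σ R)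
    (had : ∀ y, 0 < D.osc y w → AD S w R y) : Str (GS S w R) := by
  refine ⟨?_, ?_, fun φ s h T hT h1 hM => ?_, fun k f s h => ?_, fun χ s y hχ hb hs h => ?_⟩
  · rintro p (hp | ⟨l, g, η, u, hl, hg, hη, rfl⟩)
    · exact hS.1.reg p hp
    · obtain ⟨M, hM, hu⟩ := hη.bd
      exact ⟨hg.fn.wmul hη ⟨M, hM⟩, Dom.Bd.mul ⟨M, hM⟩ hg.bd,
        hg.mem.co.bmul fun y => ⟨abs_nonneg _, hu y⟩, fun y => (osc_wmul hg.bd hη y).le.trans
          (mul_le_mul_of_nonneg_left (hg.osc y) (abs_nonneg _))⟩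
  · rintro p (hp | ⟨l, g, η, u, hl, hg, hη, rfl⟩)
    · refine (gm_iff X).2 ⟨hS.1.iso p hp, fun η u hη _ l hl => ?_⟩
      obtain ⟨g, hg⟩ := gen_ex X hl
      rw [← gm_om hg hη (hS.1.reg p hp).fn, om_swap, abs_neg, ← gm_ip, ip_comm]
      exact (hg.mem.wmul hS.1 hη).le p hp
    · have h1 := hg.mem.wmul hS.1 hη
      refine (gm_iff X).2 ⟨h1, fun η' u' hη' _ l' hl' => ?_⟩
      have := hg.orth l' hl' _ _ (hη'.mul hη)
      simp only [mul_assoc] at this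
      rw [this, abs_zero]
      exact ip_nonneg (fun y => mul_nonneg (abs_nonneg _) (h1.co.1 y)) cl_nonneg
  · obtain ⟨h2, h3⟩ := (gm_iff X).1 h
    exact (gm_iff X).2 ⟨hS.1.trunc φ s h2 T hT h1 hM, lin_trunc X h.fn h.co h3 hT h1⟩
  · have h1 : ∀ i, InB S (f i) (s i) := fun i => ⟨((gm_iff X).1 (h i).1).1, (h i).2⟩
    choose a ha using fun i => hS.tcl _ _ (h1 i)
    exact ⟨a, fun Θ hΘ η v hη r hr ho => (gm_iff X).2 ⟨boxAt_adm hS.1 h1 ha Θ hΘ η v hη r hr ho,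
      (lin_box X had (fun i => ⟨h1 i, ((gm_iff X).1 (h i).1).2⟩) ha hΘ hr ho).wmul hη⟩⟩
  · refine (gm_iff X).2 ⟨hS.1.glue χ s y hχ hb hs fun η v hη h0 => ((gm_iff X).1 (h η v hη h0)).1,
      lin_glue X hχ hb hs fun η v hη h0 l hl => ?_⟩
    simpa only [one_mul, abs_one] using ((gm_iff X).1 (h η v hη (h0 y rfl))).2 _ _ (wd_const D 1)
      (fun y hy => absurd hy (notMem_empty y)) l hl

theorem gm {R : Rect} (hS : Max S) (hw : In S w σ) (hr : Reg D w σ) (hR : IsBox D w R)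
    (had : ∀ y, 0 < D.osc y w → AD S w R y) (hχ : In S χ s) : Lin D w R ∅ χ s :=
  have X : Ctx S w σ R := ⟨hS.1, hw, hr, hR⟩
  ((gm_iff X).1 (hχ.anti (hS.2 _ (gm_str hS X had) subset_union_left))).2

end Vale.P116D
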