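import Vale.Agent.P116D.D2b
import Vale.Agent.P116D.D3
import Vale.Agent.P116D.GM

/-!
D4: a pair that is critical at all ends is constant.
-/

namespace Vale.P116D

open Set Filter Topology MeasureTheory Complex
open scoped ContDiff

variable {D : Dom} {S : Gens D} {φ ψ χ η g d v w : ℂ → ℝ} {s σ r τ u : D.End → ℝ} {y : D.End}
  {U : Set ℂ} {z : ℂ}

theorem d4_upper {c ε C : ℝ} {T l : ℝ → ℝ} {R : Rect} (hS : Max S) (hc : ∀ y, Crit S d v c τ y)
    (hw : In S w σ) (hr : Reg D w σ) (hR : IsBox D w R) (had : ∀ y, AD S w R y)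
    (e : ∀ z ∈ D.G, w z ∈ Ioo R.t₁ R.t₂ → gr v z = gr w z) (hl : Lam R l)
    (hl1 : ∀ t, l t ∈ Icc (0 : ℝ) (1 / 2)) (hT : ContDiff ℝ ∞ T) (hT1 : ∀ x, T x ∈ Icc (0 : ℝ) 1)
    (hT2 : ∀ x, deriv T x ∈ Icc 0 C) (hd : InB S (fun z => T (d z)) r) (hε : 0 < ε) :
    omB D w R l (fun z => T (d z)) ≤ 2 * ε := by
  have hS' := hS.1
  obtain ⟨ζ, M, m, hA⟩ := apx_ex hS' hw hr hR hl
  have hcl : Cost (cl D w l) := (hA.inM 0).1.co
  have hL := nl_nonneg (cl D w l)
  obtain ⟨F, hF⟩ := hd.1.co.2.tail (ε := ε / (nl (cl D w l) + 1)) (by positivity)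
  have hF := hF F subset_rfl
  choose U hU hU' using fun y => pos_loc (ε := ε / (F.card + 1)) hS' hc hT hT1 hT2 hd.1 y
    (by positivity)
  obtain ⟨f, a, η, h1, h2, h3, h4⟩ := cuts_ex F U fun y _ => hU y
  have hψ := hd.1.fn
  have hb : ∀ {η u}, D.Cut η u → D.Bd η := fun h => ⟨1, fun z _ => by
    have := h.mem z; rw [abs_le]; constructor <;> linarith [this.1, this.2]⟩
  have g1 : |omB D w R l fun z => (1 - η z) * T (d z)| ≤ ε := by
    have := gm hS hw hr hR (fun y _ => had y) hd.1 _ _ h2.compl.wd (by simp) l hl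
    refine this.trans ?_
    have hq : ∀ y, |(|1 - ∑ y' ∈ F, a y' y| * r y)| ≤ |pw F (fun _ => 0) r y| := by
      intro y
      unfold pw
      split_ifs with hy
      · simp [h4 y hy]
      · rcases h2.val y with h | h <;> simp [h]
    have hs := (hd.1.co.2.pw F fun _ => 0).mono hq
    refine (le_abs_self _).trans ((abs_ip_le hs hcl.2).trans ?_)
    have := (nl_mono (hd.1.co.2.pw F fun _ => 0) hq).trans hF
    calc _ ≤ ε / (nl (cl D w l) + 1) * (nl (cl D w l) + 1) := by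
          apply mul_le_mul this (by linarith) hL (by positivity)
      _ = ε := by field_simp
  have f1 := hψ.wmul h2.compl.wd (hb h2.compl)
  have f2 : ∀ y ∈ F, D.Fn fun z => f y z * T (d z) := fun y hy =>
    hψ.wmul (h1 y hy).1.wd (hb (h1 y hy).1)
  have g2 : ∀ n, D.om (fun z => T (d z)) (M n) ≤
      D.om (fun z => (1 - η z) * T (d z)) (M n) + ε := by
    intro n
    have hM := (hA.inM n).1.fn
    have e1 : D.om (fun z => T (d z)) (M n) = D.om (fun z => (1 - η z) * T (d z)) (M n) +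
        ∑ y ∈ F, D.om (fun z => f y z * T (d z)) (M n) := by
      rw [← om_sum F f2 hM, ← om_add f1 (Dom.Fn.sum F f2) hM]
      refine om_congr (fun z hz => ?_) fun _ _ => rfl
      simp only [← Finset.sum_mul, h3 hz]
      ring
    obtain ⟨s, hs⟩ := hA.zin n
    have e2 : ∀ y ∈ F, D.om (fun z => f y z * T (d z)) (M n) ≤ ε / (F.card + 1) := by
      intro y hy
      rw [← hA.om_eq hl hw.fn (f2 y hy) e n]
      have := hU' y _ _ (h1 y hy).1 (h1 y hy).2 (ζ n) s hs.1 (fun z hz => ?_) fun η u hη => ?_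
      · convert this using 2
        funext z; ring
      · obtain ⟨θ, hθ, h⟩ := hA.zle n z hz
        have := hl1 (w z)
        rw [h]
        exact ⟨mul_nonneg hθ.1 this.1, by nlinarith [hθ.1, hθ.2, this.1, this.2]⟩
      · have := hA.om_eq hl hw.fn hη.fn e n
        rw [om_wd hη hM] at this
        rw [← this]
        congr 1
        funext z; ring
    have e3 := Finset.sum_le_card_nsmul _ _ _ e2
    have e4 : (F.card : ℝ) * (ε / (F.card + 1)) ≤ ε := by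
      rw [mul_div_assoc', div_le_iff₀ (by positivity)]; nlinarith
    rw [nsmul_eq_mul] at e3
    linarith
  have g3 := le_of_tendsto_of_tendsto' (hA.om_lim hl hw.fn hψ)
    ((hA.om_lim hl hw.fn f1).add_const ε) g2
  linarith [le_abs_self (omB D w R l fun z => (1 - η z) * T (d z))]

theorem crit_const {c : ℝ} (hS : Max S) (hc : ∀ y, Crit S d v c τ y)
    (hol : DifferentiableOn ℂ (fun z => (d z : ℂ) + v z * I) D.G) (hd : In S d τ)
    (hv : In S v fun y => c * τ y) : ∀ z ∈ D.G, gr d z = 0 := by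
  by_contra hne
  push Not at hne
  obtain ⟨z₀, hz₀, hg⟩ := hne
  have hS' := hS.1
  have hG := fun z (hz : z ∈ D.G) => gr_hol (G_open D) hol hz
  obtain ⟨n, hn⟩ : ∃ n : ℝ, n = |v z₀| + 1 := ⟨_, rfl⟩
  have hn0 : 0 < n := by rw [hn]; positivity
  obtain ⟨T₀, t1, t2, t3, t4, -⟩ := clamp_ex (a := -n) (b := n) (δ := 1) (by linarith) one_pos
  have t5 : ∀ x, |deriv T₀ x| ≤ 1 := fun x => abs_le.2 ⟨by linarith [(t2 x).1], (t2 x).2⟩
  have t6 : ∀ x, |T₀ x| ≤ n + 1 := fun x => abs_le.2 ⟨by linarith [(t4 x).1], (t4 x).2⟩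
  have t7 := mono_of_deriv t1 fun x => (t2 x).1
  obtain ⟨w, hwe⟩ : ∃ w : ℂ → ℝ, w = fun z => T₀ (v z) := ⟨_, rfl⟩
  have hw : In S w fun y => c * τ y := hwe ▸ hS'.trunc v _ hv T₀ t1 t5 ⟨_, t6⟩
  have hwb : D.Bd w := ⟨n + 1, fun z _ => hwe ▸ t6 _⟩
  have hreg : Reg D w fun y => c * τ y := by
    refine ⟨hw.fn, hwb, hw.co, fun y => ?_⟩
    obtain ⟨a, ha⟩ := hS.tcl w _ ⟨hw, hwb⟩ y
    subst hwe
    simpa using reg_adm hS' univ_mem (fun y' _ => hc y') hv t1 t5 t6 ha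
  have hO : ∀ z ∈ D.G, |v z| < n → ∀ᶠ z' in 𝓝 z, |v z'| < n := fun z hz h =>
    ((hv.fn.diffAt hz).continuousAt.abs).eventually_lt continuousAt_const h
  have hwv : ∀ z, |v z| < n → w z = v z := fun z h => by
    rw [hwe]; exact t3 _ ⟨by linarith [(abs_lt.1 h).1], (abs_lt.1 h).2.le⟩
  have hgr : ∀ z ∈ D.G, |v z| < n → gr v z = gr w z := fun z hz h =>
    gr_congr ((hO z hz h).mono fun z' h' => (hwv z' h').symm)
  have hz1 : |v z₀| < n := by linarith
  have hg' : gr w z₀ ≠ 0 := by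
    rw [← hgr z₀ hz₀ hz1, (hG z₀ hz₀).1]
    exact mul_ne_zero I_ne_zero hg
  obtain ⟨R, hR, hRO, hzR⟩ := box_ex hw.fn.sm hz₀ hg' (hO z₀ hz₀ hz1)
  have b1 : -n < R.t₁ := by
    have h1 : |v R.bot| < n := hRO hR.top_mem.2
    have h2 : w R.bot < R.t₁ := hR.bot 0 (by simpa using hR.a0.le)
    rw [hwv _ h1] at h2
    linarith [(abs_lt.1 h1).1]
  have b2 : R.t₂ < n := by
    have h1 : |v R.top| < n := hRO hR.top_mem.1
    have h2 : R.t₂ < w R.top := hR.top 0 (by simpa using hR.a0.le)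
    rw [hwv _ h1] at h2
    linarith [(abs_lt.1 h1).2]
  have e : ∀ z ∈ D.G, w z ∈ Ioo R.t₁ R.t₂ → gr v z = gr w z := by
    intro z hz h
    refine hgr z hz (abs_lt.2 ⟨lt_of_not_ge fun h' => ?_, lt_of_not_ge fun h' => ?_⟩)
    · have := t7 h'
      rw [t3 (-n) ⟨le_rfl, by linarith⟩] at this
      have h1 := h.1
      rw [hwe] at h1
      linarith
    · have := t7 h'
      rw [t3 n ⟨by linarith, le_rfl⟩] at this
      have h1 := h.2
      rw [hwe] at h1
      linarith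
  have had : ∀ y, AD S w R y := fun y => ⟨_, hw.co, fun ε hε => by
    obtain ⟨U, hU, h⟩ := (hc y).ad hS' hε
    exact ⟨U, hU, v, hv.fn, fun z hz _ h' => e z hz h', fun χ s h1 h2 h3 => by
      rw [ip_cmul]; exact h χ s h1 h2 h3⟩⟩
  have hw0 : w z₀ ∈ Ioo R.t₁ R.t₂ := (interior_subset hzR).2
  obtain ⟨l₀, l1, l2, -, l3⟩ := bump_ex (a' := (R.t₁ + w z₀) / 2) (a := w z₀) (b := w z₀)
    (b' := (w z₀ + R.t₂) / 2) (by linarith [hw0.1]) le_rfl (by linarith [hw0.2])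
  have hl : Lam R fun t => 1 / 2 * l₀ t := ⟨_, _, by linarith [hw0.1], by linarith [hw0.2],
    contDiff_const.mul l1.1, fun t ht => l1.2 t fun h => ht (by simp [h])⟩
  have hl1 : ∀ t, 1 / 2 * l₀ t ∈ Icc (0 : ℝ) (1 / 2) := fun t =>
    ⟨by linarith [(l2 t).1], by linarith [(l2 t).2]⟩
  obtain ⟨T, C, s1, s2, s3, -, -, s4⟩ := step_ex (a := d z₀ - 1) (b := d z₀ + 1) (by linarith)
  have hC : 0 ≤ C := (s3 0).1.trans (s3 0).2
  have hψ := hd.comp hS' s1 hC (fun x => abs_le.2 ⟨by linarith [(s3 x).1], (s3 x).2⟩) (M := 1)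
    fun x => abs_le.2 ⟨by linarith [(s2 x).1], (s2 x).2⟩
  have key : ∀ z ∈ D.G, w z ∈ Ioo R.t₁ R.t₂ → wd (gr (fun z => T (d z)) z) (gr w z) =
      deriv T (d z) * ‖gr d z‖ ^ 2 := by
    intro z hz h
    rw [← e z hz h, (hG z hz).2.2, gr_comp (s1.differentiable (by simp) _) (hd.fn.diffAt hz),
      Complex.sq_norm, normSq_apply]
    simp [dt]; ring
  have hP := omB_pos hR hl hw.fn hψ.1.fn (fun z hz h => by
    rw [key z hz h]; exact mul_nonneg (hl1 _).1 (mul_nonneg (s3 _).1 (sq_nonneg _))) hzR (by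
    rw [key z₀ hz₀ hw0, l3 _ ⟨le_rfl, le_rfl⟩]
    have := s4 (d z₀) ⟨by linarith, by linarith⟩
    have := norm_pos_iff.2 hg
    positivity)
  have := d4_upper hS hc hw hreg hR had e hl hl1 s1 s2 s3 hψ (div_pos hP four_pos)
  linarith

end Vale.P116D
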