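import Vale.Agent.P116D.K2
import Vale.Agent.P116D.K4
import Vale.Agent.P116B.PrimG
import Vale.Agent.P128.Wey

/-!
K10: the limit field is the gradient of a harmonic function with a conjugate.  `conj p` is
weakly holomorphic (`Vale.Agent.P128.wey`), its pairing with `db` of wired functions vanishes (real
part by `h0`, imaginary part by Stokes and the limit), then `Vale.P116B.primG_hol`.
-/

namespace Vale.P116D

open Set Filter Topology MeasureTheory Complex
open scoped ContDiff

variable {D : Dom} {S : Gens D} {φ ψ χ η g d v w : ℂ → ℝ} {s σ r τ u : D.End → ℝ} {y : D.End}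
  {U : Set ℂ} {z : ℂ}

theorem k10_wd (h : ContDiff ℝ ∞ η) (hc : HasCompactSupport η)
    (hs : tsupport (fderiv ℝ η) ⊆ D.G) : ∃ u, D.Wd η u := by
  refine ⟨fun y => Option.elim y 0 fun c => η (D.eh_cmp_ne c).some, h,
    ⟨_, hc.fderiv ℝ, hs, fun z hz => image_eq_zero_of_notMem_tsupport hz⟩, fun y => ?_⟩
  cases y with
  | none =>
    refine Filter.Eventually.filter_mono inf_le_left ?_
    filter_upwards [hc.isCompact.compl_mem_cocompact] with z hz
    exact image_eq_zero_of_notMem_tsupport hz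
  | some c =>
    refine Filter.Eventually.filter_mono inf_le_left ?_
    have hO : IsOpen (tsupport (fderiv ℝ η))ᶜ := (isClosed_tsupport _).isOpen_compl
    have hz := (D.eh_cmp_ne c).some_mem
    have hsub := (D.eh_cmp_conn c).subset_connectedComponentIn hz
      (F := (tsupport (fderiv ℝ η))ᶜ) fun w hw h' => hs h' (D.eh_cmp_sub c hw)
    filter_upwards [hO.connectedComponentIn.mem_nhdsSet.2 hsub] with w hw
    exact hO.connectedComponentIn.is_const_of_fderiv_eq_zero (𝕜 := ℝ)
      isPreconnected_connectedComponentIn (h.differentiable (by simp)).differentiableOn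
      (fun x hx => image_eq_zero_of_notMem_tsupport (connectedComponentIn_subset _ _ hx)) hw (hsub hz)

theorem k10_int {μ : Measure ℂ} {p q : ℂ → ℂ} (hp : MemLp p 2 μ) (hq : MemLp q 2 μ) :
    Integrable (fun z => (starRingEnd ℂ) (p z) * q z) μ :=
  MemLp.integrable_mul (p := 2) (q := 2) hp.star hq

theorem k10_iwd {μ : Measure ℂ} {p q : ℂ → ℂ} (hp : MemLp p 2 μ) (hq : MemLp q 2 μ) :
    Integrable (fun z => wd (p z) (q z)) μ :=
  (k10_int hp hq).im.congr (Eventually.of_forall fun z => by simp [wd]; ring)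

theorem k10_lim {f : ℕ → ℂ → ℝ} {p : ℂ → ℂ} (h : ∀ n, D.Fn (f n))
    (hp : MemLp p 2 (volume.restrict D.G))
    (hl : Tendsto (fun n => ∫ z in D.G, ‖gr (f n) z - p z‖ ^ 2) atTop (𝓝 0)) (hη : D.Wd η u) :
    ∫ z in D.G, wd (gr η z) (p z) = 0 := by
  have h2 := hη.fn.l2
  have i1 := (memLp_two_iff_integrable_sq_norm h2.1).1 h2
  have key : ∀ ε : ℝ, 0 < ε →
      |∫ z in D.G, wd (gr η z) (p z)| ≤ ε * ∫ z in D.G, ‖gr η z‖ ^ 2 := by
    intro ε hε
    have hl' := (hl.const_mul ε⁻¹).const_add (ε * ∫ z in D.G, ‖gr η z‖ ^ 2)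
    rw [mul_zero, add_zero] at hl'
    refine ge_of_tendsto' hl' fun n => ?_
    have h3 := (h n).l2.sub hp
    have i2 : Integrable (fun z => ‖gr (f n) z - p z‖ ^ 2) (volume.restrict D.G) :=
      (memLp_two_iff_integrable_sq_norm h3.1).1 h3
    have e : ∫ z in D.G, wd (gr η z) (gr (f n) z - p z) = -∫ z in D.G, wd (gr η z) (p z) := by
      have e0 : ∫ z in D.G, wd (gr η z) (gr (f n) z) = 0 := om_wd hη (h n)
      rw [← zero_sub, ← e0, ← integral_sub (k10_iwd h2 (h n).l2) (k10_iwd h2 hp)]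
      refine integral_congr_ae (Eventually.of_forall fun z => ?_)
      simp only [wd, sub_re, sub_im]
      ring
    rw [← abs_neg, ← e, ← integral_const_mul, ← integral_const_mul,
      ← integral_add (i1.const_mul ε) (i2.const_mul ε⁻¹), ← Real.norm_eq_abs]
    refine norm_integral_le_of_norm_le ((i1.const_mul ε).add (i2.const_mul ε⁻¹))
      (Eventually.of_forall fun z => (abs_wd_le _ _).trans ?_)
    generalize ‖gr η z‖ = a
    generalize ‖gr (f n) z - p z‖ = b
    have e1 : ε * a ^ 2 + ε⁻¹ * b ^ 2 - a * b = ε⁻¹ * ((ε * a - b / 2) ^ 2 + 3 / 4 * b ^ 2) := by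
      field_simp
      ring
    have e2 : 0 ≤ ε⁻¹ * ((ε * a - b / 2) ^ 2 + 3 / 4 * b ^ 2) := by positivity
    linarith
  have t : Tendsto (fun ε : ℝ => ε * ∫ z in D.G, ‖gr η z‖ ^ 2) (𝓝[>] 0) (𝓝 (0 * _)) :=
    (tendsto_id.mono_left nhdsWithin_le_nhds).mul_const _
  rw [zero_mul] at t
  exact abs_nonpos_iff.1 (ge_of_tendsto t (eventually_nhdsWithin_of_forall key))

theorem k10_part (Λ : ℂ →L[ℝ] ℝ) {k : ℂ → ℂ} (hk : DifferentiableAt ℝ k z) :
    fderiv ℝ (fun w => Λ (k w)) z = Λ.comp (fderiv ℝ k z) :=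
  (Λ.hasFDerivAt.comp z hk.hasFDerivAt).fderiv

theorem hol_limit {f : ℕ → ℂ → ℝ} {p : ℂ → ℂ} (h : ∀ n, D.Fn (f n))
    (hp : MemLp p 2 (volume.restrict D.G))
    (hl : Tendsto (fun n => ∫ z in D.G, ‖gr (f n) z - p z‖ ^ 2) atTop (𝓝 0))
    (h0 : ∀ η u, D.Wd η u → ∫ z in D.G, dt (gr η z) (p z) = 0) :
    ∃ d v, D.Fn d ∧ D.Fn v ∧ DifferentiableOn ℂ (fun z => (d z : ℂ) + v z * I) D.G ∧
      ∀ᵐ z ∂volume.restrict D.G, gr d z = p z := by
  have hG := G_open D
  have A : ∀ η u, D.Wd η u → ∫ z in D.G, (starRingEnd ℂ) (p z) * gr η z = 0 := by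
    intro η u hη
    have i := k10_int hp hη.fn.l2
    apply Complex.ext
    · rw [← reCLM_apply, ← reCLM.integral_comp_comm i, zero_re, ← h0 η u hη]
      refine integral_congr_ae (Eventually.of_forall fun z => ?_)
      simp [dt]
      ring
    · rw [← imCLM_apply, ← imCLM.integral_comp_comm i, zero_im, ← neg_zero,
        ← k10_lim h hp hl hη, ← integral_neg]
      refine integral_congr_ae (Eventually.of_forall fun z => ?_)
      simp [wd]
      ring
  have hloc : LocallyIntegrableOn (fun z => (starRingEnd ℂ) (p z)) D.G := by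
    refine (locallyIntegrableOn_iff hG.isLocallyClosed).2 fun C hC hc => ?_
    have : IsFiniteMeasure (volume.restrict C) := ⟨by simpa using hc.measure_lt_top⟩
    exact (hp.star.mono_measure (Measure.restrict_mono hC le_rfl)).integrable (by norm_num)
  obtain ⟨P, hP, he⟩ := Vale.Agent.P128.wey hG hloc fun φ hφ hc hs => by
    obtain ⟨u, hu⟩ := k10_wd hφ hc ((tsupport_fderiv_subset ℝ).trans hs)
    rw [← A φ u hu]
    refine integral_congr_ae (Eventually.of_forall fun z => ?_)
    simp only [Vale.Agent.P128.grad_eq]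
    congr 1
    apply Complex.ext <;> simp [gr]
  have he' : ∀ᵐ z ∂volume.restrict D.G, (starRingEnd ℂ) (p z) = P z :=
    (ae_restrict_iff' hG.measurableSet).2 he
  obtain ⟨k, hk⟩ := Vale.P116B.primG_hol D.cpt D.conn.isPreconnected hP fun χ hχ => by
    have hd : ∀ z, DifferentiableAt ℝ χ z := hχ.1.1.differentiable (by simp)
    have w : ∀ Λ : ℂ →L[ℝ] ℝ, ∃ u, D.Wd (fun w => Λ (χ w)) u := fun Λ =>
      k10_wd (Λ.contDiff.comp hχ.1.1) (hχ.1.2.comp_left (map_zero Λ))
        ((closure_mono (Function.support_subset_iff'.2 fun z hz => by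
          rw [k10_part Λ (hd z), Function.notMem_support.1 hz]; simp)).trans hχ.2)
    obtain ⟨u1, h1⟩ := w reCLM
    obtain ⟨u2, h2⟩ := w imCLM
    rw [← setIntegral_eq_integral_of_forall_compl_eq_zero (s := D.G) fun z hz => by
      simp [Vale.P116B.db, image_eq_zero_of_notMem_tsupport fun h' => hz (hχ.2 h')]]
    have e := integral_add (k10_int hp h1.fn.l2) ((k10_int hp h2.fn.l2).const_mul I)
    rw [integral_const_mul, A _ _ h1, A _ _ h2, mul_zero, add_zero] at e
    rw [← mul_zero (1 / 2 : ℂ), ← e, ← integral_const_mul]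
    refine integral_congr_ae ?_
    filter_upwards [he'] with z hz
    have e2 : fderiv ℝ χ z 1 + I * fderiv ℝ χ z I =
        gr (fun w => reCLM (χ w)) z + I * gr (fun w => imCLM (χ w)) z := by
      simp only [gr, k10_part _ (hd z)]
      apply Complex.ext <;> simp
      ring
    rw [← hz, Vale.P116B.db, e2]
    ring
  have hkd : DifferentiableOn ℂ k D.G := fun z hz =>
    (hk z hz).differentiableAt.differentiableWithinAt
  have hks : ContDiffOn ℝ ∞ k D.G := (hkd.contDiffOn hG).restrict_scalars ℝ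
  have hf : ∀ z ∈ D.G, ∀ e, fderiv ℝ k z e = e * P z := fun z hz e => by
    rw [((hk z hz).hasFDerivAt.restrictScalars ℝ).fderiv]
    simp
  have hr : ∀ z ∈ D.G, DifferentiableAt ℝ k z := fun z hz =>
    (hk z hz).differentiableAt.restrictScalars ℝ
  have e1 : ∀ᵐ z ∂volume.restrict D.G, gr (fun w => reCLM (k w)) z = p z := by
    filter_upwards [he', ae_restrict_mem hG.measurableSet] with z h1 hz
    simp only [gr, k10_part _ (hr z hz), ContinuousLinearMap.comp_apply, hf z hz, ← h1]
    apply Complex.ext <;> simp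
  have e2 : ∀ᵐ z ∂volume.restrict D.G, gr (fun w => imCLM (k w)) z = I * p z := by
    filter_upwards [he', ae_restrict_mem hG.measurableSet] with z h1 hz
    simp only [gr, k10_part _ (hr z hz), ContinuousLinearMap.comp_apply, hf z hz, ← h1]
    apply Complex.ext <;> simp
  refine ⟨fun w => reCLM (k w), fun w => imCLM (k w),
    ⟨reCLM.contDiff.comp_contDiffOn hks, (memLp_congr_ae e1).2 hp⟩,
    ⟨imCLM.contDiff.comp_contDiffOn hks, (memLp_congr_ae e2).2 (hp.const_mul I)⟩, ?_, e1⟩
  simpa using hkd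

end Vale.P116D
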