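import Vale.Agent.P116D.K2
import Vale.Agent.P116D.K3

/-!
K11: minimisation of a quadratic functional plus a convex term.  Work in the real Hilbert space
`WithLp 2 (Lp ℂ 2 μ × lp (fun _ => ℝ) 2)` with the second coordinate scaled by `√c`; a minimising
sequence is Cauchy by the parallelogram identity.
-/

namespace Vale.P116D

open Set Filter Topology MeasureTheory Complex
open scoped ContDiff

variable {D : Dom} {S : Gens D} {φ ψ χ η g d v w : ℂ → ℝ} {s σ r τ u : D.End → ℝ} {y : D.End}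
  {U : Set ℂ} {z : ℂ}

/-- convex sets of triples -/
def Cvx (A : Set ((ℂ → ℝ) × (D.End → ℝ) × ℝ)) : Prop :=
  ∀ x ∈ A, ∀ x' ∈ A, ∀ t ∈ Icc (0 : ℝ) 1, ∃ ρ ≤ t * x.2.2 + (1 - t) * x'.2.2,
    (fun z => t * x.1 z + (1 - t) * x'.1 z, fun y => t * x.2.1 y + (1 - t) * x'.2.1 y, ρ) ∈ A

theorem k11_abs {H : Type} [NormedAddCommGroup H] [InnerProductSpace ℝ H] [CompleteSpace H]
    {α : Type} [Nonempty α] (P : α → H) (R : α → ℝ) (h0 : ∀ x, 0 ≤ R x)
    (hc : ∀ x x', ∀ t ∈ Icc (0 : ℝ) 1, ∃ x'', P x'' = t • P x + (1 - t) • P x' ∧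
      R x'' ≤ t * R x + (1 - t) * R x') :
    ∃ (x : ℕ → α) (p : H) (ρ : ℝ), Tendsto (fun n => P (x n)) atTop (𝓝 p) ∧
      Tendsto (fun n => R (x n)) atTop (𝓝 ρ) ∧ ∀ x', 0 ≤ inner ℝ (P x' - p) p + R x' - ρ := by
  have hbdd : BddBelow (range fun x => ‖P x‖ ^ 2 / 2 + R x) :=
    ⟨0, by
      rintro _ ⟨x, rfl⟩
      have := h0 x
      positivity⟩
  obtain ⟨m, hm⟩ : ∃ m, m = ⨅ x, (‖P x‖ ^ 2 / 2 + R x) := ⟨_, rfl⟩
  have hle : ∀ x, m ≤ ‖P x‖ ^ 2 / 2 + R x := fun x => hm ▸ ciInf_le hbdd x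
  have hex : ∀ n : ℕ, ∃ x, ‖P x‖ ^ 2 / 2 + R x < m + 1 / ((n : ℝ) + 1) := fun n =>
    exists_lt_of_ciInf_lt (hm ▸ lt_add_of_pos_right m Nat.one_div_pos_of_nat)
  choose x hx using hex
  have hδ : Tendsto (fun n : ℕ => 1 / ((n : ℝ) + 1)) atTop (𝓝 0) :=
    tendsto_one_div_add_atTop_nhds_zero_nat
  have hcomb : ∀ a a', ∀ t ∈ Icc (0 : ℝ) 1,
      m ≤ ‖t • P a + (1 - t) • P a'‖ ^ 2 / 2 + (t * R a + (1 - t) * R a') := by
    intro a a' t ht
    obtain ⟨a'', h1, h2⟩ := hc a a' t ht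
    have h3 := hle a''
    rw [h1] at h3
    linarith
  have hexp : ∀ (v v' : H) (t t' : ℝ), ‖t • v + t' • v'‖ ^ 2 =
      t ^ 2 * ‖v‖ ^ 2 + 2 * (t * t') * inner ℝ v v' + t' ^ 2 * ‖v'‖ ^ 2 := by
    intro v v' t t'
    rw [norm_add_sq_real, norm_smul, norm_smul, real_inner_smul_left, real_inner_smul_right,
      mul_pow, mul_pow, Real.norm_eq_abs, Real.norm_eq_abs, sq_abs, sq_abs]
    ring
  have hd : ∀ n k : ℕ,
      ‖P (x n) - P (x k)‖ ^ 2 ≤ 4 * (1 / ((n : ℝ) + 1)) + 4 * (1 / ((k : ℝ) + 1)) := by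
    intro n k
    have h1 := hcomb (x n) (x k) (1 / 2) ⟨by norm_num, by norm_num⟩
    rw [hexp] at h1
    have h2 := hx n
    have h3 := hx k
    rw [norm_sub_sq_real]
    linarith
  have hcau : CauchySeq fun n => P (x n) := by
    rw [Metric.cauchySeq_iff]
    intro e he
    have h1 : ∀ᶠ n : ℕ in atTop, 1 / ((n : ℝ) + 1) < e ^ 2 / 8 :=
      hδ.eventually (gt_mem_nhds (by positivity))
    obtain ⟨N, hN⟩ := eventually_atTop.1 h1
    refine ⟨N, fun n hn k hk => ?_⟩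
    rw [dist_eq_norm]
    have h2 := hd n k
    have h3 := hN n hn
    have h4 := hN k hk
    exact lt_of_pow_lt_pow_left₀ 2 he.le (by linarith)
  obtain ⟨p, hp⟩ := cauchySeq_tendsto_of_complete hcau
  have hE : Tendsto (fun n => ‖P (x n)‖ ^ 2 / 2 + R (x n)) atTop (𝓝 m) := by
    have h1 := hδ.const_add m
    rw [add_zero] at h1
    exact tendsto_of_tendsto_of_tendsto_of_le_of_le tendsto_const_nhds h1 (fun n => hle _)
      fun n => (hx n).le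
  have hR : Tendsto (fun n => R (x n)) atTop (𝓝 (m - ‖p‖ ^ 2 / 2)) := by
    have h1 := hE.sub ((hp.norm.pow 2).div_const 2)
    simpa only [add_sub_cancel_left] using h1
  refine ⟨x, p, _, hp, hR, fun a => ?_⟩
  have hstep : ∀ t : ℝ, 0 < t → t ≤ 1 →
      0 ≤ inner ℝ (P a - p) p + R a - (m - ‖p‖ ^ 2 / 2) + t * (‖P a - p‖ ^ 2 / 2) := by
    intro t ht ht1
    have h1 : Tendsto (fun n => ‖t • P a + (1 - t) • P (x n)‖ ^ 2 / 2 +
        (t * R a + (1 - t) * R (x n))) atTop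
        (𝓝 (‖t • P a + (1 - t) • p‖ ^ 2 / 2 + (t * R a + (1 - t) * (m - ‖p‖ ^ 2 / 2)))) :=
      ((((hp.const_smul _).const_add _).norm.pow 2).div_const 2).add
        ((hR.const_mul _).const_add _)
    have h2 := ge_of_tendsto' h1 fun n => hcomb a (x n) t ⟨ht.le, ht1⟩
    have e : t • P a + (1 - t) • p = t • (P a - p) + (1 : ℝ) • p := by module
    rw [e, hexp] at h2
    refine le_of_mul_le_mul_left ?_ ht
    linarith
  have h3 := (hδ.mul_const (‖P a - p‖ ^ 2 / 2)).const_add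
    (inner ℝ (P a - p) p + R a - (m - ‖p‖ ^ 2 / 2))
  rw [zero_mul, add_zero] at h3
  exact ge_of_tendsto' h3 fun n => hstep _ Nat.one_div_pos_of_nat (by
    rw [div_le_one (by positivity)]
    linarith [(Nat.cast_nonneg n : (0 : ℝ) ≤ n)])

theorem k11_two {H H' : Type} [NormedAddCommGroup H] [InnerProductSpace ℝ H] [CompleteSpace H]
    [NormedAddCommGroup H'] [InnerProductSpace ℝ H'] [CompleteSpace H']
    {α : Type} [Nonempty α] {c : ℝ} (hc : 0 < c) (P : α → H) (Q : α → H') (R : α → ℝ)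
    (h0 : ∀ x, 0 ≤ R x)
    (hv : ∀ x x', ∀ t ∈ Icc (0 : ℝ) 1, ∃ x'', P x'' = t • P x + (1 - t) • P x' ∧
      Q x'' = t • Q x + (1 - t) • Q x' ∧ R x'' ≤ t * R x + (1 - t) * R x') :
    ∃ (x : ℕ → α) (p : H) (q : H') (ρ : ℝ), Tendsto (fun n => P (x n)) atTop (𝓝 p) ∧
      Tendsto (fun n => Q (x n)) atTop (𝓝 q) ∧ Tendsto (fun n => R (x n)) atTop (𝓝 ρ) ∧
      ∀ x', 0 ≤ inner ℝ (P x' - p) p + c * inner ℝ (Q x' - q) q + R x' - ρ := by
  have hs : √c ≠ 0 := (Real.sqrt_pos.2 hc).ne'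
  obtain ⟨x, p, ρ, h1, h2, h3⟩ := k11_abs (H := WithLp 2 (H × H'))
    (fun a => WithLp.toLp 2 (P a, √c • Q a)) R h0 fun a a' t ht => by
      obtain ⟨a'', e1, e2, e3⟩ := hv a a' t ht
      refine ⟨a'', ?_, e3⟩
      rw [e1, e2, ← WithLp.toLp_smul, ← WithLp.toLp_smul, ← WithLp.toLp_add, Prod.smul_mk,
        Prod.smul_mk, Prod.mk_add_mk, smul_add, smul_comm √c t, smul_comm √c (1 - t)]
  have h4 := ((WithLp.prod_continuous_ofLp 2 H H').tendsto p).comp h1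
  refine ⟨x, (WithLp.ofLp p).1, (√c)⁻¹ • (WithLp.ofLp p).2, ρ, h4.fst_nhds, ?_, h2, fun a => ?_⟩
  · have h5 := h4.snd_nhds.const_smul (√c)⁻¹
    simpa only [Function.comp, inv_smul_smul₀ hs] using h5
  · have h5 := h3 a
    rw [WithLp.prod_inner_apply] at h5
    have e : c * inner ℝ (Q a - (√c)⁻¹ • (WithLp.ofLp p).2) ((√c)⁻¹ • (WithLp.ofLp p).2) =
        inner ℝ (√c • Q a - (WithLp.ofLp p).2) (WithLp.ofLp p).2 := by
      rw [inner_sub_left, inner_sub_left, real_inner_smul_right, real_inner_smul_right,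
        real_inner_smul_left, real_inner_smul_left]
      have h6 : √c * √c = c := Real.mul_self_sqrt hc.le
      obtain ⟨e, he⟩ : ∃ e, e = √c := ⟨_, rfl⟩
      rw [← he] at h6 hs ⊢
      rw [← h6]
      field_simp
    rw [e]
    exact h5

theorem k11_mem {Y : Type} {a : Y → ℝ} : Memℓp a 2 ↔ Sq a := by
  rw [memℓp_gen_iff (by norm_num)]
  simp only [ENNReal.toReal_ofNat, Real.rpow_ofNat, Real.norm_eq_abs, sq_abs, Sq]

theorem k11_ip {Y : Type} (a b : lp (fun _ : Y => ℝ) 2) : inner ℝ a b = ip a b := by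
  rw [lp.inner_eq_tsum]
  simp only [ip, RCLike.inner_apply, conj_trivial, mul_comm]

theorem k11_nl {Y : Type} (a : lp (fun _ : Y => ℝ) 2) : nl a = ‖a‖ := by
  rw [← Real.sqrt_sq (nl_nonneg _), nl_sq, ← k11_ip, real_inner_self_eq_norm_sq,
    Real.sqrt_sq (norm_nonneg _)]

theorem k11_dt (p q : ℂ) : inner ℝ p q = dt p q := by
  rw [Complex.inner, dt]
  simp
  ring

theorem min_field {A : Set ((ℂ → ℝ) × (D.End → ℝ) × ℝ)} {c : ℝ} {b : ℂ → ℂ} (hc : 0 < c)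
    (hb : MemLp b 2 (volume.restrict D.G)) (hA : Cvx A) (hne : A.Nonempty)
    (h : ∀ x ∈ A, D.Fn x.1 ∧ Cost x.2.1 ∧ 0 ≤ x.2.2) :
    ∃ (x : ℕ → (ℂ → ℝ) × (D.End → ℝ) × ℝ) (p : ℂ → ℂ) (τ : D.End → ℝ) (ρ : ℝ), (∀ n, x n ∈ A) ∧
      MemLp p 2 (volume.restrict D.G) ∧ Cost τ ∧ 0 ≤ ρ ∧
      Tendsto (fun n => ∫ z in D.G, ‖gr (x n).1 z - p z‖ ^ 2) atTop (𝓝 0) ∧
      Tendsto (fun n => nl fun y => (x n).2.1 y - τ y) atTop (𝓝 0) ∧
      Tendsto (fun n => (x n).2.2) atTop (𝓝 ρ) ∧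
      ∀ x' ∈ A, 0 ≤ (∫ z in D.G, dt (gr x'.1 z - p z) (p z + b z)) + c * (ip x'.2.1 τ - ip τ τ) +
        x'.2.2 - ρ := by
  have : Nonempty A := hne.to_subtype
  have hP : ∀ x : A, MemLp (fun z => gr x.1.1 z + b z) 2 (volume.restrict D.G) :=
    fun x => (h x.1 x.2).1.l2.add hb
  have hQ : ∀ x : A, Memℓp x.1.2.1 2 := fun x => k11_mem.2 (h x.1 x.2).2.1.2
  obtain ⟨x, p, q, ρ, h1, h2, h3, h4⟩ := k11_two (α := A) hc (fun x => (hP x).toLp _)
    (fun x => (⟨x.1.2.1, hQ x⟩ : lp (fun _ : D.End => ℝ) 2)) (fun x => x.1.2.2)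
    (fun x => (h x.1 x.2).2.2) fun x x' t ht => by
      obtain ⟨ρ, h1, h2⟩ := hA x.1 x.2 x'.1 x'.2 t ht
      refine ⟨⟨_, h2⟩, Lp.ext ?_, rfl, h1⟩
      filter_upwards [(hP ⟨_, h2⟩).coeFn_toLp, (hP x).coeFn_toLp, (hP x').coeFn_toLp,
        Lp.coeFn_add (t • (hP x).toLp _) ((1 - t) • (hP x').toLp _),
        Lp.coeFn_smul t ((hP x).toLp _), Lp.coeFn_smul (1 - t) ((hP x').toLp _),
        ae_restrict_mem (G_meas D)] with z e1 e2 e3 e4 e5 e6 hz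
      have d1 := (h x.1 x.2).1.diffAt hz
      have d2 := (h x'.1 x'.2).1.diffAt hz
      rw [e1, e4, Pi.add_apply, e5, e6, Pi.smul_apply, Pi.smul_apply, e2, e3,
        gr_add (d1.const_mul t) (d2.const_mul (1 - t)), gr_cmul t d1, gr_cmul (1 - t) d2]
      module
  have hsub : ∀ a : A, ((hP a).toLp _ - p : Lp ℂ 2 (volume.restrict D.G)) =ᵐ[volume.restrict D.G]
      fun z => gr a.1.1 z - (p z - b z) := by
    intro a
    filter_upwards [(hP a).coeFn_toLp, Lp.coeFn_sub ((hP a).toLp _) p] with z e1 e2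
    rw [e2, Pi.sub_apply, e1]
    ring
  have h5 := tendsto_iff_norm_sub_tendsto_zero.1 h2
  refine ⟨fun n => (x n).1, fun z => p z - b z, q, ρ, fun n => (x n).2, (Lp.memLp p).sub hb,
    ⟨fun y => ?_, k11_mem.1 (lp.memℓp q)⟩, ge_of_tendsto' h3 fun n => (h _ (x n).2).2.2, ?_, ?_,
    h3, fun a ha => ?_⟩
  · have h6 : Tendsto (fun n => (x n).1.2.1 y) atTop (𝓝 (q y)) :=
      tendsto_iff_norm_sub_tendsto_zero.2 (squeeze_zero (fun n => norm_nonneg _)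
        (fun n => lp.norm_apply_le_norm two_ne_zero
          ((⟨(x n).1.2.1, hQ (x n)⟩ : lp (fun _ : D.End => ℝ) 2) - q) y) h5)
    exact ge_of_tendsto' h6 fun n => (h _ (x n).2).2.1.1 y
  · have h6 := (tendsto_iff_norm_sub_tendsto_zero.1 h1).pow 2
    rw [zero_pow two_ne_zero] at h6
    refine h6.congr fun n => ?_
    rw [← real_inner_self_eq_norm_sq, L2.inner_def]
    refine integral_congr_ae ?_
    filter_upwards [hsub (x n)] with z e
    rw [e, real_inner_self_eq_norm_sq]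
  · exact h5.congr fun n => (k11_nl _).symm
  · have h6 := h4 ⟨a, ha⟩
    rw [inner_sub_left (𝕜 := ℝ) _ q q, k11_ip, k11_ip, L2.inner_def] at h6
    have e : ∫ z in D.G, dt (gr a.1 z - (p z - b z)) (p z - b z + b z) = ∫ z in D.G,
        inner ℝ (((hP ⟨a, ha⟩).toLp _ - p : Lp ℂ 2 (volume.restrict D.G)) z) (p z) := by
      refine integral_congr_ae ?_
      filter_upwards [hsub ⟨a, ha⟩] with z e
      rw [e, k11_dt, sub_add_cancel]
    rw [e]
    exact h6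

end Vale.P116D
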