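import Vale.Agent.P116D.K2a
import Vale.Agent.P116D.K1
import Vale.Agent.P116B.NL

/-!
K2: the forms `om`, `di`, the norm `nr`, and the Stokes identities.  For `om_wd` subtract the
value of `η` at infinity (the derivative vanishes off a compact set, so `η` is constant outside a
disc) and use `Vale.P116B.nl1_on`.  For `om_cs` extend `ψ` by zero to a smooth function.
-/

namespace Vale.P116D

open Set Filter Topology MeasureTheory Complex
open scoped ContDiff

variable {D : Dom} {S : Gens D} {φ ψ χ η g d v w : ℂ → ℝ} {s σ r τ u : D.End → ℝ} {y : D.End}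
  {U : Set ℂ} {z : ℂ}

theorem k2b_gr {φ' : ℂ → ℝ} (e : EqOn φ φ' D.G) (hz : z ∈ D.G) : gr φ z = gr φ' z :=
  gr_congr (e.eventuallyEq_of_mem ((G_open D).mem_nhds hz))

theorem om_congr {φ' ψ' : ℂ → ℝ} (e : EqOn φ φ' D.G) (e' : EqOn ψ ψ' D.G) :
    D.om φ ψ = D.om φ' ψ' :=
  setIntegral_congr_fun (G_meas D) fun z hz => by
    simp only [k2b_gr e hz, k2b_gr e' hz]

theorem om_swap (D : Dom) (φ ψ : ℂ → ℝ) : D.om φ ψ = -D.om ψ φ := by
  unfold Dom.om
  rw [← integral_neg]
  refine integral_congr_ae (Eventually.of_forall fun z => ?_)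
  simp only [wd]
  ring

theorem om_add (h : D.Fn φ) (h' : D.Fn ψ) (hg : D.Fn g) :
    D.om (fun z => φ z + ψ z) g = D.om φ g + D.om ψ g := by
  unfold Dom.om
  rw [← integral_add (int_wd h hg) (int_wd h' hg)]
  refine setIntegral_congr_fun (G_meas D) fun z hz => ?_
  simp only [gr_add (h.diffAt hz) (h'.diffAt hz), wd, add_re, add_im]
  ring

theorem om_sub (h : D.Fn φ) (h' : D.Fn ψ) (hg : D.Fn g) :
    D.om (fun z => φ z - ψ z) g = D.om φ g - D.om ψ g := by
  unfold Dom.om
  rw [← integral_sub (int_wd h hg) (int_wd h' hg)]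
  refine setIntegral_congr_fun (G_meas D) fun z hz => ?_
  simp only [gr_sub (h.diffAt hz) (h'.diffAt hz), wd, sub_re, sub_im]
  ring

theorem om_neg (D : Dom) (φ g : ℂ → ℝ) : D.om (fun z => -φ z) g = -D.om φ g := by
  unfold Dom.om
  rw [← integral_neg]
  refine integral_congr_ae (Eventually.of_forall fun z => ?_)
  simp only [gr_neg, wd, neg_re, neg_im]
  ring

theorem om_cmul (h : D.Fn φ) (c : ℝ) (g : ℂ → ℝ) : D.om (fun z => c * φ z) g = c * D.om φ g := by
  unfold Dom.om
  rw [← integral_const_mul]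
  refine setIntegral_congr_fun (G_meas D) fun z hz => ?_
  simp only [gr_cmul c (h.diffAt hz), wd, smul_re, smul_im, smul_eq_mul]
  ring

theorem om_const (D : Dom) (c : ℝ) (g : ℂ → ℝ) : D.om (fun _ => c) g = 0 := by
  simp [Dom.om, gr_const, wd]

theorem om_sum {ι : Type} (F : Finset ι) {f : ι → ℂ → ℝ} (h : ∀ i ∈ F, D.Fn (f i)) (hg : D.Fn g) :
    D.om (fun z => ∑ i ∈ F, f i z) g = ∑ i ∈ F, D.om (f i) g := by
  classical
  induction F using Finset.induction_on with
  | empty => simpa using om_const D 0 g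
  | insert a F ha ih =>
    have h1 : ∀ i ∈ F, D.Fn (f i) := fun i hi => h i (Finset.mem_insert_of_mem hi)
    simp only [Finset.sum_insert ha]
    rw [om_add (h a (Finset.mem_insert_self _ _)) (Dom.Fn.sum F h1) hg, ih h1]

theorem abs_om_le (h : D.Fn φ) (h' : D.Fn ψ) : |D.om φ ψ| ≤ D.nr φ * D.nr ψ := by
  refine le_trans ?_ (int_mul_le h h')
  exact abs_integral_le_integral_abs.trans
    (integral_mono (int_wd h h').abs (int_mul h h') fun z => abs_wd_le _ _)

theorem abs_di_le (h : D.Fn φ) (h' : D.Fn ψ) : |D.di φ ψ| ≤ D.nr φ * D.nr ψ := by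
  refine le_trans ?_ (int_mul_le h h')
  exact abs_integral_le_integral_abs.trans
    (integral_mono (int_dt h h').abs (int_mul h h') fun z => abs_dt_le _ _)

theorem di_comm (D : Dom) (φ ψ : ℂ → ℝ) : D.di φ ψ = D.di ψ φ := by
  unfold Dom.di
  refine integral_congr_ae (Eventually.of_forall fun z => ?_)
  simp only [dt]
  ring

theorem di_add (h : D.Fn φ) (h' : D.Fn ψ) (hg : D.Fn g) :
    D.di (fun z => φ z + ψ z) g = D.di φ g + D.di ψ g := by
  unfold Dom.di
  rw [← integral_add (int_dt h hg) (int_dt h' hg)]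
  refine setIntegral_congr_fun (G_meas D) fun z hz => ?_
  simp only [gr_add (h.diffAt hz) (h'.diffAt hz), dt, add_re, add_im]
  ring

theorem di_sub (h : D.Fn φ) (h' : D.Fn ψ) (hg : D.Fn g) :
    D.di (fun z => φ z - ψ z) g = D.di φ g - D.di ψ g := by
  unfold Dom.di
  rw [← integral_sub (int_dt h hg) (int_dt h' hg)]
  refine setIntegral_congr_fun (G_meas D) fun z hz => ?_
  simp only [gr_sub (h.diffAt hz) (h'.diffAt hz), dt, sub_re, sub_im]
  ring

theorem di_cmul (h : D.Fn φ) (c : ℝ) (g : ℂ → ℝ) : D.di (fun z => c * φ z) g = c * D.di φ g := by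
  unfold Dom.di
  rw [← integral_const_mul]
  refine setIntegral_congr_fun (G_meas D) fun z hz => ?_
  simp only [gr_cmul c (h.diffAt hz), dt, smul_re, smul_im, smul_eq_mul]
  ring

theorem om_tendsto {f : ℕ → ℂ → ℝ} (h : ∀ n, D.Fn (f n)) (h' : D.Fn φ) (hg : D.Fn g)
    (hl : Tendsto (fun n => D.nr fun z => f n z - φ z) atTop (𝓝 0)) :
    Tendsto (fun n => D.om (f n) g) atTop (𝓝 (D.om φ g)) := by
  rw [tendsto_iff_norm_sub_tendsto_zero]
  have t := hl.mul_const (D.nr g)
  rw [zero_mul] at t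
  refine squeeze_zero (fun n => norm_nonneg _) (fun n => ?_) t
  rw [← om_sub (h n) h' hg]
  exact abs_om_le ((h n).sub h') hg

end Vale.P116D
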