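import Vale.Agent.P116D.K4
import Vale.Agent.P116D.K2b
import Vale.Agent.P116D.K13
import Vale.Agent.P116D.K1
import Vale.Agent.P116B.NL

/-!
K2: the forms `om`, `di`, the norm `nr`, and the Stokes identities.  For `om_wd` subtract the
value of `η` at infinity (the derivative vanishes off a compact set, so `η` is constant outside a
disc) and use `Vale.P116B.nl1_on`.  For `om_cs` extend `ψ` by zero to a smooth function.
-/

namespace Vale.P116D

open Set Filter Topology MeasureTheory Complex
open scoped ContDiff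

variable {D : Dom} {S : Gens D} {φ ψ χ η g d v w : ℂ → ℝ} {s σ r τ u : D.End → ℝ} {y : D.End}
  {U : Set ℂ} {z : ℂ}

theorem k2_fd (h : DifferentiableAt ℝ φ z) (e : ℂ) :
    fderiv ℝ (fun w => (φ w : ℂ)) z e = (fderiv ℝ φ z e : ℝ) := by
  have := (Complex.ofRealCLM.hasFDerivAt.comp z h.hasFDerivAt).fderiv
  exact (congrArg (fun L => L e) this).trans rfl

theorem k2_pt (h : DifferentiableAt ℝ φ z) (h' : DifferentiableAt ℝ ψ z) :
    P116B.db (fun w => (φ w : ℂ)) z * P116B.dz (fun w => (ψ w : ℂ)) z -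
      P116B.dz (fun w => (φ w : ℂ)) z * P116B.db (fun w => (ψ w : ℂ)) z =
      -(I / 2) * (wd (gr φ z) (gr ψ z) : ℝ) := by
  simp only [P116B.db, P116B.dz, k2_fd h, k2_fd h', wd, gr]
  push_cast
  ring

theorem k2_stokes (hη : D.Wd η u) (h : ContDiffOn ℝ ∞ φ D.G) : D.om η φ = 0 := by
  obtain ⟨C, hC, hG, h0⟩ := hη.cs
  have hsm : ContDiff ℝ ∞ fun z => η z - u none := hη.sm.sub contDiff_const
  have hd : ∀ z, DifferentiableAt ℝ (fun z => η z - u none) z := fun z =>
    hsm.differentiable (by simp) z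
  have hfd : ∀ z, fderiv ℝ (fun z => η z - u none) z = fderiv ℝ η z := fun z =>
    fderiv_sub_const _
  have hcs : HasCompactSupport fun z => η z - u none := by
    rw [hasCompactSupport_iff_eventuallyEq, Filter.coclosedCompact_eq_cocompact]
    have h1 : ∀ᶠ z in cocompact ℂ, z ∈ D.G → η z = u none :=
      eventually_inf_principal.1 (hη.ev none)
    filter_upwards [h1, D.cpt.compl_mem_cocompact] with z hz hz'
    simp [hz hz']
  have hz0 : ∀ z, z ∉ C → fderiv ℝ (fun w => ((η w - u none : ℝ) : ℂ)) z = 0 := by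
    intro z hz
    ext e
    rw [k2_fd (hd z), hfd, h0 z hz]; simp
  have hs : tsupport (fderiv ℝ fun w => ((η w - u none : ℝ) : ℂ)) ⊆ D.G := by
    refine (closure_minimal (fun z hz => ?_) hC.isClosed).trans hG
    by_contra hc
    exact hz (hz0 z hc)
  have hb : ContDiffOn ℝ ∞ (fun w => (φ w : ℂ)) D.G :=
    Complex.ofRealCLM.contDiff.comp_contDiffOn h
  have key := P116B.nl1_on (P116B.cc_ofReal hsm hcs) (G_open D) hs hb
  rw [← setIntegral_eq_integral_of_forall_compl_eq_zero (s := D.G) (fun z hz => by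
    have := hz0 z fun hc => hz (hG hc)
    rw [P116B.db_of_fderiv this, P116B.dz_of_fderiv this]; ring)] at key
  rw [setIntegral_congr_fun (G_meas D)
    (g := fun z => -(I / 2) * (wd (gr η z) (gr φ z) : ℝ)) (fun z hz => by
      have h1 := k2_pt (hd z) ((h.contDiffAt ((G_open D).mem_nhds hz)).differentiableAt (by simp))
      have h2 : gr (fun z => η z - u none) z = gr η z := by simp only [gr, hfd]
      rw [h2] at h1
      exact h1), integral_const_mul, integral_complex_ofReal] at key
  have h2 : -(I / 2) ≠ 0 := by simp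
  exact_mod_cast (mul_eq_zero.1 key).resolve_left h2

/-- Stokes. -/
theorem om_wd (hη : D.Wd η u) (h : D.Fn φ) : D.om η φ = 0 := k2_stokes hη h.sm

theorem om_cs {C : Set ℂ} (h' : D.Fn ψ) (hC : IsCompact C) (hG : C ⊆ D.G) (h0 : D.Supp ψ C)
    (h : D.Fn φ) : D.om ψ φ = 0 := by
  obtain ⟨η', h1, h2⟩ := wd_of_evG (u := fun _ => 0) h'.sm fun y => by
    filter_upwards [G_mem y, compl_mem hC hG y] with z hz hz' using h0 z hz hz'
  rw [← om_congr h2 (fun _ _ => rfl : EqOn φ φ D.G)]
  exact om_wd h1 h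

/-- the difference of the two sides is the integral of `dη ∧ d(φ ψ)`; multiply `φ ψ` by a cutoff -/
theorem om_mul (hη : D.Wd η u) (b : D.Bd η) (h : D.Fn φ) (h' : D.Fn ψ) :
    D.om (fun z => η z * φ z) ψ = D.om φ fun z => η z * ψ z := by
  have key := k2_stokes hη (h.sm.mul h'.sm)
  rw [← sub_eq_zero, ← key]
  unfold Dom.om
  rw [← integral_sub (int_wd (h.wmul hη b) h') (int_wd h (h'.wmul hη b))]
  refine setIntegral_congr_fun (G_meas D) fun z hz => ?_
  have d1 : DifferentiableAt ℝ η z := hη.sm.differentiable (by simp) z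
  simp only [gr_mul d1 (h.diffAt hz), gr_mul d1 (h'.diffAt hz), gr_mul (h.diffAt hz) (h'.diffAt hz),
    wd, add_re, add_im, smul_re, smul_im, smul_eq_mul]
  ring

theorem om_comp {T : ℝ → ℝ} (hT : ContDiff ℝ ∞ T) (h : D.Fn χ) (hg : D.Fn g) :
    D.om χ (fun z => T (g z)) = D.om (fun z => χ z * deriv T (g z)) g := by
  refine setIntegral_congr_fun (G_meas D) fun z hz => ?_
  have hT' : ContDiff ℝ ∞ (deriv T) := (contDiff_infty_iff_deriv.1 hT).2
  have d1 : DifferentiableAt ℝ T (g z) := hT.differentiable (by simp) _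
  have d2 : DifferentiableAt ℝ (deriv T) (g z) := hT'.differentiable (by simp) _
  have d3 : DifferentiableAt ℝ (fun z => deriv T (g z)) z := d2.comp z (hg.diffAt hz)
  simp only [gr_mul (h.diffAt hz) d3, gr_comp d1 (hg.diffAt hz), gr_comp d2 (hg.diffAt hz),
    wd, add_re, add_im, smul_re, smul_im, smul_eq_mul]
  ring

/-- a wired function times a bounded function of `v` pairs to zero with `v` -/
theorem om_fun {T : ℝ → ℝ} {C : ℝ} (hη : D.Wd η u) (hT : ContDiff ℝ ∞ T) (hC : ∀ x, |T x| ≤ C)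
    (h : D.Fn v) : D.om (fun z => η z * T (v z)) v = 0 := by
  have _ := hC
  obtain ⟨P, hP, hd⟩ := prim_ex hT
  rw [← k2_stokes hη (hP.comp_contDiffOn h.sm)]
  refine setIntegral_congr_fun (G_meas D) fun z hz => ?_
  have d0 : DifferentiableAt ℝ η z := hη.sm.differentiable (by simp) z
  have d1 : DifferentiableAt ℝ T (v z) := hT.differentiable (by simp) _
  have d2 : DifferentiableAt ℝ P (v z) := hP.differentiable (by simp) _
  have d3 : DifferentiableAt ℝ (fun z => T (v z)) z := d1.comp z (h.diffAt hz)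
  have e : gr (P ∘ v) z = T (v z) • gr v z := by rw [← hd]; exact gr_comp d2 (h.diffAt hz)
  simp only [gr_mul d0 d3, gr_comp d1 (h.diffAt hz), e,
    wd, add_re, add_im, smul_re, smul_im, smul_eq_mul]
  ring

end Vale.P116D
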