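import Vale.Agent.P116D.K4
import Vale.Agent.P116D.K2
import Vale.Agent.P116B.AF

/-!
K9: level sets of regular points are null; the area inequality; small energy on small sets.
-/

namespace Vale.P116D

open Set Filter Topology MeasureTheory Complex
open scoped ContDiff

variable {D : Dom} {S : Gens D} {φ ψ χ η g d v w : ℂ → ℝ} {s σ r τ u : D.End → ℝ} {y : D.End}
  {U : Set ℂ} {z : ℂ}

theorem level_null (h : ContDiffOn ℝ ∞ w D.G) (c : ℝ) :
    volume {z ∈ D.G | w z = c ∧ gr w z ≠ 0} = 0 := by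
  have ho : IsOpen (D.G ∩ w ⁻¹' {c}ᶜ) :=
    h.continuousOn.isOpen_inter_preimage (G_open D) isOpen_compl_singleton
  have hm : MeasurableSet {z ∈ D.G | w z = c} := by
    have e : {z ∈ D.G | w z = c} = D.G \ (D.G ∩ w ⁻¹' {c}ᶜ) := by
      ext z
      simp +contextual
    rw [e]
    exact (G_meas D).diff ho.measurableSet
  have ha : ApproximatesLinearOn (fun z => (w z : ℂ)) (0 : ℂ →L[ℝ] ℂ) {z ∈ D.G | w z = c} 0 := by
    intro x hx y hy
    simp [hx.2, hy.2]
  have h1 := ha.norm_fderiv_sub_le volume hm (fun x => ofRealCLM.comp (fderiv ℝ w x)) fun x hx =>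
    (ofRealCLM.hasFDerivAt.comp x ((h.contDiffAt ((G_open D).mem_nhds hx.1)).differentiableAt
      (by simp)).hasFDerivAt).hasFDerivWithinAt
  rw [ae_restrict_iff' hm, ae_iff] at h1
  refine measure_mono_null (fun z hz => ?_) h1
  refine fun h2 => hz.2.2 ?_
  have h3 : ofRealCLM.comp (fderiv ℝ w z) = 0 := by simpa using h2 ⟨hz.1, hz.2.1⟩
  have h4 : ∀ e, fderiv ℝ w z e = 0 := fun e => by
    simpa using congrArg (fun L : ℂ →L[ℝ] ℂ => L e) h3
  simp [gr, h4, Complex.ext_iff]

theorem gr_hol (hU : IsOpen U) (h : DifferentiableOn ℂ (fun z => (d z : ℂ) + v z * I) U) (hz : z ∈ U) :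
    gr v z = I * gr d z ∧ ‖deriv (fun z => (d z : ℂ) + v z * I) z‖ = ‖gr d z‖ ∧
      ∀ p, wd p (gr v z) = dt p (gr d z) := by
  have h1 := (h.differentiableAt (hU.mem_nhds hz)).hasDerivAt
  generalize deriv (fun z => (d z : ℂ) + v z * I) z = a at h1 ⊢
  have h2 := h1.hasFDerivAt.restrictScalars ℝ
  have hd := (reCLM.hasFDerivAt.comp z h2).fderiv
  have hv := (imCLM.hasFDerivAt.comp z h2).fderiv
  rw [show (reCLM ∘ fun z => (d z : ℂ) + v z * I) = d from funext fun z => by simp] at hd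
  rw [show (imCLM ∘ fun z => (d z : ℂ) + v z * I) = v from funext fun z => by simp] at hv
  have e1 : gr d z = (starRingEnd ℂ) a := by simp [gr, hd, Complex.ext_iff]
  have e2 : gr v z = I * (starRingEnd ℂ) a := by simp [gr, hv, Complex.ext_iff]
  rw [e1, e2]
  refine ⟨rfl, (RCLike.norm_conj a).symm, fun p => ?_⟩
  simp [wd, dt, sub_eq_add_neg]

/-- integrals over small neighbourhoods of an end are small -/
theorem small_near {f : ℂ → ℝ} (hf : IntegrableOn f D.G) (y : D.End) {ε : ℝ} (hε : 0 < ε) :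
    ∃ U ∈ D.nb y, ∫ z in U ∩ D.G, |f z| ≤ ε := by
  obtain ⟨C, hC, hA⟩ := exhaust D
  have hm : Monotone C := monotone_nat_of_le_succ fun n => (hC n).2.2.trans interior_subset
  have h1 := tendsto_setIntegral_of_antitone (μ := volume) (f := fun z => |f z|)
    (s := fun n => (C n)ᶜ ∩ D.G) (fun n => (hC n).1.measurableSet.compl.inter (G_meas D))
    (fun _ _ h => inter_subset_inter_left _ (compl_subset_compl.2 (hm h)))
    ⟨0, IntegrableOn.mono_set hf.abs inter_subset_right⟩
  have h2 : ⋂ n, (C n)ᶜ ∩ D.G = ∅ := by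
    refine eq_empty_of_forall_notMem fun z hz => ?_
    obtain ⟨n, hn⟩ := hA {z} isCompact_singleton (singleton_subset_iff.2 (mem_iInter.1 hz 0).2)
    exact (mem_iInter.1 hz n).1 (hn rfl)
  rw [h2, Measure.restrict_empty, integral_zero_measure] at h1
  obtain ⟨n, hn⟩ := (h1.eventually_le_const hε).exists
  exact ⟨(C n)ᶜ, compl_mem (hC n).1 (hC n).2.1 y, hn⟩

end Vale.P116D
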