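import Vale.Agent.P116D.K7
import Vale.Agent.P116D.K10
import Vale.Agent.P116D.K11
import Vale.Agent.P116D.K9a

/-!
K11b: the minimiser is harmonic with a conjugate.
-/

namespace Vale.P116D

open Set Filter Topology MeasureTheory Complex
open scoped ContDiff

variable {D : Dom} {S : Gens D} {φ ψ χ η g d v w : ℂ → ℝ} {s σ r τ u : D.End → ℝ} {y : D.End}
  {U : Set ℂ} {z : ℂ}

/-- the output of a minimisation -/
structure MinSol (A : Set ((ℂ → ℝ) × (D.End → ℝ) × ℝ)) (c : ℝ) (d v : ℂ → ℝ) (τ : D.End → ℝ) (ρ : ℝ)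
    (x : ℕ → (ℂ → ℝ) × (D.End → ℝ) × ℝ) : Prop where
  fd : D.Fn d
  fv : D.Fn v
  hol : DifferentiableOn ℂ (fun z => (d z : ℂ) + v z * I) D.G
  om : ∀ χ, D.om χ v = D.di χ d
  co : Cost τ
  r0 : 0 ≤ ρ
  mem : ∀ n, x n ∈ A
  conv : D.Conv (fun n => (x n).1) d
  tc : Tendsto (fun n => nl fun y => (x n).2.1 y - τ y) atTop (𝓝 0)
  rc : Tendsto (fun n => (x n).2.2) atTop (𝓝 ρ)
  vi : ∀ x' ∈ A, 0 ≤ D.di x'.1 d - D.di d d + c * (ip x'.2.1 τ - ip τ τ) + x'.2.2 - ρ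

theorem k11b_int {μ : Measure ℂ} {a b : ℂ → ℂ} (ha : MemLp a 2 μ) (hb : MemLp b 2 μ) :
    Integrable (fun z => dt (a z) (b z)) μ :=
  (ha.re.integrable_mul hb.re).add (ha.im.integrable_mul hb.im)

theorem k11b_cs {μ : Measure ℂ} {a b : ℂ → ℂ} (ha : MemLp a 2 μ) (hb : MemLp b 2 μ) :
    |∫ z, dt (a z) (b z) ∂μ| ≤ √(∫ z, ‖a z‖ ^ 2 ∂μ) * √(∫ z, ‖b z‖ ^ 2 ∂μ) := by
  have e : (2 : ENNReal) = ENNReal.ofReal 2 := by simp
  have h1 := integral_mul_norm_le_Lp_mul_Lq (μ := μ) (f := a) (g := b) Real.HolderConjugate.two_two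
    (e ▸ ha) (e ▸ hb)
  have h2 : |∫ z, dt (a z) (b z) ∂μ| ≤ ∫ z, ‖a z‖ * ‖b z‖ ∂μ := by
    refine (abs_integral_le_integral_abs).trans ?_
    exact integral_mono (k11b_int ha hb).abs (ha.norm.integrable_mul hb.norm)
      fun z => abs_dt_le _ _
  rw [Real.sqrt_eq_rpow, Real.sqrt_eq_rpow]
  simp only [Real.rpow_two] at h1
  exact h2.trans h1

theorem k11b_dt_add (a b c : ℂ) : dt (a + b) c = dt a c + dt b c := by
  simp only [dt, add_re, add_im]; ring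

theorem k11b_dt_sub (a b c : ℂ) : dt (a - b) c = dt a c - dt b c := by
  simp only [dt, sub_re, sub_im]; ring

theorem k11b_dt_smul (t : ℝ) (a c : ℂ) : dt (t • a) c = t * dt a c := by
  simp only [dt, smul_re, smul_im, smul_eq_mul]; ring

theorem min_sol {A : Set ((ℂ → ℝ) × (D.End → ℝ) × ℝ)} {c : ℝ} (hc : 0 < c) (hA : Cvx A)
    (hne : A.Nonempty) (h : ∀ x ∈ A, D.Fn x.1 ∧ Cost x.2.1 ∧ 0 ≤ x.2.2)
    (hw : ∀ x ∈ A, ∀ η u, D.Wd η u → (fun z => x.1 z + η z, x.2) ∈ A) :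
    ∃ d v τ ρ x, MinSol A c d v τ ρ x := by
  obtain ⟨x, p, τ, ρ, hx, hp, hτ, hρ, hl, ht, hr, hvi⟩ :=
    min_field (b := fun _ => 0) hc MemLp.zero hA hne h
  simp only [add_zero] at hvi
  have fx : ∀ n, D.Fn (x n).1 := fun n => (h _ (hx n)).1
  have hT : Tendsto (fun n => ∫ z in D.G, dt (gr (x n).1 z - p z) (p z)) atTop (𝓝 0) := by
    have h1 := (hl.sqrt).mul_const (√(∫ z in D.G, ‖p z‖ ^ 2))
    simp only [Real.sqrt_zero, zero_mul] at h1
    refine squeeze_zero_norm (fun n => ?_) h1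
    exact k11b_cs ((fx n).l2.sub hp) hp
  have hI : Tendsto (fun n => ip (x n).2.1 τ) atTop (𝓝 (ip τ τ)) :=
    ip_tendsto (fun n => (h _ (hx n)).2.1.2) hτ.2 hτ.2 ht
  have h0 : ∀ η u, D.Wd η u → ∫ z in D.G, dt (gr η z) (p z) = 0 := by
    intro η u hη
    have key : ∀ t : ℝ, 0 ≤ t * ∫ z in D.G, dt (gr η z) (p z) := by
      intro t
      have h1 : Tendsto (fun n => (∫ z in D.G, dt (gr (x n).1 z - p z) (p z)) +
          t * (∫ z in D.G, dt (gr η z) (p z)) + c * (ip (x n).2.1 τ - ip τ τ) + (x n).2.2 - ρ) atTop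
          (𝓝 (0 + t * (∫ z in D.G, dt (gr η z) (p z)) + c * (ip τ τ - ip τ τ) + ρ - ρ)) :=
        (((hT.add_const _).add ((hI.sub_const _).const_mul c)).add hr).sub_const _
      have h2 : 0 + t * (∫ z in D.G, dt (gr η z) (p z)) + c * (ip τ τ - ip τ τ) + ρ - ρ =
          t * ∫ z in D.G, dt (gr η z) (p z) := by ring
      rw [h2] at h1
      refine ge_of_tendsto' h1 fun n => ?_
      have h3 := hvi _ (hw _ (hx n) _ _ (hη.cmul t))
      have h4 : ∫ z in D.G, dt (gr (fun z => (x n).1 z + t * η z) z - p z) (p z) =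
          (∫ z in D.G, dt (gr (x n).1 z - p z) (p z)) + t * ∫ z in D.G, dt (gr η z) (p z) := by
        have i1 : Integrable (fun z => dt (gr (x n).1 z - p z) (p z)) (volume.restrict D.G) :=
          k11b_int ((fx n).l2.sub hp) hp
        rw [← integral_const_mul, ← integral_add i1 ((k11b_int hη.fn.l2 hp).const_mul t)]
        refine setIntegral_congr_fun (G_meas D) fun z hz => ?_
        have e1 := gr_add ((fx n).diffAt hz) ((hη.fn.cmul t).diffAt hz)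
        have e2 := gr_cmul t (hη.fn.diffAt hz)
        rw [e1, e2, add_sub_right_comm, k11b_dt_add, k11b_dt_smul]
      simp only at h3
      rw [h4] at h3
      exact h3
    have k1 := key 1
    have k2 := key (-1)
    linarith
  obtain ⟨d, v, fd, fv, hol, hd⟩ := hol_limit fx hp hl h0
  have hn : Tendsto (fun n => D.nr fun z => (x n).1 z - d z) atTop (𝓝 0) := by
    have h1 := hl.sqrt
    rw [Real.sqrt_zero] at h1
    refine h1.congr fun n => ?_
    unfold Dom.nr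
    congr 1
    refine integral_congr_ae ?_
    filter_upwards [hd, ae_restrict_mem (G_meas D)] with z e hz
    rw [gr_sub ((fx n).diffAt hz) (fd.diffAt hz), e]
  obtain ⟨k, hk⟩ := poinc fx fd hn
  refine ⟨d, v, τ, ρ, fun n => (fun z => (x n).1 z + -k n, (x n).2), fd, fv, hol, fun χ => ?_, hτ, hρ,
    fun n => hw _ (hx n) _ _ (wd_const D (-k n)), ?_, ht, hr, fun x' hx' => ?_⟩
  · exact setIntegral_congr_fun (G_meas D) fun z hz => (gr_hol (G_open D) hol hz).2.2 _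
  · simpa only [sub_eq_add_neg] using hk
  · have f' := (h _ hx').1
    have h1 : D.di x'.1 d - D.di d d = ∫ z in D.G, dt (gr x'.1 z - p z) (p z) := by
      unfold Dom.di
      rw [← integral_sub (int_dt f' fd) (int_dt fd fd)]
      refine integral_congr_ae ?_
      filter_upwards [hd] with z e
      rw [k11b_dt_sub, e]
    rw [h1]
    exact hvi _ hx'

/-- the minimum is below the value at any element -/
theorem MinSol.le {A : Set ((ℂ → ℝ) × (D.End → ℝ) × ℝ)} {c ρ : ℝ}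
    {x : ℕ → (ℂ → ℝ) × (D.End → ℝ) × ℝ} (h : MinSol A c d v τ ρ x) (hc : 0 ≤ c)
    {x' : (ℂ → ℝ) × (D.End → ℝ) × ℝ} (hx : x' ∈ A) (hf : D.Fn x'.1) (hs : Sq x'.2.1) :
    D.nr d ^ 2 + c * nl τ ^ 2 + 2 * ρ ≤ D.nr x'.1 ^ 2 + c * nl x'.2.1 ^ 2 + 2 * x'.2.2 := by
  have h1 := h.vi _ hx
  have h2 := (le_abs_self _).trans (abs_di_le hf h.fd)
  have h3 := (le_abs_self _).trans (abs_ip_le hs h.co.2)
  rw [← nr_sq, ← nl_sq] at h1
  have h4 : c * (2 * ip x'.2.1 τ) ≤ c * (nl x'.2.1 ^ 2 + nl τ ^ 2) :=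
    mul_le_mul_of_nonneg_left (by nlinarith [sq_nonneg (nl x'.2.1 - nl τ)]) hc
  nlinarith [sq_nonneg (D.nr x'.1 - D.nr d)]

end Vale.P116D
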