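import Vale.Agent.P116D.D0
import Vale.Agent.P116D.A1
import Vale.Agent.P116D.K11b

/-!
D5: the constrained problem of the density block.
-/

namespace Vale.P116D

open Set Filter Topology MeasureTheory Complex
open scoped ContDiff

variable {D : Dom} {S : Gens D} {φ ψ χ η g d v w : ℂ → ℝ} {s σ r τ u : D.End → ℝ} {y : D.End}
  {U : Set ℂ} {z : ℂ}

/-- the feasible set -/
def DA (S : Gens D) (φ : ℂ → ℝ) (θ : ℝ) : Set ((ℂ → ℝ) × (D.End → ℝ) × ℝ) :=
  {x | InB S x.1 x.2.1 ∧ x.2.2 = 0 ∧ ∀ y, D.osc y (fun z => φ z - x.1 z) ≤ θ}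

theorem d5_mix {t : ℝ} (hS : Str S) (h : InB S ψ r) (h' : InB S χ σ) (ht : t ∈ Icc (0 : ℝ) 1) :
    InB S (fun z => t * ψ z + (1 - t) * χ z) fun y => t * r y + (1 - t) * σ y := by
  refine ⟨?_, (h.2.cmul t).add (h'.2.cmul _)⟩
  have := (h.1.cmul t).add (h'.1.cmul (1 - t)) hS
  rwa [abs_of_nonneg ht.1, abs_of_nonneg (sub_nonneg.2 ht.2)] at this

theorem d5_osc {t : ℝ} (hφ : D.Bd φ) (h : D.Bd ψ) (h' : D.Bd χ) (ht : t ∈ Icc (0 : ℝ) 1)
    (y : D.End) : D.osc y (fun z => φ z - (t * ψ z + (1 - t) * χ z)) ≤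
      t * D.osc y (fun z => φ z - ψ z) + (1 - t) * D.osc y fun z => φ z - χ z := by
  have h1 := osc_add ((hφ.sub h).cmul t) ((hφ.sub h').cmul (1 - t)) y
  rw [osc_cmul (hφ.sub h), osc_cmul (hφ.sub h'), abs_of_nonneg ht.1,
    abs_of_nonneg (sub_nonneg.2 ht.2)] at h1
  refine le_of_eq_of_le (osc_congr (Eventually.of_forall fun z => ?_)) h1
  ring

theorem d5_self (φ : ℂ → ℝ) (y : D.End) : D.osc y (fun z => φ z - φ z) = 0 :=
  osc_const (c := 0) (Eventually.of_forall fun _ => sub_self _)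

theorem d5_mem {θ : ℝ} (hφ : InB S φ s) (hθ : 0 ≤ θ) : (φ, s, (0 : ℝ)) ∈ DA S φ θ :=
  ⟨hφ, rfl, fun y => (d5_self φ y).le.trans hθ⟩

theorem da_sol {θ c : ℝ} (hS : Str S) (hφ : InB S φ s) (hθ : 0 ≤ θ) (hc : 0 < c) :
    ∃ d v τ x, MinSol (DA S φ θ) c d v τ 0 x := by
  have hA : Cvx (DA S φ θ) := by
    rintro x ⟨h1, h2, h3⟩ x' ⟨h1', h2', h3'⟩ t ht
    refine ⟨0, by rw [h2, h2']; simp, d5_mix hS h1 h1' ht, rfl, fun y => ?_⟩
    refine (d5_osc hφ.2 h1.2 h1'.2 ht y).trans ?_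
    nlinarith [mul_le_mul_of_nonneg_left (h3 y) ht.1,
      mul_le_mul_of_nonneg_left (h3' y) (sub_nonneg.2 ht.2)]
  obtain ⟨d, v, τ, ρ, x, h⟩ := min_sol hc hA ⟨_, d5_mem hφ hθ⟩
    (fun x hx => ⟨hx.1.1.fn, hx.1.1.co, hx.2.1.ge⟩) (by
      rintro x ⟨h1, h2, h3⟩ η u hη
      obtain ⟨M, hM, -⟩ := hη.bd
      refine ⟨⟨h1.1.add_wd hS hη, h1.2.add ⟨M, hM⟩⟩, h2, fun y => ?_⟩
      refine le_of_eq_of_le ?_ (h3 y)
      rw [← osc_add_const (hφ.2.sub h1.2) (-u y) y]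
      refine osc_congr ((hη.ev y).mono fun z hz => ?_)
      dsimp only
      rw [hz]
      ring)
  have h0 : ρ = 0 := tendsto_nhds_unique h.rc
    (tendsto_const_nhds.congr fun n => (h.mem n).2.1.symm)
  exact ⟨d, v, τ, x, h0 ▸ h⟩

/-- with `A = di φ d - di d d + c * (ip s τ - ip τ τ)` and `Λ = A / θ`: test `vi` with
`(1 - t) * ψ + t * φ`, `t = κ / (θ + κ)` -/
theorem da_vi {θ c : ℝ} {x : ℕ → (ℂ → ℝ) × (D.End → ℝ) × ℝ} (hS : Str S) (hφ : InB S φ s)
    (hθ : 0 < θ) (h : MinSol (DA S φ θ) c d v τ 0 x) : ∃ Λ, 0 ≤ Λ ∧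
      (∀ ψ r (κ : ℝ), InB S ψ r → 0 ≤ κ → (∀ y, D.osc y (fun z => φ z - ψ z) ≤ θ + κ) →
        0 ≤ D.di ψ d - D.di d d + c * (ip r τ - ip τ τ) + Λ * κ) ∧
      ∀ χ r (o : ℝ), InB S χ r → 0 < o → (∀ y, D.osc y χ ≤ o) → D.om χ v ≤ c * ip τ r + Λ * o := by
  have hA := h.vi _ (d5_mem hφ hθ.le)
  simp only [add_zero, sub_zero] at hA
  set A := D.di φ d - D.di d d + c * (ip s τ - ip τ τ) with hAe
  refine ⟨A / θ, div_nonneg hA hθ.le, fun ψ r κ hψ hκ ho => ?_, fun χ r o hχ ho hχo => ?_⟩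
  · have hp : 0 < θ + κ := by linarith
    have ht : θ / (θ + κ) ∈ Icc (0 : ℝ) 1 :=
      ⟨by positivity, (div_le_one hp).2 (by linarith)⟩
    have h1 := h.vi (_, _, 0) ⟨d5_mix hS hψ hφ ht, rfl, fun y => by
      refine (d5_osc hφ.2 hψ.2 hφ.2 ht y).trans ?_
      rw [d5_self, mul_zero, add_zero]
      exact (mul_le_mul_of_nonneg_left (ho y) ht.1).trans_eq (div_mul_cancel₀ _ hp.ne')⟩
    dsimp only at h1
    rw [di_add (hψ.1.fn.cmul _) (hφ.1.fn.cmul _) h.fd, di_cmul hψ.1.fn, di_cmul hφ.1.fn,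
      ip_add (hψ.1.co.2.cmul _) (hφ.1.co.2.cmul _) h.co.2, ip_cmul, ip_cmul] at h1
    have h2 := mul_nonneg h1 (div_pos hp hθ).le
    refine h2.trans_eq ?_
    rw [hAe]
    field_simp
    ring
  · have hq : 0 < θ / o := div_pos hθ ho
    have hin := hφ.1.sub (hχ.1.cmul (θ / o)) hS
    rw [abs_of_pos hq] at hin
    have h1 := h.vi (_, _, 0) ⟨⟨hin, hφ.2.sub (hχ.2.cmul _)⟩, rfl, fun y => by
      have e : D.osc y (fun z => φ z - (φ z - θ / o * χ z)) = D.osc y fun z => θ / o * χ z :=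
        osc_congr (Eventually.of_forall fun z => by ring)
      refine e.trans_le ?_
      rw [osc_cmul hχ.2, abs_of_pos hq]
      exact (mul_le_mul_of_nonneg_left (hχo y) hq.le).trans_eq (div_mul_cancel₀ _ ho.ne')⟩
    dsimp only at h1
    rw [di_sub hφ.1.fn (hχ.1.fn.cmul _) h.fd, di_cmul hχ.1.fn,
      ip_add hφ.1.co.2 (hχ.1.co.2.cmul _) h.co.2, ip_cmul] at h1
    have h2 := mul_nonneg h1 (div_pos ho hθ).le
    rw [h.om, ip_comm τ r, ← sub_nonneg]
    refine h2.trans_eq ?_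
    rw [hAe]
    field_simp
    ring

/-- a feasible function that costs almost nothing on a finite set -/
theorem da_cheap {θ ε : ℝ} (hS : Str S) (hT : Tcl S) (hφ : InB S φ s) (hs : nl s < θ) (hτ : Cost τ)
    (hε : 0 < ε) : ∃ x ∈ DA S φ θ, ip x.2.1 τ ≤ ε := by
  classical
  have hs0 := nl_nonneg s
  have ht0 := nl_nonneg τ
  have hδ : 0 < (θ - nl s) / 4 := by linarith
  obtain ⟨F, hF⟩ := hτ.2.tail (ε := ε / (2 * (nl s + 1))) (by positivity)
  choose a ha using hT φ s hφ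
  have hab : ∀ y, a y - (θ - nl s) / 4 ≤ a y + s y + (θ - nl s) / 4 := fun y => by
    linarith [hφ.1.co.1 y]
  choose T hT1 _ hT3 hT4 _ using fun y => clamp_ex (hab y) hδ
  have hc : ∀ y, Cert S y fun z => φ z - T y (φ z) := fun y =>
    cert_one (T := fun x => x - T y x) hS hφ (ha y) (contDiff_id.sub (hT1 y)) hδ
      fun x hx => sub_eq_zero.2 (hT3 y x hx).symm
  have he : 0 < ε / (2 * (F.card + 1) * (nl τ + 1)) := by positivity
  choose ζ r hζ _ _ hr hev using fun y => hc y _ he univ univ_mem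
  obtain ⟨f, b, η, hf, hη, hfη, hb⟩ := cuts_ex F (fun y => {z | ζ y z = φ z - T y (φ z)})
    fun y _ => hev y
  have hTb : ∀ y, D.Bd fun z => T y (φ z) := fun y => hφ.2.comp (hT1 y).continuous
  have hin := (hφ.1.cut hS hη.compl).add
    (in_sum F hS fun y hy => (hζ y).1.cut hS (hf y hy).1) hS
  refine ⟨(_, _, 0), ⟨⟨hin, (hη.compl.s1_bd.mul hφ.2).add
    (Dom.Bd.sum F fun y hy => (hf y hy).1.s1_bd.mul (hζ y).2)⟩, rfl, fun y' => ?_⟩, ?_⟩
  · have e : D.osc y' (fun z => φ z - ((1 - η z) * φ z + ∑ y ∈ F, f y z * ζ y z)) =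
        D.osc y' fun z => ∑ y ∈ F, f y z * T y (φ z) := by
      refine osc_congr (Eventually.mono (G_mem y') fun z hz => ?_)
      have e1 : ∑ y ∈ F, f y z * ζ y z = ∑ y ∈ F, (f y z * φ z - f y z * T y (φ z)) := by
        refine Finset.sum_congr rfl fun y hy => ?_
        by_cases hw : ζ y z = φ z - T y (φ z)
        · rw [hw, mul_sub]
        · simp [(hf y hy).2 z hz hw]
      have e2 : η z = ∑ y ∈ F, f y z := hfη hz
      dsimp only
      rw [e1, Finset.sum_sub_distrib, ← Finset.sum_mul, ← e2]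
      ring
    refine e.trans_le ((osc_sum F (fun y hy => (hf y hy).1.s1_bd.mul (hTb y)) y').trans ?_)
    have h1 : ∀ y ∈ F, D.osc y' (fun z => f y z * T y (φ z)) ≤ b y y' * θ := fun y hy => by
      rw [osc_wmul (hTb y) (hf y hy).1.wd, (hf y hy).1.s1_abs]
      refine mul_le_mul_of_nonneg_left ?_ ((hf y hy).1.s1_mem y').1
      refine (osc_le_of (Eventually.of_forall fun z => hT4 y (φ z))).trans ?_
      linarith [(le_abs_self _).trans (abs_le_nl hφ.1.co.2 y)]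
    refine (Finset.sum_le_sum h1).trans ?_
    rw [← Finset.sum_mul]
    exact mul_le_of_le_one_left (by linarith) (hη.s1_mem y').2
  · have q1 : Sq fun y => (1 - ∑ y' ∈ F, b y' y) * s y := (hφ.1.cut hS hη.compl).co.2
    have q2 : ∀ y ∈ F, Sq fun y' => b y y' * r y y' := fun y hy =>
      ((hζ y).1.cut hS (hf y hy).1).co.2
    dsimp only
    rw [ip_add q1 (Sq.sum F q2) hτ.2, ip_sum F q2 hτ.2]
    have h1 : ip (fun y => (1 - ∑ y' ∈ F, b y' y) * s y) τ ≤ ip s (pw F (fun _ => 0) τ) := by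
      refine ip_le_of q1 hτ.2 hφ.1.co.2 (hτ.2.pw F _) fun y => ?_
      by_cases hy : y ∈ F
      · simp [pw, hy, hb y hy]
      · simp only [pw, hy, if_false, mul_assoc]
        exact mul_le_of_le_one_left (mul_nonneg (hφ.1.co.1 y) (hτ.1 y)) (hη.compl.s1_mem y).2
    have h2 : ip s (pw F (fun _ => 0) τ) ≤ ε / 2 := by
      refine (le_abs_self _).trans ((abs_ip_le hφ.1.co.2 (hτ.2.pw F _)).trans ?_)
      refine (mul_le_mul (le_add_of_nonneg_right zero_le_one) (hF F le_rfl) (nl_nonneg _)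
        (by positivity)).trans_eq ?_
      field_simp
    have h3 : ∀ y ∈ F, ip (fun y' => b y y' * r y y') τ ≤
        ε / (2 * (F.card + 1) * (nl τ + 1)) * (nl τ + 1) := fun y hy => by
      refine (le_abs_self _).trans ((abs_ip_le (q2 y hy) hτ.2).trans ?_)
      refine mul_le_mul ((nl_mono (hζ y).1.co.2 fun y' => ?_).trans (hr y)) (by linarith) ht0 he.le
      rw [abs_mul]
      exact mul_le_of_le_one_left (abs_nonneg _) (a1_u (hf y hy).1 y')
    have h4 := Finset.sum_le_card_nsmul F _ _ h3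
    rw [nsmul_eq_mul] at h4
    have h5 : (F.card : ℝ) * (ε / (2 * (F.card + 1) * (nl τ + 1)) * (nl τ + 1)) ≤ ε / 2 := by
      refine (mul_le_mul_of_nonneg_right (le_add_of_nonneg_right zero_le_one)
        (by positivity)).trans_eq ?_
      field_simp
    linarith

end Vale.P116D
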