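import Vale.Agent.P116D.D1
import Vale.Agent.P116D.D5

/-!
D6: the solution of the constrained problem is critical at every end.
-/

namespace Vale.P116D

open Set Filter Topology MeasureTheory Complex
open scoped ContDiff

variable {D : Dom} {S : Gens D} {φ ψ χ η g d v w : ℂ → ℝ} {s σ r τ u : D.End → ℝ} {y : D.End}
  {U : Set ℂ} {z : ℂ}

theorem da_crit {θ c : ℝ} {x : ℕ → (ℂ → ℝ) × (D.End → ℝ) × ℝ} (hS : Str S) (hT : Tcl S)
    (hφ : InB S φ s) (hθ : 0 < θ) (hc : 0 ≤ c) (h : MinSol (DA S φ θ) c d v τ 0 x)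
    (hs : nl s + nl τ < 5 / 6 * θ) (y : D.End) : Crit S d v c τ y := by
  obtain ⟨Λ, hΛ, v1, v2⟩ := da_vi hS hφ hθ h
  refine ⟨h.fd, h.fv, hc, h.co, ⟨D.G, G_mem y, G_open D, h.hol⟩, fun ε hε =>
    loc_of_crude (Λ := Λ * 2) hS h.fv h.co.2 (fun χ r h1 h2 => v2 χ r 2 ⟨h1, 1, h2⟩ two_pos
      fun y => by simpa using osc_le_two h2 y) y hε, ?_⟩
  have hx : ∀ m, InB S (x m).1 (x m).2.1 := fun m => (h.mem m).1
  have hq : ∀ m, Sq fun y => (x m).2.1 y - τ y := fun m => (hx m).1.co.2.sub h.co.2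
  have hn : ∀ m, nl (x m).2.1 ≤ nl τ + nl fun y => (x m).2.1 y - τ y := fun m => by
    simpa using nl_add h.co.2 (hq m)
  obtain ⟨B, hB⟩ := h.tc.bddAbove_range
  have hfl : ∀ m : ℕ, ∃ ξ r, InB S ξ r ∧ D.nr ξ ≤ 1 / (m + 1) ∧ nl r ≤ 1 / (m + 1) ∧
      (∃ p, ∀ᶠ z in D.nb y, φ z - (x m).1 z - ξ z ∈
        Icc p (p + (s y + (x m).2.1 y) + 1 / (m + 1))) ∧
      ∀ y', D.osc y' (fun z => φ z - (x m).1 z - ξ z) ≤ θ + 1 / (m + 1) := by
    intro m
    have h1 : InB S (fun z => φ z - (x m).1 z) fun y => s y + (x m).2.1 y :=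
      ⟨hφ.1.sub (hx m).1 hS, hφ.2.sub (hx m).2⟩
    obtain ⟨a, ha⟩ := hT _ _ h1 y
    simpa using flatten (δ := 1 / (m + 1)) hS h1 ha (h.mem m).2.2 (by positivity)
  choose ξ ρ k1 k2 k3 k4 k5 using hfl
  choose p k4 using k4
  refine ⟨θ / 12, d, fun m => (x m).1, fun m => (x m).2.1, _, nl τ + B, by positivity, h.fd,
    EventuallyEq.rfl, h.conv, fun m => ⟨hx m, k4 m, (hn m).trans (by
      have := hB (mem_range_self m); linarith)⟩, ?_⟩
  intro ε hε hε' χ r η w hm δ hδ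
  have hκ : Tendsto (fun m : ℕ => (1 : ℝ) / (m + 1)) atTop (𝓝 0) :=
    tendsto_one_div_add_atTop_nhds_zero_nat
  have hE : Tendsto (fun m : ℕ => D.nr (fun z => (x m).1 z - d z) * D.nr d + 1 / (m + 1) * D.nr d +
      c * (nl (fun y => (x m).2.1 y - τ y) * nl τ + 1 / (m + 1) * nl τ) + Λ * (1 / (m + 1)))
      atTop (𝓝 0) := by
    simpa using (((h.conv.1.mul_const (D.nr d)).add (hκ.mul_const (D.nr d))).add
      (((h.tc.mul_const (nl τ)).add (hκ.mul_const (nl τ))).const_mul c)).add (hκ.const_mul Λ)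
  filter_upwards [hE.eventually (gt_mem_nhds (mul_pos hε hδ)),
    h.tc.eventually (gt_mem_nhds (sub_pos.2 hs))] with m e1 e2
  obtain ⟨m1, m2, m3, m4, m5, m6⟩ := hm m
  have hηb : D.Bd (η m) := ⟨1, fun z _ => by
    have := m4.mem z; rw [abs_le]; constructor <;> linarith [this.1, this.2]⟩
  have hχb : D.Bd (χ m) := ⟨1, m2⟩
  have hf : D.Fn fun z => η m z * χ m z := m1.wmul m4.wd hηb
  have i1 := (m6.mix (hx m).1 hS m4).add (k1 m).1 hS
  have i2 : InB S (fun z => (x m).1 z - ε * (η m z * χ m z) + ξ m z)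
      fun y' => (x m).2.1 y' + ε * (w m y' * r m y') + ρ m y' := by
    refine ⟨?_, ((hx m).2.sub ((hηb.mul hχb).cmul ε)).add (k1 m).2⟩
    convert i1 using 2 <;> ring
  have hsy : s y + (x m).2.1 y ≤ 5 / 6 * θ := by
    have := (le_abs_self _).trans (abs_le_nl hφ.1.co.2 y)
    have := (le_abs_self _).trans (abs_le_nl (hx m).1.co.2 y)
    linarith [hn m]
  have ho : ∀ y', D.osc y' (fun z => φ z - ((x m).1 z - ε * (η m z * χ m z) + ξ m z)) ≤
      θ + 1 / (m + 1) := by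
    intro y'
    rcases m4.val y' with h0 | h1
    · refine (osc_congr ?_).trans_le (k5 m y')
      filter_upwards [m4.wd.ev y'] with z hz
      rw [hz, h0]; ring
    · refine (osc_le_of (a := p m - ε) (b := p m + (s y + (x m).2.1 y) + 1 / (m + 1) + ε) ?_).trans
        (by linarith)
      filter_upwards [m4.mem_of m5 h1, m4.wd.ev y', G_mem y'] with z hz hz' hzG
      have a1 := abs_le.1 (m2 z hzG)
      have a2 := mul_le_mul_of_nonneg_left a1.1 hε.le
      have a3 := mul_le_mul_of_nonneg_left a1.2 hε.le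
      rw [hz', h1]
      exact ⟨by linarith [hz.1], by linarith [hz.2]⟩
  have hv := v1 _ _ _ i2 (by positivity) ho
  have hwr : Sq fun y' => w m y' * r m y' := m3.bmul (C := 1) fun y' => by
    rcases m4.val y' with h0 | h0 <;> simp [h0]
  rw [di_add ((hx m).1.fn.sub (hf.cmul ε)) (k1 m).1.fn h.fd, di_sub (hx m).1.fn (hf.cmul ε) h.fd,
    di_cmul hf, ip_add ((hx m).1.co.2.add (hwr.cmul ε)) (k1 m).1.co.2 h.co.2,
    ip_add (hx m).1.co.2 (hwr.cmul ε) h.co.2, ip_cmul, ← h.om, ← h.om, h.om (x m).1] at hv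
  have b1 := (le_abs_self _).trans (abs_di_le ((hx m).1.fn.sub h.fd) h.fd)
  rw [di_sub (hx m).1.fn h.fd h.fd] at b1
  have b2 := (le_abs_self _).trans (abs_di_le (k1 m).1.fn h.fd)
  have b2' := mul_le_mul_of_nonneg_right (k2 m) (nr_nonneg D d)
  have b3 := (le_abs_self _).trans (abs_ip_le (hq m) h.co.2)
  rw [ip_sub (hx m).1.co.2 h.co.2 h.co.2] at b3
  have b4 := (le_abs_self _).trans (abs_ip_le (k1 m).1.co.2 h.co.2)
  have b4' := mul_le_mul_of_nonneg_right (k3 m) (nl_nonneg τ)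
  have b5 := mul_le_mul_of_nonneg_left (add_le_add b3 (b4.trans b4')) hc
  rw [ip_comm τ]
  refine le_of_mul_le_mul_left ?_ hε
  nlinarith

end Vale.P116D
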