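import Vale.Agent.P116D.D2
import Vale.Agent.P116D.D4
import Vale.Agent.P116D.D6

/-!
DEN: density (PROOF69 section 5).
-/

namespace Vale.P116D

open Set Filter Topology MeasureTheory Complex
open scoped ContDiff

variable {D : Dom} {S : Gens D} {φ ψ χ η g d v w : ℂ → ℝ} {s σ r τ u : D.End → ℝ} {y : D.End}
  {U : Set ℂ} {z : ℂ}

theorem den {θ ε : ℝ} {C : Set ℂ} (hS : Max S) (hφ : InB S φ s) (hθ : nl s < θ / 3) (hε : 0 < ε)
    (hC : IsCompact C) (hG : C ⊆ D.G) : ∃ d τ, InB S d τ ∧ D.nr d ≤ ε ∧ nl τ ≤ ε ∧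
      ∫ z in C, d z ^ 2 ≤ ε ∧ ∀ y, D.osc y (fun z => φ z - d z) < θ := by
  have hS' := hS.1
  have n0 := nl_nonneg s
  obtain ⟨t, ht⟩ : ∃ t, t = (θ + 3 * nl s) / 2 := ⟨_, rfl⟩
  have t0 : 0 < t := by linarith
  have t1 : nl s < t / 3 := by linarith
  have t2 : t < θ := by linarith
  obtain ⟨c, hc⟩ : ∃ c, c = 36 * D.nr φ ^ 2 / (5 * t ^ 2) + 1 := ⟨_, rfl⟩
  have c0 : 0 < c := by rw [hc]; positivity
  have c1 : D.nr φ ^ 2 ≤ c * (5 * t ^ 2 / 36) := by
    rw [hc, add_mul]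
    have : 36 * D.nr φ ^ 2 / (5 * t ^ 2) * (5 * t ^ 2 / 36) = D.nr φ ^ 2 := by field_simp
    rw [this]
    have : 0 < 1 * (5 * t ^ 2 / 36) := by positivity
    linarith
  obtain ⟨d, v, τ, x, h⟩ := da_sol hS' hφ t0.le c0
  have hφA : (φ, s, 0) ∈ DA S φ t :=
    ⟨hφ, rfl, fun y => (osc_const (c := 0) (by simp)).trans_le t0.le⟩
  have hτ : nl τ < t / 2 := by
    have h1 := h.le c0.le hφA hφ.1.fn hφ.1.co.2
    have h2 : nl s ^ 2 < (t / 3) ^ 2 := pow_lt_pow_left₀ t1 n0 two_ne_zero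
    have h3 : c * nl τ ^ 2 < c * (t / 2) ^ 2 := by
      have := mul_lt_mul_of_pos_left h2 c0
      have := sq_nonneg (D.nr d)
      simp only at h1
      nlinarith
    exact lt_of_pow_lt_pow_left₀ 2 (by positivity) (lt_of_mul_lt_mul_left h3 c0.le)
  have hcr := da_crit hS' hS.tcl hφ t0 c0.le h (by linarith)
  obtain ⟨Λ, -, -, v2⟩ := da_vi hS' hφ t0 h
  have hx : ∀ m, InB S (x m).1 (x m).2.1 := fun m => (h.mem m).1
  have hd : In S d τ := in_lim hS' (fun m => (hx m).1) h.fd h.co h.conv.1 h.tc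
  have hg := crit_const hS hcr h.hol hd (in_of_crit hS' hcr v2)
  have hn := nr_of_gr hg
  obtain ⟨a, ha⟩ := const_of_gr h.fd hg
  have hτ0 : nl τ = 0 := by
    have : nl τ ^ 2 ≤ 0 := le_of_forall_pos_le_add fun δ hδ => by
      obtain ⟨x', hx', h1⟩ := da_cheap (θ := t) hS' hS.tcl hφ (by linarith) h.co hδ
      have h2 := h.vi x' hx'
      have h3 := (le_abs_self _).trans (abs_di_le hx'.1.1.fn h.fd)
      rw [← nr_sq, ← nl_sq, hx'.2.1] at h2
      rw [hn] at h2 h3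
      have : 0 ≤ c * (ip x'.2.1 τ - nl τ ^ 2) := by linarith
      have := (mul_nonneg_iff_of_pos_left c0).1 this
      linarith
    exact pow_eq_zero_iff two_ne_zero |>.1 (le_antisymm this (sq_nonneg _))
  obtain ⟨m, e1, e2, e3⟩ := ((h.conv.1.eventually (ge_mem_nhds hε)).and
    ((h.tc.eventually (ge_mem_nhds hε)).and ((h.conv.2 C hC hG).eventually (ge_mem_nhds hε)))).exists
  refine ⟨fun z => (x m).1 z + -a, (x m).2.1, ⟨(hx m).1.add_wd hS' (wd_const D _),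
    (hx m).2.add (bd_const D _)⟩, ?_, ?_, ?_, fun y => ?_⟩
  · refine (nr_congr fun z hz => ?_).trans_le e1
    simp [ha z hz, sub_eq_add_neg]
  · have := nl_add h.co.2 ((hx m).1.co.2.sub h.co.2)
    simp only [add_sub_cancel] at this
    linarith
  · refine (setIntegral_congr_fun hC.measurableSet fun z hz => ?_).trans_le e3
    simp [ha z (hG hz), sub_eq_add_neg]
  · have := osc_add_const (hφ.2.sub (hx m).2) a y
    refine lt_of_le_of_lt (le_of_eq ?_) ((this.trans_le ((h.mem m).2.2 y)).trans_lt t2)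
    congr 1
    funext z; ring

end Vale.P116D
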