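import Vale.Agent.P116D.LD

/-!
FR: freezing at one end and at finitely many ends (PROOF69 section 5).
-/

namespace Vale.P116D

open Set Filter Topology MeasureTheory Complex
open scoped ContDiff

variable {D : Dom} {S : Gens D} {φ ψ χ η g d v w : ℂ → ℝ} {s σ r τ u : D.End → ℝ} {y : D.End}
  {U : Set ℂ} {z : ℂ}

/-- `w` agrees with a generator near `y` and is regulated at `y` -/
def Frz (S : Gens D) (w : ℂ → ℝ) (σ : D.End → ℝ) (y : D.End) : Prop :=
  (∃ p ∈ S, w =ᶠ[D.nb y] p.1) ∧ D.osc y w ≤ σ y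

theorem fr {ε : ℝ} (hS : Max S) (hφ : InB S φ s) (hε : 0 < ε) (hU : U ∈ D.nb y) :
    ∃ ψ r, Cost r ∧ nl r ≤ ε ∧ InB S ψ (fun y' => s y' + r y') ∧
      D.nr (fun z => ψ z - φ z) ≤ ε ∧ D.Supp (fun z => ψ z - φ z) U ∧
      Frz S ψ (fun y' => s y' + r y') y := by
  have he : 0 < ε / 4 := by positivity
  obtain ⟨δ, hδ, hδe⟩ : ∃ δ : ℝ, 0 < δ ∧ 4 * δ = ε / 4 := ⟨ε / 16, by positivity, by ring⟩
  have hs0 := hφ.1.co.1
  obtain ⟨a, ha⟩ := hS.tcl φ s hφ y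
  obtain ⟨T, hT, hT1, hTid, hTr, -⟩ := clamp_ex (a := a - δ) (b := a + s y + δ)
    (by linarith [hs0 y]) hδ
  have hTa : ∀ x, |deriv T x| ≤ 1 := a1_abs hT1
  have hTb : ∀ x, |T x| ≤ |a - δ - δ| + |a + s y + δ + δ| := fun x =>
    abs_le.2 ⟨by linarith [(hTr x).1, neg_abs_le (a - δ - δ), abs_nonneg (a + s y + δ + δ)],
      by linarith [(hTr x).2, le_abs_self (a + s y + δ + δ), abs_nonneg (a - δ - δ)]⟩
  have hc : Cert S y fun z => T (φ z) - φ z :=
    cert_one (T := fun x => T x - x) hS.1 hφ ha (hT.sub contDiff_id) hδ fun x hx => by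
      show T x - x = 0
      rw [hTid x hx, sub_self]
  obtain ⟨ξ, r1, hξ, hξs, hξn, hr1, hξe⟩ := hc _ he U hU
  obtain ⟨W0, hW0, hW0s⟩ := small_open hφ.1.fn y he
  have hW : {z | ξ z = T (φ z) - φ z} ∩ U ∩ W0 ∈ D.nb y := inter_mem (inter_mem hξe hU) hW0
  obtain ⟨η, u, hη, hu, hηs⟩ := cut_ex hW
  obtain ⟨O, hO, hOo, hO1, -⟩ := nb_open (inter_mem (hη.one_mem hu) hW)
  obtain ⟨ζ, r2, hζ, hζs, hζn, hr2, p, hp, hpe⟩ := ld hS hφ he hO
  have h1 : In S (fun z => T (φ z - ζ z)) fun y' => s y' + r2 y' :=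
    hS.1.trunc _ _ (hφ.1.sub hζ.1 hS.1) T hT hTa ⟨_, hTb⟩
  have h2 : In S (fun z => φ z + ξ z) fun y' => s y' + r1 y' := hφ.1.add hξ.1 hS.1
  have hOe : ∀ z ∈ O, φ z + ξ z + (T (φ z - ζ z) - T (φ z)) = T (φ z - ζ z) := fun z hz => by
    have e : ξ z = T (φ z) - φ z := (hO1 hz).2.1.1
    rw [e]
    ring
  have h3 : In S (fun z => φ z + ξ z + (T (φ z - ζ z) - T (φ z)))
      fun y' => u y' * (s y' + r2 y') + (1 - u y') * (s y' + r1 y') := by
    refine (h1.mix h2 hS.1 hη).congr fun z hz => ?_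
    show φ z + ξ z + (T (φ z - ζ z) - T (φ z)) = η z * T (φ z - ζ z) + (1 - η z) * (φ z + ξ z)
    by_cases hzO : z ∈ O
    · have e : η z = 1 := (hO1 hzO).1
      rw [hOe z hzO, e]
      ring
    · rw [hζs z hz hzO, sub_zero]
      by_cases hzW : z ∈ {z | ξ z = T (φ z) - φ z} ∩ U ∩ W0
      · have e : ξ z = T (φ z) - φ z := hzW.1.1
        rw [e]
        ring
      · rw [hηs z hz hzW]
        ring
  have hb : D.Bd fun z => φ z + ξ z + (T (φ z - ζ z) - T (φ z)) :=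
    (hφ.2.add hξ.2).add (((hφ.2.sub hζ.2).comp hT.continuous).sub (hφ.2.comp hT.continuous))
  have hosc : D.osc y (fun z => φ z + ξ z + (T (φ z - ζ z) - T (φ z))) ≤ s y + 4 * δ := by
    refine (osc_le_of (a := a - δ - δ) (b := a + s y + δ + δ) ?_).trans_eq (by ring)
    filter_upwards [hO] with z hz
    rw [hOe z hz]
    exact hTr _
  have hr : Cost fun y' => r1 y' + upd r2 y (4 * δ) y' :=
    hξ.1.co.add (hζ.1.co.upd y (by positivity))
  have hry : D.osc y (fun z => φ z + ξ z + (T (φ z - ζ z) - T (φ z))) ≤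
      s y + (r1 y + upd r2 y (4 * δ) y) := by
    have e : upd r2 y (4 * δ) y = 4 * δ := if_pos rfl
    rw [e]
    linarith [hξ.1.co.1 y]
  refine ⟨fun z => φ z + ξ z + (T (φ z - ζ z) - T (φ z)), fun y' => r1 y' + upd r2 y (4 * δ) y',
    hr, ?_, ⟨?_, hb⟩, ?_, fun z hz hzU => ?_, ⟨(fun z => T (p.1 z), p.2), hS.comp_mem hp hT hT1, ?_⟩,
    hry⟩
  · have e1 := nl_add hξ.1.co.2 (hζ.1.co.2.upd y (4 * δ))
    have e2 := nl_upd_le hζ.1.co.2 y (4 * δ)
    rw [abs_of_pos (by positivity)] at e2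
    linarith
  · refine (InB.osc_upd ⟨h3, hb⟩ hS.1 y).mono hS.1 (hφ.1.co.add hr) fun y' => ?_
    by_cases e : y' = y
    · subst e
      exact (if_pos rfl).trans_le hry
    · have e1 : upd r2 y (4 * δ) y' = r2 y' := if_neg e
      refine (if_neg e).trans_le ?_
      show u y' * (s y' + r2 y') + (1 - u y') * (s y' + r1 y') ≤ s y' + (r1 y' + upd r2 y (4 * δ) y')
      rw [e1]
      have := hη.s1_mem y'
      nlinarith [mul_nonneg this.1 (hξ.1.co.1 y'), mul_nonneg (sub_nonneg.2 this.2) (hζ.1.co.1 y')]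
  · have e1 : D.nr (fun z => φ z + ξ z + (T (φ z - ζ z) - T (φ z)) - φ z) =
        D.nr fun z => ξ z + (T (φ z + -ζ z) - T (φ z)) := nr_congr fun z _ => by
      show φ z + ξ z + (T (φ z - ζ z) - T (φ z)) - φ z = ξ z + (T (φ z + -ζ z) - T (φ z))
      rw [← sub_eq_add_neg]
      ring
    have f1 : D.Fn fun z => T (φ z + -ζ z) - T (φ z) :=
      ((hφ.1.fn.add hζ.1.fn.neg).comp hT fun _ _ => hTa _).sub (hφ.1.fn.comp hT fun _ _ => hTa _)
    have e2 := nr_add hξ.1.fn f1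
    have e3 := nr_comp_sub (ψ := fun z => -ζ z) hφ.1.fn hζ.1.fn.neg hOo.measurableSet
      (fun z hz hzO => by
        show -ζ z = 0
        rw [hζs z hz hzO, neg_zero]) hT hT1
    have e4 : D.nr (fun z => -ζ z) = D.nr ζ := a1a_nr_neg fun _ _ => rfl
    have e5 := hW0s O fun z hz => (hO1 hz).2.2
    rw [e1]
    linarith
  · show φ z + ξ z + (T (φ z - ζ z) - T (φ z)) - φ z = 0
    rw [hξs z hz hzU, hζs z hz fun hzO => hzU (hO1 hzO).2.1.2, sub_zero]
    ring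
  · filter_upwards [hO, hpe] with z hz e
    show φ z + ξ z + (T (φ z - ζ z) - T (φ z)) = T (p.1 z)
    rw [hOe z hz, ← e]

end Vale.P116D
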