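import Vale.Agent.P116D.S2
import Vale.Agent.P116D.Box

/-!
G1x: primitives of weights and the functions of one band.
-/

namespace Vale.P116D

open Set Filter Topology MeasureTheory Complex
open scoped ContDiff

variable {D : Dom} {S : Gens D} {φ w : ℂ → ℝ} {σ : D.End → ℝ} {y : D.End} {W : Set ℂ} {z : ℂ}
  {R : Rect} {l : ℝ → ℝ} {a b p q t ε : ℝ}

/-- The primitive of a weight. -/
noncomputable def Pm (l : ℝ → ℝ) (x : ℝ) : ℝ := ∫ t in Iic x, l t

theorem Wt.g1_cs (h : Wt a b l) : HasCompactSupport l :=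
  HasCompactSupport.intro (isCompact_Icc (a := a) (b := b)) fun t ht => by
    by_contra h'
    exact ht (h.2 t h')

theorem Wt.g1_int (h : Wt a b l) : Integrable l :=
  h.1.continuous.integrable_of_hasCompactSupport h.g1_cs

theorem Wt.g1_bd (h : Wt a b l) : ∃ C, 0 ≤ C ∧ (∀ t, |l t| ≤ C) ∧ ∀ t, |deriv l t| ≤ C := by
  obtain ⟨C, hC⟩ := h.1.continuous.bounded_above_of_compact_support h.g1_cs
  obtain ⟨C', hC'⟩ := (h.1.continuous_deriv (by simp)).bounded_above_of_compact_support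
    h.g1_cs.deriv
  exact ⟨max C C', ((norm_nonneg _).trans (hC 0)).trans (le_max_left _ _),
    fun t => (hC t).trans (le_max_left _ _), fun t => (hC' t).trans (le_max_right _ _)⟩

theorem pm_sub (h : Integrable l) (x x' : ℝ) : Pm l x - Pm l x' = ∫ t in x'..x, l t :=
  intervalIntegral.integral_Iic_sub_Iic h.integrableOn h.integrableOn

theorem pm_deriv (h : Integrable l) (hc : Continuous l) (x : ℝ) : HasDerivAt (Pm l) (l x) x := by
  have e : Pm l = fun x => (∫ t in (0 : ℝ)..x, l t) + Pm l 0 := funext fun x => by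
    rw [← pm_sub h, sub_add_cancel]
  rw [e]
  exact (intervalIntegral.integral_hasDerivAt_right h.intervalIntegrable
    (hc.stronglyMeasurableAtFilter _ _) hc.continuousAt).add_const _

theorem Wt.g1_deriv (h : Wt a b l) : deriv (Pm l) = l :=
  funext fun x => (pm_deriv h.g1_int h.1.continuous x).deriv

theorem Wt.g1_sm (h : Wt a b l) : ContDiff ℝ ∞ (Pm l) :=
  contDiff_infty_iff_deriv.2 ⟨fun x => (pm_deriv h.g1_int h.1.continuous x).differentiableAt,
    h.g1_deriv.symm ▸ h.1⟩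

theorem Wt.g1_lo (h : Wt a b l) {x : ℝ} (hx : x ≤ a) : Pm l x = 0 := by
  unfold Pm
  rw [integral_Iic_eq_integral_Iio]
  refine setIntegral_eq_zero_of_forall_eq_zero fun t ht => ?_
  by_contra h'
  exact absurd (h.2 t h').1 (not_le.2 (ht.trans_le hx))

theorem Wt.g1_hi (h : Wt a b l) {x x' : ℝ} (hx : b ≤ x) (hx' : b ≤ x') : Pm l x = Pm l x' := by
  wlog e : x' ≤ x generalizing x x'
  · exact (this hx' hx (not_le.1 e).le).symm
  rw [← sub_eq_zero, pm_sub h.g1_int, intervalIntegral.integral_of_le e]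
  refine setIntegral_eq_zero_of_forall_eq_zero fun t ht => ?_
  by_contra h'
  exact absurd (h.2 t h').2 (not_le.2 (hx'.trans_lt ht.1))

theorem pm_osc (h : Integrable l) {x x' : ℝ} (hx : x ∈ Icc p q) (hx' : x' ∈ Icc p q) :
    |Pm l x - Pm l x'| ≤ ∫ t in Icc p q, |l t| := by
  rw [pm_sub h]
  refine (intervalIntegral.norm_integral_le_integral_norm_uIoc (f := l)).trans ?_
  exact setIntegral_mono_set h.abs.integrableOn (ae_of_all _ fun _ => abs_nonneg _)
    (LE.le.eventuallyLE (uIoc_subset_uIcc.trans (uIcc_subset_Icc hx' hx)))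

theorem pm_abs (h : Integrable l) (x : ℝ) : |Pm l x| ≤ ∫ t, |l t| :=
  (abs_integral_le_integral_abs).trans
    (setIntegral_le_integral h.abs (ae_of_all _ fun _ => abs_nonneg _))

theorem pm_Icc (h : Integrable l) (e : p ≤ q) : ∫ t in Icc p q, l t = Pm l q - Pm l p := by
  rw [pm_sub h, intervalIntegral.integral_of_le e, integral_Icc_eq_integral_Ioc]

/-- a connected set that misses the level `t` lies on one side of the lower region -/
theorem g1_side (hw : ContinuousOn w D.G) (hW : IsPreconnected W) (hG : W ⊆ D.G)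
    (ht : ∀ z ∈ W, w z ≠ t) : W ⊆ Ut D w R t ∨ Disjoint W (Ut D w R t) := by
  rcases W.eq_empty_or_nonempty with rfl | ⟨z₀, hz₀⟩
  · exact Or.inl (empty_subset _)
  have key : W ⊆ D.G \ closure (Vt D w R t) → W ⊆ Ut D w R t ∨ Disjoint W (Ut D w R t) := fun h => by
    by_cases hd : Disjoint W (Ut D w R t)
    · exact Or.inr hd
    · obtain ⟨z, hz, hz'⟩ := Set.not_disjoint_iff.1 hd
      refine Or.inl ?_
      unfold Ut at hz' ⊢
      rw [connectedComponentIn_eq hz']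
      exact hW.subset_connectedComponentIn hz h
  have hV : Vt D w R t ⊆ {z ∈ D.G | t < w z} := connectedComponentIn_subset _ _
  rcases hW.subset_or_subset (box_up_open hw t) (box_dn_open hw t)
    (Set.disjoint_left.2 fun z h h' => lt_asymm h.2 h'.2)
    (fun z hz => (ht z hz).lt_or_gt.symm.imp (fun h => ⟨hG hz, h⟩) fun h => ⟨hG hz, h⟩) with h | h
  · by_cases hd : Disjoint W (Vt D w R t)
    · refine key fun z hz => ⟨hG hz, fun hc => Set.disjoint_left.1 hd hz ?_⟩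
      obtain ⟨ρ, hρ, hb⟩ := Metric.isOpen_iff.1 (box_up_open hw t) z (h hz)
      obtain ⟨z', h1, h2⟩ := mem_closure_iff.1 hc _ Metric.isOpen_ball (Metric.mem_ball_self hρ)
      unfold Vt at h2 ⊢
      rw [connectedComponentIn_eq h2]
      exact (convex_ball z ρ).isPreconnected.subset_connectedComponentIn h1 hb
        (Metric.mem_ball_self hρ)
    · obtain ⟨z, hz, hz'⟩ := Set.not_disjoint_iff.1 hd
      have : W ⊆ Vt D w R t := by
        unfold Vt at hz' ⊢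
        rw [connectedComponentIn_eq hz']
        exact hW.subset_connectedComponentIn hz h
      exact Or.inr (Set.disjoint_left.2 fun z hz hz' =>
        (connectedComponentIn_subset _ _ hz').2 (subset_closure (this hz)))
  · refine key fun z hz => ⟨hG hz, fun hc => ?_⟩
    obtain ⟨z', h1, h2⟩ := mem_closure_iff.1 hc _ (box_dn_open hw t) (h hz)
    exact lt_asymm h1.2 (hV h2).2

open Classical in
/-- The weight on one band. -/
noncomputable def bz (D : Dom) (w : ℂ → ℝ) (R : Rect) (p q : ℝ) (l : ℝ → ℝ) (z : ℂ) : ℝ :=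
  if z ∈ Ut D w R q ∧ z ∉ Ut D w R p then l (w z) else 0

open Classical in
/-- The primitive on one band. -/
noncomputable def bM (D : Dom) (w : ℂ → ℝ) (R : Rect) (p q : ℝ) (l : ℝ → ℝ) (z : ℂ) : ℝ :=
  if z ∈ Ut D w R p then 0 else if z ∈ Ut D w R q then Pm l (w z) else Pm l q

theorem band_loc {α β : ℝ} (hw : ContinuousOn w D.G) (hl : Wt (p + ε) (q - ε) l) (hpq : p + ε ≤ q)
    (hW : IsPreconnected W) (hG : W ⊆ D.G) (h : ∀ z ∈ W, w z ∈ Icc α β) (hε : β - α < ε) :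
    (∀ z ∈ W, bz D w R p q l z = l (w z) ∧ bM D w R p q l z = Pm l (w z)) ∨
      ∃ c, ∀ z ∈ W, bz D w R p q l z = 0 ∧ bM D w R p q l z = c := by
  have side : ∀ t, t ∉ Icc α β → W ⊆ Ut D w R t ∨ Disjoint W (Ut D w R t) := fun t ht =>
    g1_side hw hW hG fun z hz e => ht (e ▸ h z hz)
  by_cases hp : p ∈ Icc α β
  · have h0 : ∀ z ∈ W, l (w z) = 0 := fun z hz => by
      by_contra h'
      linarith [(hl.2 _ h').1, (h z hz).2, hp.1]
    rcases side q fun hq => by linarith [hq.2, hp.1] with e | e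
    · refine Or.inr ⟨0, fun z hz => ⟨by simp [bz, h0 z hz], ?_⟩⟩
      simp [bM, e hz, hl.g1_lo (x := w z) (by linarith [(h z hz).2, hp.1])]
    · refine Or.inr ⟨Pm l q, fun z hz => ⟨by simp [bz, h0 z hz], ?_⟩⟩
      have h1 := Set.disjoint_left.1 e hz
      have h2 : z ∉ Ut D w R p := fun h' => h1 (Ut_mono (by linarith [hp.1, hp.2]) h')
      simp [bM, h1, h2]
  · rcases side p hp with e | e
    · exact Or.inr ⟨0, fun z hz => by simp [bz, bM, e hz]⟩
    by_cases hq : q ∈ Icc α β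
    · refine Or.inr ⟨Pm l q, fun z hz => ?_⟩
      have h0 : l (w z) = 0 := by
        by_contra h'
        linarith [(hl.2 _ h').2, (h z hz).1, hq.2]
      have h1 : Pm l (w z) = Pm l q :=
        hl.g1_hi (by linarith [(h z hz).1, hq.2]) (by linarith [hq.1, hq.2])
      simp [bz, bM, Set.disjoint_left.1 e hz, h0, h1]
    · rcases side q hq with e' | e'
      · exact Or.inl fun z hz => by simp [bz, bM, Set.disjoint_left.1 e hz, e' hz]
      · exact Or.inr ⟨Pm l q, fun z hz => by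
          simp [bz, bM, Set.disjoint_left.1 e hz, Set.disjoint_left.1 e' hz]⟩

theorem band_osc {α β : ℝ} {z' : ℂ} (hw : ContinuousOn w D.G) (hl : Wt p q l) (hpq : p ≤ q)
    (hW : IsPreconnected W) (hG : W ⊆ D.G) (h : ∀ z ∈ W, w z ∈ Icc α β) (hz : z ∈ W)
    (hz' : z' ∈ W) : |bM D w R p q l z - bM D w R p q l z'| ≤ ∫ t in Icc α β, |l t| := by
  have side : ∀ t, t ∉ Icc α β → W ⊆ Ut D w R t ∨ Disjoint W (Ut D w R t) := fun t ht =>
    g1_side hw hW hG fun z hz e => ht (e ▸ h z hz)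
  have h0 : 0 ≤ ∫ t in Icc α β, |l t| := integral_nonneg fun _ => abs_nonneg _
  by_cases h1 : W ⊆ Ut D w R p
  · simpa [bM, h1 hz, h1 hz'] using h0
  by_cases h2 : Disjoint W (Ut D w R q)
  · have h3 : Disjoint W (Ut D w R p) := h2.mono_right (Ut_mono hpq)
    simpa [bM, Set.disjoint_left.1 h2 hz, Set.disjoint_left.1 h2 hz',
      Set.disjoint_left.1 h3 hz, Set.disjoint_left.1 h3 hz'] using h0
  have key : ∀ z ∈ W, ∃ x ∈ Icc α β, bM D w R p q l z = Pm l x := fun z hz => by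
    by_cases e : z ∈ Ut D w R p
    · refine ⟨p, ?_, by simp [bM, e, hl.g1_lo le_rfl]⟩
      by_contra hp
      exact (side p hp).elim h1 fun h' => Set.disjoint_left.1 h' hz e
    by_cases e' : z ∈ Ut D w R q
    · exact ⟨w z, h z hz, by simp [bM, e, e']⟩
    · refine ⟨q, ?_, by simp [bM, e, e']⟩
      by_contra hq
      exact (side q hq).elim (fun h' => e' (h' hz)) h2
  obtain ⟨x, hx, e⟩ := key z hz
  obtain ⟨x', hx', e'⟩ := key z' hz'
  rw [e, e']
  exact pm_osc hl.g1_int hx hx'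

/-- on every small connected set `φ` is `T w` or a constant -/
def Alt (D : Dom) (w φ : ℂ → ℝ) (T : ℝ → ℝ) (ε : ℝ) : Prop :=
  ∀ W α β, IsPreconnected W → W ⊆ D.G → (∀ z ∈ W, w z ∈ Icc α β) → β - α < ε →
    (∀ z ∈ W, φ z = T (w z)) ∨ ∃ c, ∀ z ∈ W, φ z = c

theorem g1_ball (hw : ContinuousOn w D.G) (hz : z ∈ D.G) (hε : 0 < ε) : ∃ W ∈ 𝓝 z, ∃ α β,
    IsPreconnected W ∧ W ⊆ D.G ∧ (∀ z ∈ W, w z ∈ Icc α β) ∧ β - α < ε := by
  have h1 : ∀ᶠ z' in 𝓝 z, z' ∈ D.G ∧ w z' ∈ Icc (w z - ε / 3) (w z + ε / 3) :=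
    Eventually.and ((G_open D).mem_nhds hz) ((hw.continuousAt ((G_open D).mem_nhds hz)).eventually
      (Icc_mem_nhds (by linarith) (by linarith)))
  obtain ⟨ρ, hρ, hb⟩ := Metric.mem_nhds_iff.1 h1
  exact ⟨_, Metric.ball_mem_nhds z hρ, _, _, (convex_ball z ρ).isPreconnected,
    fun _ h => (hb h).1, fun _ h => (hb h).2, by linarith⟩

theorem Alt.ev {T : ℝ → ℝ} (h : Alt D w φ T ε) (hw : ContinuousOn w D.G) (hε : 0 < ε)
    (hz : z ∈ D.G) : (φ =ᶠ[𝓝 z] fun z => T (w z)) ∨ ∃ c, φ =ᶠ[𝓝 z] fun _ => c := by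
  obtain ⟨W, hW, α, β, h1, h2, h3, h4⟩ := g1_ball hw hz hε
  exact (h W α β h1 h2 h3 h4).imp (fun e => mem_of_superset hW e)
    fun ⟨c, e⟩ => ⟨c, mem_of_superset hW e⟩

theorem Alt.gr_eq {T : ℝ → ℝ} {C : ℝ} (h : Alt D w φ T ε) (hw : D.Fn w) (hε : 0 < ε)
    (hT : ContDiff ℝ ∞ T) (hC0 : 0 ≤ C) (hC : ∀ x, |deriv T x| ≤ C) (hz : z ∈ D.G) :
    ∃ c : ℝ, |c| ≤ C ∧ gr φ z = c • gr w z := by
  rcases h.ev hw.contOn hε hz with e | ⟨c, e⟩
  · exact ⟨_, hC _, by
      rw [gr_congr e, gr_comp (hT.differentiable (by simp) _) (hw.diffAt hz)]⟩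
  · exact ⟨0, by simpa using hC0, by rw [gr_congr e, gr_const, zero_smul]⟩

theorem Alt.fn {T : ℝ → ℝ} {C : ℝ} (h : Alt D w φ T ε) (hw : D.Fn w) (hε : 0 < ε)
    (hT : ContDiff ℝ ∞ T) (hC0 : 0 ≤ C) (hC : ∀ x, |deriv T x| ≤ C) : D.Fn φ := by
  refine ⟨fun z hz => ContDiffAt.contDiffWithinAt ?_, ?_⟩
  · rcases h.ev hw.contOn hε hz with e | ⟨c, e⟩
    · exact (hT.contDiffAt.comp z (hw.cdAt hz)).congr_of_eventuallyEq e
    · exact contDiffAt_const.congr_of_eventuallyEq e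
  · refine hw.l2.of_le_mul (c := C) (gr_meas φ).aestronglyMeasurable
      ((ae_restrict_mem (G_meas D)).mono fun z hz => ?_)
    obtain ⟨c, h1, h2⟩ := h.gr_eq hw hε hT hC0 hC hz
    rw [h2, norm_smul]
    exact mul_le_mul_of_nonneg_right h1 (norm_nonneg _)

theorem Alt.isIn {T : ℝ → ℝ} {C M : ℝ} (h : Alt D w φ T ε) (hS : Str S) (hw : In S w σ)
    (hr : Reg D w σ) (hε : 0 < ε) (hT : ContDiff ℝ ∞ T) (hC0 : 0 ≤ C) (hC : ∀ x, |deriv T x| ≤ C)
    (hM : ∀ x, |T x| ≤ M) (hb : D.Bd φ) : ∃ s, In S φ s := by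
  obtain ⟨F, hF⟩ := hr.co.2.tail (half_pos hε)
  have h1 := (hw.comp hS hT hC0 hC hM).1
  refine ⟨_, in_of_loc hS F (h.fn hr.fn hε hT hC0 hC) hb h1.co fun y hy => ?_⟩
  have h2 : D.osc y w < ε := by
    have := (abs_le_nl (hr.co.2.pw F fun _ => 0) y).trans (hF F le_rfl)
    simp only [pw, hy, if_false] at this
    linarith [hr.le y, le_abs_self (σ y)]
  obtain ⟨U, hU, α, β, h3, -, -, h4⟩ := range_of_lt hr.bd h2
  obtain ⟨W, hW, -, h5, h6, h7⟩ := nb_conn hU
  rcases h W α β h5 h7 (fun z hz => h4 z (h6 hz)) h3 with e | ⟨c, e⟩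
  · exact ⟨W, hW, _, _, h1, fun _ _ => le_rfl, fun z hz => e z hz.1⟩
  · exact ⟨W, hW, _, _, in_wd hS (wd_const D c), fun y' _ => h1.co.1 y', fun z hz => e z hz.1⟩

theorem bz_alt (hw : ContinuousOn w D.G) (hl : Wt (p + ε) (q - ε) l) (hpq : p + ε ≤ q) :
    Alt D w (bz D w R p q l) l ε := fun _ _ _ hW hG h hε =>
  (band_loc hw hl hpq hW hG h hε).imp (fun e z hz => (e z hz).1)
    fun ⟨_, e⟩ => ⟨0, fun z hz => (e z hz).1⟩

theorem bM_alt (hw : ContinuousOn w D.G) (hl : Wt (p + ε) (q - ε) l) (hpq : p + ε ≤ q) :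
    Alt D w (bM D w R p q l) (Pm l) ε := fun _ _ _ hW hG h hε =>
  (band_loc hw hl hpq hW hG h hε).imp (fun e z hz => (e z hz).2)
    fun ⟨c, e⟩ => ⟨c, fun z hz => (e z hz).2⟩

theorem bM_gr (hw : D.Fn w) (hl : Wt (p + ε) (q - ε) l) (hpq : p + ε ≤ q) (hε : 0 < ε)
    (hz : z ∈ D.G) : gr (bM D w R p q l) z = bz D w R p q l z • gr w z := by
  obtain ⟨W, hW, α, β, h1, h2, h3, h4⟩ := g1_ball hw.contOn hz hε
  rcases band_loc (R := R) hw.contOn hl hpq h1 h2 h3 h4 with e | ⟨c, e⟩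
  · rw [gr_congr (ψ := fun z => Pm l (w z)) (mem_of_superset hW fun z hz => (e z hz).2),
      gr_comp (hl.g1_sm.differentiable (by simp) _) (hw.diffAt hz), hl.g1_deriv,
      (e z (mem_of_mem_nhds hW)).1]
  · rw [gr_congr (ψ := fun _ => c) (mem_of_superset hW fun z hz => (e z hz).2), gr_const,
      (e z (mem_of_mem_nhds hW)).1, zero_smul]

/-- all the properties of one band -/
theorem band_all (hS : Str S) (hw : In S w σ) (hr : Reg D w σ) (hl : Wt (p + ε) (q - ε) l)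
    (hpq : p + ε ≤ q) (hε : 0 < ε) :
    (∃ s, InB S (bz D w R p q l) s) ∧ (∃ s, InB S (bM D w R p q l) s) ∧
      ∀ z ∈ D.G, wd (gr (bz D w R p q l) z) (gr w z) = 0 := by
  obtain ⟨C, hC, h1, h2⟩ := hl.g1_bd
  have b1 : D.Bd (bz D w R p q l) := ⟨C, fun z _ => by
    unfold bz
    split_ifs
    · exact h1 _
    · simpa using hC⟩
  have b2 : D.Bd (bM D w R p q l) := ⟨∫ t, |l t|, fun z _ => by
    unfold bM
    split_ifs
    · rw [abs_zero]
      exact integral_nonneg fun _ => abs_nonneg _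
    · exact pm_abs hl.g1_int _
    · exact pm_abs hl.g1_int _⟩
  refine ⟨?_, ?_, fun z hz => ?_⟩
  · obtain ⟨s, hs⟩ := (bz_alt hr.fn.contOn hl hpq).isIn hS hw hr hε hl.1 hC h2 h1 b1
    exact ⟨s, hs, b1⟩
  · obtain ⟨s, hs⟩ := (bM_alt hr.fn.contOn hl hpq).isIn hS hw hr hε hl.g1_sm hC
      (hl.g1_deriv.symm ▸ h1) (pm_abs hl.g1_int) b2
    exact ⟨s, hs, b2⟩
  · obtain ⟨c, -, e⟩ := (bz_alt (R := R) hr.fn.contOn hl hpq).gr_eq hr.fn hε hl.1 hC h2 hz
    rw [e]
    simp [wd]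
    ring

end Vale.P116D
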