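import Vale.Agent.P116D.G0
import Vale.Agent.P116D.G1x

/-!
G1b: primitives on the line.
-/

namespace Vale.P116D

open Set Filter Topology MeasureTheory Complex
open scoped ContDiff

variable {D : Dom} {S : Gens D} {φ ψ χ η ξ g w : ℂ → ℝ} {s σ r u : D.End → ℝ} {y : D.End}
  {U : Set ℂ} {z : ℂ} {R : Rect} {l : ℝ → ℝ}

theorem Wt.integrable {a b : ℝ} (h : Wt a b l) : Integrable l := h.g1_int

theorem Wt.bdd {a b : ℝ} (h : Wt a b l) : ∃ L, 0 < L ∧ ∀ t, |l t| ≤ L := by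
  obtain ⟨C, hC, h1, -⟩ := h.g1_bd
  exact ⟨C + 1, by linarith, fun t => by linarith [h1 t]⟩

theorem prim_left {a b x : ℝ} (h : Wt a b l) (hx : x ≤ a) : prim l x = 0 := h.g1_lo hx

theorem prim_sub {a b : ℝ} (h : Wt a b l) (x x' : ℝ) : prim l x - prim l x' = ∫ t in x'..x, l t :=
  pm_sub h.g1_int x x'

theorem prim_right {a b x x' : ℝ} (h : Wt a b l) (hx : b ≤ x) (hx' : b ≤ x') :
    prim l x = prim l x' := h.g1_hi hx hx'

/-- `prim l x = prim l 0 + ∫ t in 0..x, l t`; `contDiff_infty_iff_deriv` -/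
theorem prim_smooth {a b : ℝ} (h : Wt a b l) : ContDiff ℝ ∞ (prim l) ∧ deriv (prim l) = l :=
  ⟨h.g1_sm, h.g1_deriv⟩

theorem abs_prim_sub {a b p q x x' : ℝ} (h : Wt a b l)
    (hs : ∀ t ∈ uIcc x x', l t ≠ 0 → t ∈ Icc p q) :
    |prim l x - prim l x'| ≤ ∫ t in Icc p q, |l t| := by
  rw [prim_sub h]
  refine (intervalIntegral.norm_integral_le_integral_norm_uIoc (f := l)).trans ?_
  have e : ∫ t in uIoc x' x, ‖l t‖ = ∫ t in uIoc x' x ∩ Icc p q, |l t| := by
    refine (setIntegral_eq_of_subset_of_forall_sdiff_eq_zero measurableSet_uIoc inter_subset_left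
      fun t ht => ?_)
    by_contra h0
    refine ht.2 ⟨ht.1, hs t ?_ (by simpa using h0)⟩
    rw [uIcc_comm]
    exact uIoc_subset_uIcc ht.1
  rw [e]
  exact setIntegral_mono_set h.g1_int.abs.integrableOn (ae_of_all _ fun _ => abs_nonneg _)
    (LE.le.eventuallyLE inter_subset_right)

theorem prim_sum {n : ℕ} {f : Fin n → ℝ → ℝ} (h : ∀ i, Integrable (f i)) (e : ∀ t, ∑ i, f i t = l t)
    (x : ℝ) : ∑ i, prim (f i) x = prim l x := by
  unfold prim
  rw [← integral_finsetSum _ fun i _ => (h i).integrableOn]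
  simp only [e]

end Vale.P116D
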