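import Vale.Agent.P116D.G1a
import Vale.Agent.P116D.G1x

/-!
G1y: the level at which a point enters the lower regions, and sums over the bands.
-/

namespace Vale.P116D

open Set Filter Topology MeasureTheory Complex
open scoped ContDiff

variable {D : Dom} {S : Gens D} {φ w : ℂ → ℝ} {σ : D.End → ℝ} {y : D.End} {W : Set ℂ} {z : ℂ}
  {R : Rect} {l : ℝ → ℝ} {a b p q t ε : ℝ}

/-- The level at which `z` enters the lower regions. -/
noncomputable def glev (D : Dom) (w : ℂ → ℝ) (R : Rect) (a b : ℝ) (z : ℂ) : ℝ :=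
  sSup (insert a {t ∈ Icc a b | z ∉ Ut D w R t})

theorem g1_bdd (hab : a ≤ b) : BddAbove (insert a {t ∈ Icc a b | z ∉ Ut D w R t}) :=
  ⟨b, by
    rintro t (rfl | ht)
    · exact hab
    · exact ht.1.2⟩

theorem g1_le_lev (hab : a ≤ b) : a ≤ glev D w R a b z := le_csSup (g1_bdd hab) (mem_insert _ _)

theorem g1_le_lev' (ht : t ∈ Icc a b) (hz : z ∉ Ut D w R t) : t ≤ glev D w R a b z :=
  le_csSup (g1_bdd (ht.1.trans ht.2)) (mem_insert_of_mem _ ⟨ht, hz⟩)

theorem g1_lev_le (ht : a ≤ t) (hz : z ∈ Ut D w R t) : glev D w R a b z ≤ t :=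
  csSup_le (insert_nonempty _ _) (by
    rintro t' (rfl | ht')
    · exact ht
    · exact (not_le.1 fun h => ht'.2 (Ut_mono h hz)).le)

theorem g1_lev_le' (hab : a ≤ b) : glev D w R a b z ≤ b :=
  csSup_le (insert_nonempty _ _) (by
    rintro t' (rfl | ht')
    · exact hab
    · exact ht'.1.2)

theorem g1_onB (hl : Wt a b l) (hab : a ≤ b) (ha : R.t₁ < a) (hb : b < R.t₂) (hz : z ∈ Bs D w R) :
    Pm l (glev D w R a b z) = Pm l (w z) := by
  have h1 : ∀ t ∈ Icc a b, t < w z → t ≤ glev D w R a b z := fun t ht h =>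
    g1_le_lev' ht ((hz.2.2 t ⟨ha.trans_le ht.1, ht.2.trans_lt hb⟩).1 h)
  have h2 : ∀ t ∈ Icc a b, w z < t → glev D w R a b z ≤ t := fun t ht h =>
    g1_lev_le ht.1 ((hz.2.2 t ⟨ha.trans_le ht.1, ht.2.trans_lt hb⟩).2 h)
  rcases lt_or_ge (w z) a with h | h
  · rw [hl.g1_lo h.le, hl.g1_lo (h2 a ⟨le_rfl, hab⟩ h)]
  rcases lt_or_ge b (w z) with h' | h'
  · exact hl.g1_hi (h1 b ⟨hab, le_rfl⟩ h') h'.le
  congr 1
  refine le_antisymm (le_of_forall_gt_imp_ge_of_dense fun t ht => ?_)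
    (le_of_forall_lt_imp_le_of_dense fun t ht => ?_)
  · rcases le_total t b with e | e
    · exact h2 t ⟨h.trans ht.le, e⟩ ht
    · exact (g1_lev_le' hab).trans e
  · rcases le_total a t with e | e
    · exact h1 t ⟨e, ht.le.trans h'⟩ ht
    · exact e.trans (g1_le_lev hab)

theorem band_lev {h : ℝ} (hl : Wt p q l) (hp : a ≤ p) (hpq : p ≤ q) (hq : q ≤ b) (hh : q - p ≤ h) :
    |bM D w R p q l z - Pm l (glev D w R a b z)| ≤
      ∫ t in Icc (glev D w R a b z - h) (glev D w R a b z + h), |l t| := by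
  have h0 : 0 ≤ ∫ t in Icc (glev D w R a b z - h) (glev D w R a b z + h), |l t| :=
    integral_nonneg fun _ => abs_nonneg _
  unfold bM
  split_ifs with h1 h2
  · rwa [hl.g1_lo (g1_lev_le hp h1), sub_zero, abs_zero]
  · have e1 := g1_le_lev' ⟨hp, hpq.trans hq⟩ h1
    have e2 : glev D w R a b z ≤ q := g1_lev_le (hp.trans hpq) h2
    have : ∃ x ∈ Icc p q, Pm l (w z) = Pm l x := by
      rcases le_total (w z) p with e | e
      · exact ⟨p, ⟨le_rfl, hpq⟩, by rw [hl.g1_lo e, hl.g1_lo le_rfl]⟩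
      rcases le_total q (w z) with e' | e'
      · exact ⟨q, ⟨hpq, le_rfl⟩, hl.g1_hi e' le_rfl⟩
      · exact ⟨w z, ⟨e, e'⟩, rfl⟩
    obtain ⟨x, hx, e⟩ := this
    rw [e]
    exact pm_osc hl.g1_int ⟨by linarith [hx.1], by linarith [hx.2]⟩ ⟨by linarith, by linarith⟩
  · rwa [hl.g1_hi (g1_le_lev' ⟨hp.trans hpq, hq⟩ h2) le_rfl, sub_self, abs_zero]

theorem grd_succ (a b : ℝ) (n k : ℕ) : grd a b n (k + 1) = grd a b n k + (b - a) / (n + 1) := by
  unfold grd
  push_cast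
  ring

theorem grd_mem (hab : a ≤ b) {n k : ℕ} (hk : k ≤ n + 1) : grd a b n k ∈ Icc a b := by
  have h0 : 0 ≤ (b - a) / ((n : ℝ) + 1) := div_nonneg (sub_nonneg.2 hab) (by positivity)
  have h1 : (k : ℝ) ≤ n + 1 := by exact_mod_cast hk
  have h2 : ((n : ℝ) + 1) * ((b - a) / (n + 1)) = b - a := mul_div_cancel₀ _ (by positivity)
  unfold grd
  exact ⟨le_add_of_nonneg_right (by positivity), by nlinarith⟩

theorem Wt.g1_mul {β : ℝ → ℝ} (hβ : Wt p q β) (hl : Wt a b l) : Wt p q fun t => β t * l t :=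
  ⟨hβ.1.mul hl.1, fun t ht => hβ.2 t (left_ne_zero_of_mul ht)⟩

theorem Wt.g1_mono {p' q' : ℝ} (h : Wt p q l) (hp : p' ≤ p) (hq : q ≤ q') : Wt p' q' l :=
  ⟨h.1, fun t ht => Icc_subset_Icc hp hq (h.2 t ht)⟩

theorem g1_sum_abs {ι : Type} (F : Finset ι) {β : ι → ℝ → ℝ} {p q : ι → ℝ} (hl : Wt a b l)
    (hβ : ∀ k, Wt (p k) (q k) (β k) ∧ ∀ t, β k t ∈ Icc (0 : ℝ) 1) (h1 : ∀ t, ∑ k ∈ F, β k t ≤ 1)
    (A : Set ℝ) : ∑ k ∈ F, ∫ t in A, |β k t * l t| ≤ ∫ t in A, |l t| := by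
  have hi : ∀ k ∈ F, Integrable (fun t => |β k t * l t|) (volume.restrict A) := fun k _ =>
    ((hβ k).1.g1_mul hl).g1_int.abs.integrableOn
  rw [← integral_finsetSum F hi]
  refine integral_mono (integrable_finsetSum F hi) hl.g1_int.abs.integrableOn fun t => ?_
  show ∑ k ∈ F, |β k t * l t| ≤ |l t|
  simp only [abs_mul, fun k => abs_of_nonneg ((hβ k).2 t).1]
  rw [← Finset.sum_mul]
  exact mul_le_of_le_one_left (abs_nonneg _) (h1 t)

theorem g1_pm_sum {ι : Type} (F : Finset ι) {f : ι → ℝ → ℝ} (hl : Integrable l)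
    (hf : ∀ k ∈ F, Integrable (f k)) (x : ℝ) :
    |∑ k ∈ F, Pm (f k) x - Pm l x| ≤ ∫ t, |∑ k ∈ F, f k t - l t| := by
  have h1 := integrable_finsetSum F hf
  have e : ∑ k ∈ F, Pm (f k) x - Pm l x = Pm (fun t => ∑ k ∈ F, f k t - l t) x := by
    unfold Pm
    rw [integral_sub h1.integrableOn hl.integrableOn,
      integral_finsetSum F fun k hk => (hf k hk).integrableOn]
  rw [e]
  exact pm_abs (h1.sub hl) x

theorem g1_Icc_le {C h x : ℝ} (hC : ∀ t, |l t| ≤ C) (hh : 0 ≤ h) :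
    ∫ t in Icc (x - h) (x + h), |l t| ≤ C * (2 * h) := by
  have := norm_setIntegral_le_of_norm_le_const (μ := volume) (s := Icc (x - h) (x + h))
    (f := fun t => |l t|) (C := C) measure_Icc_lt_top fun t _ => by simpa using hC t
  rw [Real.volume_real_Icc_of_le (by linarith)] at this
  refine ((le_abs_self _).trans this).trans (le_of_eq ?_)
  ring

theorem cost_cl (hl : Wt a b l) (hr : Reg D w σ) : Cost (cl D w l) := by
  obtain ⟨C, hC, h1, -⟩ := hl.g1_bd
  refine (hr.co.cmul hC).mono fun y => ⟨integral_nonneg fun _ => abs_nonneg _, ?_⟩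
  have := norm_setIntegral_le_of_norm_le_const (μ := volume) (s := Icc (D.lo y w) (D.hi y w))
    (f := fun t => |l t|) (C := C) measure_Icc_lt_top fun t _ => by simpa using h1 t
  rw [Real.volume_real_Icc_of_le (lo_le_hi hr.bd y)] at this
  exact ((le_abs_self _).trans this).trans (mul_le_mul_of_nonneg_left (hr.le y) hC)

/-- from a bound on connected sets to a bound for the oscillation -/
theorem g1_osc (hl : Wt a b l) (hw : D.Bd w) (hφ : D.Bd φ)
    (h : ∀ W α β, IsPreconnected W → W ⊆ D.G → (∀ z ∈ W, w z ∈ Icc α β) → ∀ z ∈ W, ∀ z' ∈ W,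
      φ z - φ z' ≤ ∫ t in Icc α β, |l t|) (y : D.End) : D.osc y φ ≤ cl D w l y := by
  have hi := hl.g1_int.abs
  have hc : Continuous (Pm fun t => |l t|) :=
    continuous_iff_continuousAt.2 fun x => (pm_deriv hi hl.1.continuous.abs x).continuousAt
  have hlh := lo_le_hi hw y
  have h1 : Tendsto (fun δ : ℝ => Pm (fun t => |l t|) (D.hi y w + δ) -
      Pm (fun t => |l t|) (D.lo y w - δ)) (𝓝[>] 0) (𝓝 (cl D w l y)) := by
    have : Continuous fun δ : ℝ => Pm (fun t => |l t|) (D.hi y w + δ) -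
      Pm (fun t => |l t|) (D.lo y w - δ) := by fun_prop
    refine tendsto_nhdsWithin_of_tendsto_nhds (this.tendsto' 0 _ ?_)
    rw [cl, pm_Icc hi hlh, add_zero, sub_zero]
  refine ge_of_tendsto h1 (eventually_nhdsWithin_of_forall fun δ (hδ : 0 < δ) => ?_)
  obtain ⟨W, hW, -, h2, h3, h4⟩ := nb_conn (ev_mem hw y hδ)
  rw [← pm_Icc hi (by linarith)]
  exact osc_le_of_pair hφ hW (h W _ _ h2 h4 fun z hz => Ioo_subset_Icc_self (h3 hz))

/-- a finite measure on the levels without atoms -/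
theorem g1_meas (hw : D.Fn w) (hn : ∀ c, volume {z ∈ D.G | w z = c ∧ gr w z ≠ 0} = 0) (a b : ℝ) :
    ∃ μ : Measure ℝ, IsFiniteMeasure μ ∧ (∀ t, μ {t} = 0) ∧ ∀ P : ℝ → Prop, (∀ᵐ t ∂μ, P t) →
      (∀ᵐ t, t ∈ Icc a b → P t) ∧ ∀ᵐ z ∂volume.restrict D.G, gr w z ≠ 0 → P (w z) := by
  have hm : Measurable fun z => ENNReal.ofReal (‖gr w z‖ ^ 2) :=
    ((gr_meas w).norm.pow_const 2).ennreal_ofReal
  set ν := (volume.restrict D.G).withDensity fun z => ENNReal.ofReal (‖gr w z‖ ^ 2) with hν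
  have : IsFiniteMeasure ν := isFiniteMeasure_withDensity_ofReal (int_sq hw).2
  have ha : AEMeasurable w ν :=
    (hw.contOn.aemeasurable (G_meas D)).mono_ac (withDensity_absolutelyContinuous _ _)
  have key : ∀ Q : ℂ → Prop, (∀ᵐ z ∂ν, Q z) ↔ ∀ᵐ z ∂volume.restrict D.G, gr w z ≠ 0 → Q z :=
    fun Q => by
      rw [hν, ae_withDensity_iff hm]
      simp
  refine ⟨ν.map w + volume.restrict (Icc a b), inferInstance, fun t => ?_, fun P hP => ?_⟩
  · rw [Measure.add_apply, measure_singleton (μ := volume.restrict (Icc a b)), add_zero,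
      Measure.map_apply_of_aemeasurable ha (measurableSet_singleton t),
      measure_eq_zero_iff_ae_notMem, key, ae_restrict_iff' (G_meas D)]
    filter_upwards [measure_eq_zero_iff_ae_notMem.1 (hn t)] with z hz h1 h2 h3
    exact hz ⟨h1, h3, h2⟩
  · rw [ae_add_measure_iff] at hP
    exact ⟨(ae_restrict_iff' measurableSet_Icc).1 hP.2, (key _).1 (ae_of_ae_map ha hP.1)⟩

end Vale.P116D
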