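import Vale.Agent.P116D.K9a
import Vale.Agent.P116D.K2
import Vale.Agent.P116B.AF

/-!
K9: level sets of regular points are null; the area inequality; small energy on small sets.
-/

namespace Vale.P116D

open Set Filter Topology MeasureTheory Complex
open scoped ContDiff

variable {D : Dom} {S : Gens D} {φ ψ χ η g d v w : ℂ → ℝ} {s σ r τ u : D.End → ℝ} {y : D.End}
  {U : Set ℂ} {z : ℂ}

theorem area_ineq {F : ℂ → ℂ} {O : Set ℂ} {h : ℂ → ℝ} (hO : IsOpen O) (hF : DifferentiableOn ℂ F O)
    (hi : IntegrableOn (fun z => ‖deriv F z‖ ^ 2) O) (hc : Continuous h) (h0 : ∀ p, 0 ≤ h p)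
    (hs : HasCompactSupport h) : ∫ p in F '' O, h p ≤ ∫ z in O, h (F z) * ‖deriv F z‖ ^ 2 := by
  have hd : ∀ z ∈ O, DifferentiableAt ℂ F z := fun z hz => hF.differentiableAt (hO.mem_nhds hz)
  have hj : ∀ z ∈ O, Vale.P116B.jac F z = ‖deriv F z‖ ^ 2 := fun z hz =>
    Vale.P116B.jac_hol (hd z hz)
  obtain ⟨n, hn, hni, hae, hA⟩ := Vale.P116B.area_formula hO.measurableSet
    (fun z hz => (hd z hz).restrictScalars ℝ)
    (hi.congr_fun (fun z hz => (hj z hz).symm) hO.measurableSet)
  obtain ⟨M, hM⟩ := hc.bounded_above_of_compact_support hs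
  have h1 := hA (fun p => (h p : ℂ)) (continuous_ofReal.comp hc).measurable
    ⟨M, fun p => by rw [Complex.norm_real]; exact hM p⟩
  have h2 : ∫ z in O, h (F z) * ‖deriv F z‖ ^ 2 = ∫ p, h p * (n p : ℝ) := by
    apply Complex.ofReal_injective
    rw [← integral_complex_ofReal, ← integral_complex_ofReal]
    simp only [Complex.ofReal_mul, Complex.ofReal_natCast]
    rw [← h1]
    refine setIntegral_congr_fun hO.measurableSet fun z hz => ?_
    simp only [hj z hz, abs_of_nonneg (sq_nonneg ‖deriv F z‖)]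
  have hI : Integrable h := hc.integrable_of_hasCompactSupport hs
  have hI2 : Integrable fun p => h p * (n p : ℝ) :=
    hni.bdd_mul hc.aestronglyMeasurable (Eventually.of_forall hM)
  have hT : MeasurableSet {p | n p ≠ 0} := (hn (measurableSet_singleton 0)).compl
  rw [h2]
  calc ∫ p in F '' O, h p ≤ ∫ p in {p | n p ≠ 0}, h p := by
        refine setIntegral_mono_set hI.integrableOn (Eventually.of_forall h0) ?_
        filter_upwards [hae] with p hp hp' h3
        obtain ⟨z, hz, rfl⟩ := hp'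
        rw [h3, Nat.cast_zero, encard_eq_zero] at hp
        exact (hp ▸ ⟨hz, rfl⟩ : z ∈ (∅ : Set ℂ))
    _ ≤ ∫ p in {p | n p ≠ 0}, h p * (n p : ℝ) :=
        setIntegral_mono_on hI.integrableOn hI2.integrableOn hT fun p hp =>
          le_mul_of_one_le_right (h0 p) (by exact_mod_cast Nat.one_le_iff_ne_zero.2 hp)
    _ ≤ _ := setIntegral_le_integral hI2
        (Eventually.of_forall fun p => mul_nonneg (h0 p) (Nat.cast_nonneg _))

end Vale.P116D
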