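import Vale.Agent.P116D.S2
import Vale.Agent.P116D.K9
import Vale.Agent.P116D.G1y
import Vale.Agent.P116D.G1b

/-!
G1: smooth approximations of the cycles (PROOF69 section 4).
-/

namespace Vale.P116D

open Set Filter Topology MeasureTheory Complex
open scoped ContDiff

variable {D : Dom} {S : Gens D} {φ ψ χ η g d v w : ℂ → ℝ} {s σ r τ u : D.End → ℝ} {y : D.End}
  {U : Set ℂ} {z : ℂ}

theorem g1_wd_sum {ι : Type} (F : Finset ι) (p : ι → ℂ) (q : ℂ) :
    wd (∑ k ∈ F, p k) q = ∑ k ∈ F, wd (p k) q := by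
  simp only [wd, re_sum, im_sum, Finset.sum_mul, Finset.sum_sub_distrib]

theorem apx_ex {R : Rect} {l : ℝ → ℝ} (hS : Str S) (hw : In S w σ) (hr : Reg D w σ)
    (hR : IsBox D w R) (hl : Lam R l) : ∃ ζ M m, Apx S w R l ζ M m := by
  classical
  obtain ⟨a, b, ha, hb, hab, hl⟩ : ∃ a b, R.t₁ < a ∧ b < R.t₂ ∧ a < b ∧ Wt a b l := by
    obtain ⟨a, b, ha, hb, hl⟩ := hl
    have := hR.lt
    exact ⟨min a ((2 * R.t₁ + R.t₂) / 3), max b ((R.t₁ + 2 * R.t₂) / 3), lt_min ha (by linarith),
      max_lt hb (by linarith), (min_le_right _ _).trans_lt (lt_of_lt_of_le (by linarith)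
        (le_max_right _ _)), hl.g1_mono (min_le_left _ _) (le_max_left _ _)⟩
  obtain ⟨μ, hμ, hμ0, hμ1⟩ := g1_meas hr.fn (level_null hr.fn.sm) a b
  obtain ⟨β, ε, hε, hβ, hβ1, hae⟩ := grid_bumps μ hμ0 hab
  obtain ⟨ae1, ae2⟩ := hμ1 _ hae
  obtain ⟨C, hC, hlC, -⟩ := hl.g1_bd
  have wc := hr.fn.contOn
  have hk := fun n k => (hβ n k).1.g1_mul hl
  have hk' : ∀ n k, Wt (grd a b n k) (grd a b n (k + 1)) fun t => β n k t * l t := fun n k =>
    (hk n k).g1_mono (by linarith [(hε n).1]) (by linarith [(hε n).1])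
  have hpq : ∀ n k, grd a b n k + ε n ≤ grd a b n (k + 1) := fun n k => by
    rw [grd_succ]
    linarith [(hε n).2]
  have hpq' : ∀ n k, grd a b n k ≤ grd a b n (k + 1) := fun n k => by
    linarith [hpq n k, (hε n).1]
  have hall := fun n k => band_all (R := R) hS hw hr (hk n k) (hpq n k) (hε n).1
  choose s₁ hs₁ using fun n k => (hall n k).1
  choose s₂ hs₂ using fun n k => (hall n k).2.1
  set ζ : ℕ → ℂ → ℝ := fun n z => ∑ k ∈ Finset.range (n + 1),
    bz D w R (grd a b n k) (grd a b n (k + 1)) (fun t => β n k t * l t) z with hζ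
  set M : ℕ → ℂ → ℝ := fun n z => ∑ k ∈ Finset.range (n + 1),
    bM D w R (grd a b n k) (grd a b n (k + 1)) (fun t => β n k t * l t) z with hM
  have one : ∀ n t, (∃ k ∈ Finset.range (n + 1), β n k t = 1) →
      ∑ k ∈ Finset.range (n + 1), β n k t = 1 := fun n t ⟨k, hk, e⟩ =>
    le_antisymm (hβ1 n t) (e ▸ Finset.single_le_sum (f := fun k => β n k t)
      (fun j _ => ((hβ n j).2 t).1) hk)
  have mesh : Tendsto (fun n : ℕ => (b - a) / ((n : ℝ) + 1)) atTop (𝓝 0) :=
    tendsto_const_nhds.div_atTop (tendsto_natCast_atTop_atTop.atTop_add tendsto_const_nhds)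
  have zle : ∀ n z, ∃ θ ∈ Icc (0 : ℝ) 1, ζ n z = θ * l (w z) := fun n z => by
    refine ⟨∑ k ∈ Finset.range (n + 1), if z ∈ Ut D w R (grd a b n (k + 1)) ∧
      z ∉ Ut D w R (grd a b n k) then β n k (w z) else 0, ⟨Finset.sum_nonneg fun k _ => ?_,
      (Finset.sum_le_sum fun k _ => ?_).trans (hβ1 n (w z))⟩, ?_⟩
    · split_ifs
      · exact ((hβ n k).2 _).1
      · exact le_rfl
    · split_ifs
      · exact le_rfl
      · exact ((hβ n k).2 _).1
    · rw [Finset.sum_mul]
      refine Finset.sum_congr rfl fun k _ => ?_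
      unfold bz
      split_ifs
      · rfl
      · rw [zero_mul]
  have bM' : ∀ n, D.Bd (M n) := fun n => Dom.Bd.sum _ fun k _ => (hs₂ n k).2
  have oM : ∀ n y, D.osc y (M n) ≤ cl D w l y := fun n =>
    g1_osc hl hr.bd (bM' n) fun W α β' h1 h2 h3 z hz z' hz' => by
      refine le_trans ?_ (g1_sum_abs (Finset.range (n + 1)) hl (hβ n) (hβ1 n) (Icc α β'))
      rw [hM, ← Finset.sum_sub_distrib]
      exact Finset.sum_le_sum fun k _ => (le_abs_self _).trans
        (band_osc wc (hk' n k) (hpq' n k) h1 h2 h3 hz hz')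
  have e0 : Tendsto (fun n => ∫ t, |∑ k ∈ Finset.range (n + 1), β n k t * l t - l t|) atTop
      (𝓝 0) := by
    have := tendsto_integral_of_dominated_convergence (μ := volume)
      (F := fun n t => |∑ k ∈ Finset.range (n + 1), β n k t * l t - l t|) (f := fun _ => 0)
      (fun t => |l t|) (fun n => ((integrable_finsetSum _ fun k _ => (hk n k).g1_int).sub
        hl.g1_int).abs.aestronglyMeasurable) hl.g1_int.abs
      (fun n => ae_of_all _ fun t => by
        have h0 : 0 ≤ ∑ k ∈ Finset.range (n + 1), β n k t :=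
          Finset.sum_nonneg fun k _ => ((hβ n k).2 t).1
        rw [Real.norm_eq_abs, abs_abs, ← Finset.sum_mul, ← sub_one_mul, abs_mul]
        exact mul_le_of_le_one_left (abs_nonneg _)
          (abs_le.2 ⟨by linarith, by linarith [hβ1 n t]⟩))
      (by
        filter_upwards [ae1] with t ht
        by_cases h0 : l t = 0
        · simp [h0]
        · have h1 := hl.2 t h0
          refine tendsto_const_nhds.congr' ((ht h1).mono fun n hn => ?_)
          simp only [← Finset.sum_mul, one n t (hn h1), one_mul, sub_self, abs_zero])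
    simpa only [integral_zero] using this
  have unif : TendstoUniformlyOn M (fun z => Pm l (glev D w R a b z)) atTop D.G := by
    have e1 := ((mesh.const_mul 2).const_mul C).add e0
    simp only [mul_zero, add_zero] at e1
    refine Metric.tendstoUniformlyOn_iff.2 fun δ hδ => (e1.eventually (gt_mem_nhds hδ)).mono
      fun n hn z _ => lt_of_le_of_lt ?_ hn
    have h0 : 0 ≤ (b - a) / ((n : ℝ) + 1) := (hε n).1.le.trans (hε n).2
    have h1 := g1_pm_sum (Finset.range (n + 1)) hl.g1_int (fun k _ => (hk n k).g1_int)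
      (glev D w R a b z)
    have h2 : |M n z - ∑ k ∈ Finset.range (n + 1), Pm (fun t => β n k t * l t) (glev D w R a b z)| ≤
        C * (2 * ((b - a) / ((n : ℝ) + 1))) := by
      rw [hM, ← Finset.sum_sub_distrib]
      refine (Finset.abs_sum_le_sum_abs _ _).trans ((Finset.sum_le_sum fun k hk => ?_).trans
        ((g1_sum_abs (Finset.range (n + 1)) hl (hβ n) (hβ1 n) _).trans
          (g1_Icc_le (x := glev D w R a b z) hlC h0)))
      have := Finset.mem_range.1 hk
      exact band_lev (hk' n k) (grd_mem hab.le this.le).1 (hpq' n k) (grd_mem hab.le this).2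
        (by rw [grd_succ, add_sub_cancel_left])
    rw [dist_comm, Real.dist_eq]
    exact (abs_sub_le _ _ _).trans (add_le_add h2 h1)
  refine ⟨ζ, M, _, fun n => ⟨_, in_sum _ hS fun k _ => (hs₁ n k).1,
    Dom.Bd.sum _ fun k _ => (hs₁ n k).2⟩, fun n z _ => zle n z, fun n z hz => ?_,
    fun n z hz => ?_, fun n => ⟨InB.osc_le ⟨in_sum _ hS fun k _ => (hs₂ n k).1, bM' n⟩ hS
      (cost_cl hl hr) fun y => Or.inr (oM n y), bM' n⟩, ?_, unif, fun y => ?_,
    fun z hz => g1_onB hl hab.le ha hb hz⟩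
  · rw [hζ, gr_sum _ fun k _ => (hs₁ n k).1.fn.diffAt hz, g1_wd_sum]
    exact Finset.sum_eq_zero fun k _ => (hall n k).2.2 z hz
  · rw [hM, gr_sum _ fun k _ => (hs₂ n k).1.fn.diffAt hz, hζ, Finset.sum_smul]
    exact Finset.sum_congr rfl fun k _ => bM_gr hr.fn (hk n k) (hpq n k) (hε n).1 hz
  · filter_upwards [ae2, ae_restrict_mem (G_meas D)] with z hz hG
    by_cases h0 : l (w z) • gr w z = 0
    · have : ∀ n, ζ n z • gr w z = 0 := fun n => by
        obtain ⟨θ, -, e⟩ := zle n z
        rw [e, mul_smul, h0, smul_zero]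
      simp only [this, indicator_apply, h0, ite_self]
      exact tendsto_const_nhds
    rw [smul_eq_zero, not_or] at h0
    have h1 := hl.2 _ h0.1
    have supp : ∀ n k, β n k (w z) ≠ 0 → grd a b n k < w z ∧ w z < grd a b n (k + 1) :=
      fun n k h => by
        have := (hβ n k).1.2 _ h
        exact ⟨by linarith [this.1, (hε n).1], by linarith [this.2, (hε n).1]⟩
    refine tendsto_const_nhds.congr' ?_
    by_cases hB : z ∈ Bs D w R
    · filter_upwards [hz h0.2] with n hn
      rw [indicator_of_mem hB, ← one_mul (l (w z)), ← one n _ (hn h1), Finset.sum_mul]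
      congr 1
      refine Finset.sum_congr rfl fun k hk => ?_
      by_cases h2 : β n k (w z) = 0
      · simp [bz, h2]
      · have := Finset.mem_range.1 hk
        have m1 := grd_mem (a := a) (b := b) hab.le this.le
        have m2 := grd_mem (a := a) (b := b) hab.le (Nat.succ_le_of_lt this)
        rw [bz, if_pos ⟨(hB.2.2 _ ⟨ha.trans_le m2.1, m2.2.trans_lt hb⟩).2 (supp n k h2).2,
          (hB.2.2 _ ⟨ha.trans_le m1.1, m1.2.trans_lt hb⟩).1 (supp n k h2).1⟩]
    · have : ∃ t, (t < w z ∧ z ∈ Ut D w R t) ∨ (w z < t ∧ z ∉ Ut D w R t) := by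
        by_contra h2
        simp only [not_exists, not_or, not_and, not_not] at h2
        exact hB ⟨hG, ⟨ha.trans_le h1.1, h1.2.trans_lt hb⟩, fun t _ => h2 t⟩
      obtain ⟨t, ht⟩ := this
      have h3 : 0 < |w z - t| := abs_pos.2 (sub_ne_zero.2 (ht.elim (·.1.ne') (·.1.ne)))
      filter_upwards [mesh.eventually (gt_mem_nhds h3)] with n hn
      rw [indicator_of_notMem hB, hζ]
      refine (smul_eq_zero.2 (Or.inl (Finset.sum_eq_zero fun k _ => ?_))).symm
      by_cases h2 : β n k (w z) = 0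
      · simp [bz, h2]
      · have h4 := supp n k h2
        have h5 := grd_succ a b n k
        refine if_neg fun h6 => ?_
        rcases ht with ht | ht
        · rw [abs_of_pos (sub_pos.2 ht.1)] at hn
          exact h6.2 (Ut_mono (by linarith [h4.2]) ht.2)
        · rw [abs_of_neg (sub_neg.2 ht.1)] at hn
          exact ht.2 (Ut_mono (by linarith [h4.1]) h6.1)
  · refine le_of_forall_pos_le_add fun δ hδ => ?_
    obtain ⟨n, hn⟩ := (Metric.tendstoUniformlyOn_iff.1 unif _ (half_pos hδ)).exists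
    have := osc_near (δ := δ / 2) (y := y) (ψ := fun z => Pm l (glev D w R a b z)) (bM' n)
      (mem_of_superset (G_mem y) fun z hz => (hn z hz).le)
    linarith [oM n y]

end Vale.P116D
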