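import Vale.Agent.P116D.GA1

/-!
GA: totals, local to global in the level.
-/

namespace Vale.P116D

open Set Filter Topology MeasureTheory Complex
open scoped ContDiff

variable {D : Dom} {S : Gens D} {φ ψ χ η ξ g w : ℂ → ℝ} {s σ r u : D.End → ℝ} {y : D.End}
  {U : Set ℂ} {z : ℂ} {R : Rect} {l : ℝ → ℝ}

theorem tot_int {n : ℕ} {f : Fin n → ℝ → ℝ} (hl : Integrable l) (h : ∀ i, Integrable (f i))
    (e : ∀ t, ∑ i, |f i t| ≤ |l t|) (J : Set ℝ) :
    ∑ i, (∫ t in J, |f i t|) ≤ ∫ t in J, |l t| := by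
  rw [← integral_finsetSum _ fun i _ => (h i).abs.integrableOn]
  exact integral_mono (integrable_finsetSum _ fun i _ => (h i).abs.integrableOn)
    hl.abs.integrableOn e

theorem tot_ip {n : ℕ} {f : Fin n → ℝ → ℝ} (hr : Reg D w σ) (hl : Lam R l) (h : ∀ i, Lam R (f i))
    (e : ∀ t, ∑ i, |f i t| ≤ |l t|) (hs : Cost s) :
    ∑ i, ip s (cl D w (f i)) ≤ ip s (cl D w l) := by
  have h1 : ∀ i, Cost (cl D w (f i)) := fun i => cl_cost hr (h i)
  simp only [ip_comm s]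
  rw [← ip_sum _ (fun i _ => (h1 i).2) hs.2]
  exact ip_mono (Sq.sum _ fun i _ => (h1 i).2) (cl_cost hr hl).2 hs fun y =>
    tot_int hl.integrable (fun i => (h i).integrable) e _

theorem tot_er {n : ℕ} {f : Fin n → ℝ → ℝ} {A : Set ℂ} {L : ℝ} (hw : D.Fn w) (hψ : D.Fn ψ)
    (h : ∀ i, Lam R (f i)) (e : ∀ t, ∑ i, |f i t| ≤ L) (hA : MeasurableSet A) (hG : A ⊆ D.G) :
    ∑ i, er w A (f i) ψ ≤ L * ∫ z in A, |wd (gr ψ z) (gr w z)| := by
  have h1 : ∀ i, IntegrableOn (fun z => |f i (w z) * wd (gr ψ z) (gr w z)|) A := fun i =>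
    ((omB_int hw hψ (h i)).mono_set hG).abs
  have h2 : IntegrableOn (fun z => |wd (gr ψ z) (gr w z)|) A := ((int_wd hψ hw).mono_set hG).abs
  have _ := hA
  unfold er
  rw [← integral_finsetSum _ fun i _ => h1 i, ← integral_const_mul]
  refine integral_mono (integrable_finsetSum _ fun i _ => h1 i) (h2.const_mul L) fun z => ?_
  simp only [abs_mul]
  rw [← Finset.sum_mul]
  exact mul_le_mul_of_nonneg_right (e _) (abs_nonneg _)

/-- `integral_biUnion_finset`, `setIntegral_mono_set` -/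
theorem er_sum {ι : Type} (T : Finset ι) {Y : ι → Set ℂ} {A : Set ℂ} (hw : D.Fn w) (hψ : D.Fn ψ)
    (hl : Lam R l) (hY : ∀ i ∈ T, MeasurableSet (Y i) ∧ Y i ⊆ A)
    (hd : ∀ i ∈ T, ∀ j ∈ T, i ≠ j → Disjoint (Y i) (Y j)) (hG : A ⊆ D.G) :
    ∑ i ∈ T, er w (Y i) l ψ ≤ er w A l ψ := by
  have h1 : IntegrableOn (fun z => |l (w z) * wd (gr ψ z) (gr w z)|) A :=
    ((omB_int hw hψ hl).mono_set hG).abs
  unfold er
  rw [← integral_biUnion_finset T (fun i hi => (hY i hi).1)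
    (fun i hi j hj hij => hd i hi j hj hij) fun i hi => h1.mono_set (hY i hi).2]
  exact setIntegral_mono_set h1 (ae_of_all _ fun z => abs_nonneg _)
    (iUnion₂_subset fun i hi => (hY i hi).2).eventuallyLE

/-- `exhaust` and `tendsto_setIntegral_of_antitone` -/
theorem small_out {f : ℂ → ℝ} (hf : IntegrableOn f D.G) {ε : ℝ} (hε : 0 < ε) :
    ∃ C, IsCompact C ∧ C ⊆ D.G ∧ ∫ z in D.G \ C, |f z| ≤ ε := by
  obtain ⟨C, hC, hex⟩ := exhaust D
  have hm : Monotone C := monotone_nat_of_le_succ fun n => (hC n).2.2.trans interior_subset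
  have h1 := tendsto_setIntegral_of_antitone (μ := volume) (f := fun z => |f z|)
    (s := fun n => D.G \ C n) (fun n => (G_meas D).diff (hC n).1.measurableSet)
    (fun a b hab => sdiff_subset_sdiff_right (hm hab)) ⟨0, (hf.mono_set sdiff_subset).abs⟩
  have h2 : ⋂ n, D.G \ C n = ∅ := by
    refine eq_empty_of_forall_notMem fun z hz => ?_
    rw [mem_iInter] at hz
    obtain ⟨n, hn⟩ := hex {z} isCompact_singleton (singleton_subset_iff.2 (hz 0).1)
    exact (hz n).2 (hn rfl)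
  rw [h2, setIntegral_empty] at h1
  obtain ⟨n, hn⟩ := (h1.eventually (ge_mem_nhds hε)).exists
  exact ⟨C n, (hC n).1, (hC n).2.1, hn⟩

/-- `l2g` with the density `wd (gr ψ) (gr w)`, `T` the set of good levels; additivity of `omB` in
the weight (`omB_int`, `bs_meas`); the pieces are `φ i * l` -/
theorem loc_glob {B : (ℝ → ℝ) → ℝ → Prop} {c : ℝ} (hw : D.Fn w) (hψ : D.Fn ψ) (hl : Lam R l)
    (hloc : ∀ᵐ t : ℝ, t ∈ Ioo R.t₁ R.t₂ → ∃ δ > 0, ∀ l', Lam R l' → (∀ x, δ ≤ |x - t| → l' x = 0) →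
      ∃ x, B l' x ∧ |omB D w R l' ψ| ≤ x)
    (htot : ∀ (n : ℕ) (f : Fin n → ℝ → ℝ) (x : Fin n → ℝ), (∀ i, Lam R (f i) ∧ B (f i) (x i)) →
      (∀ t, ∑ i, |f i t| ≤ |l t|) → ∑ i, x i ≤ c) : |omB D w R l ψ| ≤ c := by
  have hT : ∀ t ∈ {t : ℝ | ∃ δ > 0, ∀ l', Lam R l' → (∀ x, δ ≤ |x - t| → l' x = 0) →
      ∃ x, B l' x ∧ |omB D w R l' ψ| ≤ x}, ∃ δ > 0, ∀ l', Lam R l' →
      (∀ x, δ ≤ |x - t| → l' x = 0) → ∃ x, B l' x ∧ |omB D w R l' ψ| ≤ x := fun t ht => ht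
  choose! δ hδ hP using hT
  refine le_of_forall_pos_le_add fun ε hε => ?_
  obtain ⟨n, c, f, f₀, hf, -, h0, hl0, hs, he, hi, -⟩ := l2g hw hl δ hδ hloc (int_wd hψ hw)
    (fun z _ hz => by simp [wd, hz]) hε
  have hx : ∀ i, ∃ x, B (fun t => f i t * l t) x ∧ |omB D w R (fun t => f i t * l t) ψ| ≤ x :=
    fun i => hP (c i) (hf i).1 _ (hf i).2.2.2.2.2 fun x hx => by
      rw [(hf i).2.2.2.2.1 x hx, zero_mul]
  choose x hx1 hx2 using hx
  have a1 := htot n (fun i t => f i t * l t) x (fun i => ⟨(hf i).2.2.2.2.2, hx1 i⟩) fun t => by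
    have e : ∀ i, |f i t * l t| = f i t * |l t| := fun i => by
      rw [abs_mul, abs_of_nonneg ((hf i).2.2.2.1 t)]
    simp only [e]
    rw [← Finset.sum_mul]
    exact mul_le_of_le_one_left (abs_nonneg _) (by linarith [hs t, h0 t])
  have i0 := omB_int hw hψ hl0
  have i1 : ∀ i, IntegrableOn (fun z => f i (w z) * l (w z) * wd (gr ψ z) (gr w z)) (Bs D w R) :=
    fun i => (omB_int hw hψ (hf i).2.2.2.2.2).mono_set bs_sub
  have a2 : omB D w R l ψ = omB D w R (fun t => f₀ t * l t) ψ +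
      ∑ i, omB D w R (fun t => f i t * l t) ψ := by
    unfold omB
    rw [← integral_finsetSum _ fun i _ => i1 i, ← integral_add (i0.mono_set bs_sub)
      (integrable_finsetSum _ fun i _ => i1 i)]
    refine integral_congr_ae (ae_of_all _ fun z => ?_)
    simp only []
    rw [← Finset.sum_mul, ← add_mul, ← he]
  have a3 : |omB D w R (fun t => f₀ t * l t) ψ| ≤ ε := by
    refine le_trans ?_ hi
    simp only [← abs_mul]
    refine (abs_integral_le_integral_abs).trans ?_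
    exact setIntegral_mono_set i0.abs (ae_of_all _ fun z => abs_nonneg _)
      (bs_sub (D := D) (w := w) (R := R)).eventuallyLE
  have a4 : |∑ i, omB D w R (fun t => f i t * l t) ψ| ≤ ∑ i, x i :=
    (Finset.abs_sum_le_sum_abs _ _).trans (Finset.sum_le_sum fun i _ => hx2 i)
  rw [a2]
  linarith [abs_add_le (omB D w R (fun t => f₀ t * l t) ψ)
    (∑ i, omB D w R (fun t => f i t * l t) ψ)]

end Vale.P116D
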