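import Vale.Agent.P116D.K2
import Vale.Agent.P116A.MLL2G
import Vale.Agent.P116A.MLL2Gs

/-!
MLBa: local to global in the level variable, in the form used by part A.

Proof: `hl` gives `a b` with `Wt a b l`; `l` is continuous and vanishes off `Icc a b`, so
`|l| <= M` with `M > 0`.  `P116A.exists_level_measure` (G := D.G, `Dom.Fn.cdAt`, `gr w z = 0` from
`fderiv = 0`) gives a finite measure `mu << volume`.  Apply `P116A.l2g_smooth` to
`mu + volume.restrict (Icc a b)` with `S = Icc a b`, the set `T inter Ioo t1 t2` and `eps / M`.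
Then `int |phi0 * l| d mu <= M * int_S phi0 d mu` and the same for Lebesgue measure
(`phi0 * l` vanishes off `S`; `Measure.restrict_add`, `integral_add_measure`).
-/

namespace Vale.P116D

open Set Filter Topology MeasureTheory Complex
open scoped ContDiff

variable {D : Dom} {w : ℂ → ℝ} {R : Rect}

/-- Local to global: cut a weight into small pieces around good levels and a remainder that
carries little of the integrable density `f`, which vanishes where `gr w = 0`. -/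
theorem l2g (hw : D.Fn w) {l : ℝ → ℝ} (hl : Lam R l) {T : Set ℝ} (δ : ℝ → ℝ)
    (hδ : ∀ t ∈ T, 0 < δ t) (hT : ∀ᵐ t : ℝ, t ∈ Ioo R.t₁ R.t₂ → t ∈ T) {f : ℂ → ℝ}
    (hf : IntegrableOn f D.G) (hf0 : ∀ z ∈ D.G, gr w z = 0 → f z = 0) {ε : ℝ} (hε : 0 < ε) :
    ∃ (n : ℕ) (c : Fin n → ℝ) (φ : Fin n → ℝ → ℝ) (φ₀ : ℝ → ℝ),
      (∀ i, c i ∈ T ∧ c i ∈ Ioo R.t₁ R.t₂ ∧ ContDiff ℝ ∞ (φ i) ∧ (∀ t, 0 ≤ φ i t) ∧
        (∀ t, δ (c i) ≤ |t - c i| → φ i t = 0) ∧ Lam R fun t => φ i t * l t) ∧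
      ContDiff ℝ ∞ φ₀ ∧ (∀ t, 0 ≤ φ₀ t) ∧ (Lam R fun t => φ₀ t * l t) ∧
      (∀ t, φ₀ t + ∑ i, φ i t ≤ 1) ∧ (∀ t, l t = φ₀ t * l t + ∑ i, φ i t * l t) ∧
      (∫ z in D.G, |φ₀ (w z) * l (w z)| * |f z|) ≤ ε ∧ (∫ t, |φ₀ t * l t|) ≤ ε := by
  obtain ⟨a, b, ha, hb, hsm, hs⟩ := hl
  have h0 : ∀ t, t ∉ Icc a b → l t = 0 := fun t ht => by_contra fun h => ht (hs t h)
  obtain ⟨L, hL⟩ := (isCompact_Icc (a := a) (b := b)).exists_bound_of_continuousOn
    hsm.continuous.continuousOn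
  have hM : 0 < max L 1 := lt_max_of_lt_right one_pos
  obtain ⟨μ, hfin, hac, hμ⟩ := P116A.exists_level_measure (G_open D)
    (fun z hz => (hw.cdAt hz).of_le (by simp)) hf fun z hz h => hf0 z hz (by
      have := norm_gr_le w z
      rw [h, norm_zero, mul_zero] at this
      exact norm_le_zero_iff.1 this)
  obtain ⟨n, c, φ, φ₀, h1, h2, h3, h4, h5, h6⟩ := P116A.l2g_smooth
    (μ + volume.restrict (Icc a b)) (hac.add_left Measure.absolutelyContinuous_restrict)
    (T := T ∩ Ioo R.t₁ R.t₂) δ (fun t ht => hδ t ht.1) (isCompact_Icc (a := a) (b := b))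
    (hT.mono fun t ht h => ⟨ht ⟨ha.trans_le h.1, h.2.trans_lt hb⟩, ha.trans_le h.1,
      h.2.trans_lt hb⟩) (div_pos hε hM)
  have hL' : ∀ ψ : ℝ → ℝ, ContDiff ℝ ∞ ψ → Lam R fun t => ψ t * l t := fun ψ hψ =>
    ⟨a, b, ha, hb, hψ.mul hsm, fun t ht => hs t (right_ne_zero_of_mul ht)⟩
  have gc : Continuous fun t => |φ₀ t * l t| := (h2.mul hsm).continuous.abs
  have g0 : ∀ t, t ∉ Icc a b → |φ₀ t * l t| = 0 := fun t ht => by rw [h0 t ht, mul_zero, abs_zero]
  have gi : IntegrableOn (fun t => |φ₀ t * l t|) (Icc a b) (μ + volume.restrict (Icc a b)) :=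
    gc.continuousOn.integrableOn_compact isCompact_Icc
  have key : ∀ ρ : Measure ℝ, ρ ≤ μ + volume.restrict (Icc a b) → ∫ t, |φ₀ t * l t| ∂ρ ≤ ε := by
    intro ρ hρ
    refine (integral_mono_measure hρ (ae_of_all _ fun t => abs_nonneg _)
      (gi.integrable_of_forall_notMem_eq_zero g0)).trans ?_
    rw [← setIntegral_eq_integral_of_forall_compl_eq_zero g0]
    refine (setIntegral_mono_on gi (Integrable.const_mul
      (h2.continuous.continuousOn.integrableOn_compact isCompact_Icc) (max L 1)) measurableSet_Icc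
      fun t ht => ?_).trans ?_
    · rw [abs_mul, abs_of_nonneg (h3 t), mul_comm]
      exact mul_le_mul_of_nonneg_right ((hL t ht).trans (le_max_left _ _)) (h3 t)
    · rw [integral_const_mul]
      exact (le_div_iff₀' hM).1 h6
  refine ⟨n, c, φ, φ₀, fun i => ⟨(h1 i).1.1, (h1 i).1.2, (h1 i).2.2.1, (h1 i).2.2.2.1,
    (h1 i).2.2.2.2, hL' _ (h1 i).2.2.1⟩, h2, h3, hL' _ h2, h4, fun t => ?_, ?_, ?_⟩
  · rw [← Finset.sum_mul, ← add_mul]
    by_cases ht : t ∈ Icc a b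
    · rw [h5 t ht, one_mul]
    · rw [h0 t ht, mul_zero]
  · rw [← hμ _ gc]
    exact key _ (Measure.le_add_right le_rfl)
  · rw [← setIntegral_eq_integral_of_forall_compl_eq_zero g0]
    exact key _ (Measure.le_add_left le_rfl)

end Vale.P116D
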