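import Vale.Agent.P116D.K2
import Vale.Agent.P116D.K4
import Vale.Agent.P116D.Box
import Vale.Agent.P116D.MLBa
import Vale.Agent.P116A.MLMain

/-!
MLB: cells of a generic level (replaces G2, G3 of PROOF69).
-/

namespace Vale.P116D

open Set Filter Topology MeasureTheory Complex
open scoped ContDiff

variable {D : Dom} {w : ℂ → ℝ} {R : Rect}

/-- Cells at the level `t` adapted to the ends in `F`, their neighbourhoods `W` and the compact
set `C`. -/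
structure Cells (D : Dom) (w : ℂ → ℝ) (R : Rect) (F : Finset D.End) (W : D.End → Set ℂ)
    (C : Set ℂ) (t : ℝ) (n : ℕ) (p₀ : ℂ) (Y : Fin n → Set ℂ) (P Q : Fin n → ℂ)
    (η : Fin n → ℂ → ℝ) (u : Fin n → D.End → ℝ) : Prop where
  anc : p₀ ∈ R.set
  cut : ∀ i, D.Cut (η i) (u i)
  opn : ∀ i, IsOpen (Y i)
  memP : ∀ i, P i ∈ D.G
  memQ : ∀ i, Q i ∈ D.G
  dis : ∀ i j, i ≠ j → Disjoint (Y i) (Y j)
  one : ∀ y, ∑ i, u i y = 1
  nb : ∀ i y, u i y = 1 → Y i ∈ D.nb y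
  off : ∀ i y, u i y = 1 → Disjoint (Y i) C
  uniq : ∀ i, ∀ y ∈ F, ∀ y' ∈ F, u i y = 1 → u i y' = 1 → y = y'
  edge : ∀ i, ∀ y ∈ F, u i y = 1 → P i = Q i ∨ (P i ∈ W y ∧ Q i ∈ W y)
  tele : ∀ i, P i ≠ Q i → ∀ f : ℂ → ℝ,
    |f (P i) - f p₀| ≤ ∑ j ∈ Finset.univ.erase i, |f (Q j) - f (P j)| ∧
    |f (Q i) - f p₀| ≤ ∑ j ∈ Finset.univ.erase i, |f (Q j) - f (P j)|
  split : ∀ ψ, D.Fn ψ → ∀ l, Lam R l → omB D w R l ψ = ∑ i, omB D w R l fun z => η i z * ψ z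
  flux : ∀ ψ, D.Fn ψ → ∀ ε > 0, ∃ δ > 0, ∀ l, Lam R l → (∀ x, δ ≤ |x - t| → l x = 0) → ∀ i,
    |omB D w R l (fun z => η i z * ψ z) - (∫ x, l x) * (ψ (Q i) - ψ (P i))| ≤
      (∫ z in Y i ∩ Bs D w R, |l (w z) * wd (gr ψ z) (gr w z)|) + ε * ∫ x, |l x|
  lev : ∀ i, P i ≠ Q i → w (P i) = t
  lev' : ∀ i, w (P i) = t ∧ w (Q i) = t
  lev0 : w p₀ = t
  le1 : ∀ z, ∑ i, η i z ≤ 1

lemma mlb_bs : Bs D w R = P116A.Bs D.K w R.top R.bot R.t₁ R.t₂ := by
  ext z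
  refine ⟨fun h => ⟨h.1, h.2.1.1, h.2.1.2, fun t ht hz => ?_, fun t ht => ?_⟩,
    fun h => ⟨h.1, ⟨h.2.1, h.2.2.1⟩, fun t _ => ⟨h.2.2.2.1 t, h.2.2.2.2 t⟩⟩⟩
  · obtain ⟨s, h1, h2⟩ := exists_between (max_lt ht h.2.1.1)
    exact (h.2.2 s ⟨(le_max_right _ _).trans_lt h1, h2.trans h.2.1.2⟩).1 h2
      (P116A.Ut_mono D.K w R.top R.bot ((le_max_left _ _).trans h1.le) hz)
  · obtain ⟨s, h1, h2⟩ := exists_between (lt_min ht h.2.1.2)
    exact P116A.Ut_mono D.K w R.top R.bot (h2.le.trans (min_le_left _ _))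
      ((h.2.2 s ⟨h.2.1.1.trans h1, h2.trans_le (min_le_right _ _)⟩).2 h1)

lemma mlb_wd (a w : ℂ → ℝ) (z : ℂ) : wd (gr a z) (gr w z) = P116A.wdg a w z := rfl

/-- Values at the ends of a labelling that is locally constant near `K` and near infinity. -/
lemma mlb_ends {σ : Type} {N : ℂ → σ} (h : ∀ z ∈ D.K, ∀ᶠ z' in 𝓝 z, N z' = N z) (s : σ) :
    ∃ v : D.End → σ, v none = s ∧ ∀ c, ∀ z ∈ D.cmp c, N z = v (some c) := by
  choose p hp using D.eh_cmp_ne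
  exact ⟨fun y => match y with | none => s | some c => N (p c), rfl, fun c z hz =>
    P116A.const_of_loc (D.eh_cmp_conn c) (fun x hx => h x (D.eh_cmp_sub c hx)) hz (hp c)⟩

lemma mlb_ev {p : D.End → ℂ → Prop} (h0 : ∀ᶠ z in cocompact ℂ, p none z)
    (h1 : ∀ c, ∀ z ∈ D.cmp c, ∀ᶠ z' in 𝓝 z, p (some c) z') (y : D.End) : ∀ᶠ z in D.nb y, p y z := by
  cases y with
  | none => exact mem_inf_of_left h0
  | some c => exact mem_inf_of_left (eventually_nhdsSet_iff_forall.2 (h1 c))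

lemma mlb_stk {l : ℝ → ℝ} (h : ∀ η v, D.Wd η v → omB D w R l η = 0) :
    P116A.Stk D.K (Bs D w R) w l := by
  intro a ha h1 ⟨c, h2⟩
  obtain ⟨v, hv, hv'⟩ := mlb_ends (D := D) h1 c
  refine h a v (wd_of_ev ha (fun z hz => ?_) (mlb_ev (hv ▸ h2) fun c z hz => ?_))
  · rw [EventuallyEq.fderiv_eq (f := fun _ => a z) (h1 z hz)]; simp
  · rw [← hv' c z hz]; exact h1 z (D.eh_cmp_sub c hz)

lemma Lam.mcont {l : ℝ → ℝ} (h : Lam R l) : Continuous l := by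
  obtain ⟨a, b, -, -, h, -⟩ := h
  exact h.continuous

lemma Lam.mbdd {l : ℝ → ℝ} (h : Lam R l) : ∃ M, ∀ x, |l x| ≤ M := by
  obtain ⟨a, b, -, -, h, h'⟩ := h
  obtain ⟨M, hM⟩ := (HasCompactSupport.intro (isCompact_Icc (a := a) (b := b))
    fun x hx => by_contra fun h0 => hx (h' x h0)).exists_bound_of_continuous h.continuous
  exact ⟨M, hM⟩

lemma Lam.cont {l : ℝ → ℝ} (h : Lam R l) : Continuous l := h.mcont

lemma Lam.bdd {l : ℝ → ℝ} (h : Lam R l) : ∃ M, ∀ x, |l x| ≤ M := h.mbdd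

lemma mlb_sub : Bs D w R ⊆ D.G := fun _ h => h.1

lemma mlb_int {l : ℝ → ℝ} {ψ : ℂ → ℝ} (hw : D.Fn w) (hl : Lam R l) (hψ : D.Fn ψ) :
    IntegrableOn (fun z => l (w z) * wd (gr ψ z) (gr w z)) (Bs D w R) := by
  obtain ⟨M, hM⟩ := hl.mbdd
  refine IntegrableOn.mono_set ?_ mlb_sub
  exact Integrable.bdd_mul (c := M) (int_wd hψ hw)
    ((hl.mcont.comp_continuousOn hw.contOn).aestronglyMeasurable (G_meas D))
    (Eventually.of_forall fun z => hM _)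

lemma mlb_bump {t η : ℝ} (ht : t ∈ Ioo R.t₁ R.t₂) (hη : 0 < η) : ∃ l, Lam R l ∧
    (∀ x, η ≤ |x - t| → l x = 0) ∧ (∀ x, 0 ≤ l x) ∧ 0 < ∫ x, l x := by
  obtain ⟨δ, h0, h1, h2, h3⟩ : ∃ δ > 0, δ ≤ η ∧ R.t₁ < t - δ ∧ t + δ < R.t₂ := by
    refine ⟨min η (min ((t - R.t₁) / 2) ((R.t₂ - t) / 2)), ?_, min_le_left _ _, ?_, ?_⟩
    · exact lt_min hη (lt_min (by linarith [ht.1]) (by linarith [ht.2]))
    · linarith [ht.1, (min_le_right η _).trans (min_le_left ((t - R.t₁) / 2) ((R.t₂ - t) / 2))]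
    · linarith [ht.2, (min_le_right η _).trans (min_le_right ((t - R.t₁) / 2) ((R.t₂ - t) / 2))]
  let b : ContDiffBump t := ⟨δ / 2, δ, by linarith, by linarith⟩
  have e : ∀ x, δ ≤ |x - t| → b x = 0 := fun x hx => b.zero_of_le_dist (by rwa [Real.dist_eq])
  refine ⟨b, ⟨t - δ, t + δ, h2, h3, b.contDiff, fun x hx => ?_⟩, fun x hx => e x (h1.trans hx),
    fun x => b.nonneg, b.integral_pos⟩
  have := abs_lt.1 (not_le.1 fun h => hx (e x h))
  exact ⟨by linarith, by linarith⟩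

lemma mlb_loc {η : ℂ → ℝ} (h : ContDiff ℝ ∞ η) {C : Set ℂ} (hC : IsClosed C)
    (h0 : ∀ z, z ∉ C → fderiv ℝ η z = 0) {x : ℂ} (hx : x ∉ C) : ∀ᶠ z in 𝓝 x, η z = η x := by
  obtain ⟨ε, hε, hb⟩ := Metric.isOpen_iff.1 hC.isOpen_compl x hx
  filter_upwards [Metric.ball_mem_nhds x hε] with z hz
  exact Metric.isOpen_ball.is_const_of_fderiv_eq_zero (𝕜 := ℝ) (convex_ball x ε).isPreconnected
    (h.differentiable (by simp)).differentiableOn (fun u hu => h0 u (hb hu)) hz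
    (Metric.mem_ball_self hε)

/-- A labelling that separates the ends in `F`. -/
lemma mlb_lab (F : Finset D.End) {W : D.End → Set ℂ} (hW : ∀ y ∈ F, W y ∈ D.nb y) {C : Set ℂ}
    (hC : IsCompact C) (hCG : C ⊆ D.G) : ∃ (V : Set ℂ) (lab : ℂ → F → ℝ), IsOpen V ∧ D.K ⊆ V ∧
      (∀ᶠ z in cocompact ℂ, z ∈ V) ∧ Disjoint V C ∧ (∀ z ∈ V, ∀ᶠ z' in 𝓝 z, lab z' = lab z) ∧
      (∃ s, ∀ᶠ z in cocompact ℂ, lab z = s) ∧ (∀ y : F, ∀ᶠ z in D.nb y, lab z y = 1) ∧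
      (∀ y : F, ∀ z ∈ D.G, lab z y = 1 → z ∈ W y) ∧
      ∀ y y' : F, y ≠ y' → ∀ᶠ z in D.nb y', lab z y = 0 := by
  obtain ⟨U, hU, hd⟩ := nb_sepF F W hW
  choose η u h1 h2 h3 using fun y : F => cut_ex (hU y y.2).1
  choose A a1 a2 a3 using fun y : F => (h1 y).wd.cs
  have hA : IsCompact (C ∪ ⋃ y, A y) := hC.union (isCompact_iUnion a1)
  refine ⟨(C ∪ ⋃ y, A y)ᶜ, fun z y => η y z, hA.isClosed.isOpen_compl, fun z hz h => ?_,
    hA.compl_mem_cocompact, disjoint_left.2 fun z hz h => hz (Or.inl h), fun z hz => ?_,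
    ⟨fun y => u y none, ?_⟩, fun y => (h1 y).one_mem (h2 y), fun y z hz h => ?_, fun y y' h => ?_⟩
  · rcases h with h | h
    · exact hCG h hz
    · obtain ⟨y, hy⟩ := mem_iUnion.1 h
      exact a2 y hy hz
  · filter_upwards [eventually_all.2 fun y : F => mlb_loc (h1 y).wd.sm (a1 y).isClosed (a3 y)
      fun h => hz (Or.inr (mem_iUnion.2 ⟨y, h⟩))] with x hx using funext hx
  · filter_upwards [eventually_all.2 fun y : F => eventually_inf_principal.1 ((h1 y).wd.ev none),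
      D.cpt.compl_mem_cocompact] with z e1 e2 using funext fun y => e1 y e2
  · by_contra h'
    have := h3 y z hz fun h'' => h' ((hU y y.2).2 h'')
    simp [this] at h
  · filter_upwards [(hU y' y'.2).1, G_mem y'.1] with z e1 e2
    exact h3 y z e2 fun e3 => disjoint_left.1 (hd y y.2 y' y'.2 fun e => h (Subtype.ext e)) e3 e1

lemma mlb_split (hw : D.Fn w) {l : ℝ → ℝ} (hl : Lam R l) (hS : P116A.Stk D.K (Bs D w R) w l)
    {n : ℕ} {η : Fin n → ℂ → ℝ} {u : Fin n → D.End → ℝ} (hc : ∀ i, D.Cut (η i) (u i))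
    (h1 : ∀ z ∈ D.K, ∀ᶠ z' in 𝓝 z, ∑ i, η i z' = 1) (h2 : ∀ᶠ z in cocompact ℂ, ∑ i, η i z = 1)
    {ψ : ℂ → ℝ} (hψ : D.Fn ψ) : omB D w R l ψ = ∑ i, omB D w R l fun z => η i z * ψ z := by
  have hf : ∀ i, D.Fn fun z => η i z * ψ z := fun i => hψ.wmul (hc i).wd
    ⟨1, fun z _ => abs_le.2 ⟨by linarith [((hc i).mem z).1], ((hc i).mem z).2⟩⟩
  have hs := Dom.Fn.sum Finset.univ fun i _ => hf i
  have e0 : ∀ z, ∑ i, η i z = 1 → ψ z - ∑ i, η i z * ψ z = 0 := fun z hz => by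
    rw [← Finset.sum_mul, hz, one_mul, sub_self]
  have key := hS.cs (fun z => ψ z - ∑ i, η i z * ψ z) (fun z hz => (hψ.sub hs).cdAt hz)
    (by
      obtain ⟨S, hS, hS'⟩ := mem_cocompact.1 h2
      exact HasCompactSupport.intro hS fun z hz => e0 z (hS' hz))
    fun z hz h => notMem_tsupport_iff_eventuallyEq.2 ((h1 z h).mono fun x hx => e0 x hx) hz
  unfold omB
  rw [← integral_finsetSum _ fun i _ => mlb_int hw hl (hf i), ← sub_eq_zero,
    ← integral_sub (mlb_int hw hl hψ) (integrable_finsetSum _ fun i _ => mlb_int hw hl (hf i)),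
    ← key]
  refine setIntegral_congr_fun (bs_meas hw.contOn) fun z hz => ?_
  simp only [← mlb_wd]
  rw [gr_sub (hψ.diffAt hz.1) (hs.diffAt hz.1), gr_sum _ fun i _ => (hf i).diffAt hz.1,
    ← Finset.mul_sum, ← mul_sub]
  simp only [wd, sub_re, sub_im, re_sum, im_sum, Finset.sum_sub_distrib, ← Finset.sum_mul]
  ring

/-- Cutoffs of disjoint sets whose sum is at most one. -/
lemma mlb_part {σ : Type} {K : Set ℂ} {Y : σ → Set ℂ} (S : Finset σ)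
    (h : ∀ s, ∃ χ, P116A.CutOf K (Y s) χ ∧ ∀ z, χ z ∈ Icc (0 : ℝ) 1)
    (hd : ∀ s s', s ≠ s' → Disjoint (Y s) (Y s')) : ∃ χ : σ → ℂ → ℝ,
      (∀ s, P116A.CutOf K (Y s) (χ s)) ∧ (∀ s z, χ s z ∈ Icc (0 : ℝ) 1) ∧
      ∀ z, ∑ s ∈ S, χ s z ≤ 1 := by
  classical
  choose χ c1 c2 using h
  let _ : LinearOrder σ := linearOrderOfSTO WellOrderingRel
  have hp : ∀ (T : Finset σ) z, ∏ j ∈ T, (1 - χ j z) ∈ Icc (0 : ℝ) 1 := fun T z =>
    ⟨Finset.prod_nonneg fun j _ => by linarith [(c2 j z).2],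
      Finset.prod_le_one (fun j _ => by linarith [(c2 j z).2]) fun j _ => by linarith [(c2 j z).1]⟩
  have key : ∀ s z, (∀ j ∈ insert s S, χ j z = (Y j).indicator 1 z) →
      χ s z * ∏ j ∈ S with j < s, (1 - χ j z) = (Y s).indicator 1 z := by
    intro s z hz
    rw [hz s (Finset.mem_insert_self _ _)]
    by_cases h : z ∈ Y s
    · rw [Finset.prod_eq_one fun j hj => ?_, mul_one]
      rw [hz j (Finset.mem_insert_of_mem (Finset.mem_filter.1 hj).1), indicator_of_notMem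
        (disjoint_left.1 (hd s j (Finset.mem_filter.1 hj).2.ne') h), sub_zero]
    · simp [h]
  refine ⟨fun s z => χ s z * ∏ j ∈ S with j < s, (1 - χ j z), fun s => ⟨(c1 s).1.mul
    (contDiff_prod fun j _ => contDiff_const.sub (c1 j).1), fun z hz => ?_, ?_⟩,
    fun s z => ⟨mul_nonneg (c2 s z).1 (hp _ z).1, mul_le_one₀ (c2 s z).2 (hp _ z).1 (hp _ z).2⟩,
    fun z => ?_⟩
  · exact (((insert s S).eventually_all).2 fun j _ => (c1 j).2.1 z hz).mono (key s)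
  · exact (((insert s S).eventually_all).2 fun j _ => (c1 j).2.2).mono (key s)
  · have := Finset.prod_one_sub_ordered S fun j => χ j z
    linarith [(hp S z).1]

theorem mlb (hw : D.Fn w) (hR : IsBox D w R)
    (hSt : ∀ l, Lam R l → ∀ η v, D.Wd η v → omB D w R l η = 0) (F : Finset D.End)
    {W : D.End → Set ℂ} (hW : ∀ y ∈ F, W y ∈ D.nb y) {C : Set ℂ} (hC : IsCompact C)
    (hCG : C ⊆ D.G) :
    ∀ᵐ t : ℝ, t ∈ Ioo R.t₁ R.t₂ → ∃ n p₀ Y P Q η u, Cells D w R F W C t n p₀ Y P Q η u := by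
  classical
  obtain ⟨V, lab, v1, v2, v3, v4, v5, v6, v7, v8, v9⟩ := mlb_lab F hW hC hCG
  have hw' : ∀ z, z ∉ D.K → ContDiffAt ℝ ∞ w z := fun z hz => hw.cdAt hz
  have ept : ∀ s : ℝ, R.bot + s * (R.e * I) = R.pt 0 (s - R.b) := fun s => by
    simp only [Rect.bot, Rect.pt]; push_cast; ring
  have hset : ∀ s ∈ Icc 0 (2 * R.b), R.bot + (s : ℝ) * (R.e * I) ∈ R.set := fun s hs =>
    ⟨0, s - R.b, by simpa using hR.a0.le, abs_le.2 ⟨by linarith [hs.1], by linarith [hs.2]⟩, ept s⟩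
  have etop : R.bot + (2 * R.b : ℝ) * (R.e * I) = R.top := by
    rw [ept, show 2 * R.b - R.b = R.b by ring]; rfl
  have main := P116A.ml_lev D.cpt hw' (am := R.bot) (u0 := R.e * I) (l := 2 * R.b) (t1 := R.t₁)
    (t2 := R.t₂) (by simp [hR.un]) (by linarith [hR.b0])
    (fun s hs => ⟨hR.sub (hset s hs), hR.up _ (hset s hs)⟩)
    (hR.bot 0 (by simpa using hR.a0.le)).le
    (by rw [etop]; exact (hR.top 0 (by simpa using hR.a0.le)).le) v1 v2 v3 v5 v6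
  rw [etop, ← mlb_bs] at main
  filter_upwards [main] with t ht' ht
  obtain ⟨P, u, N, NL, NR, p0, hL, hp0, ⟨s0, hs0, e0⟩, hidx, n1, n2, n3, n4⟩ := ht' ht
  have hBm := bs_meas (R := R) hw.contOn
  have hpar := hL.parity D.cpt hw' hBm mlb_sub fun η hη => by
    obtain ⟨l, a1, a2, a3, a4⟩ := mlb_bump ht hη
    exact ⟨l, a1.mcont, a2, a3, a4, mlb_stk (hSt l a1)⟩
  obtain ⟨si, hsi⟩ := hL.inf
  obtain ⟨S0, hS0⟩ := P116A.finite_labels D.cpt fun z hz => hL.locK hz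
  obtain ⟨S, A, B, b1, b2, b3, b4⟩ := P116A.ml_cycle Prod.snd hpar hidx hp0 (insert si S0)
  obtain ⟨v, hv, hv'⟩ := mlb_ends (D := D) (fun z hz => hL.locK hz) si
  have hvS : ∀ y, v y ∈ S := by
    rintro (_ | c)
    · exact hv ▸ b1 (Finset.mem_insert_self _ _)
    · obtain ⟨z, hz⟩ := D.eh_cmp_ne c
      exact hv' c z hz ▸ b1 (Finset.mem_insert_of_mem (hS0 z (D.eh_cmp_sub c hz)))
  have hcell : ∀ s y, ∀ᶠ z in D.nb y, (z ∈ P116A.cell N (· = s) ↔ v y = s) := fun s =>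
    mlb_ev (hv ▸ P116A.ev_inf_cell hsi (· = s)) fun c z hz =>
      hv' c z hz ▸ P116A.ev_cell (· = s) (hL.locK (D.eh_cmp_sub c hz))
  have hN : ∀ s, ∀ z ∈ P116A.cell N (· = s), N z = s := fun s z hz =>
    interior_subset (s := {z | N z = s}) hz
  have hsome : ∀ y, ∃ a, (v y).1 = some a := by
    rintro (_ | c)
    · obtain ⟨z, h1, h2⟩ := (n3.and hsi).exists
      exact ⟨_, hv ▸ h2 ▸ h1⟩
    · obtain ⟨z, hz⟩ := D.eh_cmp_ne c
      exact ⟨_, hv' c z hz ▸ n2 z (D.eh_cmp_sub c hz)⟩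
  have hlab : ∀ y a, (v y).1 = some a → ∀ᶠ z in D.nb y, lab z = a := fun y a h =>
    (hcell (v y) y).mono fun z hz => (n1 z a (hN _ z (hz.2 rfl) ▸ h)).2
  have hone : ∀ y : F, ∀ a, (v y).1 = some a → a y = 1 := fun y a h => by
    obtain ⟨z, h1, h2⟩ := ((hlab y a h).and (v7 y)).exists
    exact h1 ▸ h2
  have hcut : ∃ χ : _ → ℂ → ℝ, (∀ s, P116A.CutOf D.K (P116A.cell N (· = s)) (χ s)) ∧
      (∀ s z, χ s z ∈ Icc (0 : ℝ) 1) ∧ ∀ z, ∑ s ∈ S, χ s z ≤ 1 :=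
    mlb_part S (fun s => hL.cut D.cpt (· = s)) fun s s' h => disjoint_left.2 fun z h1 h2 =>
      h ((hN _ z h1).symm.trans (hN _ z h2))
  obtain ⟨χ, c1, c2, c0⟩ := hcut
  have c3 : ∀ s, ∀ z ∈ D.K, ∀ᶠ z' in 𝓝 z, χ s z' = if N z = s then 1 else 0 := fun s z hz => by
    filter_upwards [(c1 s).2.1 z hz, P116A.ev_cell (· = s) (hL.locK hz)] with x e1 e2
    simp only [e1, indicator_apply, e2, Pi.one_apply]
  have c4 : ∀ s, ∀ᶠ z in cocompact ℂ, χ s z = if si = s then 1 else 0 := fun s => by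
    filter_upwards [(c1 s).2.2, P116A.ev_inf_cell hsi (· = s)] with x e1 e2
    simp only [e1, indicator_apply, e2, Pi.one_apply]
  have c5 : ∀ s, D.Cut (χ s) fun y => if v y = s then 1 else 0 := fun s => by
    refine ⟨wd_of_ev (c1 s).1 (fun z hz => ?_) (mlb_ev (hv ▸ c4 s) fun c z hz => ?_), c2 s,
      fun y => by split_ifs <;> simp⟩
    · rw [EventuallyEq.fderiv_eq (f := fun _ => if N z = s then (1 : ℝ) else 0) (c3 s z hz)]; simp
    · exact hv' c z hz ▸ c3 s z (D.eh_cmp_sub c hz)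
  set e : Fin S.card → _ := fun i => (S.equivFin.symm i).1 with he
  have e1 : Function.Injective e := fun i j h => S.equivFin.symm.injective (Subtype.ext h)
  have e2 : ∀ f : _ → ℝ, ∑ i, f (e i) = ∑ s ∈ S, f s := fun f => by
    rw [← Finset.sum_coe_sort S f]; exact S.equivFin.symm.sum_comp fun s => f s.1
  have e3 : ∀ s ∈ S, ∑ i, (if s = e i then (1 : ℝ) else 0) = 1 := fun s hs => by
    rw [e2 fun j => if s = j then (1 : ℝ) else 0]; simp [hs]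
  have e4 : ∀ i y, (if v y = e i then (1 : ℝ) else 0) = 1 → v y = e i := fun i y h => by
    by_contra h'; simp [h'] at h
  refine ⟨S.card, p0, fun i => P116A.cell N (· = e i), fun i => A (e i), fun i => B (e i),
    fun i => χ (e i), fun i y => if v y = e i then 1 else 0, e0 ▸ hset s0 hs0, fun i => c5 _,
    fun i => isOpen_interior, fun i => (hL.pts _ (b2 _).1).1, fun i => (hL.pts _ (b2 _).2.1).1,
    fun i j h => disjoint_left.2 fun z h1 h2 => h (e1 ((hN _ z h1).symm.trans (hN _ z h2))),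
    fun y => e3 _ (hvS y), fun i y h => (hcell _ y).mono fun z hz => hz.2 (e4 i y h),
    fun i y h => ?_, fun i y hy y' hy' h h' => ?_, fun i y hy h => ?_, fun i h f => ?_,
    fun ψ hψ l hl => ?_, fun ψ hψ ε hε => ?_, fun i _ => (hL.pts _ (b2 _).1).2.1,
    fun i => ⟨(hL.pts _ (b2 _).1).2.1, (hL.pts _ (b2 _).2.1).2.1⟩, (hL.pts _ hp0).2.1,
    fun z => (e2 fun s => χ s z).trans_le (c0 z)⟩
  · obtain ⟨a, ha⟩ := hsome y
    exact v4.mono_left fun z hz => (n1 z a (by rw [hN _ z hz, ← e4 i y h, ha])).1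
  · by_contra hne
    obtain ⟨a, ha⟩ := hsome y
    have ha' : (v y').1 = some a := by rw [e4 i y' h', ← e4 i y h, ha]
    obtain ⟨z, h1, h2⟩ := ((hlab y' a ha').and
      (v9 ⟨y, hy⟩ ⟨y', hy'⟩ fun e => hne (congrArg Subtype.val e))).exists
    rw [h1, hone ⟨y, hy⟩ a ha] at h2
    exact one_ne_zero h2
  · obtain ⟨a, ha⟩ := hsome y
    obtain ⟨m1, m2, m3⟩ := b2 (e i)
    refine m3.imp id fun m => ⟨v8 ⟨y, hy⟩ _ (hL.pts _ m1).1 ?_, v8 ⟨y, hy⟩ _ (hL.pts _ m2).1 ?_⟩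
    · rw [(n4 _ m1 a).1 (by rw [m.1, ← e4 i y h, ha]), hone ⟨y, hy⟩ a ha]
    · rw [(n4 _ m2 a).2 (by rw [m.2, ← e4 i y h, ha]), hone ⟨y, hy⟩ a ha]
  · have k : ∑ j ∈ S.erase (e i), |f (B j) - f (A j)| =
        ∑ j ∈ Finset.univ.erase i, |f (B (e j)) - f (A (e j))| := by
      rw [Finset.sum_erase_eq_sub (S.equivFin.symm i).2,
        Finset.sum_erase_eq_sub (Finset.mem_univ i), e2 fun j => |f (B j) - f (A j)|]
    have := b3 (e i) h f
    have hd : ∀ d d' : DecidableEq _, @Finset.erase _ d S (e i) = @Finset.erase _ d' S (e i) :=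
      fun d d' => by rw [Subsingleton.elim d d']
    rw [← k, hd _ fun a b => Classical.propDecidable (a = b)]
    exact this
  · refine mlb_split hw hl (mlb_stk (hSt l hl)) (fun i => c5 (e i)) (fun z hz => ?_) ?_ hψ
    · filter_upwards [eventually_all.2 fun i => c3 (e i) z hz] with x hx
      rw [Finset.sum_congr rfl fun i _ => hx i,
        e3 _ (b1 (Finset.mem_insert_of_mem (hS0 z hz)))]
    · filter_upwards [eventually_all.2 fun i => c4 (e i)] with x hx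
      rw [Finset.sum_congr rfl fun i _ => hx i, e3 _ (b1 (Finset.mem_insert_self _ _))]
  · obtain ⟨δ, hδ, key⟩ := hL.flux D.cpt.isClosed hw' hBm mlb_sub (ψ := ψ)
      (fun z hz => hψ.cdAt hz) hε
    refine ⟨δ, hδ, fun l hl h0 i => ?_⟩
    have hf : D.Fn fun z => χ (e i) z * ψ z := hψ.wmul (c5 _).wd
      ⟨1, fun z _ => abs_le.2 ⟨by linarith [(c2 (e i) z).1], (c2 (e i) z).2⟩⟩
    have ec : (fun z => ψ z * χ (e i) z) = fun z => χ (e i) z * ψ z := funext fun z => mul_comm _ _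
    have := key (· = e i) l hl.mcont h0 (mlb_stk (hSt l hl)) _ (c1 _)
      (ec ▸ mlb_int hw hl hf) (mlb_int hw hl hψ)
    rw [ec, b4 (e i) ψ] at this
    exact this

end Vale.P116D
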