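import Vale.Agent.P116D.G1b
import Vale.Agent.P116D.MLB
import Vale.Agent.P116D.K3
import Vale.Agent.P116D.K6

/-!
GA1: calculus of `omB` and `cl`.
-/

namespace Vale.P116D

open Set Filter Topology MeasureTheory Complex
open scoped ContDiff

variable {D : Dom} {S : Gens D} {φ ψ χ η ξ g w : ℂ → ℝ} {s σ r u : D.End → ℝ} {y : D.End}
  {U : Set ℂ} {z : ℂ} {R : Rect} {l : ℝ → ℝ}

theorem Lam.bnd (h : Lam R l) : ∃ L, 0 < L ∧ ∀ t, |l t| ≤ L := by
  obtain ⟨a, b, -, -, h1, h2⟩ := h
  obtain ⟨C, hC⟩ := isCompact_Icc.exists_bound_of_continuousOn (s := Icc a b)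
    h1.continuous.continuousOn
  refine ⟨|C| + 1, by positivity, fun t => ?_⟩
  by_cases ht : l t = 0
  · rw [ht, abs_zero]; positivity
  · exact (hC t (h2 t ht)).trans (by linarith [le_abs_self C])

theorem Lam.integrable (h : Lam R l) : Integrable l := by
  obtain ⟨a, b, -, -, h1, h2⟩ := h
  exact h1.continuous.integrable_of_hasCompactSupport
    (HasCompactSupport.of_support_subset_isCompact isCompact_Icc h2)

theorem Lam.mul {T : ℝ → ℝ} (h : Lam R l) (hT : ContDiff ℝ ∞ T) : Lam R fun t => l t * T t := by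
  obtain ⟨a, b, h3, h4, h1, h2⟩ := h
  exact ⟨a, b, h3, h4, h1.mul hT, fun t ht => h2 t (left_ne_zero_of_mul ht)⟩

theorem bs_sub : Bs D w R ⊆ D.G := fun _ h => h.1

/-- bounded measurable factor times `int_wd` -/
theorem omB_int (hw : D.Fn w) (hχ : D.Fn χ) (hl : Lam R l) :
    IntegrableOn (fun z => l (w z) * wd (gr χ z) (gr w z)) D.G := by
  obtain ⟨L, -, hL⟩ := hl.bnd
  obtain ⟨a, b, -, -, h1, -⟩ := hl
  exact (int_wd hχ hw).bdd_mul (c := L)
    ((h1.continuous.comp_continuousOn hw.contOn).aestronglyMeasurable (G_meas D))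
    (Eventually.of_forall fun z => hL _)

theorem omB_congr (hw : D.Fn w) (e : EqOn χ ψ D.G) : omB D w R l χ = omB D w R l ψ :=
  setIntegral_congr_fun (bs_meas hw.contOn) fun z hz => by
    simp only [gr_congr (e.eventuallyEq_of_mem ((G_open D).mem_nhds (bs_sub hz)))]

theorem omB_add (hw : D.Fn w) (hl : Lam R l) (h : D.Fn φ) (h' : D.Fn ψ) :
    omB D w R l (fun z => φ z + ψ z) = omB D w R l φ + omB D w R l ψ := by
  unfold omB
  rw [← integral_add ((omB_int hw h hl).mono_set bs_sub) ((omB_int hw h' hl).mono_set bs_sub)]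
  refine setIntegral_congr_fun (bs_meas hw.contOn) fun z hz => ?_
  simp only [gr_add (h.diffAt (bs_sub hz)) (h'.diffAt (bs_sub hz)), wd, add_re, add_im]
  ring

theorem omB_sub (hw : D.Fn w) (hl : Lam R l) (h : D.Fn φ) (h' : D.Fn ψ) :
    omB D w R l (fun z => φ z - ψ z) = omB D w R l φ - omB D w R l ψ := by
  unfold omB
  rw [← integral_sub ((omB_int hw h hl).mono_set bs_sub) ((omB_int hw h' hl).mono_set bs_sub)]
  refine setIntegral_congr_fun (bs_meas hw.contOn) fun z hz => ?_
  simp only [gr_sub (h.diffAt (bs_sub hz)) (h'.diffAt (bs_sub hz)), wd, sub_re, sub_im]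
  ring

theorem omB_cmul (hw : D.Fn w) (h : D.Fn φ) (c : ℝ) :
    omB D w R l (fun z => c * φ z) = c * omB D w R l φ := by
  unfold omB
  rw [← integral_const_mul]
  refine setIntegral_congr_fun (bs_meas hw.contOn) fun z hz => ?_
  simp only [gr_cmul c (h.diffAt (bs_sub hz)), wd, smul_re, smul_im, smul_eq_mul]
  ring

theorem omB_sum {ι : Type} (F : Finset ι) {f : ι → ℂ → ℝ} (hw : D.Fn w) (hl : Lam R l)
    (h : ∀ i ∈ F, D.Fn (f i)) :
    omB D w R l (fun z => ∑ i ∈ F, f i z) = ∑ i ∈ F, omB D w R l (f i) := by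
  classical
  induction F using Finset.induction_on with
  | empty => simp [omB, gr_const, wd]
  | insert i F hi ih =>
    simp only [Finset.sum_insert hi]
    have h' := fun j hj => h j (Finset.mem_insert_of_mem hj)
    rw [omB_add hw hl (h i (Finset.mem_insert_self _ _)) (Dom.Fn.sum F h'), ih h']

theorem cl_nonneg (y : D.End) : 0 ≤ cl D w l y := integral_nonneg fun _ => abs_nonneg _

theorem cl_le {L : ℝ} (hb : D.Bd w) (hL : ∀ t, |l t| ≤ L) (y : D.End) :
    cl D w l y ≤ L * D.osc y w := by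
  have := norm_setIntegral_le_of_norm_le_const (μ := volume) (s := Icc (D.lo y w) (D.hi y w))
    (f := fun t => |l t|) (C := L) measure_Icc_lt_top fun t _ => by simpa using hL t
  rw [Real.volume_real_Icc_of_le (lo_le_hi hb y)] at this
  exact (le_abs_self _).trans this

theorem cl_cost (hr : Reg D w σ) (hl : Lam R l) : Cost (cl D w l) := by
  obtain ⟨L, h0, hL⟩ := hl.bnd
  exact (hr.co.cmul h0.le).mono fun y => ⟨cl_nonneg y, (cl_le hr.bd hL y).trans
    (mul_le_mul_of_nonneg_left (hr.le y) h0.le)⟩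

theorem int_near {a b δ L : ℝ} (hl : Integrable l) (hL : ∀ t, |l t| ≤ L) (h : a ≤ b) (hδ : 0 ≤ δ) :
    ∫ t in Icc (a - δ) (b + δ), |l t| ≤ (∫ t in Icc a b, |l t|) + 2 * δ * L := by
  have i : ∀ p q, IntervalIntegrable (fun t => |l t|) volume p q := fun p q =>
    hl.abs.intervalIntegrable
  have b1 : ∀ p q, p ≤ q → ∫ t in p..q, |l t| ≤ L * (q - p) := fun p q hpq => by
    have := intervalIntegral.norm_integral_le_of_norm_le_const (a := p) (b := q)
      (f := fun t => |l t|) (C := L) fun t _ => by simpa using hL t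
    rw [abs_of_nonneg (sub_nonneg.2 hpq)] at this
    exact (le_abs_self _).trans this
  rw [integral_Icc_eq_integral_Ioc, integral_Icc_eq_integral_Ioc,
    ← intervalIntegral.integral_of_le (by linarith), ← intervalIntegral.integral_of_le h,
    ← intervalIntegral.integral_add_adjacent_intervals (i (a - δ) a) (i a (b + δ)),
    ← intervalIntegral.integral_add_adjacent_intervals (i a b) (i b (b + δ))]
  have := b1 (a - δ) a (by linarith)
  have := b1 b (b + δ) (by linarith)
  nlinarith

end Vale.P116D
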