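import Vale.Agent.P116D.G1
import Vale.Agent.P116D.GA1
import Vale.Agent.P116D.D3

/-!
GB1: limits of the approximants, Stokes for `omB`.
-/

namespace Vale.P116D

open Set Filter Topology MeasureTheory Complex
open scoped ContDiff

variable {D : Dom} {S : Gens D} {φ ψ χ η ξ g w : ℂ → ℝ} {s σ r u : D.End → ℝ} {y : D.End}
  {U : Set ℂ} {z : ℂ} {R : Rect} {l : ℝ → ℝ}

variable {ζ M : ℕ → ℂ → ℝ} {m : ℂ → ℝ}

/-- pointwise: `gr_mul`, `grM`, `zwd` -/
theorem Apx.om_eqw (h : Apx S w R l ζ M m) (hχ : D.Fn χ) (n : ℕ) :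
    D.om χ (M n) = D.om (fun z => ζ n z * χ z) w := by
  obtain ⟨s, hs⟩ := h.zin n
  refine setIntegral_congr_fun (G_meas D) fun z hz => ?_
  have h0 := h.zwd n z hz
  simp only [h.grM n z hz, gr_mul (hs.1.fn.diffAt hz) (hχ.diffAt hz)]
  simp only [wd, Complex.smul_re, Complex.smul_im, smul_eq_mul, Complex.add_re,
    Complex.add_im] at h0 ⊢
  linear_combination (-χ z) * h0

/-- dominated convergence with the bound `L ‖gr χ‖ ‖gr w‖`; `integral_indicator`, `bs_meas` -/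
theorem Apx.tend (h : Apx S w R l ζ M m) (hw : D.Fn w) (hl : Lam R l) (hχ : D.Fn χ) :
    Tendsto (fun n => D.om χ (M n)) atTop (𝓝 (omB D w R l χ)) := h.om_lim hl hw hχ

/-- `∫ ‖gr (M n) - p‖ ^ 2 → 0` by dominated convergence, `p` the limit field -/
theorem Apx.cauchy (h : Apx S w R l ζ M m) (hw : D.Fn w) (hl : Lam R l) :
    ∀ ε > 0, ∃ N, ∀ n ≥ N, ∀ n' ≥ N, D.nr (fun z => M n z - M n' z) ≤ ε := by
  obtain ⟨L, hL0, hL⟩ := hl.bnd
  set p : ℂ → ℂ := (Bs D w R).indicator fun z => l (w z) • gr w z with hp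
  have hlim : ∀ᵐ z ∂volume.restrict D.G, Tendsto (fun n => gr (M n) z) atTop (𝓝 (p z)) := by
    filter_upwards [ae_restrict_mem (G_meas D), h.lim] with z hz hlim
    exact hlim.congr fun n => (h.grM n z hz).symm
  have hpm : AEStronglyMeasurable p (volume.restrict D.G) :=
    aestronglyMeasurable_of_tendsto_ae atTop (fun n => (gr_meas (M n)).aestronglyMeasurable) hlim
  have hm : ∀ n, AEStronglyMeasurable (fun z => ‖gr (M n) z - p z‖ ^ 2) (volume.restrict D.G) :=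
    fun n => (((gr_meas (M n)).aestronglyMeasurable.sub hpm).norm).pow 2
  have hb : ∀ n, ∀ᵐ z ∂volume.restrict D.G,
      ‖‖gr (M n) z - p z‖ ^ 2‖ ≤ (2 * L) ^ 2 * ‖gr w z‖ ^ 2 := fun n => by
    filter_upwards [ae_restrict_mem (G_meas D)] with z hz
    obtain ⟨θ, hθ, e⟩ := h.zle n z hz
    have h1 : ‖gr (M n) z‖ ≤ L * ‖gr w z‖ := by
      rw [h.grM n z hz, norm_smul, Real.norm_eq_abs, e, abs_mul, abs_of_nonneg hθ.1]
      refine mul_le_mul_of_nonneg_right ?_ (norm_nonneg _)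
      nlinarith [hL (w z), abs_nonneg (l (w z)), hθ.1, hθ.2]
    have h2 : ‖p z‖ ≤ L * ‖gr w z‖ := by
      refine (norm_indicator_le_norm_self _ _).trans ?_
      rw [norm_smul, Real.norm_eq_abs]
      exact mul_le_mul_of_nonneg_right (hL _) (norm_nonneg _)
    rw [Real.norm_of_nonneg (sq_nonneg _), ← mul_pow]
    exact pow_le_pow_left₀ (norm_nonneg _) ((norm_sub_le _ _).trans (by linarith)) 2
  have hi := (int_sq hw).const_mul ((2 * L) ^ 2)
  have key := tendsto_integral_of_dominated_convergence (μ := volume.restrict D.G)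
    (F := fun n z => ‖gr (M n) z - p z‖ ^ 2) (f := fun _ => 0) _ hm hi hb (by
      filter_upwards [hlim] with z hz
      simpa using (tendsto_iff_norm_sub_tendsto_zero.1 hz).pow 2)
  rw [integral_zero] at key
  intro ε hε
  obtain ⟨N, hN⟩ := eventually_atTop.1
    (key.eventually (ge_mem_nhds (show (0 : ℝ) < ε ^ 2 / 4 by positivity)))
  refine ⟨N, fun n hn n' hn' => Real.sqrt_le_iff.2 ⟨hε.le, ?_⟩⟩
  have i1 := hi.mono' (hm n) (hb n)
  have i2 := hi.mono' (hm n') (hb n')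
  have f1 := (h.inM n).1.fn
  have f2 := (h.inM n').1.fn
  have h3 : ∫ z in D.G, ‖gr (fun z => M n z - M n' z) z‖ ^ 2 ≤
      ∫ z in D.G, (2 * ‖gr (M n) z - p z‖ ^ 2 + 2 * ‖gr (M n') z - p z‖ ^ 2) := by
    refine setIntegral_mono_on (int_sq (f1.sub f2)) ((i1.const_mul 2).add (i2.const_mul 2))
      (G_meas D) fun z hz => ?_
    rw [gr_sub (f1.diffAt hz) (f2.diffAt hz), ← sub_sub_sub_cancel_right _ _ (p z)]
    have h4 := pow_le_pow_left₀ (norm_nonneg _)
      (norm_sub_le (gr (M n) z - p z) (gr (M n') z - p z)) 2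
    nlinarith [sq_nonneg (‖gr (M n) z - p z‖ - ‖gr (M n') z - p z‖)]
  rw [integral_add (i1.const_mul 2) (i2.const_mul 2), integral_const_mul, integral_const_mul] at h3
  linarith [hN n hn, hN n' hn']

theorem gb1_zero (X : Ctx S w σ R) (hl : Lam R l) (hχ : D.Fn χ)
    (h0 : ∀ φ, D.Fn φ → D.om χ φ = 0) : omB D w R l χ = 0 := by
  obtain ⟨ζ, M, m, h⟩ := apx_ex X.str X.mem X.reg X.box hl
  have h1 := h.tend X.mem.fn hl hχ
  simp only [fun n => h0 (M n) (h.inM n).1.fn] at h1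
  exact (tendsto_const_nhds_iff.1 h1).symm

/-- `apx_ex`, `Apx.tend`, `om_wd` -/
theorem Ctx.stokes (X : Ctx S w σ R) (hl : Lam R l) (hη : D.Wd η u) : omB D w R l η = 0 :=
  gb1_zero X hl hη.fn fun _ hφ => om_wd hη hφ

/-- `cs_of_van`, `om_cs` -/
theorem Ctx.van (X : Ctx S w σ R) (hl : Lam R l) (hχ : D.Fn χ) (h0 : ∀ y, D.Van y χ) :
    omB D w R l χ = 0 := by
  obtain ⟨C, hC, hG, hs⟩ := cs_of_van h0
  exact gb1_zero X hl hχ fun _ hφ => om_cs hχ hC hG hs hφ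

theorem Ctx.ev (X : Ctx S w σ R) (hl : Lam R l) (hχ : D.Fn χ) (hψ : D.Fn ψ)
    (h : ∀ y, χ =ᶠ[D.nb y] ψ) : omB D w R l χ = omB D w R l ψ := by
  rw [← sub_eq_zero, ← omB_sub X.mem.fn hl hχ hψ]
  refine X.van hl (hχ.sub hψ) fun y => ?_
  filter_upwards [h y] with z hz
  rw [hz, sub_self]

end Vale.P116D
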