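import Vale.Agent.P116D.GD2
import Vale.Agent.P116D.A1

/-!
GD: small functions.
-/

namespace Vale.P116D

open Set Filter Topology MeasureTheory Complex
open scoped ContDiff

variable {D : Dom} {S : Gens D} {φ ψ χ η ξ g w : ℂ → ℝ} {s σ r u : D.End → ℝ} {y : D.End}
  {U : Set ℂ} {z : ℂ} {R : Rect} {l : ℝ → ℝ}

theorem Sm.mono {ε ε' : ℝ} (h : Sm D w R ξ ε) (e : ε ≤ ε') : Sm D w R ξ ε' :=
  ⟨h.fn, h.anc, h.nr.trans e, fun n f E v L hL hf hfL =>
    (h.null n f E v L hL hf hfL).trans (mul_le_mul_of_nonneg_left e hL.le)⟩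

theorem sm_zero (hw : D.Fn w) : Sm D w R (fun _ => 0) 0 := by
  refine ⟨fn_const D 0, fun _ _ => rfl, ?_, fun n f E v L _ hf _ => ?_⟩
  · have h := nr_cmul (fn_const D 0) 0
    simp only [mul_zero, abs_zero, zero_mul] at h
    exact h.le
  · have h : ∀ i ∈ Finset.univ, |omB D w R (f i) fun z => E i z * (0 : ℝ)| = 0 := fun i _ => by
      have h := omB_cmul (R := R) (l := f i) hw (fn_const D 0) 0
      simp only [mul_zero, zero_mul] at h
      simp only [mul_zero, h, abs_zero]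
    rw [Finset.sum_eq_zero h, mul_zero]

theorem Sm.add {ξ' : ℂ → ℝ} {ε ε' : ℝ} (h : Sm D w R ξ ε) (h' : Sm D w R ξ' ε') (hw : D.Fn w) :
    Sm D w R (fun z => ξ z + ξ' z) (ε + ε') := by
  refine ⟨h.fn.add h'.fn, fun z hz => by rw [h.anc z hz, h'.anc z hz, add_zero],
    (nr_add h.fn h'.fn).trans (add_le_add h.nr h'.nr), fun n f E v L hL hf hfL => ?_⟩
  have h1 : ∀ i ∈ Finset.univ, |omB D w R (f i) fun z => E i z * (ξ z + ξ' z)| ≤
      |omB D w R (f i) fun z => E i z * ξ z| + |omB D w R (f i) fun z => E i z * ξ' z| :=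
    fun i _ => by
      have b := gd2_bd (hf i).2.1
      simp only [mul_add]
      rw [omB_add hw (hf i).1 (h.fn.wmul (hf i).2.1 b) (h'.fn.wmul (hf i).2.1 b)]
      exact abs_add_le _ _
  refine (Finset.sum_le_sum h1).trans ?_
  rw [Finset.sum_add_distrib, mul_add]
  exact add_le_add (h.null n f E v L hL hf hfL) (h'.null n f E v L hL hf hfL)

theorem Sm.cmul {ε c : ℝ} (h : Sm D w R ξ ε) (hw : D.Fn w) (hc : 0 ≤ c) :
    Sm D w R (fun z => c * ξ z) (c * ε) := by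
  refine ⟨h.fn.cmul c, fun z hz => by rw [h.anc z hz, mul_zero], ?_,
    fun n f E v L hL hf hfL => ?_⟩
  · rw [nr_cmul h.fn, abs_of_nonneg hc]
    exact mul_le_mul_of_nonneg_left h.nr hc
  have h1 : ∀ i ∈ Finset.univ, |omB D w R (f i) fun z => E i z * (c * ξ z)| =
      c * |omB D w R (f i) fun z => E i z * ξ z| := fun i _ => by
    have e : (fun z => E i z * (c * ξ z)) = fun z => c * (E i z * ξ z) :=
      funext fun z => by ring
    rw [e, omB_cmul hw (h.fn.wmul (hf i).2.1 (gd2_bd (hf i).2.1)), abs_mul, abs_of_nonneg hc]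
  rw [Finset.sum_congr rfl h1, ← Finset.mul_sum, mul_left_comm]
  exact mul_le_mul_of_nonneg_left (h.null n f E v L hL hf hfL) hc

theorem sm_sum {ι : Type} (F : Finset ι) {f : ι → ℂ → ℝ} {ε : ℝ} (hw : D.Fn w)
    (h : ∀ i ∈ F, Sm D w R (f i) ε) : Sm D w R (fun z => ∑ i ∈ F, f i z) (F.card * ε) := by
  classical
  induction F using Finset.induction_on with
  | empty => simpa using sm_zero (R := R) hw
  | insert a F ha ih =>
    have h1 := (h a (Finset.mem_insert_self a F)).add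
      (ih fun i hi => h i (Finset.mem_insert_of_mem hi)) hw
    simp only [Finset.sum_insert ha, Finset.card_insert_of_notMem ha, Nat.cast_add, Nat.cast_one]
    exact h1.mono (le_of_eq (by ring))

/-- `AD`, `cut_ex`, `Adm.xi` in `{η = 1} ∩ R.setᶜ`, `null_of` -/
theorem sm_ex {a b δ ε : ℝ} (X : Ctx S w σ R) (had : AD S w R y) (h : InB S φ s)
    (ha : Adm S y φ a b) (hδ : 0 < δ) (hε : 0 < ε) : ∃ ξ, Sm D w R ξ ε ∧ (∀ z, 0 ≤ ξ z) ∧
      ∀ᶠ z in D.nb y, φ z ∉ Icc (a - δ) (b + δ) → ξ z = 1 := by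
  obtain ⟨σ', hσ, had⟩ := had
  obtain ⟨U, hU, v, hv, hvw, had⟩ := had (ε / 12) (by positivity)
  obtain ⟨η, u, hη, hu, hs⟩ := cut_ex hU
  have h0 := nl_nonneg σ'
  obtain ⟨e, he, he1, he2⟩ : ∃ e > 0, e ≤ ε ∧ 10 * (nl σ' * e) ≤ ε / 2 := by
    refine ⟨ε / (20 * (nl σ' + 1)), by positivity, ?_, ?_⟩
    · rw [div_le_iff₀ (by positivity)]
      nlinarith
    · rw [← mul_assoc, ← mul_div_assoc, div_le_div_iff₀ (by positivity) two_pos]
      nlinarith
  obtain ⟨ξ, r, hξ, h01, hsξ, hn, hr, -, hev⟩ := ha.xi X.str h hδ he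
    (inter_mem (hη.one_mem hu) (compl_mem X.box.cpt X.box.sub y))
  have hN := null_of X hσ hv hvw had hη hs hξ h01 fun z hz h1 => hsξ z hz fun h2 => h1 h2.1
  refine ⟨ξ, ⟨hξ.fn, fun z hz => hsξ z (X.box.sub hz) fun h2 => h2.2 hz, hn.trans he1,
    fun n f E a L hL hf hfL => (hN n f E a L hL hf hfL).trans
      (mul_le_mul_of_nonneg_left ?_ hL.le)⟩, fun z => (h01 z).1, hev⟩
  have := mul_le_mul_of_nonneg_left hr h0
  linarith

end Vale.P116D
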