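import Vale.Agent.P116D.S1

/-!
S2: true oscillation as a cost, local to global, dual functions.
-/

namespace Vale.P116D

open Set Filter Topology MeasureTheory Complex
open scoped ContDiff

variable {D : Dom} {S : Gens D} {φ ψ χ η g d v w : ℂ → ℝ} {s σ r τ u : D.End → ℝ} {y : D.End}
  {U : Set ℂ} {z : ℂ}

theorem InB.osc_upd (h : InB S χ s) (hS : Str S) (y : D.End) : In S χ (upd s y (D.osc y χ)) :=
  hS.glue χ s y h.1.fn h.2 h.1.co fun _ _ hη _ => h.1.wmul hS hη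
theorem InB.osc_min (h : InB S χ s) (hS : Str S) : In S χ fun y => min (s y) (D.osc y χ) := by
  classical
  have h0 : ∀ y, 0 ≤ min (s y) (D.osc y χ) := fun y => le_min (h.1.co.1 y) (osc_nonneg h.2 y)
  refine in_of_pw hS (h.1.co.mono fun y => ⟨h0 y, min_le_left _ _⟩) h.1.co fun F => ?_
  induction F using Finset.induction_on with
  | empty => exact h.1.mono hS (h.1.co.pw _ fun y _ => h0 y) fun y => by simp [pw]
  | insert b F hb ih =>
    have hc : Cost (pw (insert b F) (fun y => min (s y) (D.osc y χ)) s) :=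
      h.1.co.pw _ fun y _ => h0 y
    rcases le_total (s b) (D.osc b χ) with e | e
    · refine ih.mono hS hc fun y => ?_
      by_cases hy : y = b
      · simp [pw, hy, hb, e]
      · simp [pw, hy]
    · refine (InB.osc_upd ⟨ih, h.2⟩ hS b).mono hS hc fun y => ?_
      by_cases hy : y = b
      · simp [pw, upd, hy, e]
      · simp [pw, upd, hy]
theorem InB.osc_le (h : InB S χ s) (hS : Str S) (hr : Cost r) (e : ∀ y, s y ≤ r y ∨ D.osc y χ ≤ r y) :
    In S χ r :=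
  (h.osc_min hS).mono hS hr fun y => min_le_iff.2 (e y)
/-- local to global -/
theorem in_of_loc (hS : Str S) (F : Finset D.End) (h : D.Fn χ) (hb : D.Bd χ) (hs : Cost s)
    (hl : ∀ y, y ∉ F → ∃ U ∈ D.nb y, ∃ ψ r, In S ψ r ∧ (∀ y', U ∈ D.nb y' → r y' ≤ s y') ∧
      EqOn χ ψ (U ∩ D.G)) : In S χ (pw F (fun y => D.osc y χ) s) := by
  classical
  induction F using Finset.induction_on generalizing χ s with
  | empty =>
    choose U hU ψ r h1 h2 h3 using fun y => hl y (Finset.notMem_empty y)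
    obtain ⟨T, ξ, a, -, hξ, -, ha, -, -⟩ := Dom.eh_cover ∅ U hU
    have hw := (wd_const D 1).sub (wd_sum T fun y _ => (hξ y).1.wd)
    obtain ⟨M, hM, -⟩ := hw.bd
    have e1 := in_van hS (h.wmul hw ⟨M, hM⟩) fun y => by
      filter_upwards [hw.ev y] with z hz
      rw [hz, ha, sub_self, zero_mul]
    have e2 := (in_sum T hS fun y _ => (h1 y).cut hS (hξ y).1).add e1 hS
    refine (e2.congr fun z hz => ?_).mono hS (hs.pw _ fun y hy => absurd hy (Finset.notMem_empty y))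
      fun y' => ?_
    · have : ∑ y ∈ T, ξ y z * ψ y z = ∑ y ∈ T, ξ y z * χ z := Finset.sum_congr rfl fun y _ => by
        by_cases hz' : z ∈ U y
        · rw [h3 y ⟨hz', hz⟩]
        · rw [(hξ y).2 z hz hz', zero_mul, zero_mul]
      show χ z = ∑ y ∈ T, ξ y z * ψ y z + (1 - ∑ y ∈ T, ξ y z) * χ z
      rw [this, ← Finset.sum_mul]
      ring
    · have : ∑ y ∈ T, a y y' * r y y' ≤ ∑ y ∈ T, a y y' * s y' := Finset.sum_le_sum fun y _ => by
        rcases (hξ y).1.val y' with e | e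
        · rw [e, zero_mul, zero_mul]
        · rw [e, one_mul, one_mul]
          exact h2 y y' ((hξ y).1.mem_of (hξ y).2 e)
      rw [← Finset.sum_mul, ha, one_mul] at this
      simpa [pw] using this
  | insert b F hb' ih =>
    have hc : Cost (pw F (fun y => D.osc y χ) s) := hs.pw _ fun y _ => osc_nonneg hb y
    refine (hS.glue χ _ b h hb hc fun η v hη h0 => ?_).mono hS
      (hs.pw _ fun y _ => osc_nonneg hb y) fun y => ?_
    · obtain ⟨M, hM, hv⟩ := hη.bd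
      have hs' : Cost fun y => |v y| * s y := hs.bmul fun y => ⟨abs_nonneg _, hv y⟩
      refine (ih (h.wmul hη ⟨M, hM⟩) (Dom.Bd.mul ⟨M, hM⟩ hb) hs' fun y hy => ?_).mono hS
        (hc.bmul fun y => ⟨abs_nonneg _, hv y⟩) fun y => ?_
      · by_cases e : y = b
        · refine ⟨{z | η z = 0}, ?_, fun _ => 0, fun _ => 0, in_wd hS (wd_const D 0),
            fun y' _ => hs'.1 y', fun z hz => ?_⟩
          · rw [e, ← h0]
            exact hη.ev b
          · have : η z = 0 := hz.1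
            simp [this]
        · obtain ⟨U, hU, ψ, r, h1, h2, h3⟩ := hl y (by simp [e, hy])
          refine ⟨U, hU, _, _, h1.wmul hS hη,
            fun y' hy' => mul_le_mul_of_nonneg_left (h2 y' hy') (abs_nonneg _), fun z hz => ?_⟩
          show η z * χ z = η z * ψ z
          rw [h3 hz]
      · unfold pw
        split_ifs
        · exact (osc_wmul hb hη y).le
        · exact le_rfl
    · by_cases hy : y = b
      · simp [pw, upd, hy]
      · simp [pw, upd, hy]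
/-- a function supported in `U` pays only at the ends seen by a cutoff that is one on `U` -/
theorem In.supp (h : In S χ s) (hS : Str S) (hη : D.Cut η u) (hs : D.Supp χ {z | η z = 1}) :
    In S χ fun y => u y * s y :=
  (h.cut hS hη).congr fun z hz => by
    by_cases e : η z = 1
    · simp [e]
    · simp [hs z hz e]
theorem In.van (h : In S χ s) (hS : Str S) (h0 : D.Van y χ) : In S χ (upd s y 0) := by
  obtain ⟨η, u, hη, hy, hs⟩ := cut_ex (U := {z | χ z = 0}) h0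
  refine (h.supp hS hη.compl fun z hz hz' => ?_).mono hS (h.co.upd y le_rfl) fun y' => ?_
  · by_contra e
    exact hz' (by simp [hs z hz e])
  · by_cases e : y' = y
    · simp [upd, e, hy]
    · simp only [upd, e, if_false]
      nlinarith [(hη.s1_mem y').1, h.co.1 y']
theorem Du.le' (h : Du S g σ) (hS : Str S) (hφ : In S φ s) : |D.om φ g| ≤ ip s σ := by
  obtain ⟨T, h1, h2, h3, h4⟩ := trunc_ex
  have h2' : ∀ n x, |deriv (T n) x| ≤ 1 := fun n x =>
    abs_le.2 ⟨by linarith [(h2 n x).1], (h2 n x).2⟩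
  have h5 : ∀ n, InB S (fun z => T n (φ z)) s := fun n =>
    ⟨hS.trunc φ s hφ (T n) (h1 n) (h2' n) ⟨_, h4 n⟩, _, fun z _ => h4 n _⟩
  exact le_of_tendsto' (om_tendsto (fun n => (h5 n).1.fn) hφ.fn h.fn
    (conv_trunc hφ.fn h1 h2' h3).1).abs fun n => h.le _ _ (h5 n)
theorem Du.isIn (h : Du S g σ) (hS : Str S) : In S g σ :=
  ⟨h.fn, h.co, fun p hp => by
    rw [om_swap, abs_neg, ip_comm]
    exact h.le _ _ ⟨hS.iso p hp, (hS.reg p hp).bd⟩⟩
theorem Str.du (hS : Str S) (h : (g, σ) ∈ S) : Du S g σ :=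
  ⟨(hS.reg _ h).fn, (hS.reg _ h).co, fun _ _ hφ => hφ.1.le _ h⟩
theorem Du.add {g' : ℂ → ℝ} {σ' : D.End → ℝ} (h : Du S g σ) (h' : Du S g' σ') :
    Du S (fun z => g z + g' z) fun y => σ y + σ' y :=
  ⟨h.fn.add h'.fn, h.co.add h'.co, fun φ s hφ => by
    rw [om_swap, abs_neg, ip_comm, om_add h.fn h'.fn hφ.1.fn, ip_add h.co.2 h'.co.2 hφ.1.co.2,
      ip_comm σ, ip_comm σ']
    refine (abs_add_le _ _).trans (add_le_add ?_ ?_)
    · rw [om_swap, abs_neg]
      exact h.le _ _ hφ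
    · rw [om_swap, abs_neg]
      exact h'.le _ _ hφ⟩
theorem Du.cmul (h : Du S g σ) (c : ℝ) : Du S (fun z => c * g z) fun y => |c| * σ y :=
  ⟨h.fn.cmul c, h.co.cmul (abs_nonneg c), fun φ s hφ => by
    rw [om_swap, abs_neg, ip_comm, om_cmul h.fn, ip_cmul, abs_mul, om_swap, abs_neg, ip_comm]
    exact mul_le_mul_of_nonneg_left (h.le _ _ hφ) (abs_nonneg c)⟩
theorem du_wd (h : D.Wd η u) : Du S η fun _ => 0 :=
  ⟨h.fn, cost_zero, fun φ s hφ => by
    rw [om_swap, om_wd h hφ.1.fn, ip_comm, ip_zero, neg_zero, abs_zero]⟩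
theorem Du.wmul (h : Du S g σ) (hS : Str S) (hη : D.Wd η u) :
    Du S (fun z => η z * g z) fun y => |u y| * σ y := by
  obtain ⟨M, hM, hu⟩ := hη.bd
  refine ⟨h.fn.wmul hη ⟨M, hM⟩, h.co.bmul fun y => ⟨abs_nonneg _, hu y⟩, fun φ s hφ => ?_⟩
  rw [← om_mul hη ⟨M, hM⟩ hφ.1.fn h.fn]
  refine (h.le' hS (hφ.1.wmul hS hη)).trans (le_of_eq (tsum_congr fun y => ?_))
  ring
theorem s2_clamp {a b δ : ℝ} (h : a ≤ b) (hδ : 0 < δ) : ∃ T : ℝ → ℝ, ContDiff ℝ ∞ T ∧ Monotone T ∧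
    (∀ x x', |T x - T x'| ≤ |x - x'|) ∧ (∀ x ∈ Icc a b, T x = x) ∧
    ∀ x, T x ∈ Icc (a - δ) (b + δ) := by
  obtain ⟨T, h1, h2, h3, h4, -⟩ := clamp_ex h hδ
  refine ⟨T, h1, mono_of_deriv h1 fun x => (h2 x).1, fun x x' => ?_, h3, h4⟩
  simpa using lip_of_deriv (C := 1) h1
    (fun x => abs_le.2 ⟨by linarith [(h2 x).1], (h2 x).2⟩) x x'
/-- one term of `sub_const` -/
theorem s2_term {ζ : ℂ → ℝ} {M δ : ℝ} {c : Fin 2 → D.End → ℝ} (hs : Cost s) (hr : Cost r)
    (hM : D.Le χ M) (h01 : ∀ z ∈ D.G, ζ z ∈ Icc (0 : ℝ) 1) (hδ : 0 < δ)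
    (hc : BoxAt S ![χ, ζ] ![s, r] c) (hy : c 0 y ∈ Icc (-M - δ / 3) (M + δ / 3)) (hη : D.Wd η u) :
    In S (fun z => η z * (ζ z * (χ z - c 0 y))) fun y' => |u y'| *
      upd (fun y => 2 * s y + (2 * M + δ) * r y) y ((1 + δ) * s y) y' := by
  have M0 := hM.s1_nonneg
  obtain ⟨T, h1, h2, h3, h4, h5⟩ := s2_clamp (hy.1.trans hy.2) (δ := δ / 3) (by positivity)
  obtain ⟨T', h1', -, h3', h4', h5'⟩ := s2_clamp zero_le_one (δ := min (δ / 2) 1) (by positivity)
  have m1 := min_le_left (δ / 2) 1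
  have m2 := min_le_right (δ / 2) 1
  have m0 : 0 < min (δ / 2) 1 := by positivity
  refine (hc (fun x => T' (x 1) * (T (x 0) - c 0 y)) ((h1'.comp (contDiff_apply ℝ ℝ 1)).mul
    ((h1.comp (contDiff_apply ℝ ℝ 0)).sub contDiff_const)) η u hη _
    (((hs.cmul zero_le_two).add (hr.cmul (by positivity))).upd y
      (mul_nonneg (by positivity) (hs.1 y))) fun y' x x' hx hx' => ?_).congr fun z hz => ?_
  · have a0 : x 0 ∈ Icc (c 0 y') (c 0 y' + s y') := hx 0
    have a1 : x 1 ∈ Icc (c 1 y') (c 1 y' + r y') := hx 1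
    have b0 : x' 0 ∈ Icc (c 0 y') (c 0 y' + s y') := hx' 0
    have b1 : x' 1 ∈ Icc (c 1 y') (c 1 y' + r y') := hx' 1
    show T' (x 1) * (T (x 0) - c 0 y) - T' (x' 1) * (T (x' 0) - c 0 y) ≤ _
    by_cases e : y' = y
    · subst e
      have key : ∀ t ∈ Icc (c 0 y') (c 0 y' + s y'), T t - c 0 y' ∈ Icc 0 (s y') := fun t ht => by
        have k1 := h2 ht.1
        have k2 := h3 t (c 0 y')
        rw [h4 _ hy] at k1 k2
        rw [abs_of_nonneg (sub_nonneg.2 ht.1)] at k2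
        exact ⟨sub_nonneg.2 k1, by linarith [le_abs_self (T t - c 0 y'), ht.2]⟩
      have k1 := key _ a0
      have k2 := key _ b0
      simp only [upd, if_true]
      have k3 : T' (x 1) * (T (x 0) - c 0 y') ≤ (1 + δ / 2) * s y' :=
        (mul_le_mul_of_nonneg_right ((h5' _).2.trans (by linarith)) k1.1).trans
          (mul_le_mul_of_nonneg_left k1.2 (by positivity))
      have k4 : -T' (x' 1) * (T (x' 0) - c 0 y') ≤ δ / 2 * s y' :=
        (mul_le_mul_of_nonneg_right (by linarith [(h5' (x' 1)).1]) k2.1).trans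
          (mul_le_mul_of_nonneg_left k2.2 (by positivity))
      linarith
    · simp only [upd, e, if_false]
      have e2 : |T' (x 1) * (T (x 0) - T (x' 0))| ≤ 2 * s y' := by
        rw [abs_mul]
        refine mul_le_mul (abs_le.2 ⟨by linarith [(h5' (x 1)).1], by linarith [(h5' (x 1)).2]⟩)
          ((h3 _ _).trans (abs_le.2 ⟨by linarith [a0.1, b0.2], by linarith [a0.2, b0.1]⟩))
          (abs_nonneg _) zero_le_two
      have e3 : |(T (x' 0) - c 0 y) * (T' (x 1) - T' (x' 1))| ≤ (2 * M + δ) * r y' := by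
        rw [abs_mul]
        refine mul_le_mul (abs_le.2 ⟨by linarith [(h5 (x' 0)).1, hy.2],
          by linarith [(h5 (x' 0)).2, hy.1]⟩)
          ((h3' _ _).trans (abs_le.2 ⟨by linarith [a1.1, b1.2], by linarith [a1.2, b1.1]⟩))
          (abs_nonneg _) (by positivity)
      linarith [le_abs_self (T' (x 1) * (T (x 0) - T (x' 0))),
        le_abs_self ((T (x' 0) - c 0 y) * (T' (x 1) - T' (x' 1)))]
  · show η z * (ζ z * (χ z - c 0 y)) = η z * (T' (ζ z) * (T (χ z) - c 0 y))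
    have := abs_le.1 (hM z hz)
    rw [h4' _ (h01 z hz), h4 (χ z) ⟨by linarith [this.1], by linarith [this.2]⟩]
/-- the test function with constants subtracted on a finite set: if `ζ` takes values in `[0, 1]`
then `ζ * (χ - ∑ c y * η y)` costs `s` on `F` -/
theorem sub_const (hS : Str S) {ζ : ℂ → ℝ} {M : ℝ} (hχ : In S χ s) (hM : D.Le χ M) (hζ : In S ζ r)
    (h01 : ∀ z ∈ D.G, ζ z ∈ Icc (0 : ℝ) 1) (F : Finset D.End) (W : D.End → Set ℂ)
    (hW : ∀ y ∈ F, W y ∈ D.nb y) {δ : ℝ} (hδ : 0 < δ) :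
    ∃ η u, D.Wd η u ∧ D.Le η (M + δ) ∧ D.Supp η (⋃ y ∈ F, W y) ∧
      In S (fun z => ζ z * (χ z - η z))
        (pw F (fun y => (1 + δ) * s y) fun y => 2 * s y + (2 * M + δ) * r y) := by
  classical
  have M0 := hM.s1_nonneg
  obtain ⟨c, hc, hc'⟩ := box_clip hS (f := ![χ, ζ]) (a := ![s, r]) (p := ![-M, 0]) (q := ![M, 1])
    (Fin.forall_fin_two.2 ⟨hχ, hζ⟩) (Fin.forall_fin_two.2 ⟨fun z hz => abs_le.1 (hM z hz), h01⟩)
    (δ := δ / 3) (by positivity)
  have hc0 : ∀ y, c 0 y ∈ Icc (-M - δ / 3) (M + δ / 3) := hc' 0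
  obtain ⟨U, hU, hd⟩ := nb_sepF F W hW
  have hex : ∀ y, ∃ ξ a, y ∈ F → D.Cut ξ a ∧ a y = 1 ∧ D.Supp ξ (U y) := fun y => by
    by_cases hy : y ∈ F
    · obtain ⟨ξ, a, h⟩ := cut_ex (hU y hy).1
      exact ⟨ξ, a, fun _ => h⟩
    · exact ⟨fun _ => 0, fun _ => 0, fun h => absurd h hy⟩
  choose ξ a hξ using hex
  obtain ⟨η', hη', e'⟩ := cut_sum F (fun y hy => ⟨(hξ y hy).1, (hξ y hy).2.2⟩) hd
  have h0 : ∀ y ∈ F, ∀ y' ∈ F, y' ≠ y → a y y' = 0 := fun y hy y' hy' hne =>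
    (hξ y hy).1.wd.eh_val_zero (hξ y hy).2.2
      (mem_of_superset (hU y' hy').1 (hd y' hy' y hy hne).subset_compl_right)
  have hB : Cost fun y => 2 * s y + (2 * M + δ) * r y :=
    (hχ.co.cmul zero_le_two).add (hζ.co.cmul (by positivity))
  have ht : Cost (pw F (fun y => (1 + δ) * s y) fun y => 2 * s y + (2 * M + δ) * r y) :=
    hB.pw F fun y _ => mul_nonneg (by positivity) (hχ.co.1 y)
  refine ⟨_, _, wd_sum F fun y hy => (hξ y hy).1.wd.cmul (c 0 y), fun z hz => ?_,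
    fun z hz hz' => Finset.sum_eq_zero fun y hy => ?_, ?_⟩
  · have k1 : ∑ y ∈ F, ξ y z ≤ 1 := (e' hz).symm.le.trans (hη'.mem z).2
    refine (Finset.abs_sum_le_sum_abs _ _).trans
      ((Finset.sum_le_sum (g := fun y => (M + δ) * ξ y z) fun y hy => ?_).trans ?_)
    · rw [abs_mul, abs_of_nonneg ((hξ y hy).1.mem z).1]
      exact mul_le_mul_of_nonneg_right
        (abs_le.2 ⟨by linarith [(hc0 y).1], by linarith [(hc0 y).2]⟩) ((hξ y hy).1.mem z).1
    · rw [← Finset.mul_sum]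
      exact mul_le_of_le_one_right (by positivity) k1
  · rw [(hξ y hy).2.2 z hz fun h => hz' (mem_biUnion hy ((hU y hy).2 h)), mul_zero]
  · have e1 := in_sum F hS fun y hy => s2_term hχ.co hζ.co hM h01 hδ hc (hc0 y) (hξ y hy).1.wd
    have e2 := (hζ.mul hχ hS (M := 1) (fun z hz => abs_le.2 ⟨by linarith [(h01 z hz).1],
      (h01 z hz).2⟩) hM).cut hS hη'.compl
    refine ((e1.add e2 hS).congr fun z hz => ?_).mono hS ht fun y' => ?_
    · show ζ z * (χ z - ∑ y ∈ F, c 0 y * ξ y z) =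
        ∑ y ∈ F, ξ y z * (ζ z * (χ z - c 0 y)) + (1 - η' z) * (ζ z * χ z)
      have k1 : η' z = ∑ y ∈ F, ξ y z := e' hz
      have k2 : ∑ y ∈ F, ξ y z * (ζ z * (χ z - c 0 y)) =
          (∑ y ∈ F, ξ y z) * (ζ z * χ z) - ζ z * ∑ y ∈ F, c 0 y * ξ y z := by
        rw [Finset.sum_mul, Finset.mul_sum, ← Finset.sum_sub_distrib]
        exact Finset.sum_congr rfl fun y _ => by ring
      rw [k1, k2]
      ring
    · by_cases hy' : y' ∈ F
      · rw [Finset.sum_eq_single_of_mem y' hy' fun y hy hne => by rw [h0 y hy y' hy' hne.symm]; simp,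
          Finset.sum_eq_single_of_mem y' hy' fun y hy hne => h0 y hy y' hy' hne.symm,
          (hξ y' hy').2.1]
        simp [pw, upd, hy']
      · have k1 : ∑ y ∈ F, |a y y'| * upd (fun y => 2 * s y + (2 * M + δ) * r y) y
            ((1 + δ) * s y) y' = (∑ y ∈ F, a y y') * (2 * s y' + (2 * M + δ) * r y') := by
          rw [Finset.sum_mul]
          refine Finset.sum_congr rfl fun y hy => ?_
          have : y' ≠ y := fun e => hy' (e ▸ hy)
          simp only [upd, this, if_false, (hξ y hy).1.s1_abs]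
        have k2 : 0 ≤ 1 - ∑ y ∈ F, a y y' := (hη'.compl.s1_mem y').1
        have k3 : M * r y' + 1 * s y' ≤ 2 * s y' + (2 * M + δ) * r y' := by
          nlinarith [hχ.co.1 y', hζ.co.1 y']
        simp only [pw, hy', if_false]
        rw [k1]
        nlinarith [mul_le_mul_of_nonneg_left k3 k2]
/-- removing the finite set and the factor -/
theorem s2_le {Y : Type} {x : ℝ} {a b c : Y → ℝ} (ha : Cost a) (hb : Cost b) (hc : Cost c)
    (h : ∀ F : Finset Y, ∀ δ > 0, δ ≤ 1 → x ≤ ip (pw F (fun y => (1 + δ) * a y) b) c) :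
    x ≤ ip a c := by
  refine le_of_forall_pos_le_add fun ε hε => ?_
  have h0 := ip_nonneg ha.1 hc.1
  have h1 := nl_nonneg c
  obtain ⟨F, hF⟩ := hb.2.tail (ε := ε / 2 / (nl c + 1)) (by positivity)
  have hδ : 0 < min 1 (ε / 2 / (ip a c + 1)) := by positivity
  set δ := min 1 (ε / 2 / (ip a c + 1))
  have hp : Cost (pw F (fun _ => 0) b) := hb.pw F fun _ _ => le_rfl
  have k1 := ip_mono (hb.2.pw F fun y => (1 + δ) * a y) ((ha.2.cmul (1 + δ)).add hp.2) hc
    fun y => by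
      unfold pw
      split_ifs
      · simp
      · nlinarith [ha.1 y]
  rw [ip_add (ha.2.cmul _) hp.2 hc.2, ip_cmul] at k1
  have k2 := (le_abs_self _).trans (abs_ip_le hp.2 hc.2)
  have k3 := hF F le_rfl
  rw [le_div_iff₀ (by positivity)] at k3
  have k4 : δ ≤ ε / 2 / (ip a c + 1) := min_le_right _ _
  rw [le_div_iff₀ (by positivity)] at k4
  have := h F δ hδ (min_le_left _ _)
  nlinarith [nl_nonneg (pw F (fun _ => 0) b)]
theorem Du.comp {T : ℝ → ℝ} (h : Du S g σ) (hS : Str S) (hb : D.Bd g) (hT : ContDiff ℝ ∞ T)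
    (h1 : ∀ x, deriv T x ∈ Icc (0 : ℝ) 1) : Du S (fun z => T (g z)) σ := by
  have h1' : ∀ x, |deriv T x| ≤ 1 := fun x => abs_le.2 ⟨by linarith [(h1 x).1], (h1 x).2⟩
  have hT' : ContDiff ℝ ∞ (deriv T) := hT.iterate_deriv 1
  refine ⟨h.fn.comp hT fun z _ => h1' _, h.co, fun φ s hφ => ?_⟩
  obtain ⟨N, hN⟩ := hb
  obtain ⟨M, hM⟩ := hφ.2
  have M0 := hM.s1_nonneg
  obtain ⟨C, -, hC⟩ := in_lipB hS (Θ := fun x : Fin 1 → ℝ => deriv T (x 0))
    (hT'.comp (contDiff_apply ℝ ℝ 0)) N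
  have hζ := (hC (fun _ => g) (fun _ => σ) (fun _ => h.isIn hS) fun _ => hN).1
  refine s2_le hφ.1.co ((hφ.1.co.cmul zero_le_two).add (hζ.co.cmul (c := 2 * M + 1)
    (by positivity))) h.co fun F δ hδ hδ1 => ?_
  obtain ⟨η, u, hη, hηM, -, hin⟩ := sub_const hS hφ.1 hM hζ (fun z _ => h1 _) F (fun _ => univ)
    (fun _ _ => univ_mem) hδ
  have e1 := om_add hin.fn (hζ.fn.wmul hη ⟨_, hηM⟩) h.fn
  rw [om_fun hη hT' h1' h.fn, add_zero] at e1
  rw [om_comp hT hφ.1.fn h.fn, om_congr (φ' := fun z => deriv T (g z) * (φ z - η z) +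
    η z * deriv T (g z)) (fun z _ => by ring) fun _ _ => rfl, e1]
  refine (h.le' hS hin).trans (ip_mono hin.co.2 (Sq.pw ((hφ.1.co.cmul zero_le_two).add
    (hζ.co.cmul (c := 2 * M + 1) (by positivity))).2 F _) h.co fun y => ?_)
  unfold pw
  split_ifs
  · exact le_rfl
  · nlinarith [hζ.co.1 y]
theorem Max.mem (hS : Max S) (h : Du S g σ) (hr : Reg D g σ) : (g, σ) ∈ S := by
  have e : In (insert (g, σ) S) = In S := by
    funext φ s
    refine propext ⟨fun h' => h'.anti (subset_insert _ _), fun h' => ⟨h'.fn, h'.co, ?_⟩⟩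
    rintro p (rfl | hp)
    · exact h.le' hS.1 h'
    · exact h'.le p hp
  refine hS.2 (insert (g, σ) S) ⟨?_, ?_, ?_, ?_, ?_⟩ (subset_insert _ _) (mem_insert _ _)
  · rintro p (rfl | hp)
    · exact hr
    · exact hS.1.reg p hp
  · rw [e]
    rintro p (rfl | hp)
    · exact h.isIn hS.1
    · exact hS.1.iso p hp
  · rw [e]
    exact hS.1.trunc
  · simp only [BoxAt, InB, e]
    exact hS.1.box
  · rw [e]
    exact hS.1.glue

end Vale.P116D
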