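import Vale.Agent.P116D.G0
import Vale.Agent.P116D.S2

/-!
GD1: one test function for asymptotic duality.
-/

namespace Vale.P116D

open Set Filter Topology MeasureTheory Complex
open scoped ContDiff

variable {D : Dom} {S : Gens D} {φ ψ χ η ξ g w : ℂ → ℝ} {s σ r u : D.End → ℝ} {y : D.End}
  {U : Set ℂ} {z : ℂ} {R : Rect} {l : ℝ → ℝ}

/-- The estimate for one function `Z`.  Put `ζ = Z / 2 + 1 / 2`, take `η'` from `sub_const`
(`M = 1`, `δ = 1`, `W = univ`); `Z (ξ - η') = 2 ζ (ξ - η') - (ξ - η')`.  The test function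
`χ = η Z (ξ - η') / 3` is supported in `U`, bounded by one, and its gradient vanishes at the points
of `G` off `U` (there `η` has a minimum) and where `w ∉ Ioo t₁ t₂` (by `hZ0`), so
`om χ v = om χ w`.  `om (η Z η') w = 0` by `hZw`, and `η ξ = ξ`.  Let `F` grow (`Sq.tail`). -/
theorem null_one {v Z : ℂ → ℝ} {σ' sZ : D.End → ℝ} {ε : ℝ} (X : Ctx S w σ R) (hσ : Cost σ')
    (hv : D.Fn v) (hvw : ∀ z ∈ D.G, z ∈ U → w z ∈ Ioo R.t₁ R.t₂ → gr v z = gr w z)
    (had : ∀ χ s, In S χ s → D.Le χ 1 → D.Supp χ U → |D.om χ v| ≤ ip σ' s + ε)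
    (hη : D.Cut η u) (hU : D.Supp η U) (hξ : In S ξ r) (h01 : ∀ z, ξ z ∈ Icc (0 : ℝ) 1)
    (hs : D.Supp ξ {z | η z = 1}) (hZ : In S Z sZ) (hZ1 : D.Le Z 1)
    (hZ0 : ∀ z ∈ D.G, w z ∉ Ioo R.t₁ R.t₂ → ∀ᶠ z' in 𝓝 z, Z z' = 0)
    (hZw : ∀ η' u', D.Wd η' u' → D.om (fun z => Z z * η' z) w = 0) :
    |D.om (fun z => Z z * ξ z) w| ≤ 5 * (nl σ' * nl r) + 3 * ε := by
  have hw : D.Fn w := X.reg.fn
  have bξ : D.Le ξ 1 := fun z _ => abs_le.2 ⟨by linarith [(h01 z).1], (h01 z).2⟩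
  have bη : D.Bd η := ⟨1, fun z _ => abs_le.2 ⟨by linarith [(hη.mem z).1], (hη.mem z).2⟩⟩
  have hζ := (hZ.cmul (1 / 2)).add_wd X.str (wd_const D (1 / 2))
  have h1 : ∀ F : Finset D.End, |D.om (fun z => Z z * ξ z) w| ≤
      5 * (nl σ' * nl r) + 3 * (nl σ' * nl (pw F (fun _ => 0) sZ)) + 3 * ε := fun F => by
    obtain ⟨η', u', hη', bη', -, hin⟩ := sub_const X.str hξ bξ hζ (fun z hz =>
      ⟨by linarith [(abs_le.1 (hZ1 z hz)).1], by linarith [(abs_le.1 (hZ1 z hz)).2]⟩) F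
      (fun _ => univ) (fun _ _ => univ_mem) one_pos
    have c1 : Cost (pw F (fun _ => 0) sZ) := hZ.co.pw F fun _ _ => le_rfl
    have c2 : Cost fun y => 5 / 3 * r y + pw F (fun _ => 0) sZ y :=
      (hξ.co.cmul (by norm_num)).add c1
    have h2 := (hin.cmul 2).sub (hξ.add_wd X.str (hη'.cmul (-1))) X.str
    have h3 : In S (fun z => 1 / 3 * (η z * (Z z * (ξ z - η' z))))
        fun y => 5 / 3 * r y + pw F (fun _ => 0) sZ y := by
      refine (((h2.cut X.str hη).cmul (1 / 3)).congr fun z _ => by ring).mono X.str c2 fun y => ?_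
      have a1 := hξ.co.1 y
      have a2 := hZ.co.1 y
      rw [abs_of_pos (by norm_num : (0 : ℝ) < 1 / 3), abs_of_pos (by norm_num : (0 : ℝ) < 2),
        abs_of_pos (by norm_num : (0 : ℝ) < 1 / 2)]
      unfold pw
      rcases hη.val y with h | h <;> rw [h] <;> split_ifs <;> linarith
    have bX : ∀ z ∈ D.G, |Z z * (ξ z - η' z)| ≤ 3 := fun z hz => by
      rw [abs_mul]
      have a1 := (abs_sub _ _).trans (add_le_add (bξ z hz) (bη' z hz))
      nlinarith [hZ1 z hz, abs_nonneg (Z z), abs_nonneg (ξ z - η' z)]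
    have fX : D.Fn fun z => Z z * (ξ z - η' z) :=
      hZ.fn.mul (hξ.fn.sub hη'.fn) ⟨_, hZ1⟩ (Dom.Bd.sub ⟨_, bξ⟩ ⟨_, bη'⟩)
    have h4 := had _ _ h3 (fun z hz => by
      rw [abs_mul, abs_mul, abs_of_pos (by norm_num : (0 : ℝ) < 1 / 3),
        abs_of_nonneg (hη.mem z).1]
      nlinarith [bX z hz, (hη.mem z).1, (hη.mem z).2, abs_nonneg (Z z * (ξ z - η' z))])
      fun z hz h => by simp only [hU z hz h, zero_mul, mul_zero]
    have h5 : D.om (fun z => 1 / 3 * (η z * (Z z * (ξ z - η' z)))) v =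
        D.om (fun z => 1 / 3 * (η z * (Z z * (ξ z - η' z)))) w := by
      refine setIntegral_congr_fun (G_meas D) fun z hz => ?_
      by_cases a : z ∈ U ∧ w z ∈ Ioo R.t₁ R.t₂
      · simp only [hvw z hz a.1 a.2]
      have a0 : gr (fun z => 1 / 3 * (η z * (Z z * (ξ z - η' z)))) z = 0 := by
        rcases not_and_or.1 a with a | a
        · have a1 := hU z hz a
          have a2 : IsLocalMin η z := Eventually.of_forall fun x => a1 ▸ (hη.mem x).1
          have a3 : gr η z = 0 := by simp [gr, a2.fderiv_eq_zero, Complex.ext_iff]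
          rw [gr_cmul _ ((fX.wmul hη.wd bη).diffAt hz),
            gr_mul (hη.wd.fn.diffAt hz) (fX.diffAt hz), a1, a3]
          simp
        · rw [← gr_const 0 z]
          refine gr_congr ?_
          filter_upwards [hZ0 z hz a] with x hx
          simp [hx]
      simp only [a0, wd, zero_re, zero_im, zero_mul]
    have f1 : D.Fn fun z => Z z * ξ z := hZ.fn.mul hξ.fn ⟨_, hZ1⟩ ⟨_, bξ⟩
    have f2 : D.Fn fun z => Z z * (η z * η' z) :=
      hZ.fn.mul (hη.wd.mul hη').fn ⟨_, hZ1⟩ (bη.mul ⟨_, bη'⟩)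
    have h6 : D.om (fun z => 1 / 3 * (η z * (Z z * (ξ z - η' z)))) w =
        1 / 3 * D.om (fun z => Z z * ξ z) w := by
      rw [← sub_zero (D.om (fun z => Z z * ξ z) w), ← hZw _ _ (hη.wd.mul hη'), ← om_sub f1 f2 hw,
        ← om_cmul (f1.sub f2)]
      refine om_congr (fun z hz => ?_) fun _ _ => rfl
      by_cases a : η z = 1
      · simp only [a]
        ring
      · simp only [hs z hz a]
        ring
    rw [h5, h6, abs_mul, abs_of_pos (by norm_num : (0 : ℝ) < 1 / 3), ip_comm,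
      ip_add (hξ.co.2.cmul _) c1.2 hσ.2, ip_cmul] at h4
    have b1 := (le_abs_self _).trans (abs_ip_le hξ.co.2 hσ.2)
    have b2 := (le_abs_self _).trans (abs_ip_le c1.2 hσ.2)
    linarith
  refine le_of_forall_pos_le_add fun δ hδ => ?_
  have h0 := nl_nonneg σ'
  obtain ⟨F, hF⟩ := hZ.co.2.tail (show 0 < δ / (3 * (nl σ' + 1)) by positivity)
  have h2 := hF F subset_rfl
  rw [le_div_iff₀ (by positivity)] at h2
  nlinarith [h1 F, nl_nonneg (pw F (fun _ => 0) sZ)]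

end Vale.P116D
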