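import Vale.Agent.P116D.K13
import Vale.Agent.P116D.GB1
import Vale.Agent.P116D.GD1

/-!
GD2: certificates pair to almost zero with the cycles (G4 of PROOF69).
-/

namespace Vale.P116D

open Set Filter Topology MeasureTheory Complex
open scoped ContDiff

variable {D : Dom} {S : Gens D} {φ ψ χ η ξ g w : ℂ → ℝ} {s σ r u : D.End → ℝ} {y : D.End}
  {U : Set ℂ} {z : ℂ} {R : Rect} {l : ℝ → ℝ}

theorem gd2_comp {T : ℝ → ℝ} (h : D.Wd η u) (hT : ContDiff ℝ ∞ T) :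
    D.Wd (fun z => T (η z)) fun y => T (u y) := by
  obtain ⟨C, hC, hG, h0⟩ := h.cs
  refine ⟨hT.comp h.sm, ⟨C, hC, hG, fun z hz => ?_⟩, fun y => (h.ev y).mono fun z hz => by
    simp only [hz]⟩
  have h1 := ((hT.differentiable (by simp)) (η z)).hasFDerivAt.comp z
    ((h.sm.differentiable (by simp)) z).hasFDerivAt
  rw [h0 z hz] at h1
  have h2 : fderiv ℝ (T ∘ η) z = _ := h1.fderiv
  exact h2.trans (by simp)

theorem gd2_bd (h : D.Wd η u) : D.Bd η := let ⟨M, hM, _⟩ := h.bd; ⟨M, hM⟩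

theorem gd2_zero {ζ M : ℕ → ℂ → ℝ} {m : ℂ → ℝ} (h : Apx S w R l ζ M m) (hw : D.Fn w) (hl : Lam R l)
    (n : ℕ) (hz : z ∈ D.G) (h0 : w z ∉ Ioo R.t₁ R.t₂) : ∀ᶠ z' in 𝓝 z, ζ n z' = 0 := by
  obtain ⟨a, b, ha, hb, hl⟩ := hl
  have h1 : w z ∈ (Icc a b)ᶜ := fun h => h0 ⟨ha.trans_le h.1, h.2.trans_lt hb⟩
  have h2 := (hw.diffAt hz).continuousAt.eventually (isClosed_Icc.isOpen_compl.mem_nhds h1)
  filter_upwards [h2, (G_open D).mem_nhds hz] with z' h3 h4
  obtain ⟨θ, -, e⟩ := h.zle n z' h4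
  have h5 : l (w z') = 0 := by_contra fun h6 => h3 (hl.2 _ h6)
  rw [e, h5, mul_zero]

/-- Replace `E i` by `± T ∘ E i` with a clamp `T` (identity on `[-1, 1]`, values in `[-2, 2]`,
`Ctx.ev`), so that the terms are nonnegative.  Take `apx_ex` for each `f i`,
`Z = (2 L)⁻¹ ∑ ζ i n * E i`; `Apx.om_eq`, `Apx.tend`, `om_wd`, `null_one`. -/
theorem null_of {v : ℂ → ℝ} {σ' : D.End → ℝ} {ε : ℝ} (X : Ctx S w σ R) (hσ : Cost σ')
    (hv : D.Fn v) (hvw : ∀ z ∈ D.G, z ∈ U → w z ∈ Ioo R.t₁ R.t₂ → gr v z = gr w z)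
    (had : ∀ χ s, In S χ s → D.Le χ 1 → D.Supp χ U → |D.om χ v| ≤ ip σ' s + ε)
    (hη : D.Cut η u) (hU : D.Supp η U) (hξ : In S ξ r) (h01 : ∀ z, ξ z ∈ Icc (0 : ℝ) 1)
    (hs : D.Supp ξ {z | η z = 1}) : Null D w R ξ (10 * (nl σ' * nl r) + 6 * ε) := by
  intro n f E a L hL hf hfL
  have hw : D.Fn w := X.reg.fn
  have bξ : D.Bd ξ := ⟨1, fun z _ => abs_le.2 ⟨by linarith [(h01 z).1], (h01 z).2⟩⟩
  obtain ⟨T, hT, -, hT1, hT2, -⟩ := clamp_ex (a := -1) (b := 1) (δ := 1) (by norm_num) one_pos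
  choose ζ M m hA using fun i => apx_ex X.str X.mem X.reg X.box (hf i).1
  obtain ⟨x, hx⟩ : ∃ x : Fin n → ℝ, x = fun i => omB D w R (f i) fun z => E i z * ξ z := ⟨_, rfl⟩
  obtain ⟨e, he⟩ : ∃ e : Fin n → ℝ, e = fun i => if 0 ≤ x i then 1 else -1 := ⟨_, rfl⟩
  have he1 : ∀ i, |e i| = 1 := fun i => by
    simp only [he]
    split_ifs <;> simp
  have he2 : ∀ i, e i * x i = |x i| := fun i => by
    simp only [he]
    split_ifs with h
    · rw [one_mul, abs_of_nonneg h]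
    · rw [abs_of_neg (not_le.1 h), neg_one_mul]
  have hE : ∀ i, D.Wd (fun z => e i * T (E i z)) fun y => e i * T (a i y) := fun i =>
    (gd2_comp (hf i).2.1 hT).cmul (e i)
  have hE2 : ∀ i z, |e i * T (E i z)| ≤ 2 := fun i z => by
    rw [abs_mul, he1, one_mul]
    exact abs_le.2 ⟨by linarith [(hT2 (E i z)).1], by linarith [(hT2 (E i z)).2]⟩
  have hF : ∀ i χ, D.Fn χ → D.Fn fun z => e i * T (E i z) * χ z := fun i χ h =>
    h.wmul (hE i) (gd2_bd (hE i))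
  have key : ∀ k χ, D.Fn χ → D.Bd χ →
      D.om (fun z => ((2 * L)⁻¹ * ∑ i, e i * T (E i z) * ζ i k z) * χ z) w =
        (2 * L)⁻¹ * ∑ i, D.om (fun z => e i * T (E i z) * χ z) (M i k) := fun k χ h b => by
    have h1 : ∀ i ∈ Finset.univ, D.Fn fun z => ζ i k z * (e i * T (E i z) * χ z) := fun i _ => by
      obtain ⟨s, hs⟩ := (hA i).zin k
      exact hs.1.fn.mul (hF i χ h) hs.2 ((gd2_bd (hE i)).mul b)
    rw [Finset.sum_congr rfl fun i _ => (hA i).om_eqw (hF i χ h) k, ← om_sum _ h1 hw,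
      ← om_cmul (Dom.Fn.sum _ h1)]
    congr 1
    funext z
    rw [mul_assoc, Finset.sum_mul]
    congr 1
    exact Finset.sum_congr rfl fun i _ => by ring
  have hb : ∀ k, |(2 * L)⁻¹ * ∑ i, D.om (fun z => e i * T (E i z) * ξ z) (M i k)| ≤
      5 * (nl σ' * nl r) + 3 * ε := fun k => by
    rw [← key k ξ hξ.fn bξ]
    choose s hs using fun i => (hA i).zin k
    refine null_one X hσ hv hvw had hη hU hξ h01 ‹_›
      ((in_sum Finset.univ X.str fun i _ => (hs i).1.wmul X.str (hE i)).cmul (2 * L)⁻¹)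
      (fun z hz => ?_) (fun z hz h0 => ?_) fun η' u' h' => ?_
    · have h1 : ∀ i ∈ Finset.univ, |e i * T (E i z) * ζ i k z| ≤ 2 * |f i (w z)| := fun i _ => by
        obtain ⟨θ, hθ, e1⟩ := (hA i).zle k z hz
        rw [abs_mul, e1, abs_mul θ, abs_of_nonneg hθ.1]
        exact mul_le_mul (hE2 i z) (mul_le_of_le_one_left (abs_nonneg _) hθ.2)
          (mul_nonneg hθ.1 (abs_nonneg _)) (by norm_num)
      have h2 := (Finset.abs_sum_le_sum_abs _ _).trans (Finset.sum_le_sum h1)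
      rw [← Finset.mul_sum] at h2
      rw [abs_mul, abs_of_pos (by positivity), inv_mul_le_iff₀ (by positivity)]
      linarith [hfL (w z)]
    · have h1 := eventually_all.2 fun i => gd2_zero (hA i) hw (hf i).1 k hz h0
      filter_upwards [h1] with z' h2
      simp [h2]
    · rw [key k η' h'.fn (gd2_bd h'), Finset.sum_eq_zero, mul_zero]
      intro i _
      obtain ⟨_, hs⟩ := (hA i).inM k
      exact om_wd ((hE i).mul h') (In.fn ‹_›)
  have hl : Tendsto (fun k => |(2 * L)⁻¹ * ∑ i, D.om (fun z => e i * T (E i z) * ξ z) (M i k)|)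
      atTop (𝓝 |(2 * L)⁻¹ * ∑ i, omB D w R (f i) fun z => e i * T (E i z) * ξ z|) :=
    ((tendsto_finsetSum _ fun i _ => (hA i).tend hw (hf i).1 (hF i ξ hξ.fn)).const_mul _).abs
  have h1 := le_of_tendsto' hl hb
  have h2 : ∀ i ∈ Finset.univ, (omB D w R (f i) fun z => e i * T (E i z) * ξ z) = |x i| :=
    fun i _ => by
    have b1 : D.Fn fun z => E i z * ξ z := hξ.fn.wmul (hf i).2.1 (gd2_bd (hf i).2.1)
    rw [← he2, hx, ← omB_cmul hw b1]
    refine X.ev (hf i).1 (hF i ξ hξ.fn) (b1.cmul _) fun y => ?_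
    filter_upwards [(hf i).2.1.ev y] with z hz
    rw [hz, hT1 _ (abs_le.1 ((hf i).2.2 y)), mul_assoc]
  rw [Finset.sum_congr rfl h2, abs_mul, abs_of_pos (by positivity),
    inv_mul_le_iff₀ (by positivity)] at h1
  have h3 := (le_abs_self _).trans h1
  simp only [hx] at h3
  linarith

end Vale.P116D
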