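import Vale.Agent.P116D.GB1
import Vale.Agent.P116D.GA

/-!
GE: the estimate at one level (G5 of PROOF69).
-/

namespace Vale.P116D

open Set Filter Topology MeasureTheory Complex
open scoped ContDiff

variable {D : Dom} {S : Gens D} {φ ψ χ η ξ g w : ℂ → ℝ} {s σ r u : D.End → ℝ} {y : D.End}
  {U : Set ℂ} {z : ℂ} {R : Rect} {l : ℝ → ℝ}

variable {F : Finset D.End} {W : D.End → Set ℂ} {C : Set ℂ} {t : ℝ} {n : ℕ} {p₀ : ℂ}
  {Y : Fin n → Set ℂ} {P Q : Fin n → ℂ} {e : Fin n → ℂ → ℝ} {v : Fin n → D.End → ℝ}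

theorem ge_er (w : ℂ → ℝ) (A : Set ℂ) (l : ℝ → ℝ) (ψ : ℂ → ℝ) : 0 ≤ er w A l ψ :=
  integral_nonneg fun _ => abs_nonneg _

theorem ge_tri {x c p E : ℝ} (h : |x - c * p| ≤ E) : |x| ≤ |c| * |p| + E ∧ |c| * |p| ≤ |x| + E := by
  rw [← abs_mul]
  constructor
  · linarith [abs_sub_abs_le_abs_sub x (c * p)]
  · linarith [abs_sub_abs_le_abs_sub (c * p) x, abs_sub_comm x (c * p)]

theorem ge_delta {m : ℕ} {d : ℝ} {c : Fin m → ℝ} (hd : 0 < d) (hc : ∀ k, 0 < c k) :
    ∃ δ > 0, δ ≤ d ∧ ∀ k, δ ≤ c k := by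
  obtain ⟨δ, ⟨h1, h2⟩, h3⟩ := (((P116A.ev_le hd).and
    (eventually_all.2 fun k => P116A.ev_le (hc k))).and self_mem_nhdsWithin).exists
  exact ⟨δ, h3, h1, h2⟩

/-- `split`.  Cells with `v i = 0` give zero (`Ctx.van`).  The other cells are off `C`.  Cells that
contain a point `y` of `F`: `flux` for `ψ` and `b y ≤ ∑ y' ∈ F, v i y' * b y'` (`b ≥ 0` on `F`
because every end is in a cell).  Remaining cells: `flux` for `ψ`, `hL`, `flux` for `f k`
backwards, and `Lin` for the cut `e i`; the sum of their values is at most one and zero on `F`. -/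
theorem Cells.loc {m : ℕ} {f : Fin m → ℂ → ℝ} {a : Fin m → D.End → ℝ} {A ε : ℝ}
    (hc : Cells D w R F W C t n p₀ Y P Q e v) (X : Ctx S w σ R) (hψ : D.Fn ψ)
    (hf : ∀ k, D.Fn (f k) ∧ Cost (a k) ∧ Lin D w R F (f k) (a k)) (hA : 0 ≤ A)
    (hL : ∀ z ∈ D.G, ∀ z' ∈ D.G, |ψ z - ψ z'| ≤ A * ∑ k, |f k z - f k z'|) (hε : 0 < ε) :
    ∃ δ > 0, ∀ l, Lam R l → (∀ x, δ ≤ |x - t| → l x = 0) → ∀ b : D.End → ℝ,
      (∀ y ∈ F, ∀ i, v i y = 1 → |∫ x, l x| * |ψ (Q i) - ψ (P i)| ≤ b y) →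
      |omB D w R l ψ| ≤ ∑ y ∈ F, b y + ip (pw F (fun _ => 0) fun y => A * ∑ k, a k y) (cl D w l) +
        er w (D.G \ C) l ψ + A * ∑ k, er w (D.G \ C) l (f k) + ε * ∫ x, |l x| := by
  classical
  have hw := X.mem.fn
  have hK : 0 < (n + 1 : ℝ) * (1 + A * m) := by positivity
  set ε1 := ε / ((n + 1 : ℝ) * (1 + A * m)) with hε1
  have h1 : 0 < ε1 := by positivity
  obtain ⟨d, hd, k0⟩ := hc.flux ψ hψ ε1 h1
  choose c hc0 k1 using fun k => hc.flux (f k) (hf k).1 ε1 h1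
  obtain ⟨δ, hδ, d1, d2⟩ := ge_delta hd hc0
  refine ⟨δ, hδ, fun l hl h0 b hb => ?_⟩
  replace k0 := fun i => ge_tri (k0 l hl (fun x hx => h0 x (d1.trans hx)) i)
  replace k1 := fun k i => ge_tri (k1 k l hl (fun x hx => h0 x ((d2 k).trans hx)) i)
  have hI : 0 ≤ ∫ x, |l x| := integral_nonneg fun _ => abs_nonneg _
  have hv := fun i => (hc.cut i).s1_mem
  have hcl := cl_cost X.reg hl
  have ha : Cost fun y => A * ∑ k, a k y := (Cost.sum _ fun k _ => (hf k).2.1).cmul hA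
  have hb0 : ∀ y ∈ F, 0 ≤ b y := by
    intro y hy
    obtain ⟨i, hi⟩ : ∃ i, v i y = 1 := by
      by_contra h
      have := hc.one y
      rw [Finset.sum_eq_zero fun i _ => ((hc.cut i).val y).resolve_right fun e => h ⟨i, e⟩] at this
      exact zero_ne_one this
    exact (mul_nonneg (abs_nonneg _) (abs_nonneg _)).trans (hb y hy i hi)
  set g : Fin n → D.End → ℝ := fun i => pw F (fun _ => 0) fun y => v i y * (A * ∑ k, a k y) with hg
  have hgc : ∀ i, Cost (g i) := fun i => (ha.bmul (hv i)).pw F fun _ _ => le_rfl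
  set Z : Fin n → Set ℂ := fun i => if ∃ y, v i y = 1 then Y i ∩ Bs D w R else ∅ with hZ
  have hZs : ∀ i, MeasurableSet (Z i) ∧ Z i ⊆ D.G \ C := by
    intro i
    by_cases h : ∃ y, v i y = 1
    · obtain ⟨y, hy⟩ := id h
      simp only [hZ, if_pos h]
      exact ⟨(hc.opn i).measurableSet.inter (bs_meas hw.contOn),
        fun z hz => ⟨hz.2.1, disjoint_left.1 (hc.off i y hy) hz.1⟩⟩
    · simp [hZ, h]
  have hZd : ∀ i j, i ≠ j → Disjoint (Z i) (Z j) := by
    have : ∀ i, Z i ⊆ Y i := fun i => by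
      simp only [hZ]; split_ifs
      exacts [inter_subset_left, empty_subset _]
    exact fun i j h => (hc.dis i j h).mono (this i) (this j)
  have hsum : ∀ χ, D.Fn χ → ∑ i, er w (Z i) l χ ≤ er w (D.G \ C) l χ := fun χ hχ =>
    er_sum Finset.univ hw hχ hl (fun i _ => hZs i) (fun i _ j _ => hZd i j) sdiff_subset
  have cell : ∀ i, |omB D w R l fun z => e i z * ψ z| ≤ ∑ y ∈ F, v i y * b y +
      ip (g i) (cl D w l) + er w (Z i) l ψ + A * ∑ k, er w (Z i) l (f k) +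
      (1 + A * m) * (ε1 * ∫ x, |l x|) := by
    intro i
    have p1 : 0 ≤ ∑ y ∈ F, v i y * b y :=
      Finset.sum_nonneg fun y hy => mul_nonneg (hv i y).1 (hb0 y hy)
    have p2 : 0 ≤ ip (g i) (cl D w l) := ip_nonneg (hgc i).1 hcl.1
    have p3 := ge_er w (Z i) l ψ
    have p4 : 0 ≤ A * ∑ k, er w (Z i) l (f k) :=
      mul_nonneg hA (Finset.sum_nonneg fun k _ => ge_er _ _ _ _)
    have p5 : 0 ≤ ε1 * ∫ x, |l x| := mul_nonneg h1.le hI
    have p6 : 0 ≤ A * m * (ε1 * ∫ x, |l x|) := by positivity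
    by_cases h : ∃ y, v i y = 1
    swap
    · rw [X.van hl (hψ.wmul (hc.cut i).wd (hc.cut i).s1_bd) fun y => ?_, abs_zero]
      · linarith
      · filter_upwards [(hc.cut i).wd.ev y] with z hz
        rw [hz, ((hc.cut i).val y).resolve_right fun e => h ⟨y, e⟩, zero_mul]
    have eZ : Z i = Y i ∩ Bs D w R := if_pos h
    have q0 : |omB D w R l fun z => e i z * ψ z| ≤ |∫ x, l x| * |ψ (Q i) - ψ (P i)| +
        (er w (Z i) l ψ + ε1 * ∫ x, |l x|) := eZ ▸ (k0 i).1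
    by_cases h' : ∃ y ∈ F, v i y = 1
    · obtain ⟨y, hy, e1⟩ := h'
      have := Finset.single_le_sum (f := fun y => v i y * b y)
        (fun y hy => mul_nonneg (hv i y).1 (hb0 y hy)) hy
      simp only [e1, one_mul] at this
      linarith [hb y hy i e1]
    have z0 : ∀ y ∈ F, v i y = 0 := fun y hy =>
      ((hc.cut i).val y).resolve_right fun e => h' ⟨y, hy, e⟩
    have q1 : ∀ k, |∫ x, l x| * |f k (Q i) - f k (P i)| ≤ ip (fun y => v i y * a k y) (cl D w l) +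
        (er w (Z i) l (f k) + ε1 * ∫ x, |l x|) := fun k => by
      have := (hf k).2.2 (e i) (v i) (hc.cut i).wd z0 l hl
      simp only [(hc.cut i).s1_abs] at this
      have q : |∫ x, l x| * |f k (Q i) - f k (P i)| ≤ |omB D w R l fun z => e i z * f k z| +
        (er w (Z i) l (f k) + ε1 * ∫ x, |l x|) := eZ ▸ (k1 k i).2
      linarith
    have q2 : ip (g i) (cl D w l) = A * ∑ k, ip (fun y => v i y * a k y) (cl D w l) := by
      rw [← ip_sum _ (fun k _ => ((hf k).2.1.bmul (hv i)).2) hcl.2, ← ip_cmul]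
      congr 1
      funext y
      simp only [hg, pw]
      split_ifs with hy
      · simp [z0 y hy]
      · rw [← Finset.mul_sum]; ring
    have q3 := Finset.sum_le_sum fun k (_ : k ∈ Finset.univ) => q1 k
    simp only [Finset.sum_add_distrib, ← Finset.mul_sum, Finset.sum_const, Finset.card_univ,
      Fintype.card_fin, nsmul_eq_mul] at q3
    have q4 := mul_le_mul_of_nonneg_left q3 hA
    have q5 := mul_le_mul_of_nonneg_left (hL _ (hc.memQ i) _ (hc.memP i)) (abs_nonneg (∫ x, l x))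
    rw [q2]
    nlinarith
  rw [hc.split ψ hψ l hl]
  refine (Finset.abs_sum_le_sum_abs _ _).trans ((Finset.sum_le_sum fun i _ => cell i).trans ?_)
  have s1 : ∑ i, ∑ y ∈ F, v i y * b y = ∑ y ∈ F, b y := by
    rw [Finset.sum_comm]
    exact Finset.sum_congr rfl fun y _ => by rw [← Finset.sum_mul, hc.one, one_mul]
  have s2 : ∑ i, ip (g i) (cl D w l) =
      ip (pw F (fun _ => 0) fun y => A * ∑ k, a k y) (cl D w l) := by
    rw [← ip_sum _ (fun i _ => (hgc i).2) hcl.2]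
    congr 1
    funext y
    simp only [hg, pw]
    split_ifs with hy
    · simp
    · rw [← Finset.sum_mul, hc.one, one_mul]
  have s3 : ∑ i, A * ∑ k, er w (Z i) l (f k) ≤ A * ∑ k, er w (D.G \ C) l (f k) := by
    rw [← Finset.mul_sum, Finset.sum_comm]
    exact mul_le_mul_of_nonneg_left (Finset.sum_le_sum fun k _ => hsum _ (hf k).1) hA
  have s4 : (n : ℝ) * ((1 + A * m) * (ε1 * ∫ x, |l x|)) ≤ ε * ∫ x, |l x| := by
    have e : (n + 1 : ℝ) * (1 + A * m) * ε1 = ε := mul_div_cancel₀ _ hK.ne'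
    have p : 0 ≤ (1 + A * m) * (ε1 * ∫ x, |l x|) := by positivity
    rw [← e]
    nlinarith
  simp only [Finset.sum_add_distrib, s1, s2, Finset.sum_const, Finset.card_univ, Fintype.card_fin,
    nsmul_eq_mul]
  linarith [hsum ψ hψ]

end Vale.P116D
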