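import Vale.Agent.P116D.GA

/-!
GE1: telescoping at one level (G4 of PROOF69).
-/

namespace Vale.P116D

open Set Filter Topology MeasureTheory Complex
open scoped ContDiff

variable {D : Dom} {S : Gens D} {φ ψ χ η ξ g w : ℂ → ℝ} {s σ r u : D.End → ℝ} {y : D.End}
  {U : Set ℂ} {z : ℂ} {R : Rect} {l : ℝ → ℝ}

variable {F : Finset D.End} {W : D.End → Set ℂ} {C : Set ℂ} {t : ℝ} {n : ℕ} {p₀ : ℂ}
  {Y : Fin n → Set ℂ} {P Q : Fin n → ℂ} {e : Fin n → ℂ → ℝ} {v : Fin n → D.End → ℝ}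

/-- `tele` with `f = ξ`, `flux` with `ε / (n + 1)`; `E = ∑ j, c j * e j` with `c j = ±1` the sign of
`(∫ l) * (ξ (Q j) - ξ (P j))`; `omB_sum`, `er_sum` -/
theorem Cells.tele_loc (hc : Cells D w R F W C t n p₀ Y P Q e v) (hw : D.Fn w) (hξ : D.Fn ξ)
    (h0 : ∀ z ∈ R.set, ξ z = 0) {ε : ℝ} (hε : 0 < ε) :
    ∃ δ > 0, ∀ l, Lam R l → (∀ x, δ ≤ |x - t| → l x = 0) → ∃ E u, D.Wd E u ∧ (∀ y, |u y| ≤ 1) ∧
      ∀ i, P i ≠ Q i → |∫ x, l x| * (|ξ (P i)| + |ξ (Q i)|) ≤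
        2 * (|omB D w R l fun z => E z * ξ z| + er w D.G l ξ + ε * ∫ x, |l x|) := by
  have hK : 0 < (n + 1 : ℝ) := by positivity
  obtain ⟨δ, hδ, k⟩ := hc.flux ξ hξ (ε / (n + 1)) (by positivity)
  refine ⟨δ, hδ, fun l hl hl0 => ?_⟩
  replace k := k l hl hl0
  have hI : 0 ≤ ∫ x, |l x| := integral_nonneg fun _ => abs_nonneg _
  have hs : ∀ x : ℝ, ∃ c : ℝ, |c| = 1 ∧ c * x = |x| := fun x => by
    rcases le_total 0 x with h | h
    · exact ⟨1, abs_one, by rw [abs_of_nonneg h, one_mul]⟩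
    · exact ⟨-1, by simp, by rw [abs_of_nonpos h, neg_one_mul]⟩
  choose c c1 c2 using fun j => hs ((∫ x, l x) * (ξ (Q j) - ξ (P j)))
  have hv : ∀ j y, 0 ≤ v j y := fun j y => by rcases (hc.cut j).val y with h | h <;> simp [h]
  have hf : ∀ j, D.Fn fun z => e j z * ξ z := fun j => hξ.wmul (hc.cut j).wd
    ⟨1, fun z _ => abs_le.2 ⟨by linarith [((hc.cut j).mem z).1], ((hc.cut j).mem z).2⟩⟩
  refine ⟨fun z => ∑ j, c j * e j z, fun y => ∑ j, c j * v j y,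
    wd_sum _ fun j _ => (hc.cut j).wd.cmul (c j), fun y => ?_, fun i hi => ?_⟩
  · refine (Finset.abs_sum_le_sum_abs _ _).trans (le_of_eq ?_)
    rw [← hc.one y]
    exact Finset.sum_congr rfl fun j _ => by rw [abs_mul, c1, one_mul, abs_of_nonneg (hv j y)]
  have e1 : omB D w R l (fun z => (∑ j, c j * e j z) * ξ z) =
      ∑ j, c j * omB D w R l fun z => e j z * ξ z := by
    simp only [Finset.sum_mul, mul_assoc]
    rw [omB_sum _ hw hl fun j _ => (hf j).cmul (c j)]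
    exact Finset.sum_congr rfl fun j _ => omB_cmul hw (hf j) _
  have e2 : ∀ j, |∫ x, l x| * |ξ (Q j) - ξ (P j)| ≤ c j * (omB D w R l fun z => e j z * ξ z) +
      (er w (Y j ∩ Bs D w R) l ξ + ε / (n + 1) * ∫ x, |l x|) := fun j => by
    have q : |c j * ((omB D w R l fun z => e j z * ξ z) - (∫ x, l x) * (ξ (Q j) - ξ (P j)))| ≤
        er w (Y j ∩ Bs D w R) l ξ + ε / (n + 1) * ∫ x, |l x| := by
      rw [abs_mul, c1, one_mul]; exact k j
    rw [mul_sub, c2, abs_mul] at q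
    linarith [(abs_le.1 q).1]
  have e3 := Finset.sum_le_sum fun j (_ : j ∈ Finset.univ) => e2 j
  have e4 : ∑ j, er w (Y j ∩ Bs D w R) l ξ ≤ er w D.G l ξ :=
    er_sum Finset.univ hw hξ hl (fun j _ => ⟨(hc.opn j).measurableSet.inter (bs_meas hw.contOn),
      fun z hz => hz.2.1⟩) (fun j _ j' _ h => (hc.dis j j' h).mono inter_subset_left
        inter_subset_left) Subset.rfl
  have e5 : (n : ℝ) * (ε / (n + 1) * ∫ x, |l x|) ≤ ε * ∫ x, |l x| := by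
    have e : (n + 1 : ℝ) * (ε / (n + 1)) = ε := mul_div_cancel₀ _ hK.ne'
    have p : 0 ≤ ε / (n + 1) * ∫ x, |l x| := by positivity
    nth_rewrite 2 [← e]
    nlinarith
  simp only [Finset.sum_add_distrib, ← Finset.mul_sum, ← e1, Finset.sum_const, Finset.card_univ,
    Fintype.card_fin, nsmul_eq_mul] at e3
  obtain ⟨t1, t2⟩ := hc.tele i hi ξ
  rw [h0 _ hc.anc, sub_zero] at t1 t2
  have t3 : ∑ j ∈ Finset.univ.erase i, |ξ (Q j) - ξ (P j)| ≤ ∑ j, |ξ (Q j) - ξ (P j)| :=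
    Finset.sum_le_sum_of_subset_of_nonneg (Finset.erase_subset _ _) fun _ _ _ => abs_nonneg _
  have t4 := mul_le_mul_of_nonneg_left (add_le_add (t1.trans t3) (t2.trans t3))
    (abs_nonneg (∫ x, l x))
  linarith [le_abs_self (omB D w R l fun z => (∑ j, c j * e j z) * ξ z)]

end Vale.P116D
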