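import Vale.Agent.P116D.GA

/-!
GF2: the total of the local bounds.
-/

namespace Vale.P116D

open Set Filter Topology MeasureTheory Complex
open scoped ContDiff

variable {D : Dom} {S : Gens D} {φ ψ χ η ξ g w : ℂ → ℝ} {s σ r u : D.End → ℝ} {y : D.End}
  {U : Set ℂ} {z : ℂ} {R : Rect} {l : ℝ → ℝ}

variable {F : Finset D.End} {m : ℕ} {f : Fin m → ℂ → ℝ} {a : Fin m → D.End → ℝ} {A : ℝ}
  {ρ : D.End → ℝ}

/-- term by term: `tot_int`, `int_near`, `Sm.null`, `tot_er`, `int_mul_le`, `tot_ip` -/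
theorem cb_tot {C : Set ℂ} {ε L : ℝ} (X : Ctx S w σ R) (hl : Lam R l) (hL : 0 < L)
    (hlL : ∀ t, |l t| ≤ L) (hψ : D.Fn ψ) (hf : ∀ k, D.Fn (f k) ∧ Cost (a k)) (hA : 0 ≤ A)
    (hε : 0 < ε) (hρ : ∀ y ∈ F, 0 ≤ ρ y) (hξ : Sm D w R ξ ε) (hC : IsCompact C)
    (h1 : ∫ z in D.G \ C, |wd (gr ψ z) (gr w z)| ≤ ε)
    (h2 : ∀ k, ∫ z in D.G \ C, |wd (gr (f k) z) (gr w z)| ≤ ε) {n : ℕ} {q : Fin n → ℝ → ℝ}
    {E : Fin n → ℂ → ℝ} {v : Fin n → D.End → ℝ}
    (hq : ∀ i, Lam R (q i) ∧ D.Wd (E i) (v i) ∧ ∀ y, |v i y| ≤ 1) (e : ∀ t, ∑ i, |q i t| ≤ |l t|) :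
    ∑ i, cb D w R F C ψ f a A ρ ξ ε (q i) (E i) ≤
      ∑ y ∈ F, (ρ y + ε) * (cl D w l y + 4 * ε * L) +
        F.card * (2 * (L * ε + L * (ε * D.nr w) + ε * ∫ x, |l x|)) +
        ip (pw F (fun _ => 0) fun y => A * ∑ k, a k y) (cl D w l) + L * ε + A * (m * (L * ε)) +
        ε * ∫ x, |l x| := by
  have hw : D.Fn w := X.reg.fn
  have hli : Integrable l := hl.integrable
  have hqi : ∀ i, Integrable (q i) := fun i => (hq i).1.integrable
  have hqL : ∀ i, Lam R (q i) := fun i => (hq i).1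
  have eL : ∀ t, ∑ i, |q i t| ≤ L := fun t => (e t).trans (hlL t)
  have hGC : MeasurableSet (D.G \ C) := (G_meas D).diff hC.measurableSet
  have t0 : ∑ i, (∫ x, |q i x|) ≤ ∫ x, |l x| := by
    simpa only [Measure.restrict_univ] using tot_int hli hqi e univ
  have t1 : ∑ i, ∑ y ∈ F, (ρ y + ε) *
      (∫ x in Icc (D.lo y w - 2 * ε) (D.hi y w + 2 * ε), |q i x|) ≤
      ∑ y ∈ F, (ρ y + ε) * (cl D w l y + 4 * ε * L) := by
    rw [Finset.sum_comm]
    refine Finset.sum_le_sum fun y hy => ?_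
    rw [← Finset.mul_sum]
    refine mul_le_mul_of_nonneg_left ?_ (by linarith [hρ y hy])
    refine (tot_int hli hqi e _).trans ?_
    refine (int_near hli hlL (lo_le_hi X.reg.bd y) (by linarith)).trans (le_of_eq ?_)
    unfold cl
    ring
  have t2 : ∑ i, |omB D w R (q i) fun z => E i z * ξ z| ≤ L * ε := hξ.null n q E v L hL hq eL
  have t3 : ∑ i, er w D.G (q i) ξ ≤ L * (ε * D.nr w) := by
    refine (tot_er hw hξ.fn hqL eL (G_meas D) subset_rfl).trans ?_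
    refine mul_le_mul_of_nonneg_left ?_ hL.le
    refine le_trans ?_ ((int_mul_le hξ.fn hw).trans
      (mul_le_mul_of_nonneg_right hξ.nr (nr_nonneg D w)))
    exact integral_mono (int_wd hξ.fn hw).abs (int_mul hξ.fn hw) fun z => abs_wd_le _ _
  have t4 : ∑ i, ip (pw F (fun _ => 0) fun y => A * ∑ k, a k y) (cl D w (q i)) ≤
      ip (pw F (fun _ => 0) fun y => A * ∑ k, a k y) (cl D w l) :=
    tot_ip X.reg hl hqL e
      (((Cost.sum Finset.univ fun k _ => (hf k).2).cmul hA).pw F fun _ _ => le_rfl)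
  have t5 : ∑ i, er w (D.G \ C) (q i) ψ ≤ L * ε :=
    (tot_er hw hψ hqL eL hGC diff_subset).trans (mul_le_mul_of_nonneg_left h1 hL.le)
  have t6 : ∑ i, ∑ k, er w (D.G \ C) (q i) (f k) ≤ m * (L * ε) := by
    rw [Finset.sum_comm]
    refine (Finset.sum_le_sum fun k _ => (tot_er hw (hf k).1 hqL eL hGC diff_subset).trans
      (mul_le_mul_of_nonneg_left (h2 k) hL.le)).trans (le_of_eq ?_)
    simp
  simp only [cb, Finset.sum_add_distrib, ← Finset.mul_sum]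
  have u0 := mul_le_mul_of_nonneg_left t0 hε.le
  have u6 := mul_le_mul_of_nonneg_left t6 hA
  have hF : (0 : ℝ) ≤ F.card := Nat.cast_nonneg _
  have u2 := mul_le_mul_of_nonneg_left
    (mul_le_mul_of_nonneg_left (add_le_add (add_le_add t2 t3) u0) (zero_le_two (α := ℝ))) hF
  linarith

end Vale.P116D
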