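import Vale.Agent.P116D.GF1
import Vale.Agent.P116D.GF2

/-!
GF: the cell lemma.
-/

namespace Vale.P116D

open Set Filter Topology MeasureTheory Complex
open scoped ContDiff

variable {D : Dom} {S : Gens D} {φ ψ χ η ξ g w : ℂ → ℝ} {s σ r u : D.End → ℝ} {y : D.End}
  {U : Set ℂ} {z : ℂ} {R : Rect} {l : ℝ → ℝ}

variable {F : Finset D.End} {m : ℕ} {f : Fin m → ℂ → ℝ} {a : Fin m → D.End → ℝ} {A : ℝ}
  {ρ : D.End → ℝ}

/-- The cell lemma.  For each `ε`: `small_out` (union of the compact sets), `ev_mem`, `mlb` with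
`Ctx.stokes`, `loc_glob` with `B l' x := ∃ E u, Wd E u ∧ |u| ≤ 1 ∧ x = cb … l' E`; then `ε → 0`
(the bound is continuous in `ε`, `ge_of_tendsto` along `𝓝[>] 0`). -/
theorem cell (X : Ctx S w σ R) (hl : Lam R l) (hψ : D.Fn ψ)
    (hf : ∀ k, D.Fn (f k) ∧ Cost (a k) ∧ Lin D w R F (f k) (a k)) (hA : 0 ≤ A)
    (hL : ∀ z ∈ D.G, ∀ z' ∈ D.G, |ψ z - ψ z'| ≤ A * ∑ k, |f k z - f k z'|) (hρ : ∀ y ∈ F, 0 ≤ ρ y)
    (h : ∀ ε > 0, ∃ (ξ : ℂ → ℝ) (W : D.End → Set ℂ), Sm D w R ξ ε ∧ ∀ y ∈ F, W y ∈ D.nb y ∧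
      ∀ z ∈ W y, ∀ z' ∈ W y, |ψ z - ψ z'| ≤ ρ y + ε + |ξ z| + |ξ z'|) :
    |omB D w R l ψ| ≤ ∑ y ∈ F, ρ y * cl D w l y +
      ip (pw F (fun _ => 0) fun y => A * ∑ k, a k y) (cl D w l) := by
  have hw := X.mem.fn
  obtain ⟨L, hL0, hlL⟩ := hl.bnd
  have key : ∀ ε > 0, |omB D w R l ψ| ≤ ∑ y ∈ F, (ρ y + ε) * (cl D w l y + 4 * ε * L) +
      F.card * (2 * (L * ε + L * (ε * D.nr w) + ε * ∫ x, |l x|)) +
      ip (pw F (fun _ => 0) fun y => A * ∑ k, a k y) (cl D w l) + L * ε + A * (m * (L * ε)) +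
      ε * ∫ x, |l x| := by
    intro ε hε
    obtain ⟨ξ, W, hξ, hW⟩ := h ε hε
    obtain ⟨C0, a1, a2, a3⟩ := small_out (int_wd hψ hw) hε
    choose C b1 b2 b3 using fun k => small_out (int_wd (hf k).1 hw) hε
    have hC : IsCompact (C0 ∪ ⋃ k, C k) := a1.union (isCompact_iUnion b1)
    have mono : ∀ χ, D.Fn χ → ∀ C', C' ⊆ C0 ∪ ⋃ k, C k →
        ∫ z in D.G \ C', |wd (gr χ z) (gr w z)| ≤ ε →
        ∫ z in D.G \ (C0 ∪ ⋃ k, C k), |wd (gr χ z) (gr w z)| ≤ ε := fun χ hχ C' e h' =>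
      (setIntegral_mono_set ((int_wd hχ hw).mono_set sdiff_subset).abs
        (Eventually.of_forall fun _ => abs_nonneg _)
        (sdiff_subset_sdiff_right e).eventuallyLE).trans h'
    have hm := mlb hw X.box (fun l hl η v hη => X.stokes hl hη) F
      (W := fun y => W y ∩ {z | w z ∈ Ioo (D.lo y w - ε) (D.hi y w + ε)})
      (fun y hy => inter_mem (hW y hy).1 (ev_mem X.reg.bd y hε)) hC
      (union_subset a2 (iUnion_subset b2))
    refine loc_glob (B := fun l' x => ∃ E u, D.Wd E u ∧ (∀ y, |u y| ≤ 1) ∧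
      x = cb D w R F (C0 ∪ ⋃ k, C k) ψ f a A ρ ξ ε l' E) hw hψ hl ?_ fun n q x hq e => ?_
    · filter_upwards [hm] with t ht' ht
      obtain ⟨n, p₀, Y, P, Q, η, u, hc⟩ := ht' ht
      obtain ⟨δ, hδ, k⟩ := hc.loc2 X hψ hf hA hL hε hρ hξ.fn hξ.anc fun y hy z hz =>
        ⟨hz.2, fun z' hz' => (hW y hy).2 z hz.1 z' hz'.1⟩
      refine ⟨δ, hδ, fun l' hl' h0 => ?_⟩
      obtain ⟨E, u', k1, k2, k3⟩ := k l' hl' h0
      exact ⟨_, ⟨E, u', k1, k2, rfl⟩, k3⟩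
    · choose E v k1 k2 k3 using fun i => (hq i).2
      rw [Finset.sum_congr rfl fun i _ => k3 i]
      exact cb_tot X hl hL0 hlL hψ (fun k => ⟨(hf k).1, (hf k).2.1⟩) hA hε hρ hξ hC
        (mono ψ hψ C0 subset_union_left a3) (fun k => mono _ (hf k).1 (C k)
          ((subset_iUnion C k).trans subset_union_right) (b3 k))
        (fun i => ⟨(hq i).1, k1 i, k2 i⟩) e
  have hc : Continuous fun ε : ℝ => ∑ y ∈ F, (ρ y + ε) * (cl D w l y + 4 * ε * L) +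
      F.card * (2 * (L * ε + L * (ε * D.nr w) + ε * ∫ x, |l x|)) +
      ip (pw F (fun _ => 0) fun y => A * ∑ k, a k y) (cl D w l) + L * ε + A * (m * (L * ε)) +
      ε * ∫ x, |l x| := by fun_prop
  have := ge_of_tendsto ((hc.tendsto 0).mono_left (nhdsWithin_le_nhds (s := Ioi 0)))
    (eventually_nhdsWithin_of_forall key)
  simpa using this

end Vale.P116D
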