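import Vale.Agent.P116D.GE1
import Vale.Agent.P116D.GE

/-!
GF1: the local bound.
-/

namespace Vale.P116D

open Set Filter Topology MeasureTheory Complex
open scoped ContDiff

variable {D : Dom} {S : Gens D} {φ ψ χ η ξ g w : ℂ → ℝ} {s σ r u : D.End → ℝ} {y : D.End}
  {U : Set ℂ} {z : ℂ} {R : Rect} {l : ℝ → ℝ}

variable {F : Finset D.End} {m : ℕ} {f : Fin m → ℂ → ℝ} {a : Fin m → D.End → ℝ} {A : ℝ}
  {ρ : D.End → ℝ}

/-- `Cells.loc` with `b y = (ρ y + ε) * ∫ + 2 * (…)`, `Cells.tele_loc`, `edge`, `lev`; `δ ≤ ε`, so the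
weight is supported in the enlarged cluster interval when `P i ≠ Q i` -/
theorem Cells.loc2 {W : D.End → Set ℂ} {C : Set ℂ} {t ε : ℝ} {n : ℕ} {p₀ : ℂ} {Y : Fin n → Set ℂ}
    {P Q : Fin n → ℂ} {e : Fin n → ℂ → ℝ} {v : Fin n → D.End → ℝ}
    (hc : Cells D w R F W C t n p₀ Y P Q e v) (X : Ctx S w σ R) (hψ : D.Fn ψ)
    (hf : ∀ k, D.Fn (f k) ∧ Cost (a k) ∧ Lin D w R F (f k) (a k)) (hA : 0 ≤ A)
    (hL : ∀ z ∈ D.G, ∀ z' ∈ D.G, |ψ z - ψ z'| ≤ A * ∑ k, |f k z - f k z'|) (hε : 0 < ε)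
    (hρ : ∀ y ∈ F, 0 ≤ ρ y) (hξ : D.Fn ξ) (h0 : ∀ z ∈ R.set, ξ z = 0)
    (hW : ∀ y ∈ F, ∀ z ∈ W y, w z ∈ Ioo (D.lo y w - ε) (D.hi y w + ε) ∧
      ∀ z' ∈ W y, |ψ z - ψ z'| ≤ ρ y + ε + |ξ z| + |ξ z'|) :
    ∃ δ > 0, ∀ l, Lam R l → (∀ x, δ ≤ |x - t| → l x = 0) → ∃ E u, D.Wd E u ∧ (∀ y, |u y| ≤ 1) ∧
      |omB D w R l ψ| ≤ cb D w R F C ψ f a A ρ ξ ε l E := by
  obtain ⟨d1, hd1, k1⟩ := hc.loc X hψ hf hA hL hε
  obtain ⟨d2, hd2, k2⟩ := hc.tele_loc X.mem.fn hξ h0 hε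
  refine ⟨min ε (min d1 d2), lt_min hε (lt_min hd1 hd2), fun l hl hl0 => ?_⟩
  obtain ⟨E, u, hE, hu, k3⟩ := k2 l hl fun x hx =>
    hl0 x (((min_le_right _ _).trans (min_le_right _ _)).trans hx)
  refine ⟨E, u, hE, hu, ?_⟩
  set T := 2 * (|omB D w R l fun z => E z * ξ z| + er w D.G l ξ + ε * ∫ x, |l x|) with hT
  have hT0 : 0 ≤ T := by
    have := ge_er w D.G l ξ
    have : 0 ≤ ∫ x, |l x| := integral_nonneg fun _ => abs_nonneg _
    positivity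
  have := k1 l hl (fun x hx => hl0 x (((min_le_right _ _).trans (min_le_left _ _)).trans hx))
    (fun y => (ρ y + ε) * (∫ x in Icc (D.lo y w - 2 * ε) (D.hi y w + 2 * ε), |l x|) + T)
    fun y hy i hi => ?_
  · simpa only [cb, Finset.sum_add_distrib, Finset.sum_const, nsmul_eq_mul] using this
  have p1 : 0 ≤ ρ y + ε := by linarith [hρ y hy]
  have p2 : 0 ≤ ∫ x in Icc (D.lo y w - 2 * ε) (D.hi y w + 2 * ε), |l x| :=
    integral_nonneg fun _ => abs_nonneg _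
  by_cases e : P i = Q i
  · rw [e, sub_self, abs_zero, mul_zero]
    positivity
  obtain ⟨hP, hQ⟩ := (hc.edge i y hy hi).resolve_left e
  have q1 := (hW y hy _ hQ).2 _ hP
  have q2 := (hW y hy _ hP).1
  rw [hc.lev i e] at q2
  have q3 : |∫ x, l x| ≤ ∫ x in Icc (D.lo y w - 2 * ε) (D.hi y w + 2 * ε), |l x| := by
    rw [setIntegral_eq_integral_of_forall_compl_eq_zero fun x hx => ?_]
    · exact abs_integral_le_integral_abs
    · rw [hl0 x ((min_le_left _ _).trans ?_), abs_zero]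
      by_contra h
      have := abs_lt.1 (not_le.1 h)
      exact hx ⟨by linarith [q2.1], by linarith [q2.2]⟩
  have q4 := mul_le_mul_of_nonneg_left q1 (abs_nonneg (∫ x, l x))
  have q5 := mul_le_mul_of_nonneg_left q3 p1
  have q6 := k3 i e
  nlinarith

end Vale.P116D
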