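import Vale.Agent.P116D.GF
import Vale.Agent.P116D.GD

/-!
GG: truncation and gluing for the linear condition.
-/

namespace Vale.P116D

open Set Filter Topology MeasureTheory Complex
open scoped ContDiff

variable {D : Dom} {S : Gens D} {φ ψ χ η ξ g w : ℂ → ℝ} {s σ r u : D.End → ℝ} {y : D.End}
  {U : Set ℂ} {z : ℂ} {R : Rect} {l : ℝ → ℝ}

theorem gg_lip {T : ℝ → ℝ} (hT : ContDiff ℝ ∞ T) (h1 : ∀ x, |deriv T x| ≤ 1) (x x' : ℝ) :
    |T x - T x'| ≤ |x - x'| := by
  have := Convex.norm_image_sub_le_of_norm_deriv_le (f := T) (s := univ) (C := 1)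
    (fun x _ => hT.differentiable (by simp) x) (fun x _ => h1 x) convex_univ (mem_univ x')
    (mem_univ x)
  simpa using this

theorem gg_cost (hs : Cost s) (hη : D.Wd η u) : Cost fun y => |u y| * s y := by
  obtain ⟨M, -, hM⟩ := hη.bd
  exact hs.bmul (C := M) fun y => ⟨abs_nonneg _, hM y⟩

theorem gg_bd (hη : D.Wd η u) : D.Bd η := by
  obtain ⟨M, hM, -⟩ := hη.bd
  exact ⟨M, hM⟩

theorem Lin.wmul {F : Set D.End} (h : Lin D w R F χ s) (hη : D.Wd η u) :
    Lin D w R F (fun z => η z * χ z) fun y => |u y| * s y := by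
  intro η' v hη' hv l hl
  have := h _ _ (hη'.mul hη) (fun y hy => by rw [hv y hy, zero_mul]) l hl
  simpa only [mul_assoc, abs_mul] using this

theorem Lin.mono {F F' : Set D.End} (h : Lin D w R F χ s) (e : F ⊆ F') : Lin D w R F' χ s := by
  exact fun η v hη hv l hl => h η v hη (fun y hy => hv y (e hy)) l hl

/-- `cover` for the zero cut and `W y = {η = v y}` gives cuts `f i` with `η = ∑ v (p i) * f i` near
every end and `∑ |v (p i)| * a i y = |v y|`; `Ctx.ev`, `omB_sum`, `ip_sum` -/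
theorem lin_of_cut (X : Ctx S w σ R) (hχ : D.Fn χ) (hs : Cost s)
    (h : ∀ η u, D.Cut η u → ∀ l, Lam R l →
      |omB D w R l fun z => η z * χ z| ≤ ip (fun y => u y * s y) (cl D w l)) :
    Lin D w R ∅ χ s := by
  intro η v hη _ l hl
  have hw := X.reg.fn
  have h0 : D.Cut (fun _ => 0) fun _ => 0 :=
    ⟨wd_const D 0, fun _ => ⟨le_rfl, zero_le_one⟩, fun _ => Or.inl rfl⟩
  obtain ⟨n, p, f, a, O, h1, -, h2⟩ := cover h0 (fun y => {z | η z = v y}) fun y _ => hη.ev y
  simp only [sub_zero] at h2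
  have key : ∀ (φ : ℝ → ℝ) y, ∑ i, φ (v (p i)) * a i y = φ (v y) := fun φ y => by
    rw [← mul_one (φ (v y)), ← h2 y, Finset.mul_sum]
    refine Finset.sum_congr rfl fun i _ => ?_
    obtain ⟨-, c1, c2, c3, -⟩ := h1 i
    rcases c1.val y with e | e
    · rw [e, mul_zero, mul_zero]
    · obtain ⟨z, z1, z2⟩ := ((hη.ev y).and (c1.mem_of c2 e)).exists
      rw [← z1, show η z = v (p i) from c3 z2]
  have hf : ∀ i, D.Fn fun z => f i z * χ z := fun i =>
    hχ.wmul (h1 i).2.1.wd (h1 i).2.1.s1_bd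
  have e1 : omB D w R l (fun z => η z * χ z) =
      omB D w R l fun z => ∑ i, v (p i) * (f i z * χ z) := by
    refine X.ev hl (hχ.wmul hη (gg_bd hη)) (Dom.Fn.sum _ fun i _ => (hf i).cmul _) fun y => ?_
    filter_upwards [hη.ev y, eventually_all.2 fun i => (h1 i).2.1.wd.ev y] with z z1 z2
    simp only [z1, z2, ← mul_assoc, ← Finset.sum_mul]
    rw [key (fun x => x) y]
  have hq : ∀ i, Sq fun y => a i y * s y := fun i =>
    (hs.bmul (C := 1) fun y => (h1 i).2.1.s1_mem y).2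
  have e2 : (fun y => |v y| * s y) = fun y => ∑ i, |v (p i)| * (a i y * s y) := funext fun y => by
    simp only [← mul_assoc, ← Finset.sum_mul]
    rw [key (fun x => |x|) y]
  rw [e1, omB_sum _ hw hl fun i _ => (hf i).cmul _, e2,
    ip_sum _ (fun i _ => (hq i).cmul _) (cl_cost X.reg hl).2]
  refine (Finset.abs_sum_le_sum_abs _ _).trans (Finset.sum_le_sum fun i _ => ?_)
  rw [omB_cmul hw (hf i), ip_cmul, abs_mul]
  exact mul_le_mul_of_nonneg_left (h _ _ (h1 i).2.1 l hl) (abs_nonneg _)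

/-- `cell` with `F = ∅`, `f = ![φ]`, `A = 1`, `ξ = 0` -/
theorem trunc_one {T : ℝ → ℝ} (X : Ctx S w σ R) (hφ : D.Fn φ) (hs : Cost s) (h : Lin D w R ∅ φ s)
    (hT : ContDiff ℝ ∞ T) (h1 : ∀ x, |deriv T x| ≤ 1) (hl : Lam R l) :
    |omB D w R l fun z => T (φ z)| ≤ ip s (cl D w l) := by
  have := cell (F := ∅) (m := 1) (f := fun _ => φ) (a := fun _ => s) (A := 1) (ρ := fun _ => 0)
    X hl (hφ.comp hT fun z _ => h1 _) (fun _ => ⟨hφ, hs, h.mono (empty_subset _)⟩) zero_le_one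
    (fun z _ z' _ => by simpa using gg_lip hT h1 (φ z) (φ z')) (fun _ _ => le_rfl)
    fun ε hε => ⟨_, fun _ => univ, (sm_zero X.reg.fn).mono hε.le, fun y hy => absurd hy (by simp)⟩
  have e : (pw ∅ (fun _ => 0) fun y => 1 * ∑ _k : Fin 1, s y) = s := funext fun y => by simp [pw]
  rwa [e, Finset.sum_empty, zero_add] at this

/-- for a cut `η`: `η T φ = T (η φ) - T 0 * (1 - η)` near every end; `trunc_one` for `η φ` -/
theorem lin_trunc {T : ℝ → ℝ} (X : Ctx S w σ R) (hφ : D.Fn φ) (hs : Cost s) (h : Lin D w R ∅ φ s)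
    (hT : ContDiff ℝ ∞ T) (h1 : ∀ x, |deriv T x| ≤ 1) : Lin D w R ∅ (fun z => T (φ z)) s := by
  have hw := X.reg.fn
  have hT' : D.Fn fun z => T (φ z) := hφ.comp hT fun z _ => h1 _
  refine lin_of_cut X hT' hs fun η u hη l hl => ?_
  have f1 : D.Fn fun z => η z * φ z := hφ.wmul hη.wd hη.s1_bd
  have f2 : D.Fn fun z => T (η z * φ z) := f1.comp hT fun z _ => h1 _
  have f3 := hη.compl.wd.fn
  have e1 : omB D w R l (fun z => η z * T (φ z)) =
      omB D w R l fun z => T (η z * φ z) - T 0 * (1 - η z) := by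
    refine X.ev hl (hT'.wmul hη.wd hη.s1_bd) (f2.sub (f3.cmul _)) fun y => ?_
    filter_upwards [hη.wd.ev y] with z z1
    rcases hη.val y with e | e <;> simp [z1, e]
  rw [e1, omB_sub hw hl f2 (f3.cmul _), omB_cmul hw f3, X.stokes hl hη.compl.wd, mul_zero, sub_zero]
  have := trunc_one X f1 (gg_cost hs hη.wd) (h.wmul hη.wd) hT h1 hl
  simpa only [hη.s1_abs] using this

/-- `cell` with `F = {y}`, `ψ = η χ`, `f = ![η χ]`, `ρ = osc y (η χ)` (`osc_wmul`, `range_of_lt`),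
`ξ = 0`; `ip_upd` -/
theorem lin_glue (X : Ctx S w σ R) (hχ : D.Fn χ) (hb : D.Bd χ) (hs : Cost s)
    (h : Lin D w R {y} χ s) : Lin D w R ∅ χ (upd s y (D.osc y χ)) := by
  intro η v hη _ l hl
  have f1 : D.Fn fun z => η z * χ z := hχ.wmul hη (gg_bd hη)
  have b1 : D.Bd fun z => η z * χ z := (gg_bd hη).mul hb
  have c1 := gg_cost hs hη
  have := cell (F := {y}) (m := 1) (f := fun _ z => η z * χ z) (a := fun _ y => |v y| * s y)
    (A := 1) (ρ := fun _ => D.osc y fun z => η z * χ z) X hl f1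
    (fun _ => ⟨f1, c1, (h.wmul hη).mono (by simp)⟩) zero_le_one (fun z _ z' _ => by simp)
    (fun _ _ => osc_nonneg b1 y) fun ε hε => by
      obtain ⟨U, hU, a, b, h1, -, -, h2⟩ := range_of_lt b1 (lt_add_of_pos_right _ hε)
      refine ⟨_, fun _ => U, (sm_zero X.reg.fn).mono hε.le, fun y' hy' => ?_⟩
      rw [Finset.mem_singleton.1 hy']
      refine ⟨hU, fun z hz z' hz' => ?_⟩
      have a1 := h2 z hz
      have a2 := h2 z' hz'
      simp only [abs_zero, add_zero]
      exact abs_le.2 ⟨by linarith [a1.1, a2.2], by linarith [a1.2, a2.1]⟩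
  have e : (pw {y} (fun _ => 0) fun y => 1 * ∑ _k : Fin 1, |v y| * s y) =
      upd (fun y => |v y| * s y) y 0 := by
    rw [k3a_upd]
    simp only [Fin.sum_univ_one, one_mul]
  have e' : (fun y' => |v y'| * upd s y (D.osc y χ) y') =
      upd (fun y => |v y| * s y) y (|v y| * D.osc y χ) := funext fun y' => by
    by_cases h : y' = y <;> simp [upd, h]
  rw [e, Finset.sum_singleton, osc_wmul hb hη] at this
  rw [e', ip_upd c1.2 (cl_cost X.reg hl).2, add_comm]
  exact this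

end Vale.P116D
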