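import Vale.Agent.P116D.GD

/-!
GH1: the box estimate at one end.
-/

namespace Vale.P116D

open Set Filter Topology MeasureTheory Complex
open scoped ContDiff

variable {D : Dom} {S : Gens D} {φ ψ χ η ξ g w : ℂ → ℝ} {s σ r u : D.End → ℝ} {y : D.End}
  {U : Set ℂ} {z : ℂ} {R : Rect} {l : ℝ → ℝ}

variable {k : ℕ} {f : Fin k → ℂ → ℝ} {a c : Fin k → D.End → ℝ} {Θ : (Fin k → ℝ) → ℝ}

/-- Oscillation on a slightly larger box. -/
theorem osc_box {p q : Fin k → ℝ} {b ε : ℝ} (hΘ : ContDiff ℝ ∞ Θ) (hpq : ∀ i, p i ≤ q i)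
    (h : ∀ x x' : Fin k → ℝ, (∀ i, x i ∈ Icc (p i) (q i)) → (∀ i, x' i ∈ Icc (p i) (q i)) →
      Θ x - Θ x' ≤ b) (hε : 0 < ε) :
    ∃ δ > 0, ∀ x x' : Fin k → ℝ, (∀ i, x i ∈ Icc (p i - δ) (q i + δ)) →
      (∀ i, x' i ∈ Icc (p i - δ) (q i + δ)) → |Θ x - Θ x'| ≤ b + ε := by
  obtain ⟨C, hC, hL⟩ := lip_cube hΘ (∑ i, (|p i| + |q i|) + 1)
  have hk : 0 < C * k + 1 := by positivity
  set δ := min 1 (ε / (2 * (C * k + 1))) with hδ
  have h0 : 0 < δ := lt_min one_pos (by positivity)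
  have h1 : δ ≤ 1 := min_le_left _ _
  have h2 : δ * (2 * (C * k + 1)) ≤ ε := (le_div_iff₀ (by positivity)).1 (min_le_right _ _)
  have hM : ∀ (i) (t : ℝ), t ∈ Icc (p i - δ) (q i + δ) → |t| ≤ ∑ i, (|p i| + |q i|) + 1 := by
    intro i t ht
    have h3 := Finset.single_le_sum (f := fun i => |p i| + |q i|)
      (fun _ _ => by positivity) (Finset.mem_univ i)
    have h4 := neg_abs_le (p i)
    have h5 := le_abs_self (q i)
    have h6 := abs_nonneg (p i)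
    have h7 := abs_nonneg (q i)
    exact abs_le.2 ⟨by linarith [ht.1], by linarith [ht.2]⟩
  have key : ∀ x : Fin k → ℝ, (∀ i, x i ∈ Icc (p i - δ) (q i + δ)) →
      ∃ x₀ : Fin k → ℝ, (∀ i, x₀ i ∈ Icc (p i) (q i)) ∧ |Θ x - Θ x₀| ≤ ε / 2 := by
    intro x hx
    have hm : ∀ i, max (p i) (min (x i) (q i)) ∈ Icc (p i) (q i) := fun i =>
      ⟨le_max_left _ _, max_le (hpq i) (min_le_right _ _)⟩
    refine ⟨fun i => max (p i) (min (x i) (q i)), hm, ?_⟩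
    refine (hL _ _ (fun i => hM i _ (hx i)) fun i => hM i _
      ⟨by linarith [(hm i).1], by linarith [(hm i).2]⟩).trans ?_
    have h3 : ∑ i, |x i - max (p i) (min (x i) (q i))| ≤ ∑ _i : Fin k, δ := by
      refine Finset.sum_le_sum fun i _ => abs_le.2 ?_
      have h4 := hx i
      have h5 := hpq i
      rw [max_def, min_def]
      split_ifs <;> constructor <;> linarith [h4.1, h4.2]
    rw [Finset.sum_const, Finset.card_univ, Fintype.card_fin, nsmul_eq_mul] at h3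
    have h4 := mul_le_mul_of_nonneg_left h3 hC
    nlinarith
  refine ⟨δ, h0, fun x x' hx hx' => ?_⟩
  obtain ⟨x₀, hx₀, e⟩ := key x hx
  obtain ⟨x₁, hx₁, e'⟩ := key x' hx'
  have h3 := h _ _ hx₀ hx₁
  have h4 := h _ _ hx₁ hx₀
  rw [abs_le] at e e' ⊢
  constructor <;> linarith [e.1, e.2, e'.1, e'.2]

theorem gh1_G (y : D.End) : D.G ∈ D.nb y := by
  cases y <;> exact mem_inf_of_right (mem_principal_self _)

/-- The box estimate at one end. -/
theorem box_end {ε : ℝ} (X : Ctx S w σ R) (had : AD S w R y) (h : ∀ i, InB S (f i) (c i))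
    (ha : ∀ i, Adm S y (f i) (a i y) (a i y + c i y)) (hΘ : ContDiff ℝ ∞ Θ) (ho : OscLe Θ a c r)
    (hε : 0 < ε) : ∃ ξ, Sm D w R ξ ε ∧ (∀ z, 0 ≤ ξ z) ∧ ∃ W ∈ D.nb y, ∀ z ∈ W, ∀ z' ∈ W,
      |(Θ fun i => f i z) - Θ fun i => f i z'| ≤ r y + ε + ξ z + ξ z' := by
  have hc : ∀ i, a i y ≤ a i y + c i y := fun i => le_add_of_nonneg_right ((h i).1.co.1 y)
  have hr : 0 ≤ r y := by
    simpa using ho y (fun i => a i y) (fun i => a i y) (fun i => ⟨le_rfl, hc i⟩)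
      fun i => ⟨le_rfl, hc i⟩
  obtain ⟨δ, hδ, hb⟩ := osc_box hΘ hc (ho y) hε
  choose M hM using fun i => (h i).2
  obtain ⟨C, hC, hL⟩ := lip_cube hΘ (∑ i, |M i|)
  have hM0 : 0 ≤ ∑ i, |M i| := Finset.sum_nonneg fun _ _ => abs_nonneg _
  have hM1 : ∀ z ∈ D.G, ∀ i, |f i z| ≤ ∑ i, |M i| := fun z hz i =>
    ((hM i z hz).trans (le_abs_self _)).trans (Finset.single_le_sum (f := fun i => |M i|)
      (fun _ _ => abs_nonneg _) (Finset.mem_univ i))
  obtain ⟨B, hB0, hB⟩ : ∃ B : ℝ, 0 ≤ B ∧ ∀ z ∈ D.G, ∀ z' ∈ D.G,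
      |(Θ fun i => f i z) - Θ fun i => f i z'| ≤ B := by
    refine ⟨C * ∑ _i : Fin k, 2 * ∑ i, |M i|, by positivity, fun z hz z' hz' => ?_⟩
    refine (hL _ _ (hM1 z hz) (hM1 z' hz')).trans (mul_le_mul_of_nonneg_left
      (Finset.sum_le_sum fun i _ => (abs_sub _ _).trans ?_) hC)
    linarith [hM1 z hz i, hM1 z' hz' i]
  have hk : 0 < B * k + 1 := by positivity
  choose ξ hξ h0 hev using fun i => sm_ex X had (h i) (ha i) hδ (div_pos hε hk)
  have hs : ∀ z, 0 ≤ B * ∑ i, ξ i z := fun z =>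
    mul_nonneg hB0 (Finset.sum_nonneg fun i _ => h0 i z)
  refine ⟨fun z => B * ∑ i, ξ i z,
    ((sm_sum Finset.univ X.mem.fn fun i _ => hξ i).cmul X.mem.fn hB0).mono ?_, hs,
    _, inter_mem (gh1_G y) (eventually_all.2 hev), fun z hz z' hz' => ?_⟩
  · rw [Finset.card_univ, Fintype.card_fin, ← mul_assoc, ← mul_div_assoc, div_le_iff₀ hk]
    nlinarith
  · have key : ∀ p ∈ D.G ∩ {p | ∀ i, f i p ∉ Icc (a i y - δ) (a i y + c i y + δ) → ξ i p = 1},
        (∀ i, f i p ∈ Icc (a i y - δ) (a i y + c i y + δ)) ∨ B ≤ B * ∑ i, ξ i p := by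
      intro p hp
      by_cases h1 : ∀ i, f i p ∈ Icc (a i y - δ) (a i y + c i y + δ)
      · exact Or.inl h1
      · obtain ⟨i, hi⟩ := not_forall.1 h1
        refine Or.inr (le_mul_of_one_le_right hB0 ?_)
        rw [← hp.2 i hi]
        exact Finset.single_le_sum (f := fun i => ξ i p) (fun i _ => h0 i p) (Finset.mem_univ i)
    have h1 := hB z hz.1 z' hz'.1
    have h2 := hs z
    have h3 := hs z'
    rcases key z hz with e | e
    · rcases key z' hz' with e' | e'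
      · linarith [hb _ _ e e']
      · linarith
    · linarith

end Vale.P116D
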