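import Vale.Agent.P116D.GG
import Vale.Agent.P116D.GH1

/-!
GH: the box calculus for the linear condition.
-/

namespace Vale.P116D

open Set Filter Topology MeasureTheory Complex
open scoped ContDiff

variable {D : Dom} {S : Gens D} {φ ψ χ η ξ g w : ℂ → ℝ} {s σ r u : D.End → ℝ} {y : D.End}
  {U : Set ℂ} {z : ℂ} {R : Rect} {l : ℝ → ℝ}

variable {k : ℕ} {f : Fin k → ℂ → ℝ} {a c : Fin k → D.End → ℝ} {Θ : (Fin k → ℝ) → ℝ}

theorem gh_eps {x A K : ℝ} (h : ∀ ε > 0, x ≤ A + ε * K) : x ≤ A := by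
  have h1 : Tendsto (fun ε : ℝ => A + ε * K) (𝓝[>] 0) (𝓝 (A + 0 * K)) :=
    (tendsto_const_nhds.add (tendsto_id.mul_const K)).mono_left nhdsWithin_le_nhds
  rw [zero_mul, add_zero] at h1
  exact ge_of_tendsto h1 (eventually_mem_nhdsWithin.mono h)

theorem gh_sum {ρ : D.End → ℝ} (hw : D.Fn w) (F : Finset D.End)
    (h : ∀ ε > 0, ∀ y, ∃ ξ, Sm D w R ξ ε ∧ (∀ z, 0 ≤ ξ z) ∧ ∃ W ∈ D.nb y, ∀ z ∈ W, ∀ z' ∈ W,
      |ψ z - ψ z'| ≤ ρ y + ε + ξ z + ξ z') (ε : ℝ) (hε : 0 < ε) :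
    ∃ (ξ : ℂ → ℝ) (W : D.End → Set ℂ), Sm D w R ξ ε ∧ ∀ y ∈ F, W y ∈ D.nb y ∧
      ∀ z ∈ W y, ∀ z' ∈ W y, |ψ z - ψ z'| ≤ ρ y + ε + |ξ z| + |ξ z'| := by
  have n0 : (0 : ℝ) ≤ F.card := Nat.cast_nonneg _
  have e0 : 0 < ε / (F.card + 1) := by positivity
  have e1 : F.card * (ε / (F.card + 1)) + ε / (F.card + 1) = ε := by field_simp
  have e2 : 0 ≤ F.card * (ε / (F.card + 1)) := by positivity
  choose ξ h1 h2 W h3 h4 using h _ e0
  refine ⟨fun z => ∑ y ∈ F, ξ y z, W, (sm_sum F hw fun y _ => h1 y).mono (by linarith),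
    fun y hy => ⟨h3 y, fun z hz z' hz' => ?_⟩⟩
  have a1 : ∀ z, ξ y z ≤ |∑ y ∈ F, ξ y z| := fun z =>
    (Finset.single_le_sum (f := fun y => ξ y z) (fun y _ => h2 y z) hy).trans (le_abs_self _)
  linarith [h4 y z hz z' hz', a1 z, a1 z']

/-- `cell` for every finite `F` with `ρ y = r y` if `0 < osc y w`, and `ρ y = 2 M` otherwise (then
`cl D w l y = 0` by `cl_le`, and `ξ = 0` is enough at `y`); `ξ` is the sum over `F` (`sm_sum`);
`A` from `lip_cube`; `sum_le_ip`, `Sq.tail`, `abs_ip_le` -/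
theorem box_one (X : Ctx S w σ R) (had : ∀ y, 0 < D.osc y w → AD S w R y)
    (h : ∀ i, InB S (f i) (c i) ∧ Lin D w R ∅ (f i) (c i))
    (ha : ∀ i y, Adm S y (f i) (a i y) (a i y + c i y)) (hΘ : ContDiff ℝ ∞ Θ) (hr : Cost r)
    (ho : OscLe Θ a c r) (hl : Lam R l) :
    |omB D w R l fun z => Θ fun i => f i z| ≤ ip r (cl D w l) := by
  have hw := X.mem.fn
  obtain ⟨hψ, M, hM⟩ := fn_compB (fun i => (h i).1.1.fn) (fun i => (h i).1.2) hΘ
  have M0 := hM.s1_nonneg
  choose m hm using fun i => (h i).1.2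
  obtain ⟨A, hA, hlip⟩ := lip_cube hΘ (∑ i, |m i|)
  have hm' : ∀ z ∈ D.G, ∀ i, |f i z| ≤ ∑ i, |m i| := fun z hz i =>
    ((hm i z hz).trans (le_abs_self _)).trans
      (Finset.single_le_sum (f := fun i => |m i|) (fun i _ => abs_nonneg _) (Finset.mem_univ i))
  have hcl := cl_cost X.reg hl
  obtain ⟨L, hL0, hL⟩ := hl.bnd
  have hb : Sq fun y => A * ∑ i, c i y := (Sq.sum _ fun i _ => (h i).1.1.co.2).cmul A
  refine gh_eps (K := nl (cl D w l)) fun ε hε => ?_
  obtain ⟨F, hF⟩ := hb.tail hε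
  have key := cell (F := F) (ρ := fun y => if 0 < D.osc y w then r y else 2 * M) X hl hψ
    (fun i => ⟨(h i).1.1.fn, (h i).1.1.co, (h i).2.mono (empty_subset _)⟩) hA
    (fun z hz z' hz' => hlip _ _ (hm' z hz) (hm' z' hz'))
    (fun y _ => by
      split_ifs
      · exact hr.1 y
      · linarith)
    (gh_sum hw F fun δ hδ y => by
      split_ifs with hy
      · exact box_end X (had y hy) (fun i => (h i).1) (fun i => ha i y) hΘ ho hδ
      · refine ⟨fun _ => 0, (sm_zero hw).mono hδ.le, fun _ => le_rfl, D.G, G_mem y,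
          fun z hz z' hz' => (abs_sub _ _).trans ?_⟩
        linarith [hM z hz, hM z' hz'])
  have e1 : ∑ y ∈ F, (if 0 < D.osc y w then r y else 2 * M) * cl D w l y =
      ∑ y ∈ F, r y * cl D w l y := Finset.sum_congr rfl fun y _ => by
    split_ifs with hy
    · rfl
    · have : cl D w l y = 0 := le_antisymm ((cl_le X.reg.bd hL y).trans
        (mul_nonpos_of_nonneg_of_nonpos hL0.le (not_lt.1 hy))) (cl_nonneg y)
      rw [this, mul_zero, mul_zero]
  have e2 := (le_abs_self _).trans ((abs_ip_le (hb.pw F fun _ => 0) hcl.2).trans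
    (mul_le_mul_of_nonneg_right (hF F le_rfl) (nl_nonneg _)))
  rw [e1] at key
  linarith [sum_le_ip hr hcl F]

/-- `lin_of_cut`; for a cut `η` with values `u`: `η Θ f = Θ (η f) - Θ 0 * (1 - η)` near every end;
`box_one` for `η f` with corners `u a`, sides `u c`, bound `u r` (`In.cut`, `Lin.wmul`; `Adm.congr`
where `u y = 1`, `adm_cluster` with `cluster_sub` and `Adm.mono` where `u y = 0`) -/
theorem lin_box (X : Ctx S w σ R) (had : ∀ y, 0 < D.osc y w → AD S w R y)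
    (h : ∀ i, InB S (f i) (c i) ∧ Lin D w R ∅ (f i) (c i))
    (ha : ∀ i y, Adm S y (f i) (a i y) (a i y + c i y)) (hΘ : ContDiff ℝ ∞ Θ) (hr : Cost r)
    (ho : OscLe Θ a c r) : Lin D w R ∅ (fun z => Θ fun i => f i z) r := by
  have hw := X.mem.fn
  obtain ⟨hψ, hψb⟩ := fn_compB (fun i => (h i).1.1.fn) (fun i => (h i).1.2) hΘ
  refine lin_of_cut X hψ hr fun η u hη l hl => ?_
  have hin : ∀ i, InB S (fun z => η z * f i z) fun y => u y * c i y := fun i =>
    ⟨(h i).1.1.cut X.str hη, hη.s1_bd.mul (h i).1.2⟩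
  have key := box_one (f := fun i z => η z * f i z) (a := fun i y => u y * a i y)
    (c := fun i y => u y * c i y) (r := fun y => u y * r y) X had
    (fun i => ⟨hin i, by simpa only [hη.s1_abs] using (h i).2.wmul hη.wd⟩)
    (fun i y => by
      rcases hη.val y with h0 | h1
      · have := cluster_sub (φ := fun z => η z * f i z) (a := 0) (b := 0)
          ((hη.wd.ev y).mono fun z hz => by simp [hz, h0])
        refine (adm_cluster X.str (hin i).2 y).mono ?_ ?_
        · simpa [h0] using this.1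
        · simpa [h0] using this.2
      · simp only [h1, one_mul]
        exact (ha i y).congr ((hη.wd.ev y).mono fun z hz => by simp [hz, h1]))
    hΘ (hr.bmul hη.s1_mem)
    (fun y x x' hx hx' => by
      rcases hη.val y with h0 | h1
      · simp only [h0, zero_mul, add_zero, Icc_self, mem_singleton_iff] at hx hx' ⊢
        rw [funext hx, funext hx', sub_self]
      · simp only [h1, one_mul] at hx hx' ⊢
        exact ho y x x' hx hx') hl
  have hφ := (fn_compB (fun i => (hin i).1.fn) (fun i => (hin i).2) hΘ).1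
  have hd := hη.compl.wd.cmul (Θ fun _ => 0)
  rw [X.ev hl (hψ.wmul hη.wd hη.s1_bd) (hφ.sub hd.fn) fun y => (hη.wd.ev y).mono fun z hz => by
    rcases hη.val y with h0 | h1
    · simp [hz, h0]
    · simp [hz, h1], omB_sub hw hl hφ hd.fn, X.stokes hl hd, sub_zero]
  exact key

end Vale.P116D
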