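import Vale.Agent.P116D.K1
import Vale.Agent.P116B.NL

/-!
K2: the forms `om`, `di`, the norm `nr`, and the Stokes identities.  For `om_wd` subtract the
value of `η` at infinity (the derivative vanishes off a compact set, so `η` is constant outside a
disc) and use `Vale.P116B.nl1_on`.  For `om_cs` extend `ψ` by zero to a smooth function.
-/

namespace Vale.P116D

open Set Filter Topology MeasureTheory Complex
open scoped ContDiff

variable {D : Dom} {S : Gens D} {φ ψ χ η g d v w : ℂ → ℝ} {s σ r τ u : D.End → ℝ} {y : D.End}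
  {U : Set ℂ} {z : ℂ}

theorem int_mul (h : D.Fn φ) (h' : D.Fn ψ) : IntegrableOn (fun z => ‖gr φ z‖ * ‖gr ψ z‖) D.G :=
  h.l2.norm.integrable_mul h'.l2.norm

theorem int_wd (h : D.Fn φ) (h' : D.Fn ψ) : IntegrableOn (fun z => wd (gr φ z) (gr ψ z)) D.G := by
  refine (int_mul h h').mono' (Measurable.aestronglyMeasurable ?_)
    (ae_of_all _ fun z => abs_wd_le _ _)
  exact ((measurable_re.comp (gr_meas φ)).mul (measurable_im.comp (gr_meas ψ))).sub
    ((measurable_im.comp (gr_meas φ)).mul (measurable_re.comp (gr_meas ψ)))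

theorem int_dt (h : D.Fn φ) (h' : D.Fn ψ) : IntegrableOn (fun z => dt (gr φ z) (gr ψ z)) D.G := by
  refine (int_mul h h').mono' (Measurable.aestronglyMeasurable ?_)
    (ae_of_all _ fun z => abs_dt_le _ _)
  exact ((measurable_re.comp (gr_meas φ)).mul (measurable_re.comp (gr_meas ψ))).add
    ((measurable_im.comp (gr_meas φ)).mul (measurable_im.comp (gr_meas ψ)))

theorem int_sq (h : D.Fn φ) : IntegrableOn (fun z => ‖gr φ z‖ ^ 2) D.G := by
  simpa only [sq] using int_mul h h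

theorem int_mul_le (h : D.Fn φ) (h' : D.Fn ψ) :
    ∫ z in D.G, ‖gr φ z‖ * ‖gr ψ z‖ ≤ D.nr φ * D.nr ψ := by
  have e : (2 : ENNReal) = ENNReal.ofReal 2 := by simp
  have h1 := integral_mul_le_Lp_mul_Lq_of_nonneg Real.HolderConjugate.two_two
    (ae_of_all _ fun z => norm_nonneg _) (ae_of_all _ fun z => norm_nonneg _)
    (e ▸ h.l2.norm) (e ▸ h'.l2.norm)
  simpa only [Real.rpow_two, ← Real.sqrt_eq_rpow, Dom.nr] using h1

theorem nr_nonneg (D : Dom) (φ : ℂ → ℝ) : 0 ≤ D.nr φ := Real.sqrt_nonneg _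

theorem k2a_sq (D : Dom) (φ : ℂ → ℝ) : D.nr φ ^ 2 = ∫ z in D.G, ‖gr φ z‖ ^ 2 :=
  Real.sq_sqrt (integral_nonneg fun _ => sq_nonneg _)

theorem nr_sq (D : Dom) (φ : ℂ → ℝ) : D.nr φ ^ 2 = D.di φ φ := by
  simp only [k2a_sq, Dom.di, dt, Complex.sq_norm, normSq_apply]

theorem nr_congr (e : EqOn φ ψ D.G) : D.nr φ = D.nr ψ :=
  congrArg Real.sqrt (setIntegral_congr_fun (G_meas D) fun z hz => by
    simp only [gr_congr (e.eventuallyEq_of_mem ((G_open D).mem_nhds hz))])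

theorem k2a_le (h : D.Fn φ) (h' : D.Fn ψ) (e : ∀ z ∈ D.G, ‖gr χ z‖ ≤ ‖gr φ z‖ + ‖gr ψ z‖) :
    D.nr χ ≤ D.nr φ + D.nr ψ := by
  refine Real.sqrt_le_iff.2 ⟨add_nonneg (nr_nonneg _ _) (nr_nonneg _ _), ?_⟩
  have i1 : IntegrableOn (fun z => ‖gr φ z‖ ^ 2 + ‖gr ψ z‖ ^ 2) D.G := (int_sq h).add (int_sq h')
  have i2 := (int_mul h h').const_mul 2
  have h1 : ∫ z in D.G, ‖gr χ z‖ ^ 2 ≤
      ∫ z in D.G, ‖gr φ z‖ ^ 2 + ‖gr ψ z‖ ^ 2 + 2 * (‖gr φ z‖ * ‖gr ψ z‖) := by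
    refine integral_mono_of_nonneg (ae_of_all _ fun _ => sq_nonneg _) (i1.add i2)
      ((ae_restrict_mem (G_meas D)).mono fun z hz => ?_)
    exact (pow_le_pow_left₀ (norm_nonneg _) (e z hz) 2).trans_eq (by ring)
  rw [integral_add i1 i2, integral_add (int_sq h) (int_sq h'), integral_const_mul, ← k2a_sq,
    ← k2a_sq D φ, ← k2a_sq D ψ] at h1
  rw [← k2a_sq]
  linarith [int_mul_le h h']

theorem nr_add (h : D.Fn φ) (h' : D.Fn ψ) : D.nr (fun z => φ z + ψ z) ≤ D.nr φ + D.nr ψ :=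
  k2a_le h h' fun z hz => by
    rw [gr_add (h.diffAt hz) (h'.diffAt hz)]
    exact norm_add_le _ _

theorem nr_sub (h : D.Fn φ) (h' : D.Fn ψ) : D.nr (fun z => φ z - ψ z) ≤ D.nr φ + D.nr ψ :=
  k2a_le h h' fun z hz => by
    rw [gr_sub (h.diffAt hz) (h'.diffAt hz)]
    exact norm_sub_le _ _

theorem nr_cmul (h : D.Fn φ) (c : ℝ) : D.nr (fun z => c * φ z) = |c| * D.nr φ := by
  have e : ∫ z in D.G, ‖gr (fun z => c * φ z) z‖ ^ 2 = ∫ z in D.G, c ^ 2 * ‖gr φ z‖ ^ 2 :=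
    setIntegral_congr_fun (G_meas D) fun z hz => by
      simp only [gr_cmul c (h.diffAt hz), norm_smul, mul_pow, Real.norm_eq_abs, sq_abs]
  rw [Dom.nr, e, integral_const_mul, Real.sqrt_mul (sq_nonneg _), Real.sqrt_sq_eq_abs, Dom.nr]

theorem nr_sum {ι : Type} (F : Finset ι) {f : ι → ℂ → ℝ} (h : ∀ i ∈ F, D.Fn (f i)) :
    D.nr (fun z => ∑ i ∈ F, f i z) ≤ ∑ i ∈ F, D.nr (f i) := by
  classical
  induction F using Finset.induction_on with
  | empty => simp [Dom.nr, gr_const]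
  | insert i F hi ih =>
    have h1 := fun j hj => h j (Finset.mem_insert_of_mem hj)
    simp only [Finset.sum_insert hi]
    linarith [nr_add (h i (Finset.mem_insert_self _ _)) (Dom.Fn.sum F h1), ih h1]

theorem nr_mono {C : ℝ} (h : D.Fn ψ) (hC : 0 ≤ C) (e : ∀ z ∈ D.G, ‖gr φ z‖ ≤ C * ‖gr ψ z‖) :
    D.nr φ ≤ C * D.nr ψ := by
  refine Real.sqrt_le_iff.2 ⟨mul_nonneg hC (nr_nonneg _ _), ?_⟩
  rw [mul_pow, k2a_sq, ← integral_const_mul]
  refine integral_mono_of_nonneg (ae_of_all _ fun _ => sq_nonneg _) ((int_sq h).const_mul _)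
    ((ae_restrict_mem (G_meas D)).mono fun z hz => ?_)
  exact (pow_le_pow_left₀ (norm_nonneg _) (e z hz) 2).trans_eq (mul_pow _ _ _)

end Vale.P116D
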