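import Vale.Agent.P116D.K2
import Vale.Agent.P116D.K4

/-!
K7: Poincare inequality on the connected domain and convergence lemmas.  `poinc`: on a disc
(or square) `∫ (ψ - mean)² ≤ C ∫ ‖gr ψ‖²` by integrating along segments; the means over
overlapping discs are close; the set of points of `G` whose small disc has mean close to that of a
base disc is open and closed.
-/

namespace Vale.P116D

open Set Filter Topology MeasureTheory Complex
open scoped ContDiff

variable {D : Dom} {S : Gens D} {φ ψ χ η g d v w : ℂ → ℝ} {s σ r τ u : D.End → ℝ} {y : D.End}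
  {U : Set ℂ} {z : ℂ}

theorem k7_sq {g : ℝ → ℝ} (hg : ContinuousOn g (uIcc 0 1)) :
    (∫ t in (0 : ℝ)..1, g t) ^ 2 ≤ ∫ t in (0 : ℝ)..1, g t ^ 2 := by
  set m := ∫ t in (0 : ℝ)..1, g t with hm
  have i1 := hg.intervalIntegrable (μ := volume)
  have h1 : ∫ t in (0 : ℝ)..1, (2 * m * g t - m ^ 2) ≤ ∫ t in (0 : ℝ)..1, g t ^ 2 :=
    intervalIntegral.integral_mono_on zero_le_one
      ((i1.const_mul _).sub intervalIntegrable_const) (hg.pow 2).intervalIntegrable
      fun t _ => by nlinarith [sq_nonneg (g t - m)]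
  rw [intervalIntegral.integral_sub (i1.const_mul _) intervalIntegrable_const,
    intervalIntegral.integral_const_mul, intervalIntegral.integral_const, ← hm] at h1
  simp only [sub_zero, smul_eq_mul] at h1
  nlinarith

theorem k7_fd (φ : ℂ → ℝ) (z v : ℂ) : fderiv ℝ φ z v ^ 2 ≤ ‖v‖ ^ 2 * ‖gr φ z‖ ^ 2 := by
  have h1 : v = v.re • (1 : ℂ) + v.im • I := by
    simp
  have h2 : fderiv ℝ φ z v = v.re * fderiv ℝ φ z 1 + v.im * fderiv ℝ φ z I := by
    conv_lhs => rw [h1, map_add, map_smul, map_smul]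
    rfl
  rw [h2, Complex.sq_norm, Complex.sq_norm, normSq_apply, normSq_apply]
  simp only [gr]
  nlinarith [sq_nonneg (v.re * fderiv ℝ φ z I - v.im * fderiv ℝ φ z 1)]

theorem k7_meas (φ : ℂ → ℝ) : Measurable fun z => ENNReal.ofReal (‖gr φ z‖ ^ 2) := by
  have h1 : gr φ = fun z => (fderiv ℝ φ z 1 : ℝ) + (fderiv ℝ φ z I : ℝ) * I := by
    funext z
    apply Complex.ext <;> simp [gr]
  have h2 := measurable_fderiv_apply_const ℝ φ (1 : ℂ)
  have h3 := measurable_fderiv_apply_const ℝ φ I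
  rw [h1]
  fun_prop

theorem k7_seg {G : Set ℂ} (hG : IsOpen G) (h : ContDiffOn ℝ ∞ φ G) {x v : ℂ}
    (hs : ∀ t ∈ Icc (0 : ℝ) 1, x + t • v ∈ G) :
    ENNReal.ofReal ((φ (x + v) - φ x) ^ 2) ≤ ENNReal.ofReal (‖v‖ ^ 2) *
      ∫⁻ t in Ioc (0 : ℝ) 1, G.indicator (fun z => ENNReal.ofReal (‖gr φ z‖ ^ 2)) (x + t • v) := by
  rw [← uIcc_of_le zero_le_one] at hs
  have c1 : ContinuousOn (fun t : ℝ => fderiv ℝ φ (x + t • v) v) (uIcc 0 1) :=
    (((h.continuousOn_fderiv_of_isOpen hG (by simp)).comp (f := fun t : ℝ => x + t • v)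
      (by fun_prop) hs).clm_apply continuousOn_const)
  have h1 : ∫ t in (0 : ℝ)..1, fderiv ℝ φ (x + t • v) v = φ (x + v) - φ x := by
    have h2 := intervalIntegral.integral_eq_sub_of_hasDerivAt (f := fun t : ℝ => φ (x + t • v))
      (fun t ht => ((h.contDiffAt (hG.mem_nhds (hs t ht))).differentiableAt
        (by simp)).hasFDerivAt.comp_hasDerivAt t
        (((hasDerivAt_id t).smul_const v).const_add x)) (by simpa using c1.intervalIntegrable)
    simpa using h2
  rw [← h1, ← lintegral_const_mul' _ _ ENNReal.ofReal_ne_top]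
  refine (ENNReal.ofReal_le_ofReal (k7_sq c1)).trans ?_
  have i2 : Integrable (fun t : ℝ => fderiv ℝ φ (x + t • v) v ^ 2) (volume.restrict (Ioc 0 1)) :=
    ((c1.pow 2).intervalIntegrable (μ := volume)).1
  rw [intervalIntegral.integral_of_le zero_le_one, ofReal_integral_eq_lintegral_ofReal i2
    (Eventually.of_forall fun t => sq_nonneg _)]
  refine setLIntegral_mono' measurableSet_Ioc fun t ht => ?_
  rw [indicator_of_mem (hs t (by rw [uIcc_of_le zero_le_one]; exact Ioc_subset_Icc_self ht)),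
    ← ENNReal.ofReal_mul (sq_nonneg _)]
  exact ENNReal.ofReal_le_ofReal (k7_fd _ _ _)

theorem k7_ball {G : Set ℂ} (hG : IsOpen G) {c : ℂ} {r : ℝ} (hr : 0 < r)
    (hB : Metric.ball c r ⊆ G) : ∃ C : ENNReal, C ≠ ⊤ ∧ ∀ φ : ℂ → ℝ, ContDiffOn ℝ ∞ φ G → ∃ a : ℝ,
      ∫⁻ y in Metric.ball c r, ENNReal.ofReal ((φ y - a) ^ 2) ≤
        C * ∫⁻ z in G, ENNReal.ofReal (‖gr φ z‖ ^ 2) := by
  let ν : Measure (ℂ × ℝ) :=
    (volume.restrict (Metric.ball 0 (2 * r))).prod (volume.restrict (Ioc 0 1))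
  have b0 : volume (Metric.ball c r) ≠ 0 := (Metric.measure_ball_pos _ _ hr).ne'
  have b1 : volume (Metric.ball c r) ≠ ⊤ := measure_ball_lt_top.ne
  have b2 : ν univ ≠ ⊤ := by
    rw [← univ_prod_univ, Measure.prod_prod]
    simp only [Measure.restrict_apply_univ]
    exact ENNReal.mul_ne_top measure_ball_lt_top.ne measure_Ioc_lt_top.ne
  refine ⟨ENNReal.ofReal ((2 * r) ^ 2) * (ν univ / volume (Metric.ball c r)),
    ENNReal.mul_ne_top ENNReal.ofReal_ne_top (ENNReal.div_ne_top b2 b0), fun φ h => ?_⟩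
  set F := G.indicator fun z => ENNReal.ofReal (‖gr φ z‖ ^ 2) with hF
  have m1 : Measurable F := (k7_meas φ).indicator hG.measurableSet
  have m2 : Measurable fun q : ℂ × ℂ × ℝ => F (q.1 + q.2.2 • q.2.1) := m1.comp (by fun_prop)
  have m3 : Measurable fun x : ℂ => ∫⁻ p, F (x + p.2 • p.1) ∂ν := m2.lintegral_prod_right'
  obtain ⟨x, hx, h1⟩ := exists_le_setLAverage b0 b1 m3.aemeasurable
  refine ⟨φ x, ?_⟩
  have h2 : ∫⁻ x, ∫⁻ p, F (x + p.2 • p.1) ∂ν = ν univ * ∫⁻ z in G, ENNReal.ofReal (‖gr φ z‖ ^ 2) := by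
    rw [lintegral_lintegral_swap m2.aemeasurable]
    simp only [lintegral_add_right_eq_self]
    rw [lintegral_const, mul_comm, hF, lintegral_indicator hG.measurableSet]
  rw [setLAverage_eq] at h1
  have h3 := h1.trans (ENNReal.div_le_div_right ((setLIntegral_le_lintegral _ _).trans h2.le) _)
  rw [mul_assoc, ENNReal.div_eq_inv_mul, mul_assoc, ← ENNReal.div_eq_inv_mul]
  refine le_trans ?_ (mul_le_mul_right h3 _)
  rw [lintegral_prod (fun p : ℂ × ℝ => F (x + p.2 • p.1)) (m1.comp (by fun_prop)).aemeasurable,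
    ← lintegral_const_mul' _ _ ENNReal.ofReal_ne_top,
    ← lintegral_indicator Metric.isOpen_ball.measurableSet,
    ← lintegral_indicator Metric.isOpen_ball.measurableSet, ← lintegral_add_left_eq_self _ x]
  refine lintegral_mono fun v => ?_
  by_cases hv : x + v ∈ Metric.ball c r
  · have h4 : ‖v‖ < 2 * r := by
      have h5 := Metric.mem_ball.1 hv
      have h6 := Metric.mem_ball.1 hx
      have h7 := dist_triangle_right (x + v) x c
      rw [dist_self_add_left] at h7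
      linarith
    rw [indicator_of_mem hv, indicator_of_mem (mem_ball_zero_iff.2 h4)]
    refine (k7_seg hG h fun t ht => hB ((convex_ball c r).add_smul_mem hx hv ht)).trans ?_
    gcongr
  · rw [indicator_of_notMem hv]
    exact zero_le

/-- Convergence in mean square on a set. -/
def k7G (f : ℕ → ℂ → ℝ) (c : ℕ → ℝ) (B : Set ℂ) : Prop :=
  Tendsto (fun n => ∫⁻ y in B, ENNReal.ofReal ((f n y - c n) ^ 2)) atTop (𝓝 0)

section
variable {f : ℕ → ℂ → ℝ} {c c' : ℕ → ℝ} {A B : Set ℂ}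

theorem k7_le {a b : ℕ → ENNReal} (h : Tendsto b atTop (𝓝 0)) (h' : ∀ n, a n ≤ b n) :
    Tendsto a atTop (𝓝 0) :=
  tendsto_of_tendsto_of_tendsto_of_le_of_le tendsto_const_nhds h (fun _ => zero_le) h'

theorem k7G.mono (h : k7G f c B) (hA : A ⊆ B) : k7G f c A :=
  k7_le h fun _ => lintegral_mono_set hA

theorem k7G.union (h : k7G f c A) (h' : k7G f c B) : k7G f c (A ∪ B) :=
  k7_le (by simpa using Tendsto.add h h') fun _ => lintegral_union_le _ _ _

theorem k7_two (a b : ℝ) : ENNReal.ofReal ((a + b) ^ 2) ≤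
    2 * ENNReal.ofReal (a ^ 2) + 2 * ENNReal.ofReal (b ^ 2) := by
  rw [← mul_add, ← ENNReal.ofReal_add (sq_nonneg _) (sq_nonneg _), ← ENNReal.ofReal_ofNat,
    ← ENNReal.ofReal_mul (by norm_num)]
  exact ENNReal.ofReal_le_ofReal (by nlinarith [sq_nonneg (a - b)])

theorem k7G.trans (h : k7G f c A) (h' : k7G f c' B) (hA : A ⊆ B) (h0 : volume A ≠ 0)
    (h1 : volume B ≠ ⊤) (hm : ∀ n, AEMeasurable (f n) (volume.restrict A)) : k7G f c B := by
  have t2 : ∀ {a : ℕ → ENNReal} {k : ENNReal}, k ≠ ⊤ → Tendsto a atTop (𝓝 0) →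
      Tendsto (fun n => k * a n) atTop (𝓝 0) := fun hk ha => by
    simpa using ENNReal.Tendsto.const_mul ha (Or.inr hk)
  have t3 : (2 : ENNReal) ≠ ⊤ := ENNReal.ofNat_ne_top
  have t4 : ∀ {a b : ℕ → ENNReal}, Tendsto a atTop (𝓝 0) → Tendsto b atTop (𝓝 0) →
      Tendsto (fun n => a n + b n) atTop (𝓝 0) := fun ha hb => by simpa using ha.add hb
  have h2 : Tendsto (fun n => ENNReal.ofReal ((c' n - c n) ^ 2)) atTop (𝓝 0) := by
    refine k7_le (t2 (ENNReal.inv_ne_top.2 h0) (t4 (t2 t3 h) (t2 t3 (h'.mono hA)))) fun n => ?_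
    rw [← ENNReal.div_eq_inv_mul, ENNReal.le_div_iff_mul_le (Or.inl h0)
      (Or.inl (ne_top_of_le_ne_top h1 (measure_mono hA))), ← setLIntegral_const,
      ← lintegral_const_mul' _ _ t3, ← lintegral_const_mul' _ _ t3,
      ← lintegral_add_left' (by have := hm n; fun_prop)]
    refine lintegral_mono fun y => le_trans (le_of_eq ?_)
      ((k7_two (f n y - c n) (-(f n y - c' n))).trans (by rw [neg_sq]))
    congr 1
    ring
  refine k7_le (t4 (t2 t3 h') (t2 (ENNReal.mul_ne_top t3 h1) h2)) fun n => ?_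
  rw [mul_right_comm, ← setLIntegral_const, ← lintegral_const_mul' _ _ t3,
    ← lintegral_add_right _ measurable_const]
  refine lintegral_mono fun y => le_trans (le_of_eq ?_) (k7_two (f n y - c' n) (c' n - c n))
  congr 1
  ring

theorem k7_all {G : Set ℂ} (hG : IsOpen G) (hc : IsConnected G) (h : ∀ n, ContDiffOn ℝ ∞ (f n) G)
    (hl : Tendsto (fun n => ∫⁻ z in G, ENNReal.ofReal (‖gr (f n) z‖ ^ 2)) atTop (𝓝 0)) :
    ∃ c, ∀ C, IsCompact C → C ⊆ G → k7G f c C := by
  have h1 : ∀ z ∈ G, ∃ r > 0, Metric.ball z r ⊆ G ∧ ∃ c, k7G f c (Metric.ball z r) := by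
    intro z hz
    obtain ⟨r, hr, hB⟩ := Metric.isOpen_iff.1 hG z hz
    obtain ⟨C, hC, h2⟩ := k7_ball hG hr hB
    choose a ha using fun n => h2 (f n) (h n)
    exact ⟨r, hr, hB, a, k7_le (by simpa using ENNReal.Tendsto.const_mul hl (Or.inr hC)) ha⟩
  obtain ⟨z₀, hz₀⟩ := hc.nonempty
  obtain ⟨r₀, hr₀, -, c, h0⟩ := h1 z₀ hz₀
  have h2 : G ⊆ ⋃₀ {O | IsOpen O ∧ k7G f c O} := by
    refine hc.isPreconnected.subset_of_closure_inter_subset (isOpen_sUnion fun _ hO => hO.1)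
      ⟨z₀, hz₀, _, ⟨Metric.isOpen_ball, h0⟩, Metric.mem_ball_self hr₀⟩ fun z hz => ?_
    obtain ⟨r, hr, hB, c', h3⟩ := h1 z hz.2
    obtain ⟨x, hx, O, hO, hx'⟩ := mem_closure_iff.1 hz.1 _ Metric.isOpen_ball
      (Metric.mem_ball_self hr)
    have h4 := Metric.isOpen_ball.inter hO.1 (s := Metric.ball z r)
    exact ⟨_, ⟨Metric.isOpen_ball, (hO.2.mono inter_subset_right).trans h3 inter_subset_left
      (h4.measure_pos _ ⟨x, hx, hx'⟩).ne' measure_ball_lt_top.ne fun n =>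
        ((h n).continuousOn.mono (inter_subset_left.trans hB)).aemeasurable h4.measurableSet⟩,
      Metric.mem_ball_self hr⟩
  refine ⟨c, fun C hC hCG => hC.induction_on (by simp [k7G]) (fun _ _ hs ht => ht.mono hs)
    (fun _ _ => k7G.union) fun z hz => ?_⟩
  obtain ⟨O, hO, hz'⟩ := h2 (hCG hz)
  exact ⟨O, mem_nhdsWithin_of_mem_nhds (hO.1.mem_nhds hz'), hO.2⟩

end

theorem poinc {f : ℕ → ℂ → ℝ} (h : ∀ n, D.Fn (f n)) (h' : D.Fn ψ)
    (hl : Tendsto (fun n => D.nr fun z => f n z - ψ z) atTop (𝓝 0)) :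
    ∃ c : ℕ → ℝ, D.Conv (fun n z => f n z - c n) ψ := by
  obtain ⟨c, hc⟩ := k7_all (f := fun n z => f n z - ψ z) (G := D.G) D.cpt.isClosed.isOpen_compl
    D.conn (fun n => (h n).sm.sub h'.sm) (by
      have h1 := ENNReal.tendsto_ofReal (hl.pow 2)
      rw [zero_pow two_ne_zero, ENNReal.ofReal_zero] at h1
      refine h1.congr fun n => ?_
      rw [Dom.nr, Real.sq_sqrt (integral_nonneg fun _ => sq_nonneg _),
        ofReal_integral_eq_lintegral_ofReal (((h n).sub h').l2.integrable_norm_pow two_ne_zero)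
          (Eventually.of_forall fun _ => sq_nonneg _)])
  have e : ∀ n z, f n z - c n - ψ z = f n z - ψ z - c n := fun n z => sub_right_comm _ _ _
  refine ⟨c, ?_, fun C hC hG => ?_⟩
  · simpa only [e, Dom.nr, gr, fderiv_sub_const] using hl
  · refine squeeze_zero_norm (fun n => norm_integral_le_lintegral_norm _) ?_
    have h1 := (ENNReal.tendsto_toReal ENNReal.zero_ne_top).comp (hc C hC hG)
    simp only [e, norm_pow, Real.norm_eq_abs, sq_abs]
    exact h1

end Vale.P116D
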