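import Vale.Agent.P116D.K2
import Vale.Agent.P116D.K4

/-!
K8: continuity of the operations under `Conv`.  For `Conv.compN` argue by subsequences: mean
square convergence on an exhaustion gives a subsequence that converges almost everywhere, then
dominated convergence for `(Θ' (f n) - Θ' g) ∇g`.
-/

namespace Vale.P116D

open Set Filter Topology MeasureTheory Complex
open scoped ContDiff

variable {D : Dom} {S : Gens D} {φ ψ χ η g d v w : ℂ → ℝ} {s σ r τ u : D.End → ℝ} {y : D.End}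
  {U : Set ℂ} {z : ℂ}

theorem k8_int {E : ℂ → ℝ} {C : Set ℂ} (hE : ContinuousOn E D.G) (hC : IsCompact C)
    (hG : C ⊆ D.G) : IntegrableOn E C := (hE.mono hG).integrableOn_compact hC

theorem k8_exh (D : Dom) : ∃ C : ℕ → Set ℂ, (∀ n, IsCompact (C n) ∧ C n ⊆ D.G) ∧
    ∀ A, IsCompact A → A ⊆ D.G → ∀ᶠ n in atTop, A ⊆ C n := by
  obtain ⟨C, h1, h2⟩ := exhaust D
  have hm : Monotone C := monotone_nat_of_le_succ fun n => (h1 n).2.2.trans interior_subset
  refine ⟨C, fun n => ⟨(h1 n).1, (h1 n).2.1⟩, fun A hA hG => ?_⟩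
  obtain ⟨n, hn⟩ := h2 A hA hG
  exact (eventually_ge_atTop n).mono fun k hk => hn.trans (hm hk)

theorem k8_ae {E : ℕ → ℂ → ℝ} (hE : ∀ n, ContinuousOn (E n) D.G) (h0 : ∀ n z, 0 ≤ E n z)
    (hl : ∀ C, IsCompact C → C ⊆ D.G → Tendsto (fun n => ∫ z in C, E n z) atTop (𝓝 0)) :
    ∃ ms : ℕ → ℕ, StrictMono ms ∧
      ∀ᵐ z ∂volume.restrict D.G, Tendsto (fun n => E (ms n) z) atTop (𝓝 0) := by
  obtain ⟨C, h1, h2⟩ := k8_exh D
  obtain ⟨ms, hms, h3⟩ := extraction_forall_of_eventually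
    (P := fun k n => ∫ z in C k, E n z < (1 / 2 : ℝ) ^ k) fun k =>
      (hl _ (h1 k).1 (h1 k).2).eventually (gt_mem_nhds (by positivity))
  have i1 : ∀ k, Integrable ((C k).indicator (E (ms k))) := fun k =>
    (k8_int (hE _) (h1 k).1 (h1 k).2).integrable_indicator (h1 k).1.measurableSet
  have n1 : ∀ k z, 0 ≤ (C k).indicator (E (ms k)) z := fun k z =>
    indicator_nonneg (fun _ _ => h0 _ _) z
  have h4 : ∫⁻ z, ∑' k, ENNReal.ofReal ((C k).indicator (E (ms k)) z) ≠ ⊤ := by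
    rw [lintegral_tsum fun k => (i1 k).aemeasurable.ennreal_ofReal]
    refine ne_top_of_le_ne_top (summable_geometric_two.tsum_ofReal_ne_top)
      (ENNReal.tsum_le_tsum fun k => ?_)
    rw [← ofReal_integral_eq_lintegral_ofReal (i1 k) (ae_of_all _ (n1 k)),
      integral_indicator (h1 k).1.measurableSet]
    exact ENNReal.ofReal_le_ofReal (h3 k).le
  have h5 := ae_lt_top' (AEMeasurable.tsum fun k => (i1 k).aemeasurable.ennreal_ofReal) h4
  refine ⟨ms, hms, ((ae_restrict_of_ae h5).and (ae_restrict_mem (G_meas D))).mono fun z hz => ?_⟩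
  have h6 := (ENNReal.tendsto_toReal ENNReal.zero_ne_top).comp
    (ENNReal.tendsto_atTop_zero_of_tsum_ne_top hz.1.ne)
  refine h6.congr' ((h2 {z} isCompact_singleton (singleton_subset_iff.2 hz.2)).mono fun k hk => ?_)
  simp only [Function.comp_apply, indicator_of_mem (hk rfl), ENNReal.toReal_ofReal (h0 _ _)]

theorem k8_dom {E F : ℕ → ℂ → ℝ} {B : ℂ → ℝ} (hE : ∀ n, ContinuousOn (E n) D.G)
    (h0 : ∀ n z, 0 ≤ E n z)
    (hl : ∀ C, IsCompact C → C ⊆ D.G → Tendsto (fun n => ∫ z in C, E n z) atTop (𝓝 0))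
    (hF : ∀ n, ContinuousOn (F n) D.G) (hB : IntegrableOn B D.G)
    (hb : ∀ n, ∀ z ∈ D.G, |F n z| ≤ B z)
    (hp : ∀ z ∈ D.G, ∀ ns : ℕ → ℕ, Tendsto ns atTop atTop →
      Tendsto (fun n => E (ns n) z) atTop (𝓝 0) → Tendsto (fun n => F (ns n) z) atTop (𝓝 0)) :
    (∀ n, IntegrableOn (F n) D.G) ∧ Tendsto (fun n => ∫ z in D.G, F n z) atTop (𝓝 0) := by
  have hm := fun n => (hF n).aestronglyMeasurable (μ := volume) (G_meas D)
  have hb' : ∀ n, ∀ᵐ z ∂volume.restrict D.G, ‖F n z‖ ≤ B z := fun n =>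
    (ae_restrict_mem (G_meas D)).mono (hb n)
  refine ⟨fun n => Integrable.mono' hB (hm n) (hb' n), tendsto_of_subseq_tendsto fun ns hns => ?_⟩
  obtain ⟨ms, hms, h⟩ := k8_ae (E := fun n => E (ns n)) (fun n => hE _) (fun n => h0 _)
    fun C hC hG => (hl C hC hG).comp hns
  refine ⟨ms, ?_⟩
  simpa only [integral_zero] using tendsto_integral_of_dominated_convergence
    (F := fun n => F (ns (ms n))) (f := fun _ => (0 : ℝ)) B (fun n => hm _) hB (fun n => hb' _)
    ((h.and (ae_restrict_mem (G_meas D))).mono fun z hz =>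
      hp z hz.2 _ (hns.comp hms.tendsto_atTop) hz.1)

theorem k8_nr {f A : ℕ → ℂ → ℝ} (hA : ∀ n, IntegrableOn (A n) D.G)
    (hl : Tendsto (fun n => ∫ z in D.G, A n z) atTop (𝓝 0))
    (h : ∀ n, ∀ z ∈ D.G, ‖gr (f n) z‖ ^ 2 ≤ A n z) :
    Tendsto (fun n => D.nr (f n)) atTop (𝓝 0) := by
  have h1 := hl.sqrt
  rw [Real.sqrt_zero] at h1
  exact squeeze_zero (fun n => nr_nonneg D _) (fun n => Real.sqrt_le_sqrt
    (integral_mono_of_nonneg (ae_of_all _ fun z => sq_nonneg _) (hA n)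
      ((ae_restrict_mem (G_meas D)).mono (h n)))) h1

theorem k8_nr2 {f A A' : ℕ → ℂ → ℝ} (K : ℝ) (hA : ∀ n, IntegrableOn (A n) D.G)
    (hl : Tendsto (fun n => ∫ z in D.G, A n z) atTop (𝓝 0)) (hA' : ∀ n, IntegrableOn (A' n) D.G)
    (hl' : Tendsto (fun n => ∫ z in D.G, A' n z) atTop (𝓝 0))
    (h : ∀ n, ∀ z ∈ D.G, ‖gr (f n) z‖ ^ 2 ≤ K * (A n z + A' n z)) :
    Tendsto (fun n => D.nr (f n)) atTop (𝓝 0) := by
  refine k8_nr (fun n => Integrable.const_mul (Integrable.add (hA n) (hA' n)) K) ?_ h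
  have h1 := (hl.add hl').const_mul K
  rw [add_zero, mul_zero] at h1
  refine h1.congr fun n => ?_
  rw [integral_const_mul]
  exact congrArg _ (integral_add (hA n) (hA' n)).symm

theorem k8_loc {f E : ℕ → ℂ → ℝ} {C : Set ℂ} (K : ℝ) (hE : ∀ n, ContinuousOn (E n) D.G)
    (hC : IsCompact C) (hG : C ⊆ D.G) (hl : Tendsto (fun n => ∫ z in C, E n z) atTop (𝓝 0))
    (h : ∀ n, ∀ z ∈ C, f n z ^ 2 ≤ K * E n z) :
    Tendsto (fun n => ∫ z in C, f n z ^ 2) atTop (𝓝 0) := by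
  have h1 := hl.const_mul K
  rw [mul_zero] at h1
  refine squeeze_zero (fun n => integral_nonneg fun z => sq_nonneg _) (fun n => ?_) h1
  rw [← integral_const_mul]
  exact integral_mono_of_nonneg (ae_of_all _ fun z => sq_nonneg _)
    (Integrable.const_mul (k8_int (hE n) hC hG) K) ((ae_restrict_mem hC.measurableSet).mono (h n))

theorem k8_N {f : ℕ → ℂ → ℝ} (h : D.Conv f φ) :
    Tendsto (fun n => ∫ z in D.G, ‖gr (fun z => f n z - φ z) z‖ ^ 2) atTop (𝓝 0) := by
  have h1 := h.1.pow 2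
  rw [zero_pow two_ne_zero] at h1
  exact h1.congr fun n => Real.sq_sqrt (integral_nonneg fun z => sq_nonneg _)

theorem k8_Q (a : D.Fn ψ) (b : D.Fn φ) : ContinuousOn (fun z => (ψ z - φ z) ^ 2) D.G :=
  (a.sub b).contOn.pow 2

theorem k8_two {f f' g : ℕ → ℂ → ℝ} (h : D.Conv f φ) (h' : D.Conv f' ψ) (a : ∀ n, D.Fn (f n))
    (a' : ∀ n, D.Fn (f' n)) (b : D.Fn φ) (b' : D.Fn ψ) {C : Set ℂ} (hC : IsCompact C)
    (hG : C ⊆ D.G) (e : ∀ n z, g n z ^ 2 ≤ 2 * ((f n z - φ z) ^ 2 + (f' n z - ψ z) ^ 2)) :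
    Tendsto (fun n => ∫ z in C, g n z ^ 2) atTop (𝓝 0) := by
  refine k8_loc 2 (fun n => (k8_Q (a n) b).add (k8_Q (a' n) b')) hC hG ?_ fun n z _ => e n z
  have h1 := (h.2 C hC hG).add (h'.2 C hC hG)
  rw [add_zero] at h1
  exact h1.congr fun n =>
    (integral_add (k8_int (k8_Q (a n) b) hC hG) (k8_int (k8_Q (a' n) b') hC hG)).symm

theorem k8_sq (a b : ℝ) (p q : ℂ) :
    ‖a • p + b • q‖ ^ 2 ≤ 2 * (a ^ 2 * ‖p‖ ^ 2 + b ^ 2 * ‖q‖ ^ 2) := by
  have h1 := pow_le_pow_left₀ (norm_nonneg _) (norm_add_le (a • p) (b • q)) 2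
  rw [norm_smul, norm_smul, Real.norm_eq_abs, Real.norm_eq_abs] at h1
  rw [← sq_abs a, ← sq_abs b]
  nlinarith [sq_nonneg (|a| * ‖p‖ - |b| * ‖q‖)]

theorem k8_le {a b x y K L : ℝ} (ha : |a| ≤ K) (hx : 0 ≤ x) (hy : 0 ≤ y) (hb : b ≤ L * y)
    (hL : 0 ≤ L) : 2 * (a ^ 2 * x + b) ≤ 2 * (K ^ 2 + L) * (x + y) := by
  have h1 := mul_le_mul_of_nonneg_right (sq_le_sq' (abs_le.1 ha).1 (abs_le.1 ha).2) hx
  nlinarith [mul_nonneg hL hx, mul_nonneg (sq_nonneg K) hy]

theorem conv_const (h : D.Fn φ) : D.Conv (fun _ => φ) φ :=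
  ⟨by simp [Dom.nr, gr_const], fun _ _ _ => by simp⟩

theorem Dom.Conv.congr {f f' : ℕ → ℂ → ℝ} (h : D.Conv f φ) (e : ∀ᶠ n in atTop, EqOn (f' n) (f n) D.G)
    (e' : EqOn ψ φ D.G) : D.Conv f' ψ :=
  ⟨h.1.congr' (e.mono fun n hn => nr_congr fun z hz => by simp only [hn hz, e' hz]),
    fun C hC hG => (h.2 C hC hG).congr' (e.mono fun n hn =>
      setIntegral_congr_fun hC.measurableSet fun z hz => by simp only [hn (hG hz), e' (hG hz)])⟩

theorem Dom.Conv.sub_seq {f : ℕ → ℂ → ℝ} {k : ℕ → ℕ} (h : D.Conv f φ) (hk : Tendsto k atTop atTop) :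
    D.Conv (fun n => f (k n)) φ :=
  ⟨h.1.comp hk, fun C hC hG => (h.2 C hC hG).comp hk⟩

theorem Dom.Conv.add {f f' : ℕ → ℂ → ℝ} (h : D.Conv f φ) (h' : D.Conv f' ψ) (a : ∀ n, D.Fn (f n))
    (a' : ∀ n, D.Fn (f' n)) (b : D.Fn φ) (b' : D.Fn ψ) :
    D.Conv (fun n z => f n z + f' n z) fun z => φ z + ψ z := by
  refine ⟨squeeze_zero (fun n => nr_nonneg D _) (fun n => ?_) (by simpa using h.1.add h'.1),
    fun C hC hG => k8_two h h' a a' b b' hC hG fun n z => ?_⟩
  · simpa only [sub_add_sub_comm] using nr_add ((a n).sub b) ((a' n).sub b')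
  · nlinarith [sq_nonneg (f n z - φ z - (f' n z - ψ z))]

theorem Dom.Conv.sub {f f' : ℕ → ℂ → ℝ} (h : D.Conv f φ) (h' : D.Conv f' ψ) (a : ∀ n, D.Fn (f n))
    (a' : ∀ n, D.Fn (f' n)) (b : D.Fn φ) (b' : D.Fn ψ) :
    D.Conv (fun n z => f n z - f' n z) fun z => φ z - ψ z := by
  refine ⟨squeeze_zero (fun n => nr_nonneg D _) (fun n => ?_) (by simpa using h.1.add h'.1),
    fun C hC hG => k8_two h h' a a' b b' hC hG fun n z => ?_⟩
  · simpa only [sub_sub_sub_comm (f n _) (f' n _)] using nr_sub ((a n).sub b) ((a' n).sub b')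
  · nlinarith [sq_nonneg (f n z - φ z + (f' n z - ψ z))]

theorem Dom.Conv.wmul {f : ℕ → ℂ → ℝ} (h : D.Conv f φ) (a : ∀ n, D.Fn (f n)) (b : D.Fn φ)
    (hη : D.Wd η u) : D.Conv (fun n z => η z * f n z) fun z => η z * φ z := by
  obtain ⟨M, hM, -⟩ := hη.bd
  obtain ⟨C₀, hC₀, hG₀, h0⟩ := hη.cs
  obtain ⟨L, hL⟩ := hC₀.exists_bound_of_continuousOn (hη.fn.grCont.mono hG₀)
  refine ⟨?_, fun C hC hG => k8_loc (M ^ 2) (fun n => k8_Q (a n) b) hC hG (h.2 C hC hG)
    fun n z hz => ?_⟩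
  · simp only [← mul_sub]
    refine k8_nr2 (A' := fun n => C₀.indicator fun z => (f n z - φ z) ^ 2) (2 * (M ^ 2 + L ^ 2))
      (fun n => int_sq ((a n).sub b)) (k8_N h) (fun n => ((k8_int (k8_Q (a n) b) hC₀
        hG₀).integrable_indicator hC₀.measurableSet).integrableOn) ?_ fun n z hz => ?_
    · simpa only [setIntegral_indicator hC₀.measurableSet, inter_eq_right.2 hG₀] using
        h.2 C₀ hC₀ hG₀
    · rw [gr_mul (hη.fn.diffAt hz) (((a n).sub b).diffAt hz)]
      refine (k8_sq _ _ _ _).trans (k8_le (hM z hz) (sq_nonneg _)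
        (indicator_nonneg (fun _ _ => sq_nonneg _) z) ?_ (sq_nonneg L))
      by_cases hz' : z ∈ C₀
      · rw [indicator_of_mem hz', mul_comm]
        exact mul_le_mul_of_nonneg_right (pow_le_pow_left₀ (norm_nonneg _) (hL z hz') 2)
          (sq_nonneg _)
      · have h1 := norm_gr_le η z
        rw [h0 z hz', norm_zero, mul_zero] at h1
        rw [indicator_of_notMem hz', le_antisymm h1 (norm_nonneg _)]
        simp
  · rw [← mul_sub, mul_pow]
    exact mul_le_mul_of_nonneg_right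
      (sq_le_sq' (abs_le.1 (hM z (hG hz))).1 (abs_le.1 (hM z (hG hz))).2) (sq_nonneg _)

theorem conv_compN {k : ℕ} {Θ : (Fin k → ℝ) → ℝ} {f : Fin k → ℕ → ℂ → ℝ} {p : Fin k → ℂ → ℝ} {C : ℝ}
    (h : ∀ i, D.Conv (f i) (p i)) (a : ∀ i n, D.Fn (f i n)) (b : ∀ i, D.Fn (p i))
    (hΘ : ContDiff ℝ ∞ Θ) (hC : ∀ x, ‖fderiv ℝ Θ x‖ ≤ C) :
    D.Conv (fun n z => Θ fun i => f i n z) fun z => Θ fun i => p i z := by
  have hd := hΘ.differentiable (by simp)
  have hc := hΘ.continuous_fderiv (by simp)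
  have c1 : ∀ x i, |fderiv ℝ Θ x (Pi.single i 1)| ≤ C := fun x i => by
    have h1 := (fderiv ℝ Θ x).le_opNorm (Pi.single i 1)
    rw [Pi.norm_single, norm_one, mul_one] at h1
    exact h1.trans (hC x)
  have hE : ∀ n, ContinuousOn (fun z => ∑ i, (f i n z - p i z) ^ 2) D.G := fun n =>
    continuousOn_finsetSum _ fun i _ => k8_Q (a i n) (b i)
  have hl : ∀ A, IsCompact A → A ⊆ D.G →
      Tendsto (fun n => ∫ z in A, ∑ i, (f i n z - p i z) ^ 2) atTop (𝓝 0) := fun A hA hG => by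
    have h1 := tendsto_finsetSum Finset.univ fun i _ => (h i).2 A hA hG
    rw [Finset.sum_const_zero] at h1
    exact h1.congr fun n =>
      (integral_finsetSum _ fun i _ => k8_int (k8_Q (a i n) (b i)) hA hG).symm
  refine ⟨?_, fun A hA hG => k8_loc (C ^ 2) hE hA hG (hl A hA hG) fun n z _ => ?_⟩
  · have key := fun i => k8_dom (F := fun n z => (fderiv ℝ Θ (fun j => f j n z) (Pi.single i 1) -
        fderiv ℝ Θ (fun j => p j z) (Pi.single i 1)) ^ 2 * ‖gr (p i) z‖ ^ 2)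
      (B := fun z => (2 * C) ^ 2 * ‖gr (p i) z‖ ^ 2) hE
      (fun n z => Finset.sum_nonneg fun _ _ => sq_nonneg _) hl
      (fun n => ((((hc.comp_continuousOn (continuousOn_pi.2 fun j => (a j n).contOn)).clm_apply
        continuousOn_const).sub ((hc.comp_continuousOn
          (continuousOn_pi.2 fun j => (b j).contOn)).clm_apply continuousOn_const)).pow 2).mul
        ((b i).grCont.norm.pow 2))
      (Integrable.const_mul (int_sq (b i)) _)
      (fun n z _ => by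
        rw [abs_of_nonneg (by positivity)]
        have h1 := abs_le.1 (c1 (fun j => f j n z) i)
        have h2 := abs_le.1 (c1 (fun j => p j z) i)
        exact mul_le_mul_of_nonneg_right (sq_le_sq' (by linarith [h1.1, h2.2])
          (by linarith [h1.2, h2.1])) (sq_nonneg _))
      fun z _ ns _ hz => by
        have h1 : Tendsto (fun n j => f j (ns n) z) atTop (𝓝 fun j => p j z) :=
          tendsto_pi_nhds.2 fun j => by
            have h2 := (squeeze_zero (fun n => sq_nonneg _) (fun n => Finset.single_le_sum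
              (f := fun i => (f i (ns n) z - p i z) ^ 2) (fun _ _ => sq_nonneg _)
              (Finset.mem_univ j)) hz).sqrt
            simp only [Real.sqrt_sq_eq_abs, Real.sqrt_zero] at h2
            exact tendsto_iff_norm_sub_tendsto_zero.2 h2
        have h2 := (((((hc.clm_apply (continuous_const (y := Pi.single i 1))).tendsto _).comp
          h1).sub_const (fderiv ℝ Θ (fun j => p j z) (Pi.single i 1))).pow 2).mul_const
          (‖gr (p i) z‖ ^ 2)
        simpa using h2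
    refine k8_nr2 (A := fun n z => ∑ i, ‖gr (fun z => f i n z - p i z) z‖ ^ 2)
      (k * (2 * (C ^ 2 + 1)))
      (fun n => integrable_finsetSum _ fun i _ => int_sq ((a i n).sub (b i))) ?_
      (fun n => integrable_finsetSum Finset.univ fun i _ => (key i).1 n) ?_ fun n z hz => ?_
    · have h1 := tendsto_finsetSum Finset.univ fun i _ => k8_N (h i)
      rw [Finset.sum_const_zero] at h1
      exact h1.congr fun n => (integral_finsetSum _ fun i _ => int_sq ((a i n).sub (b i))).symm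
    · have h1 := tendsto_finsetSum Finset.univ fun i _ => (key i).2
      rw [Finset.sum_const_zero] at h1
      exact h1.congr fun n => (integral_finsetSum _ fun i _ => (key i).1 n).symm
    · have d1 := fun i => (a i n).diffAt hz
      have d2 := fun i => (b i).diffAt hz
      have d3 : DifferentiableAt ℝ (fun z => Θ fun i => f i n z) z :=
        (hd _).comp z (differentiableAt_pi.2 d1)
      have d4 : DifferentiableAt ℝ (fun z => Θ fun i => p i z) z :=
        (hd _).comp z (differentiableAt_pi.2 d2)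
      beta_reduce
      rw [gr_sub d3 d4, gr_compN (hd _) d1, gr_compN (hd _) d2,
        ← Finset.sum_sub_distrib, ← Finset.sum_add_distrib, mul_assoc, Finset.mul_sum]
      refine (pow_le_pow_left₀ (norm_nonneg _) (norm_sum_le _ _) 2).trans
        (sq_sum_le_card_mul_sum_sq.trans ?_)
      rw [Finset.card_univ, Fintype.card_fin]
      refine mul_le_mul_of_nonneg_left (Finset.sum_le_sum fun i _ => ?_) (Nat.cast_nonneg k)
      refine le_trans (le_of_eq ?_) ((k8_sq _ _ _ _).trans (k8_le (c1 (fun j => f j n z) i)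
        (sq_nonneg _) (by positivity) (one_mul _).ge zero_le_one))
      rw [gr_sub (d1 i) (d2 i), smul_sub, sub_smul, sub_add_sub_cancel]
  · have h1 := convex_univ.norm_image_sub_le_of_norm_fderiv_le (fun x _ => hd x) (fun x _ => hC x)
      (mem_univ fun i => p i z) (mem_univ fun i => f i n z)
    have h2 : ‖(fun i => f i n z) - fun i => p i z‖ ≤ √(∑ i, (f i n z - p i z) ^ 2) :=
      (pi_norm_le_iff_of_nonneg (Real.sqrt_nonneg _)).2 fun j => Real.abs_le_sqrt
        (Finset.single_le_sum (f := fun i => (f i n z - p i z) ^ 2) (fun _ _ => sq_nonneg _)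
          (Finset.mem_univ j))
    have h3 := pow_le_pow_left₀ (norm_nonneg _)
      (h1.trans (mul_le_mul_of_nonneg_left h2 ((norm_nonneg _).trans (hC 0)))) 2
    rwa [Real.norm_eq_abs, sq_abs, mul_pow,
      Real.sq_sqrt (Finset.sum_nonneg fun _ _ => sq_nonneg _)] at h3

theorem Dom.Conv.comp {T : ℝ → ℝ} {f : ℕ → ℂ → ℝ} {C : ℝ} (h : D.Conv f φ) (a : ∀ n, D.Fn (f n))
    (b : D.Fn φ) (hT : ContDiff ℝ ∞ T) (hC : ∀ x, |deriv T x| ≤ C) :
    D.Conv (fun n z => T (f n z)) fun z => T (φ z) := by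
  refine conv_compN (Θ := fun x : Fin 1 → ℝ => T (x 0)) (f := fun _ => f) (p := fun _ => φ)
    (C := C) (fun _ => h) (fun _ => a) (fun _ => b) (hT.comp (contDiff_apply ℝ ℝ 0)) fun x => ?_
  have h1 : HasFDerivAt (fun x : Fin 1 → ℝ => T (x 0))
      (deriv T (x 0) • ContinuousLinearMap.proj (R := ℝ) (φ := fun _ : Fin 1 => ℝ) 0) x :=
    (hT.differentiable (by simp) _).hasDerivAt.comp_hasFDerivAt x (hasFDerivAt_apply 0 x)
  rw [h1.fderiv]
  refine ContinuousLinearMap.opNorm_le_bound _ ((abs_nonneg _).trans (hC 0)) fun v => ?_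
  rw [smul_apply, norm_smul]
  exact mul_le_mul (hC _) (norm_le_pi_norm v 0) (norm_nonneg _) ((abs_nonneg _).trans (hC 0))

/-- multiplication by a fixed bounded function, for uniformly bounded sequences -/
theorem Dom.Conv.bmul {f : ℕ → ℂ → ℝ} {M : ℝ} (h : D.Conv f φ) (a : ∀ n, D.Fn (f n)) (b : D.Fn φ)
    (hM : ∀ n, D.Le (f n) M) (hφ : D.Le φ M) (hψ : D.Fn ψ) (bψ : D.Bd ψ) :
    D.Conv (fun n z => f n z * ψ z) fun z => φ z * ψ z := by
  obtain ⟨L, hL⟩ := bψ
  have key := k8_dom (F := fun n z => (f n z - φ z) ^ 2 * ‖gr ψ z‖ ^ 2)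
    (B := fun z => (2 * M) ^ 2 * ‖gr ψ z‖ ^ 2) (fun n => k8_Q (a n) b) (fun n z => sq_nonneg _) h.2
    (fun n => (k8_Q (a n) b).mul (hψ.grCont.norm.pow 2)) (Integrable.const_mul (int_sq hψ) _)
    (fun n z hz => by
      rw [abs_of_nonneg (by positivity)]
      have h1 := abs_le.1 (hM n z hz)
      have h2 := abs_le.1 (hφ z hz)
      exact mul_le_mul_of_nonneg_right (sq_le_sq' (by linarith [h1.1, h2.2])
        (by linarith [h1.2, h2.1])) (sq_nonneg _))
    fun z _ ns _ hz => by simpa only [zero_mul] using hz.mul_const (‖gr ψ z‖ ^ 2)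
  refine ⟨?_, fun C hC hG => k8_loc (L ^ 2) (fun n => k8_Q (a n) b) hC hG (h.2 C hC hG)
    fun n z hz => ?_⟩
  · simp only [← sub_mul]
    refine k8_nr2 (2 * (L ^ 2 + 1)) (fun n => int_sq ((a n).sub b)) (k8_N h) key.1 key.2
      fun n z hz => ?_
    rw [gr_mul (((a n).sub b).diffAt hz) (hψ.diffAt hz), add_comm]
    exact (k8_sq _ _ _ _).trans (k8_le (hL z hz) (sq_nonneg _) (by positivity) (one_mul _).ge
      zero_le_one)
  · rw [← sub_mul, mul_pow, mul_comm]
    exact mul_le_mul_of_nonneg_right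
      (sq_le_sq' (abs_le.1 (hL z (hG hz))).1 (abs_le.1 (hL z (hG hz))).2) (sq_nonneg _)

/-- truncations converge -/
theorem conv_trunc {T : ℕ → ℝ → ℝ} (h : D.Fn φ) (hT : ∀ n, ContDiff ℝ ∞ (T n))
    (h1 : ∀ n x, |deriv (T n) x| ≤ 1) (hi : ∀ (n : ℕ) (x : ℝ), |x| ≤ n → T n x = x) :
    D.Conv (fun n z => T n (φ z)) φ := by
  have key := k8_dom (E := fun _ _ => 0)
    (F := fun n z => (deriv (T n) (φ z) - 1) ^ 2 * ‖gr φ z‖ ^ 2)
    (B := fun z => 2 ^ 2 * ‖gr φ z‖ ^ 2) (fun n => continuousOn_const) (fun n z => le_rfl)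
    (fun _ _ _ => by simp)
    (fun n => ((((hT n).continuous_deriv (by simp)).comp_continuousOn h.contOn).sub
      continuousOn_const).pow 2 |>.mul (h.grCont.norm.pow 2))
    (Integrable.const_mul (int_sq h) _)
    (fun n z _ => by
      rw [abs_of_nonneg (by positivity)]
      have h2 := abs_le.1 (h1 n (φ z))
      exact mul_le_mul_of_nonneg_right (sq_le_sq' (by linarith [h2.1]) (by linarith [h2.2]))
        (sq_nonneg _))
    fun z _ ns hns _ => by
      refine tendsto_const_nhds.congr'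
        (((tendsto_natCast_atTop_atTop.comp hns).eventually_gt_atTop |φ z|).mono fun n hn => ?_)
      have h2 : T (ns n) =ᶠ[𝓝 (φ z)] id :=
        (continuous_abs.continuousAt.eventually_lt continuousAt_const hn).mono fun x hx =>
          hi _ x hx.le
      simp only [h2.deriv_eq, deriv_id, sub_self, zero_pow two_ne_zero, zero_mul]
  refine ⟨k8_nr key.1 key.2 fun n z hz => le_of_eq ?_, fun C hC hG => ?_⟩
  · have d1 := (hT n).differentiable (by simp) (φ z)
    have d2 : DifferentiableAt ℝ (fun z => T n (φ z)) z := d1.comp z (h.diffAt hz)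
    beta_reduce
    rw [gr_sub d2 (h.diffAt hz), gr_comp d1 (h.diffAt hz), ← sq_abs (_ - 1),
      ← mul_pow, ← Real.norm_eq_abs, ← norm_smul, sub_smul, one_smul]
  · obtain ⟨L, hL⟩ := hC.exists_bound_of_continuousOn (h.contOn.mono hG)
    refine tendsto_const_nhds.congr'
      ((tendsto_natCast_atTop_atTop.eventually_ge_atTop L).mono fun n hn => ?_)
    refine (setIntegral_eq_zero_of_forall_eq_zero fun z hz => ?_).symm
    beta_reduce
    rw [hi n _ ((hL z hz).trans hn), sub_self, zero_pow two_ne_zero]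

/-- from an `ε`-statement to a sequence -/
theorem conv_of_eps {P : (ℂ → ℝ) → Prop}
    (h : ∀ ε > 0, ∀ C, IsCompact C → C ⊆ D.G → ∃ f, P f ∧ D.Fn f ∧ D.nr (fun z => f z - φ z) ≤ ε ∧
      ∫ z in C, (f z - φ z) ^ 2 ≤ ε) (hφ : D.Fn φ) : ∃ f : ℕ → ℂ → ℝ, (∀ n, P (f n)) ∧ D.Conv f φ := by
  obtain ⟨C, h1, h2⟩ := k8_exh D
  choose f hP hf h3 h4 using fun n : ℕ =>
    h (1 / (n + 1)) Nat.one_div_pos_of_nat (C n) (h1 n).1 (h1 n).2
  refine ⟨f, hP, squeeze_zero (fun n => nr_nonneg D _) h3 tendsto_one_div_add_atTop_nhds_zero_nat,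
    fun A hA hG => squeeze_zero' (Eventually.of_forall fun n => integral_nonneg fun z => sq_nonneg _)
      ((h2 A hA hG).mono fun n hn => le_trans ?_ (h4 n)) tendsto_one_div_add_atTop_nhds_zero_nat⟩
  exact setIntegral_mono_set (k8_int (k8_Q (hf n) hφ) (h1 n).1 (h1 n).2)
    (ae_of_all _ fun z => sq_nonneg _) hn.eventuallyLE


end Vale.P116D
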