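import Vale.Agent.P116D.K2
import Vale.Agent.P116D.K4

/-!
K8: continuity of the operations under `Conv`.  For `Conv.compN` argue by subsequences: mean
square convergence on an exhaustion gives a subsequence that converges almost everywhere, then
dominated convergence for `(Θ' (f n) - Θ' g) ∇g`.
-/

namespace Vale.P116D

open Set Filter Topology MeasureTheory Complex
open scoped ContDiff

variable {D : Dom} {S : Gens D} {φ ψ χ η g d v w : ℂ → ℝ} {s σ r τ u : D.End → ℝ} {y : D.End}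
  {U : Set ℂ} {z : ℂ}

theorem k8a_int {C : Set ℂ} (h : D.Fn φ) (hC : IsCompact C) (hG : C ⊆ D.G) :
    IntegrableOn (fun z => φ z ^ 2) C :=
  ((h.contOn.mono hG).pow 2).integrableOn_compact hC

theorem k8a_loc {C : Set ℂ} (h : D.Fn φ) (h' : D.Fn ψ) (hC : IsCompact C) (hG : C ⊆ D.G)
    (e : ∀ z ∈ C, χ z ^ 2 ≤ 2 * φ z ^ 2 + 2 * ψ z ^ 2) :
    ∫ z in C, χ z ^ 2 ≤ 2 * (∫ z in C, φ z ^ 2) + 2 * ∫ z in C, ψ z ^ 2 := by
  have i1 := (k8a_int h hC hG).const_mul 2
  have i2 := (k8a_int h' hC hG).const_mul 2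
  rw [← integral_const_mul, ← integral_const_mul, ← integral_add i1 i2]
  exact integral_mono_of_nonneg (Eventually.of_forall fun z => sq_nonneg _) (i1.add i2)
    ((ae_restrict_iff' hC.measurableSet).2 (Eventually.of_forall e))

theorem k8a_en {C : Set ℂ} {M B : ℝ} (h : D.Fn φ) (hη : ContDiff ℝ ∞ η) (hC : IsCompact C)
    (hG : C ⊆ D.G) (h0 : ∀ z, z ∉ C → fderiv ℝ η z = 0) (hM : D.Le η M)
    (hB : ∀ z ∈ C, ‖gr η z‖ ≤ B) :
    ∫ z in D.G, ‖gr (fun z => η z * φ z) z‖ ^ 2 ≤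
      2 * M ^ 2 * (∫ z in D.G, ‖gr φ z‖ ^ 2) + 2 * B ^ 2 * ∫ z in C, φ z ^ 2 := by
  have i1 := (int_sq h).const_mul (2 * M ^ 2)
  have i3 : IntegrableOn (fun z => 2 * B ^ 2 * φ z ^ 2) C := (k8a_int h hC hG).const_mul _
  have i2 : Integrable (C.indicator fun z => 2 * B ^ 2 * φ z ^ 2) (volume.restrict D.G) :=
    ((integrable_indicator_iff hC.measurableSet).2 i3).integrableOn
  have e2 : ∫ z in D.G, (C.indicator fun z => 2 * B ^ 2 * φ z ^ 2) z =
      2 * B ^ 2 * ∫ z in C, φ z ^ 2 := by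
    rw [setIntegral_indicator hC.measurableSet, inter_eq_right.2 hG, integral_const_mul]
  rw [← e2, ← integral_const_mul, ← integral_add i1 i2]
  refine integral_mono_of_nonneg (Eventually.of_forall fun z => sq_nonneg _) (i1.add i2)
    ((ae_restrict_iff' (G_meas D)).2 (Eventually.of_forall fun z hz => ?_))
  have a1 : ‖η z • gr φ z‖ ≤ M * ‖gr φ z‖ := by
    rw [norm_smul]
    exact mul_le_mul_of_nonneg_right (hM z hz) (norm_nonneg _)
  have a0 : ‖η z • gr φ z‖ ^ 2 ≤ M ^ 2 * ‖gr φ z‖ ^ 2 := by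
    rw [← mul_pow]
    exact pow_le_pow_left₀ (norm_nonneg _) a1 2
  show ‖gr (fun z => η z * φ z) z‖ ^ 2 ≤ 2 * M ^ 2 * ‖gr φ z‖ ^ 2 + _
  rw [gr_mul (hη.differentiable (by simp) z) (h.diffAt hz)]
  by_cases hz' : z ∈ C
  · rw [indicator_of_mem hz']
    have a2 : ‖φ z • gr η z‖ ^ 2 ≤ B ^ 2 * φ z ^ 2 := by
      rw [norm_smul, mul_pow, Real.norm_eq_abs, sq_abs, mul_comm]
      exact mul_le_mul_of_nonneg_right (pow_le_pow_left₀ (norm_nonneg _) (hB z hz') 2) (sq_nonneg _)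
    have a3 := pow_le_pow_left₀ (norm_nonneg _) (norm_add_le (η z • gr φ z) (φ z • gr η z)) 2
    nlinarith [sq_nonneg (‖η z • gr φ z‖ - ‖φ z • gr η z‖)]
  · have a2 : gr η z = 0 := by
      have a4 := norm_gr_le η z
      rw [h0 z hz', norm_zero, mul_zero] at a4
      exact norm_le_zero_iff.1 a4
    rw [indicator_of_notMem hz', a2, smul_zero, add_zero, add_zero]
    nlinarith [sq_nonneg ‖η z • gr φ z‖]

theorem conv_const (h : D.Fn φ) : D.Conv (fun _ => φ) φ := by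
  have _ := h
  refine ⟨?_, fun C _ _ => ?_⟩
  · simp [Dom.nr, gr_const]
  · simp
theorem Dom.Conv.congr {f f' : ℕ → ℂ → ℝ} (h : D.Conv f φ) (e : ∀ᶠ n in atTop, EqOn (f' n) (f n) D.G)
    (e' : EqOn ψ φ D.G) : D.Conv f' ψ := by
  refine ⟨h.1.congr' (e.mono fun n hn => nr_congr fun z hz => ?_), fun C hC hG =>
    (h.2 C hC hG).congr' (e.mono fun n hn => setIntegral_congr_fun hC.measurableSet fun z hz => ?_)⟩
  · simp only [hn hz, e' hz]
  · simp only [hn (hG hz), e' (hG hz)]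
theorem Dom.Conv.sub_seq {f : ℕ → ℂ → ℝ} {k : ℕ → ℕ} (h : D.Conv f φ) (hk : Tendsto k atTop atTop) :
    D.Conv (fun n => f (k n)) φ := ⟨h.1.comp hk, fun C hC hG => (h.2 C hC hG).comp hk⟩
theorem Dom.Conv.add {f f' : ℕ → ℂ → ℝ} (h : D.Conv f φ) (h' : D.Conv f' ψ) (a : ∀ n, D.Fn (f n))
    (a' : ∀ n, D.Fn (f' n)) (b : D.Fn φ) (b' : D.Fn ψ) :
    D.Conv (fun n z => f n z + f' n z) fun z => φ z + ψ z := by
  refine ⟨squeeze_zero (fun n => nr_nonneg _ _) (fun n => ?_) (by simpa using h.1.add h'.1),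
    fun C hC hG => squeeze_zero (fun n => integral_nonneg fun z => sq_nonneg _)
      (fun n => k8a_loc ((a n).sub b) ((a' n).sub b') hC hG fun z _ => ?_)
      (by simpa using ((h.2 C hC hG).const_mul 2).add ((h'.2 C hC hG).const_mul 2))⟩
  · refine le_trans (nr_congr fun z _ => ?_).le (nr_add ((a n).sub b) ((a' n).sub b'))
    simp only
    ring
  · nlinarith [sq_nonneg (f n z - φ z - (f' n z - ψ z))]
theorem Dom.Conv.sub {f f' : ℕ → ℂ → ℝ} (h : D.Conv f φ) (h' : D.Conv f' ψ) (a : ∀ n, D.Fn (f n))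
    (a' : ∀ n, D.Fn (f' n)) (b : D.Fn φ) (b' : D.Fn ψ) :
    D.Conv (fun n z => f n z - f' n z) fun z => φ z - ψ z := by
  refine ⟨squeeze_zero (fun n => nr_nonneg _ _) (fun n => ?_) (by simpa using h.1.add h'.1),
    fun C hC hG => squeeze_zero (fun n => integral_nonneg fun z => sq_nonneg _)
      (fun n => k8a_loc ((a n).sub b) ((a' n).sub b') hC hG fun z _ => ?_)
      (by simpa using ((h.2 C hC hG).const_mul 2).add ((h'.2 C hC hG).const_mul 2))⟩
  · refine le_trans (nr_congr fun z _ => ?_).le (nr_sub ((a n).sub b) ((a' n).sub b'))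
    simp only
    ring
  · nlinarith [sq_nonneg (f n z - φ z + (f' n z - ψ z))]
theorem Dom.Conv.wmul {f : ℕ → ℂ → ℝ} (h : D.Conv f φ) (a : ∀ n, D.Fn (f n)) (b : D.Fn φ)
    (hη : D.Wd η u) : D.Conv (fun n z => η z * f n z) fun z => η z * φ z := by
  obtain ⟨M, hM, -⟩ := hη.bd
  obtain ⟨C, hC, hG, h0⟩ := hη.cs
  obtain ⟨B, hB⟩ := hC.exists_bound_of_continuousOn (hη.fn.grCont.mono hG)
  refine ⟨?_, fun C' hC' hG' => ?_⟩
  · have t1 : Tendsto (fun n => ∫ z in D.G, ‖gr (fun z => f n z - φ z) z‖ ^ 2) atTop (𝓝 0) := by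
      have t0 := h.1.pow 2
      rw [zero_pow two_ne_zero] at t0
      exact t0.congr fun n => Real.sq_sqrt (integral_nonneg fun z => sq_nonneg _)
    have t2 := ((t1.const_mul (2 * M ^ 2)).add ((h.2 C hC hG).const_mul (2 * B ^ 2))).sqrt
    rw [mul_zero, mul_zero, add_zero, Real.sqrt_zero] at t2
    refine squeeze_zero (fun n => nr_nonneg _ _) (fun n => ?_) t2
    refine le_trans (nr_congr (ψ := fun z => η z * (f n z - φ z)) fun z _ => ?_).le
      (Real.sqrt_le_sqrt (k8a_en ((a n).sub b) hη.sm hC hG h0 hM hB))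
    simp only
    ring
  · have t2 := (h.2 C' hC' hG').const_mul (M ^ 2)
    rw [mul_zero] at t2
    refine squeeze_zero (fun n => integral_nonneg fun z => sq_nonneg _) (fun n => ?_) t2
    rw [← integral_const_mul]
    refine integral_mono_of_nonneg (Eventually.of_forall fun z => sq_nonneg _)
      ((k8a_int ((a n).sub b) hC' hG').const_mul _)
      ((ae_restrict_iff' hC'.measurableSet).2 (Eventually.of_forall fun z hz => ?_))
    have a1 := pow_le_pow_left₀ (abs_nonneg _) (hM z (hG' hz)) 2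
    rw [sq_abs] at a1
    show (η z * f n z - η z * φ z) ^ 2 ≤ M ^ 2 * (f n z - φ z) ^ 2
    rw [← mul_sub, mul_pow]
    exact mul_le_mul_of_nonneg_right a1 (sq_nonneg _)

end Vale.P116D
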