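import Vale.Agent.P116D.D0
import Vale.Agent.P116D.A1

/-!
LD1: a member with zero cost at `y` that is dual for functions vanishing near `y` is dual.
-/

namespace Vale.P116D

open Set Filter Topology MeasureTheory Complex
open scoped ContDiff

variable {D : Dom} {S : Gens D} {φ ψ χ η g d v w : ℂ → ℝ} {s σ r τ u : D.End → ℝ} {y : D.End}
  {U : Set ℂ} {z : ℂ}

theorem ld1_eps {a b K : ℝ} (h : ∀ ε > 0, a ≤ b + ε * K) : a ≤ b := by
  refine le_of_forall_pos_le_add fun e he => ?_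
  have h1 : 0 < |K| + 1 := by positivity
  have h2 := h (e / (|K| + 1)) (by positivity)
  have h3 : e / (|K| + 1) * K ≤ e := by
    rw [div_mul_eq_mul_div, div_le_iff₀ h1]
    have := le_abs_self K
    nlinarith
  linarith

/-- a clamp that is close to the identity along `v` -/
theorem ld1_clamp (hv : D.Fn v) {ε : ℝ} (hε : 0 < ε) : ∃ (n : ℝ) (B : ℝ → ℝ), 0 ≤ n ∧
    ContDiff ℝ ∞ B ∧ (∀ x, deriv B x ∈ Icc (0 : ℝ) 1) ∧
    (∀ x, x ∉ Icc (-n - 2) (n + 2) → deriv B x = 0) ∧ D.nr (fun z => B (v z) - v z) ≤ ε := by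
  have hex : ∀ n : ℕ, ∃ T : ℝ → ℝ, ContDiff ℝ ∞ T ∧ (∀ x, deriv T x ∈ Icc (0 : ℝ) 1) ∧
      (∀ x ∈ Icc (-(n : ℝ)) n, T x = x) ∧ (∀ x, T x ∈ Icc (-(n : ℝ) - 1) (n + 1)) ∧
      ∀ x, x ∉ Icc (-(n : ℝ) - 2 * 1) (n + 2 * 1) → deriv T x = 0 := fun n =>
    clamp_ex (by have : (0 : ℝ) ≤ n := n.cast_nonneg; linarith) one_pos
  choose T h1 h2 h3 _ h5 using hex
  have hc := (conv_trunc hv h1 (fun n x => a1_abs (h2 n) x)
    (fun n x hx => h3 n x (abs_le.1 hx))).1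
  obtain ⟨n, hn⟩ := (hc.eventually (ge_mem_nhds hε)).exists
  refine ⟨n, T n, n.cast_nonneg, h1 n, h2 n, fun x hx => h5 n x ?_, hn⟩
  rwa [mul_one]

/-- a weight that vanishes near the cluster value of `v` at `y` -/
theorem ld1_beta (hS : Str S) (hT : Tcl S) (hv : In S v τ) (h0 : τ y = 0) {ε : ℝ} (hε : 0 < ε) :
    ∃ (β Γ : ℝ → ℝ) (C : ℝ), ContDiff ℝ ∞ β ∧ ContDiff ℝ ∞ Γ ∧ deriv Γ = β ∧
      (∀ x, β x ∈ Icc (0 : ℝ) 1) ∧ 0 ≤ C ∧ (∀ x, |deriv β x| ≤ C) ∧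
      D.nr (fun z => v z - Γ (v z)) ≤ ε ∧ Cert S y fun z => β (v z) := by
  obtain ⟨n, B, hn, hB, hB1, hB0, hBn⟩ := ld1_clamp hv.fn (half_pos hε)
  obtain ⟨T, hT1, hT2, hT3, hT4, -⟩ :=
    clamp_ex (a := -n - 3) (b := n + 3) (by linarith) one_pos
  have hTb : ∀ x, |T x| ≤ n + 4 := fun x => abs_le.2 ⟨by linarith [(hT4 x).1], by linarith [(hT4 x).2]⟩
  have hw : InB S (fun z => T (v z)) τ :=
    ⟨hS.trunc v τ hv T hT1 (a1_abs hT2) ⟨_, hTb⟩, ⟨n + 4, fun z _ => hTb _⟩⟩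
  obtain ⟨a, ha⟩ := hT _ _ hw y
  rw [h0, add_zero] at ha
  obtain ⟨δ, hδ, hl⟩ := level_small hv.fn a (half_pos hε)
  obtain ⟨γ, Cγ, hγ, hγ1, -, hγ0, hγe⟩ := off_ex (le_refl a) hδ
  have hB' : ContDiff ℝ ∞ (deriv B) := (contDiff_infty_iff_deriv.1 hB).2
  have hβ : ContDiff ℝ ∞ fun x => deriv B x * γ x := hB'.mul hγ
  have hβ1 : ∀ x, deriv B x * γ x ∈ Icc (0 : ℝ) 1 := fun x =>
    ⟨mul_nonneg (hB1 x).1 (hγ1 x).1, mul_le_one₀ (hB1 x).2 (hγ1 x).1 (hγ1 x).2⟩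
  have hβ0 : ∀ x, x ∉ Icc (-n - 2) (n + 2) → deriv B x * γ x = 0 := fun x hx => by
    rw [hB0 x hx, zero_mul]
  obtain ⟨Γ, hΓ, hΓd⟩ := prim_ex hβ
  have hcs : HasCompactSupport fun x => deriv B x * γ x :=
    HasCompactSupport.intro isCompact_Icc hβ0
  obtain ⟨C, hC⟩ := (contDiff_infty_iff_deriv.1 hβ).2.continuous.bounded_above_of_compact_support
    hcs.deriv
  have hm : Monotone T := mono_of_deriv hT1 fun x => (hT2 x).1
  have he : ∀ x, deriv B (T x) * γ (T x) = deriv B x * γ x := by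
    intro x
    rcases lt_or_ge x (-n - 3) with h1 | h1
    · have h2 : T x ≤ -n - 3 := by
        have := hm h1.le
        rwa [hT3 (-n - 3) ⟨le_rfl, by linarith⟩] at this
      rw [hβ0 x fun h => by linarith [h.1], hβ0 (T x) fun h => by linarith [h.1]]
    rcases le_or_gt x (n + 3) with h2 | h2
    · rw [hT3 x ⟨h1, h2⟩]
    · have h3 : n + 3 ≤ T x := by
        have := hm h2.le
        rwa [hT3 (n + 3) ⟨by linarith, le_rfl⟩] at this
      rw [hβ0 x fun h => by linarith [h.2], hβ0 (T x) fun h => by linarith [h.2]]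
  have hcert : Cert S y fun z => deriv B (T (v z)) * γ (T (v z)) :=
    cert_one (T := fun x => deriv B x * γ x) hS hw ha hβ (half_pos hδ) fun x hx => by
      show deriv B x * γ x = 0
      rw [hγ0 x hx, mul_zero]
  have hnr : D.nr (fun z => B (v z) - Γ (v z)) ≤ ε / 2 := by
    refine hl B Γ hB hΓ (fun x => ?_) fun x hx => ?_
    · rw [hΓd]
      have h1 := hB1 x
      have h2 := hβ1 x
      exact abs_le.2 ⟨by linarith [h1.1, h2.2], by linarith [h1.2, h2.1]⟩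
    · rw [hΓd]
      show deriv B x = deriv B x * γ x
      rw [hγe x hx, mul_one]
  have fB : D.Fn fun z => B (v z) := hv.fn.comp hB fun z _ => a1_abs hB1 _
  have fΓ : D.Fn fun z => Γ (v z) :=
    hv.fn.comp (C := 1) hΓ fun z _ => a1_abs (by rw [hΓd]; exact hβ1) _
  refine ⟨fun x => deriv B x * γ x, Γ, C, hβ, hΓ, hΓd, hβ1, (norm_nonneg _).trans (hC 0),
    fun x => hC x, ?_, a1_cert hcert (Eventually.of_forall fun z => he _)⟩
  have h1 := nr_sub (fB.sub fΓ) (fB.sub hv.fn)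
  have h2 : D.nr (fun z => v z - Γ (v z)) =
      D.nr fun z => B (v z) - Γ (v z) - (B (v z) - v z) :=
    nr_congr fun z _ => by ring
  linarith

theorem du_of_point (hS : Str S) (hT : Tcl S) (hv : In S v τ) (h0 : τ y = 0)
    (h : ∀ χ s, InB S χ s → D.Van y χ → |D.om χ v| ≤ ip s τ) : Du S v τ := by
  refine ⟨hv.fn, hv.co, fun χ s hχ => ?_⟩
  obtain ⟨M, hM⟩ := hχ.2
  have hM0 : 0 ≤ M := a1_nonneg hM
  refine ld1_eps (K := D.nr χ + D.nr v + ip s τ + 2 * nl τ) fun ε hε => ?_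
  obtain ⟨β, Γ, C, hβ, hΓ, hΓd, hβ1, hC, hβd, hnr, hcert⟩ := ld1_beta hS hT hv h0 hε
  have hβa : ∀ x, |β x| ≤ 1 := fun x => abs_le.2 ⟨by linarith [(hβ1 x).1], (hβ1 x).2⟩
  have hζ : InB S (fun z => β (v z)) fun y => C * τ y := hv.comp hS hβ hC hβd hβa
  have hb : Sq fun y => 2 * s y + (2 * M + ε) * (C * τ y) :=
    (hχ.1.co.2.cmul 2).add ((hv.co.2.cmul C).cmul _)
  obtain ⟨F, hF⟩ := hb.tail hε
  obtain ⟨η, u, hη, hηM, -, hψ⟩ := sub_const hS hχ.1 hM hζ.1 (fun z _ => hβ1 _) F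
    (fun _ => univ) (fun _ _ => univ_mem) hε
  have hd : InB S (fun z => χ z - η z) fun y => s y + 0 :=
    ⟨hχ.1.sub (in_wd hS hη) hS, hχ.2.sub ⟨_, hηM⟩⟩
  have hc2 : Cert S y fun z => β (v z) * (χ z - η z) :=
    a1_cert (hcert.mul hS hζ hd) (Eventually.of_forall fun z => mul_comm _ _)
  obtain ⟨ξ, r, hξ, -, hξn, hrn, hξe⟩ := hc2 ε hε univ univ_mem
  have hbd : D.Bd fun z => β (v z) * (χ z - η z) := hζ.2.mul hd.2
  have h1 := h _ _ ⟨hψ.sub hξ.1 hS, hbd.sub hξ.2⟩ 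
    (hξe.mono fun z hz => sub_eq_zero.2 hz.symm)
  rw [ip_add hψ.co.2 hξ.1.co.2 hv.co.2, ip_pw hb hv.co.2, om_sub hψ.fn hξ.1.fn hv.fn] at h1
  have hτ := nl_nonneg τ
  have h2 : ip r τ ≤ ε * nl τ :=
    ((le_abs_self _).trans (abs_ip_le hξ.1.co.2 hv.co.2)).trans
      (mul_le_mul_of_nonneg_right hrn hτ)
  have h3 : ip (pw F (fun _ => 0) fun y => 2 * s y + (2 * M + ε) * (C * τ y)) τ ≤ ε * nl τ :=
    ((le_abs_self _).trans (abs_ip_le (hb.pw F _) hv.co.2)).trans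
      (mul_le_mul_of_nonneg_right (hF F (Finset.Subset.refl F)) hτ)
  have h4 : ∑ y ∈ F, (1 + ε) * s y * τ y ≤ (1 + ε) * ip s τ := by
    have := mul_le_mul_of_nonneg_left (sum_le_ip hχ.1.co hv.co F) (by positivity : 0 ≤ 1 + ε)
    rw [Finset.mul_sum] at this
    simpa only [mul_assoc] using this
  have h5 : |D.om ξ v| ≤ ε * D.nr v :=
    (abs_om_le hξ.1.fn hv.fn).trans (mul_le_mul_of_nonneg_right hξn (nr_nonneg D v))
  have fΓ : D.Fn fun z => Γ (v z) :=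
    hv.fn.comp (C := 1) hΓ fun z _ => by rw [hΓd]; exact hβa _
  have h6 : |D.om (fun z => v z - Γ (v z)) χ| ≤ ε * D.nr χ :=
    (abs_om_le (hv.fn.sub fΓ) hχ.1.fn).trans (mul_le_mul_of_nonneg_right hnr (nr_nonneg D χ))
  rw [om_sub hv.fn fΓ hχ.1.fn, om_swap D v χ, om_swap D (fun z => Γ (v z)) χ,
    om_comp hΓ hχ.1.fn hv.fn, hΓd] at h6
  have f1 : D.Fn fun z => χ z * β (v z) := hχ.1.fn.mul hζ.1.fn hχ.2 hζ.2
  have f2 : D.Fn fun z => η z * β (v z) := hη.fn.mul hζ.1.fn ⟨_, hηM⟩ hζ.2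
  have h7 : D.om (fun z => β (v z) * (χ z - η z)) v = D.om (fun z => χ z * β (v z)) v := by
    have e1 := om_sub f1 f2 hv.fn
    rw [om_fun hη hβ hβa hv.fn, sub_zero] at e1
    rw [← e1]
    exact om_congr (fun z _ => by ring) fun _ _ => rfl
  rw [h7] at h1
  have k1 := abs_le.1 h1
  have k5 := abs_le.1 h5
  have k6 := abs_le.1 h6
  refine abs_le.2 ⟨?_, ?_⟩ <;> linarith [k1.1, k1.2, k5.1, k5.2, k6.1, k6.2]

end Vale.P116D
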