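import Vale.Agent.P116D.K11b
import Vale.Agent.P116D.TM
import Vale.Agent.P116D.LD1

/-!
LD: local density of the generators (PROOF69 section 5).
-/

namespace Vale.P116D

open Set Filter Topology MeasureTheory Complex
open scoped ContDiff

variable {D : Dom} {S : Gens D} {φ ψ χ η g d v w : ℂ → ℝ} {s σ r τ u : D.End → ℝ} {y : D.End}
  {U : Set ℂ} {z : ℂ}

/-- the feasible set -/
def LA (S : Gens D) (φ : ℂ → ℝ) (y : D.End) : Set ((ℂ → ℝ) × (D.End → ℝ) × ℝ) :=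
  {x | ∃ r, InB S x.1 r ∧ x.2.1 = upd r y 0 ∧ x.2.2 = 0 ∧
    ∃ p ∈ S, (fun z => φ z - x.1 z) =ᶠ[D.nb y] p.1}

theorem ld_sol (hS : Max S) (hφ : InB S φ s) (y : D.End) :
    ∃ d v τ x, MinSol (LA S φ y) 1 d v τ 0 x := by
  have hS' := hS.1
  suffices H : ∃ d v τ ρ x, MinSol (LA S φ y) 1 d v τ ρ x by
    obtain ⟨d, v, τ, ρ, x, h⟩ := H
    have : ρ = 0 := tendsto_nhds_unique h.rc
      (tendsto_const_nhds.congr fun n => by obtain ⟨_, -, -, e, -⟩ := h.mem n; exact e.symm)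
    exact ⟨d, v, τ, x, this ▸ h⟩
  refine min_sol (A := LA S φ y) one_pos ?_
    ⟨(φ, upd s y 0, 0), s, hφ, rfl, rfl, _, hS.zero_mem, Eventually.of_forall fun z => by simp⟩ ?_ ?_
  · rintro x ⟨r, h1, h2, h3, p, hp, h4⟩ x' ⟨r', h1', h2', h3', p', hp', h4'⟩ t ht
    refine ⟨0, by simp [h3, h3'], _, ⟨(h1.1.cmul t).add (h1'.1.cmul (1 - t)) hS',
      (h1.2.cmul t).add (h1'.2.cmul _)⟩, ?_, rfl, _,
      hS.add_mem (hS.cmul_mem hp t) (hS.cmul_mem hp' (1 - t)), ?_⟩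
    · funext y'
      simp only [h2, h2', upd, abs_of_nonneg ht.1, abs_of_nonneg (sub_nonneg.2 ht.2)]
      split_ifs <;> simp
    · filter_upwards [h4, h4'] with z a b
      rw [← a, ← b]; ring
  · rintro x ⟨r, h1, h2, h3, -⟩
    exact ⟨h1.1.fn, h2 ▸ h1.1.co.upd y le_rfl, h3.ge⟩
  · rintro x ⟨r, h1, h2, h3, p, hp, h4⟩ η u hη
    obtain ⟨M, hM, -⟩ := hη.bd
    refine ⟨r, ⟨h1.1.add_wd hS' hη, h1.2.add ⟨M, hM⟩⟩, h2, h3, _, hS.add_const_mem hp (-u y), ?_⟩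
    filter_upwards [h4, hη.ev y] with z a b
    rw [← a, b]; ring

theorem ld_el {x : ℕ → (ℂ → ℝ) × (D.End → ℝ) × ℝ} (hS : Max S) (h : MinSol (LA S φ y) 1 d v τ 0 x)
    (h0 : τ y = 0) (hχ : InB S χ s) (hp : ∃ p ∈ S, χ =ᶠ[D.nb y] p.1) : 0 ≤ D.om χ v + ip s τ := by
  obtain ⟨p, hp, e⟩ := hp
  have hS' := hS.1
  have k : ∀ n, 0 ≤ D.nr (fun z => (x n).1 z - d z) * D.nr d +
      nl (fun y => (x n).2.1 y - τ y) * nl τ + (D.om χ v + ip s τ) := by
    intro n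
    obtain ⟨r, h1, h2, -, q, hq, h4⟩ := h.mem n
    have hv := h.vi (fun z => (x n).1 z + χ z, fun y' => (x n).2.1 y' + upd s y 0 y', 0)
      ⟨_, ⟨h1.1.add hχ.1 hS', h1.2.add hχ.2⟩, ?_, rfl, _, hS.add_mem hq (hS.cmul_mem hp (-1)), ?_⟩
    · have hr : Sq (x n).2.1 := h2 ▸ h1.1.co.2.upd y 0
      simp only at hv
      rw [di_add h1.1.fn hχ.1.fn h.fd, ip_add hr (hχ.1.co.2.upd y 0) h.co.2, ← h.om χ] at hv
      have b1 := (le_abs_self _).trans (abs_di_le (h1.1.fn.sub h.fd) h.fd)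
      rw [di_sub h1.1.fn h.fd h.fd] at b1
      have b3 := (le_abs_self _).trans (abs_ip_le (hr.sub h.co.2) h.co.2)
      rw [ip_sub hr h.co.2 h.co.2] at b3
      rw [ip_split hχ.1.co.2 h.co.2 y, h0]
      linarith
    · funext y'
      simp only [h2, upd]
      split_ifs <;> simp
    · filter_upwards [h4, e] with z a b
      rw [← a, ← b]; ring
  have := ((h.conv.1.mul_const (D.nr d)).add (h.tc.mul_const (nl τ))).add_const (D.om χ v + ip s τ)
  simpa using ge_of_tendsto' this k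

theorem ld {ε : ℝ} (hS : Max S) (hφ : InB S φ s) (hε : 0 < ε) (hU : U ∈ D.nb y) :
    ∃ ζ r, InB S ζ r ∧ D.Supp ζ U ∧ D.nr ζ ≤ ε ∧ nl (upd r y 0) ≤ ε ∧
      ∃ p ∈ S, (fun z => φ z - ζ z) =ᶠ[D.nb y] p.1 := by
  have hS' := hS.1
  obtain ⟨d, v, τ, x, h⟩ := ld_sol hS hφ y
  choose r h1 h2 h3 p hp h4 using h.mem
  have hr : ∀ n, Sq (x n).2.1 := fun n => h2 n ▸ (h1 n).1.co.2.upd y 0
  have h0 : τ y = 0 := by
    refine abs_nonpos_iff.1 (ge_of_tendsto' h.tc fun n => ?_)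
    have := abs_le_nl ((hr n).sub h.co.2) y
    simpa [h2 n, upd] using this
  have el : ∀ χ s, InB S χ s → (∃ p ∈ S, χ =ᶠ[D.nb y] p.1) → |D.om χ v| ≤ ip s τ := by
    rintro χ s hχ ⟨q, hq, e⟩
    have a := ld_el hS h h0 hχ ⟨q, hq, e⟩
    have b := ld_el hS h h0 (χ := fun z => -χ z) ⟨hχ.1.neg, by simpa using hχ.2.cmul (-1)⟩
      ⟨_, hS.cmul_mem hq (-1), e.mono fun z hz => by simp [hz]⟩
    rw [om_neg] at b
    exact abs_le.2 ⟨by linarith, by linarith⟩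
  have hv : In S v τ := ⟨h.fv, h.co, fun q hq => by
    rw [om_swap, abs_neg, ip_comm]
    exact el _ _ ⟨hS'.iso q hq, (hS'.reg q hq).bd⟩ ⟨q, hq, EventuallyEq.rfl⟩⟩
  have hdu := du_of_point hS' hS.tcl hv h0 fun χ s hχ e => el χ s hχ ⟨_, hS.zero_mem, e⟩
  have hb : ∀ {η u}, D.Cut η u → D.Bd η := fun h => ⟨1, fun z _ => by
    have := h.mem z; rw [abs_le]; constructor <;> linarith [this.1, this.2]⟩
  have hz : D.nr d ^ 2 + nl τ ^ 2 ≤ 0 := le_of_forall_pos_le_add fun δ hδ => by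
    have n0 := nl_nonneg τ
    obtain ⟨W, hW, hW'⟩ := nb_tail hφ.1.co.2 y (ε := δ / (2 * (nl τ + 1))) (by positivity)
    obtain ⟨η, u, c1, c2, c3⟩ := cut_ex hW
    have i1 : InB S _ _ := ⟨hφ.1.cut hS' c1, (hb c1).mul hφ.2⟩
    have hv := h.vi (_, upd _ y 0, 0) ⟨_, i1, rfl, rfl, _, hS.zero_mem, by
      filter_upwards [c1.wd.ev y] with z hz
      simp [hz, c2]⟩
    have a := (le_abs_self _).trans (hdu.le _ _ i1)
    rw [ip_split i1.1.co.2 h.co.2 y, h0] at a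
    have b := (le_abs_self _).trans (abs_ip_le (i1.1.co.2.upd y 0) h.co.2)
    have c := mul_le_mul_of_nonneg_right (hW' η u c1 c3) n0
    have e : δ / (2 * (nl τ + 1)) * nl τ ≤ δ / 2 := by
      rw [div_mul_eq_mul_div, div_le_div_iff₀ (by positivity) (by positivity)]; nlinarith
    simp only at hv
    rw [← h.om, ← nr_sq, ← nl_sq] at hv
    linarith
  have hn : D.nr d = 0 := pow_eq_zero_iff two_ne_zero |>.1
    (le_antisymm (by linarith [sq_nonneg (nl τ)]) (sq_nonneg _))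
  have hτ0 : nl τ = 0 := pow_eq_zero_iff two_ne_zero |>.1
    (le_antisymm (by linarith [sq_nonneg (D.nr d)]) (sq_nonneg _))
  obtain ⟨a, ha⟩ := const_of_gr h.fd (gr_of_nr h.fd hn)
  obtain ⟨η, u, c1, c2, c3⟩ := cut_ex hU
  have hc := (h.conv.add (conv_const (fn_const D (-a))) (fun n => (h1 n).1.fn)
    (fun _ => fn_const D _) h.fd (fn_const D _)).wmul
    (fun n => (h1 n).1.fn.add (fn_const D _)) (h.fd.add (fn_const D _)) c1.wd
  obtain ⟨m, e1, e2⟩ := ((hc.1.eventually (ge_mem_nhds hε)).and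
    (h.tc.eventually (ge_mem_nhds hε))).exists
  have i1 := ((h1 m).1.add_wd hS' (wd_const D (-a))).cut hS' c1
  refine ⟨_, _, ⟨i1, (hb c1).mul ((h1 m).2.add (bd_const D _))⟩, fun z hz hz' => by
    simp [c3 z hz hz'], ?_, ?_, _, hS.add_const_mem (hp m) a, ?_⟩
  · refine (nr_congr fun z hz => ?_).trans_le e1
    simp [ha z hz]
  · have := nl_add h.co.2 ((hr m).sub h.co.2)
    simp only [add_sub_cancel] at this
    refine (nl_mono (hr m) fun y' => ?_).trans (by linarith)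
    simp only [h2 m, upd]
    split_ifs
    · simp
    · rcases c1.val y' with e | e <;> simp [e]
  · filter_upwards [h4 m, c1.wd.ev y] with z a b
    rw [← a, b, c2]; ring

end Vale.P116D
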