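import Vale.Agent.P116D.S1

/-!
S3: maximal structures exist (`zorn_subset`; for the box clause use `box_clip`, an ultrafilter
on the chain, a finite set `F` and the Lipschitz bound off `F`).
-/

namespace Vale.P116D

open Set Filter Topology MeasureTheory Complex
open scoped ContDiff

variable {D : Dom} {S : Gens D} {φ ψ χ η g d v w : ℂ → ℝ} {s σ r τ u : D.End → ℝ} {y : D.End}
  {U : Set ℂ} {z : ℂ}

theorem s3_empty (D : Dom) : Str (∅ : Gens D) where
  reg _ h := h.elim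
  iso _ h := h.elim
  trunc _ _ h _ hT h1 _ := ⟨h.fn.comp hT fun _ _ => h1 _, h.co, fun _ h => h.elim⟩
  box _ f s h := by
    refine ⟨fun _ _ => 0, fun Θ hΘ η v hη r hr _ => ?_⟩
    obtain ⟨M, h1, h2⟩ := hη.bd
    exact ⟨(fn_compB (fun i => (h i).1.fn) (fun i => (h i).2) hΘ).1.wmul hη ⟨M, h1⟩,
      hr.bmul fun y => ⟨abs_nonneg _, h2 y⟩, fun _ h => h.elim⟩
  glue _ _ y h hb hs _ := ⟨h, hs.upd y (osc_nonneg hb y), fun _ h => h.elim⟩

theorem s3_osc {Y : Type} {k : ℕ} {Θ : (Fin k → ℝ) → ℝ} {a c s : Fin k → Y → ℝ} {r : Y → ℝ}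
    {M N L δ : ℝ} (hL : 0 ≤ L) (hΘ : ∀ x x' : Fin k → ℝ, (∀ i, |x i| ≤ M + N) →
      (∀ i, |x' i| ≤ M + N) → |Θ x - Θ x'| ≤ L * ∑ i, |x i - x' i|)
    (ha : ∀ i y, |a i y| ≤ M) (hc : ∀ i y, |c i y| ≤ M) (hs : ∀ i y, s i y ≤ N) (hN : 0 ≤ N)
    (ho : OscLe Θ a s r) {F : Finset Y} (hF : ∀ y ∈ F, ∀ i, |c i y - a i y| ≤ δ) :
    OscLe Θ c s (pw F (fun y => r y + δ * (2 * L * k)) fun y => L * ∑ i, s i y) := by
  intro y x x' hx hx'
  have hb : ∀ (b : Fin k → Y → ℝ) (x : Fin k → ℝ), (∀ i y, |b i y| ≤ M) →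
      (∀ i, x i ∈ Icc (b i y) (b i y + s i y)) → ∀ i, |x i| ≤ M + N := by
    intro b x hb hx i
    have h1 := abs_le.1 (hb i y)
    rw [abs_le]
    constructor <;> linarith [(hx i).1, (hx i).2, hs i y, h1.1, h1.2]
  unfold pw
  split_ifs with hy
  · have h1 : ∀ x : Fin k → ℝ, (∀ i, x i ∈ Icc (c i y) (c i y + s i y)) →
        (∀ i, x i - (c i y - a i y) ∈ Icc (a i y) (a i y + s i y)) ∧
          |Θ x - Θ fun i => x i - (c i y - a i y)| ≤ L * (k * δ) := by
      intro x hx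
      have h2 : ∀ i, x i - (c i y - a i y) ∈ Icc (a i y) (a i y + s i y) := fun i =>
        ⟨by linarith [(hx i).1], by linarith [(hx i).2]⟩
      refine ⟨h2, (hΘ _ _ (hb c x hc hx) (hb a _ ha h2)).trans
        (mul_le_mul_of_nonneg_left ?_ hL)⟩
      refine (Finset.sum_le_sum fun i _ => (?_ : _ ≤ δ)).trans (by simp)
      rw [sub_sub_cancel]
      exact hF y hy i
    have h2 := ho y _ _ (h1 x hx).1 (h1 x' hx').1
    have h3 := abs_le.1 (h1 x hx).2
    have h4 := abs_le.1 (h1 x' hx').2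
    linarith [h3.2, h4.1]
  · refine (le_abs_self _).trans ((hΘ _ _ (hb c x hc hx) (hb c x' hc hx')).trans
      (mul_le_mul_of_nonneg_left (Finset.sum_le_sum fun i _ => ?_) hL))
    rw [abs_le]
    constructor <;> linarith [(hx i).1, (hx i).2, (hx' i).1, (hx' i).2]

theorem s3_lim (hS : Str S) {k : ℕ} {f : Fin k → ℂ → ℝ} {s a : Fin k → D.End → ℝ}
    (hs : ∀ i, Cost (s i)) {ι : Type} {l : Filter ι} [l.NeBot] {c : ι → Fin k → D.End → ℝ} {M : ℝ}
    (hM : ∀ n i y, |c n i y| ≤ M) (hl : ∀ i y, Tendsto (fun n => c n i y) l (𝓝 (a i y)))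
    (hb : ∀ᶠ n in l, BoxAt S f s (c n)) : BoxAt S f s a := by
  intro Θ hΘ η v hη r hr ho
  have ha : ∀ i y, |a i y| ≤ M := fun i y =>
    le_of_tendsto' ((continuous_abs.tendsto _).comp (hl i y)) fun n => hM n i y
  have hN : ∀ i y, s i y ≤ ∑ i, nl (s i) := fun i y =>
    ((le_abs_self _).trans (abs_le_nl (hs i).2 y)).trans
      (Finset.single_le_sum (f := fun i => nl (s i)) (fun i _ => nl_nonneg _) (Finset.mem_univ i))
  obtain ⟨L, hL, hΘL⟩ := lip_cube hΘ (M + ∑ i, nl (s i))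
  obtain ⟨V, -, hV⟩ := hη.bd
  have hV0 : 0 ≤ V := (abs_nonneg _).trans (hV none)
  have ht : Cost fun y => L * ∑ i, s i y := (Cost.sum _ fun i _ => hs i).cmul hL
  have hv : ∀ y, 0 ≤ |v y| ∧ |v y| ≤ V := fun y => ⟨abs_nonneg _, hV y⟩
  have key : ∀ (F : Finset D.End) (δ : ℝ), 0 < δ → In S (fun z => η z * Θ fun i => f i z)
      fun y => |v y| * pw F (fun y => r y + δ * (2 * L * k)) (fun y => L * ∑ i, s i y) y := by
    intro F δ hδ
    have h1 : ∀ᶠ n in l, ∀ y ∈ F, ∀ i, |c n i y - a i y| ≤ δ :=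
      (eventually_all_finset F).2 fun y _ => eventually_all.2 fun i =>
        (Metric.tendsto_nhds.1 (hl i y) δ hδ).mono fun n hn => hn.le
    obtain ⟨n, h2, h3⟩ := (hb.and h1).exists
    refine h2 Θ hΘ η v hη _ (ht.pw F fun y _ => add_nonneg (hr.1 y) (by positivity)) ?_
    exact s3_osc hL hΘL ha (hM n) hN (Finset.sum_nonneg fun i _ => nl_nonneg _) ho h3
  have hf := (key ∅ 1 one_pos).fn
  refine in_of_pw hS (hr.bmul hv) (ht.bmul hv) fun F => ?_
  have hc := (ht.bmul hv).pw F fun y _ => (hr.bmul hv).1 y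
  refine in_of_eps hS hf hc fun ε hε => ?_
  have h1 : Cost (pw F (fun _ => (1 : ℝ)) fun _ => 0) := cost_zero.pw F fun _ _ => zero_le_one
  have h2 := nl_nonneg (pw F (fun _ => (1 : ℝ)) fun _ => 0)
  obtain ⟨δ, hδ, h3⟩ : ∃ δ, 0 < δ ∧ δ * (V * (2 * L * k) * nl (pw F (fun _ => (1 : ℝ)) fun _ => 0)
      + 1) = ε := ⟨_, by positivity, div_mul_cancel₀ ε (by positivity)⟩
  have h4 : 0 ≤ V * (δ * (2 * L * k)) := by positivity
  refine ⟨_, _, h1.cmul h4, ?_, (key F δ hδ).mono hS (hc.add (h1.cmul h4)) fun y => ?_, ?_⟩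
  · rw [nl_cmul, abs_of_nonneg h4]
    linarith
  · unfold pw
    split_ifs
    · have h5 := mul_le_mul_of_nonneg_right (hV y) (by positivity : 0 ≤ δ * (2 * L * k))
      linarith
    · linarith
  · rw [nr_congr (ψ := fun z => 0 * (η z * Θ fun i => f i z)) fun z _ => by simp, nr_cmul hf,
      abs_zero, zero_mul]
    exact hε.le

theorem s3_union {c : Set (Gens D)} (hc : c.Nonempty) (h : ∀ S ∈ c, In S φ s) : In (⋃₀ c) φ s :=
  let ⟨S, hS⟩ := hc
  ⟨(h S hS).fn, (h S hS).co, fun p ⟨S', hS', hp⟩ => (h S' hS').le p hp⟩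

theorem s3_chain {c : Set (Gens D)} (hc : c.Nonempty) (h : ∀ S ∈ c, Str S)
    (hch : IsChain (· ⊆ ·) c) : Str (⋃₀ c) where
  reg p := fun ⟨S, hS, hp⟩ => (h S hS).reg p hp
  iso p := fun ⟨S, hS, hp⟩ => s3_union hc fun S' hS' => by
    rcases hch.total hS hS' with e | e
    · exact (h S' hS').iso p (e hp)
    · exact ((h S hS).iso p hp).anti e
  trunc φ s h1 T hT h2 h3 := s3_union hc fun S hS =>
    (h S hS).trunc φ s (h1.anti (subset_sUnion_of_mem hS)) T hT h2 h3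
  glue χ s y h1 h2 h3 h4 := s3_union hc fun S hS => (h S hS).glue χ s y h1 h2 h3
    fun η v hη hv => (h4 η v hη hv).anti (subset_sUnion_of_mem hS)
  box k f s hf := by
    choose M hM using fun i => (hf i).2
    choose a ha hb using fun S : c => box_clip (h S.1 S.2) (p := fun i => -M i) (q := M)
      (fun i => (hf i).1.anti (subset_sUnion_of_mem S.2))
      (fun i z hz => abs_le.1 (hM i z hz)) one_pos
    have : Nonempty c := hc.to_subtype
    have : IsDirectedOrder c := hch.directedOn.isDirectedOrder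
    have hl : ∀ i y, ∃ x, Tendsto (fun S => a S i y) (Ultrafilter.of (atTop : Filter c)) (𝓝 x) := by
      intro i y
      obtain ⟨x, -, hx⟩ := (isCompact_Icc (a := -M i - 1) (b := M i + 1)).ultrafilter_le_nhds
        ((Ultrafilter.of (atTop : Filter c)).map fun S => a S i y)
        (le_principal_iff.2 (mem_map.2 (Eventually.of_forall fun S => hb S i y)))
      exact ⟨x, hx⟩
    choose b hl using hl
    refine ⟨b, fun Θ hΘ η v hη r hr ho => s3_union hc fun S hS => ?_⟩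
    refine s3_lim (h S hS) (fun i => (hf i).1.co) (M := ∑ i, |M i + 1|) (fun n i y => ?_) hl ?_
      Θ hΘ η v hη r hr ho
    · refine le_trans ?_ (Finset.single_le_sum (f := fun i => |M i + 1|)
        (fun i _ => abs_nonneg _) (Finset.mem_univ i))
      refine le_trans ?_ (le_abs_self _)
      rw [abs_le]
      constructor <;> linarith [(hb n i y).1, (hb n i y).2]
    · refine ((eventually_ge_atTop (⟨S, hS⟩ : c)).filter_mono (Ultrafilter.of_le _)).mono ?_
      exact fun n hn Θ hΘ η v hη r hr ho => (ha n Θ hΘ η v hη r hr ho).anti hn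

theorem exists_max (D : Dom) : ∃ S : Gens D, Max S := by
  obtain ⟨S, hS⟩ := zorn_subset {S : Gens D | Str S} fun c hc hch => by
    rcases c.eq_empty_or_nonempty with rfl | h
    · exact ⟨∅, s3_empty D, fun _ h => h.elim⟩
    · exact ⟨⋃₀ c, s3_chain h hc hch, fun _ h => subset_sUnion_of_mem h⟩
  exact ⟨S, hS.1, fun S' h1 h2 => hS.2 h1 h2⟩

end Vale.P116D
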