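import Vale.Agent.P116D.Pic
import Vale.Agent.P116D.S3

/-!
Part A.
-/

namespace Vale.P116D

open Set Filter Topology MeasureTheory Complex
open scoped ContDiff

variable {D : Dom} {S : Gens D} {φ ψ χ η g d v w : ℂ → ℝ} {s σ r τ u : D.End → ℝ} {y : D.End}
  {U : Set ℂ} {z : ℂ}

theorem partA : P116.PartA := by
  intro K hK hc
  obtain ⟨S, hS⟩ := exists_max ⟨K, hK, hc⟩
  exact picture hS

end Vale.P116D
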