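import Vale.Agent.P116D.PDef
import Vale.Agent.P116B.NL

/-!
P0: small tools for the picture.
-/

namespace Vale.P116D

open Set Filter Topology MeasureTheory Complex Metric
open scoped ContDiff ComplexConjugate

variable {D : Dom} {S : Gens D} {φ ψ χ η e k w : ℂ → ℝ} {s σ r v : D.End → ℝ} {y : D.End}
  {f F : ℂ → ℂ} {q : D.End → ℂ} {Θ : ℂ → ℝ} {U V O Z : Set ℂ} {z p : ℂ}

theorem p0_zero {C : Set ℂ} (hC : IsCompact C) (hs : D.Supp χ C) (z : ℂ) (hz : z ∈ D.G)
    (hz' : z ∉ C) : fderiv ℝ χ z = 0 := by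
  have e : χ =ᶠ[𝓝 z] fun _ => 0 := by
    filter_upwards [(G_open D).mem_nhds hz, hC.isClosed.isOpen_compl.mem_nhds hz'] with w h1 h2
    exact hs w h1 h2
  rw [e.fderiv_eq, fderiv_fun_const]
  rfl

theorem p0_om {C : Set ℂ} (h : ContDiffOn ℝ ∞ φ D.G) (hC : IsCompact C) (hG : C ⊆ D.G)
    (h0 : ∀ z ∈ D.G, z ∉ C → fderiv ℝ χ z = 0) : ∃ ψ, D.Fn ψ ∧ D.om χ φ = D.om χ ψ := by
  obtain ⟨η, C', hη, hC', hG', h1, h2⟩ := cut_cpt (D := D) hC (G_open D) hG subset_rfl
  refine ⟨fun z => η z * φ z, fn_of_cs (hη.wd.sm.contDiffOn.mul h) hC' hG'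
    (p0_zero hC' fun z _ hz => by simp only [h1 z hz, zero_mul]), ?_⟩
  refine setIntegral_congr_fun (G_meas D) fun z hz => ?_
  by_cases hz' : z ∈ C
  · have e : φ =ᶠ[𝓝 z] fun z => η z * φ z :=
      (h2.filter_mono (nhds_le_nhdsSet hz')).mono fun w hw => by simp only [hw, one_mul]
    simp only [gr_congr e]
  · simp [wd, gr, h0 z hz hz']

theorem p0_u (hη : D.Cut η v) (y : D.End) : 0 ≤ v y ∧ v y ≤ 1 := by
  rcases hη.val y with h | h <;> simp [h]

theorem gr_re (z : ℂ) : gr (fun z => z.re) z = 1 := by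
  have h : fderiv ℝ (fun z : ℂ => z.re) z = reCLM := reCLM.fderiv
  apply Complex.ext <;> simp [gr, h]

theorem gr_im (z : ℂ) : gr (fun z => z.im) z = I := by
  have h : fderiv ℝ (fun z : ℂ => z.im) z = imCLM := imCLM.fderiv
  apply Complex.ext <;> simp [gr, h]

/-- chain rule for a holomorphic inner function -/
theorem gr_hcomp (hF : DifferentiableAt ℂ F z) (hΘ : DifferentiableAt ℝ Θ (F z)) :
    gr (fun z => Θ (F z)) z = conj (deriv F z) * gr Θ (F z) := by
  have h : fderiv ℝ (fun z => Θ (F z)) z = _ :=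
    (hΘ.hasFDerivAt.comp z hF.hasDerivAt.complexToReal_fderiv).fderiv
  have e : ∀ u, fderiv ℝ (fun z => Θ (F z)) z u = dt (gr Θ (F z)) (deriv F z * u) := fun u => by
    rw [h, ← fderiv_eq_dt]
    rfl
  apply Complex.ext
  · rw [gr, e]
    simp [dt, mul_comm]
  · rw [gr]
    simp only [e]
    simp [dt]
    ring

theorem wd_mul (a p q : ℂ) : wd (a * p) (a * q) = ‖a‖ ^ 2 * wd p q := by
  simp only [wd, Complex.sq_norm, normSq_apply, mul_re, mul_im]
  ring

theorem gr_prod {A a : ℝ → ℝ} (hA : DifferentiableAt ℝ A p.re) (ha : DifferentiableAt ℝ a p.im) :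
    gr (fun p => A p.re * a p.im) p = ⟨deriv A p.re * a p.im, A p.re * deriv a p.im⟩ := by
  have h1 : DifferentiableAt ℝ (fun z : ℂ => z.re) p := reCLM.differentiableAt
  have h2 : DifferentiableAt ℝ (fun z : ℂ => z.im) p := imCLM.differentiableAt
  rw [gr_mul (φ := fun p => A p.re) (ψ := fun p => a p.im) (hA.comp p h1) (ha.comp p h2),
    gr_comp (φ := fun p => p.re) hA h1, gr_comp (φ := fun p => p.im) ha h2, gr_re, gr_im]
  apply Complex.ext <;> simp [mul_comm]

theorem hol_sm (hF : DifferentiableOn ℂ F D.G) : ContDiffOn ℝ ∞ F D.G :=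
  (hF.contDiffOn (G_open D)).restrict_scalars ℝ

theorem fn_van (h : ContDiffOn ℝ ∞ χ D.G) (h0 : ∀ y, D.Van y χ) : D.Fn χ := by
  obtain ⟨C, hC, hG, hs⟩ := cs_of_van h0
  exact fn_of_cs h hC hG (p0_zero hC hs)

/-- Stokes for a second function that is only smooth -/
theorem om_wd' (hη : D.Wd η v) (h : ContDiffOn ℝ ∞ φ D.G) : D.om η φ = 0 := by
  obtain ⟨C, hC, hG, h0⟩ := hη.cs
  obtain ⟨ψ, hψ, e⟩ := p0_om h hC hG fun z _ hz => h0 z hz
  rw [e, om_wd hη hψ]

theorem om_van (h : ContDiffOn ℝ ∞ χ D.G) (h0 : ∀ y, D.Van y χ) (h' : ContDiffOn ℝ ∞ φ D.G) :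
    D.om χ φ = 0 := by
  obtain ⟨C, hC, hG, hs⟩ := cs_of_van h0
  obtain ⟨ψ, hψ, e⟩ := p0_om h' hC hG (p0_zero hC hs)
  rw [e, om_cs (fn_van h h0) hC hG hs hψ]

theorem int_dx (h : ContDiff ℝ ∞ φ) (hc : HasCompactSupport φ) :
    Integrable (fun z => (gr φ z).re) ∧ ∫ z, (gr φ z).re = 0 := by
  have hi : Integrable fun z => fderiv ℝ φ z 1 :=
    ((h.continuous_fderiv (by simp)).clm_apply continuous_const).integrable_of_hasCompactSupport
      (hc.fderiv_apply ℝ 1)
  have h1 := integral_mul_fderiv_eq_neg_fderiv_mul_of_integrable (μ := (volume : Measure ℂ))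
    (f := fun _ : ℂ => (1 : ℝ)) (g := φ) (v := 1) (by simp) (by simpa using hi)
    (by simpa using h.continuous.integrable_of_hasCompactSupport hc)
    (fun x _ => differentiableAt_const _) fun x _ => h.differentiable (by simp) x
  exact ⟨hi, by simpa [gr] using h1⟩

theorem cut_big {C : Set ℂ} (D : Dom) (hC : IsCompact C) :
    ∃ η, D.Cut η D.fi ∧ HasCompactSupport η ∧ ∀ᶠ z in 𝓝ˢ (D.K ∪ C), η z = 1 := by
  obtain ⟨η, h1, h2, -, h3, h4⟩ := eh_bump (D.cpt.union hC) isOpen_univ (subset_univ _)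
  refine ⟨η, ⟨wd_of_ev h1 (fun z hz => ?_) fun y => ?_, h3, fun y => ?_⟩, h2, h4⟩
  · have e : η =ᶠ[𝓝 z] fun _ => 1 := h4.filter_mono (nhds_le_nhdsSet (mem_union_left _ hz))
    rw [e.fderiv_eq, fderiv_fun_const]
    rfl
  · cases y with
    | none =>
      refine Eventually.filter_mono inf_le_left ?_
      filter_upwards [h2.compl_mem_cocompact] with z hz
      exact image_eq_zero_of_notMem_tsupport hz
    | some c =>
      exact h4.filter_mono (inf_le_left.trans
        (nhdsSet_mono ((D.eh_cmp_sub c).trans subset_union_left)))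
  · cases y with
    | none => exact Or.inl rfl
    | some c => exact Or.inr rfl

theorem chg {h : ℂ → ℝ} (hO : IsOpen O) (hF : DifferentiableOn ℂ F O) (hi : InjOn F O) :
    ∫ p in F '' O, h p = ∫ z in O, ‖deriv F z‖ ^ 2 * h (F z) := by
  have hd : ∀ z ∈ O, DifferentiableAt ℂ F z := fun z hz => hF.differentiableAt (hO.mem_nhds hz)
  rw [integral_image_eq_integral_abs_det_fderiv_smul volume hO.measurableSet
    (fun z hz => ((hd z hz).restrictScalars ℝ).hasFDerivAt.hasFDerivWithinAt) hi]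
  refine setIntegral_congr_fun hO.measurableSet fun z hz => ?_
  simp only [← P116B.jac_eq_det, P116B.jac_hol (hd z hz), smul_eq_mul, abs_sq]

theorem sqLe_of_lip {C : ℝ} (hs : Cost s) (hΘ : Differentiable ℝ Θ) (hC : ∀ p, ‖fderiv ℝ Θ p‖ ≤ C) :
    SqLe Θ q s fun y => 2 * C * s y := by
  intro y _ p hp p' hp'
  have h1 := convex_univ.norm_image_sub_le_of_norm_fderiv_le (fun x _ => hΘ x) (fun x _ => hC x)
    (mem_univ p') (mem_univ p)
  have h2 := Complex.norm_le_abs_re_add_abs_im (p - p')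
  have h3 := abs_sub_le p.re (q y).re p'.re
  have h4 := abs_sub_le p.im (q y).im p'.im
  rw [abs_sub_comm (q y).re] at h3
  rw [abs_sub_comm (q y).im] at h4
  rw [sub_re, sub_im] at h2
  have h5 : ‖p - p'‖ ≤ 2 * s y := by linarith [hp.1, hp.2, hp'.1, hp'.2]
  have h6 := mul_le_mul_of_nonneg_left h5 ((norm_nonneg _).trans (hC p))
  have h7 := le_abs_self (Θ p - Θ p')
  rw [Real.norm_eq_abs] at h1
  simp only
  linarith

theorem b2_of (hS : Str S) (he : InB S e s) (hk : InB S k s) : ∃ q, B2 S (cx e k) s q := by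
  obtain ⟨a, ha⟩ := hS.box 2 ![e, k] ![s, s] (Fin.forall_fin_two.2 ⟨he, hk⟩)
  refine ⟨fun y => ⟨a 0 y + s y / 2, a 1 y + s y / 2⟩, fun Θ hΘ η v hη hv r hr hq => ?_⟩
  obtain ⟨M, hM⟩ := (P116B.isCompact_sq ⟨a 0 none + s none / 2, a 1 none + s none / 2⟩
    (s none / 2)).exists_bound_of_continuousOn hΘ.continuous.continuousOn
  have hc : ContDiff ℝ ∞ fun x : Fin 2 → ℝ => (⟨x 0, x 1⟩ : ℂ) :=
    equivRealProdCLM.symm.contDiff.comp (f := fun x : Fin 2 → ℝ => (x 0, x 1)) (by fun_prop)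
  have hm : ∀ y (x : Fin 2 → ℝ), (∀ i, x i ∈ Icc (a i y) (a i y + ![s, s] i y)) →
      (⟨x 0, x 1⟩ : ℂ) ∈ P116.sq ⟨a 0 y + s y / 2, a 1 y + s y / 2⟩ (s y / 2) := fun y x hx => by
    have h0 : x 0 ∈ Icc (a 0 y) (a 0 y + s y) := hx 0
    have h1 : x 1 ∈ Icc (a 1 y) (a 1 y + s y) := hx 1
    exact ⟨abs_le.2 ⟨by linarith [h0.1], by linarith [h0.2]⟩,
      abs_le.2 ⟨by linarith [h1.1], by linarith [h1.2]⟩⟩
  have h1 := ha (fun x => Θ ⟨x 0, x 1⟩) (hΘ.comp hc) η v hη (upd r none (2 * |M|))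
    (hr.upd none (by positivity)) fun y x x' hx hx' => by
      by_cases hy : y = none
      · subst hy
        have h2 := abs_le.1 (hM _ (hm _ x hx))
        have h3 := abs_le.1 (hM _ (hm _ x' hx'))
        refine le_of_le_of_eq ?_ (if_pos rfl).symm
        linarith [le_abs_self M]
      · simp only [upd, if_neg hy]
        exact hq y hy _ (hm y x hx) _ (hm y x' hx')
  have e1 : (fun y => |v y| * upd r none (2 * |M|) y) = fun y => |v y| * r y := by
    funext y
    by_cases hy : y = none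
    · simp [hy, hv]
    · simp only [upd, if_neg hy]
  rw [e1] at h1
  exact h1

theorem B2.congr {F' : ℂ → ℂ} (h : B2 S F s q) (hS : Str S) (hF : ContDiffOn ℝ ∞ F D.G)
    (hF' : ContDiffOn ℝ ∞ F' D.G) (e : ∀ y, y ≠ none → F' =ᶠ[D.nb y] F) : B2 S F' s q := by
  intro Θ hΘ η v hη hv r hr hq
  have h0 : ∀ y, D.Van y fun z => η z * Θ (F' z) - η z * Θ (F z) := fun y => by
    by_cases hy : y = none
    · subst hy
      exact (hη.ev none).mono fun z hz => by simp [hz, hv]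
    · exact (e y hy).mono fun z hz => by simp [hz]
  have h1 := (h Θ hΘ η v hη hv r hr hq).add (in_van hS (fn_van
    ((hη.sm.contDiffOn.mul (hΘ.comp_contDiffOn hF')).sub
      (hη.sm.contDiffOn.mul (hΘ.comp_contDiffOn hF))) h0) h0) hS
  simpa only [Function.comp, add_sub_cancel, add_zero] using h1

/-- a partition of a cutoff at the finite ends into small cells (from `eh_cover`) -/
theorem part (hη : D.Cut η v) (hv : v none = 0) (F : Finset D.End)
    (hU : ∀ y, y ≠ none → U ∈ D.nb y) :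
    ∃ (T : Finset D.End) (ζ : D.End → ℂ → ℝ) (a : D.End → D.End → ℝ),
      (∀ y, D.Cut (ζ y) (a y) ∧ a y none = 0 ∧ D.Supp (ζ y) U) ∧ (∀ z, ∑ y ∈ T, ζ y z ≤ 1) ∧
      D.Wd (fun z => η z - ∑ y ∈ T, ζ y z) (fun _ => 0) ∧
      ∀ s σ : D.End → ℝ, Cost s → Cost σ → ∑ y ∈ T, ip (upd (fun y' => a y y' * s y') y 0) σ ≤
        nl (pw F (fun _ => 0) s) * nl σ := by
  classical
  obtain ⟨T, ξ, b, -, h1, h2, h3, -, h4⟩ := Dom.eh_cover (D := D) F
    (fun y => if y = none then {z | η z = 0} else U) fun y => by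
      by_cases hy : y = none
      · rw [if_pos hy, hy, ← hv]
        exact hη.wd.ev none
      · rw [if_neg hy]
        exact hU y hy
  refine ⟨T, fun y z => η z * ξ y z, fun y y' => v y' * b y y', fun y =>
    ⟨hη.mul (h1 y).1, by simp only [hv, zero_mul], fun z hz hz' => ?_⟩, fun z => ?_, ?_,
    fun s σ hs hσ => ?_⟩
  · refine mul_eq_zero.2 (or_iff_not_imp_left.2 fun h0 => (h1 y).2 z hz ?_)
    split_ifs
    · exact h0
    · exact hz'
  · rw [← Finset.mul_sum]
    exact (mul_le_of_le_one_right (hη.mem z).1 (h2 z)).trans (hη.mem z).2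
  · have h5 := hη.wd.sub (wd_sum T fun y _ => hη.wd.mul (h1 y).1.wd)
    simpa only [← Finset.mul_sum (s := T) (f := fun y => b y _), h3, mul_one, sub_self] using h5
  · have hq : ∀ y ∈ T, Sq (upd (fun y' => v y' * b y y' * s y') y 0) := fun y _ =>
      (hs.bmul (p0_u (hη.mul (h1 y).1))).2.upd y 0
    have hp := hs.2.pw F fun _ => 0
    rw [← ip_sum T hq hσ.2]
    refine (ip_mono (Sq.sum T hq) hp hσ fun y' => ?_).trans
      ((le_abs_self _).trans (abs_ip_le hp hσ.2))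
    by_cases hy : y' ∈ F
    · refine (Finset.sum_eq_zero fun y _ => ?_).trans_le (by simp [pw, hy])
      by_cases e : y' = y
      · simp [upd, e]
      · simp [upd, e, h4 y' hy y (Ne.symm e)]
    · simp only [pw, if_neg hy]
      rw [← one_mul (s y'), ← h3 y', Finset.sum_mul]
      refine Finset.sum_le_sum fun y _ => ?_
      have h5 := mul_nonneg (p0_u (h1 y).1 y').1 (hs.1 y')
      unfold upd
      split_ifs
      · exact h5
      · show v y' * b y y' * s y' ≤ _
        rw [mul_assoc]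
        exact mul_le_of_le_one_left h5 (p0_u hη y').2

end Vale.P116D
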