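import Vale.Agent.P116D.P0
import Vale.Agent.P116D.K10
import Vale.Agent.P116D.K11
import Vale.Agent.P116B.Prim
import Vale.Agent.P116B.Mean

/-!
P1: the extremal map.
-/

namespace Vale.P116D

open Set Filter Topology MeasureTheory Complex Metric
open scoped ContDiff ComplexConjugate

variable {D : Dom} {S : Gens D} {φ ψ χ η e k w : ℂ → ℝ} {s σ r v : D.End → ℝ} {y : D.End}
  {f F : ℂ → ℂ} {q : D.End → ℂ} {Θ : ℂ → ℝ} {U V O Z : Set ℂ} {z p : ℂ}

/-- Let `K ⊆ ball 0 R`.  Apply `Vale.P116B.prim` to the family with the single member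
`closedBall 0 R` and `ξ = deriv g` (`tendsto_of_l2`, periods vanish by `int_deriv_db` and
`LocC.int_eq`); the difference of `g` and the primitive is constant off the ball
(`P116.isPreconnected_compl_closedBall`, `IsOpen.eqOn_of_deriv_eq` or
`IsOpen.exists_is_const_of_deriv_eq_zero`). -/
theorem tendsto_const {g : ℂ → ℂ} {K : Set ℂ} (hK : IsCompact K) (hg : DifferentiableOn ℂ g Kᶜ)
    (hL : MemLp (deriv g) 2 (volume.restrict Kᶜ)) : ∃ c, Tendsto g (cocompact ℂ) (𝓝 c) := by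
  obtain ⟨R, hR, hKR⟩ := hK.isBounded.subset_closedBall_lt 0 0
  have hQ : P116B.Fam fun _ : Unit => closedBall (0 : ℂ) R :=
    ⟨fun _ => isCompact_closedBall _ _, fun _ => convex_closedBall _ _,
      fun _ => nonempty_closedBall.2 hR.le, Subsingleton.pairwise⟩
  have hO : P116B.Om (fun _ : Unit => closedBall (0 : ℂ) R) = (closedBall (0 : ℂ) R)ᶜ := by
    rw [P116B.Om, iUnion_const]
  have hsub : (closedBall (0 : ℂ) R)ᶜ ⊆ Kᶜ := compl_subset_compl.2 hKR
  have hop : IsOpen (closedBall (0 : ℂ) R)ᶜ := isClosed_closedBall.isOpen_compl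
  have hd : DifferentiableOn ℂ (deriv g) Kᶜ := hg.deriv hK.isClosed.isOpen_compl
  obtain ⟨h, h1, h2⟩ := P116B.prim hQ (ξ := deriv g) (hd.mono (hO ▸ hsub))
    (P116B.tendsto_of_l2 hK hd hL) fun j χ hχ => by
      rw [hχ.locC.int_eq hQ]
      exact P116B.int_deriv_db hQ.isOpen (hg.mono (hO ▸ hsub)) hχ.1 hχ.locC.supp
  rw [hO] at h1
  have h3 : ∀ z ∈ (closedBall (0 : ℂ) R)ᶜ, HasDerivAt (fun z => g z - h z) 0 z := fun z hz => by
    have := ((hg.differentiableAt (hK.isClosed.isOpen_compl.mem_nhds (hsub hz))).hasDerivAt).sub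
      (h1 z hz)
    rwa [sub_self] at this
  obtain ⟨c, hc⟩ := hop.exists_is_const_of_deriv_eq_zero
    (P116.isPreconnected_compl_closedBall R hR.le)
    (fun z hz => (h3 z hz).differentiableAt.differentiableWithinAt) fun z hz => (h3 z hz).deriv
  refine ⟨c, ?_⟩
  have h4 := h2.const_add c
  rw [add_zero] at h4
  refine h4.congr' ?_
  filter_upwards [(isCompact_closedBall (0 : ℂ) R).compl_mem_cocompact] with z hz
  rw [← hc z hz]
  ring

theorem p1_fn (h : ContDiff ℝ ∞ φ) (hc : HasCompactSupport φ) : D.Fn φ :=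
  ⟨h.contDiffOn, MemLp.restrict _ (MemLp.of_le_mul
    ((h.continuous_fderiv (by simp)).memLp_of_hasCompactSupport (hc.fderiv ℝ))
    (gr_meas φ).aestronglyMeasurable (Eventually.of_forall (norm_gr_le φ)))⟩

theorem p1_int {μ : Measure ℂ} {a c : ℂ → ℂ} (ha : MemLp a 2 μ) (hc : MemLp c 2 μ) :
    Integrable (fun z => dt (a z) (c z)) μ := by
  have h : Continuous fun q : ℂ × ℂ => dt q.1 q.2 := by
    unfold dt
    fun_prop
  exact (ha.norm.integrable_mul hc.norm).mono' (h.comp_aestronglyMeasurable (ha.1.prodMk hc.1))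
    (Eventually.of_forall fun z => abs_dt_le _ _)

theorem p1_lim {μ : Measure ℂ} {a : ℕ → ℂ → ℂ} {c : ℂ → ℂ} (ha : ∀ n, MemLp (a n) 2 μ)
    (hc : MemLp c 2 μ) (hl : Tendsto (fun n => ∫ z, ‖a n z‖ ^ 2 ∂μ) atTop (𝓝 0)) :
    Tendsto (fun n => ∫ z, dt (a n z) (c z) ∂μ) atTop (𝓝 0) := by
  have h2 : ENNReal.ofReal 2 = 2 := by simp
  have h1 := (hl.rpow_const (p := 1 / 2) (Or.inr (by norm_num))).mul_const
    ((∫ z, ‖c z‖ ^ 2 ∂μ) ^ (1 / 2 : ℝ))
  rw [Real.zero_rpow (by norm_num), zero_mul] at h1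
  refine squeeze_zero_norm (fun n => ?_) h1
  have k := integral_mul_norm_le_Lp_mul_Lq (μ := μ) Real.HolderConjugate.two_two
    (h2 ▸ ha n) (h2 ▸ hc)
  simp only [Real.rpow_two] at k
  exact (norm_integral_le_of_norm_le ((ha n).norm.integrable_mul hc.norm)
    (Eventually.of_forall fun z => abs_dt_le _ _)).trans k

theorem p1_cvx (hS : Str S) : Cvx {x | InB S x.1 x.2.1 ∧ x.2.2 = 0} := by
  rintro x ⟨⟨h1, h2⟩, h3⟩ x' ⟨⟨h1', h2'⟩, h3'⟩ t ⟨t0, t1⟩
  refine ⟨0, by rw [h3, h3']; simp, ⟨?_, (h2.cmul t).add (h2'.cmul (1 - t))⟩, rfl⟩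
  have := (h1.cmul t).add (h1'.cmul (1 - t)) hS
  rwa [abs_of_nonneg t0, abs_of_nonneg (sub_nonneg.2 t1)] at this

/-- the variational problem -/
theorem p1_min (hS : Str S) {b : ℂ → ℂ} (hb : MemLp b 2 (volume.restrict D.G)) :
    ∃ (x : ℕ → ℂ → ℝ) (a : ℕ → D.End → ℝ) (p : ℂ → ℂ) (τ : D.End → ℝ), (∀ n, In S (x n) (a n)) ∧
      MemLp p 2 (volume.restrict D.G) ∧ Cost τ ∧
      Tendsto (fun n => ∫ z in D.G, ‖gr (x n) z - p z‖ ^ 2) atTop (𝓝 0) ∧
      Tendsto (fun n => nl fun y => a n y - τ y) atTop (𝓝 0) ∧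
      (∫ z in D.G, dt (p z) (p z + b z)) = -ip τ τ ∧
      ∀ h r, InB S h r → |∫ z in D.G, dt (gr h z) (p z + b z)| ≤ ip r τ := by
  have h00 : InB S (fun _ => 0) fun _ => 0 := ⟨in_wd hS (wd_const D 0), bd_const D 0⟩
  obtain ⟨x, p, τ, ρ, hx, hp, hτ, hρ, l1, l2, -, hv⟩ := min_field one_pos hb (p1_cvx hS)
    ⟨(fun _ => 0, fun _ => 0, 0), h00, rfl⟩ fun x hx => ⟨hx.1.1.fn, hx.1.1.co, hx.2.ge⟩
  have hc : MemLp (fun z => p z + b z) 2 (volume.restrict D.G) := hp.add hb
  have key : ∀ h r, InB S h r → 0 ≤ (∫ z in D.G, dt (gr h z) (p z + b z)) -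
      (∫ z in D.G, dt (p z) (p z + b z)) + (ip r τ - ip τ τ) - ρ := fun h r hh => by
    have k := hv (h, r, 0) ⟨hh, rfl⟩
    rw [← integral_sub (p1_int hh.1.fn.l2 hc) (p1_int hp hc)]
    have e : ∀ z, dt (gr h z) (p z + b z) - dt (p z) (p z + b z) =
        dt (gr h z - p z) (p z + b z) := fun z => by
      simp only [dt, sub_re, sub_im]
      ring
    simp only [e]
    simpa using k
  have k0 := key _ _ h00
  simp only [gr_const, ip_zero, dt, zero_re, zero_im, zero_mul, add_zero, integral_zero] at k0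
  have l3 := p1_lim (fun n => (hx n).1.1.fn.l2.sub hp) hc l1
  have l4 := ip_tendsto (fun n => (hx n).1.1.co.2) hτ.2 hτ.2 l2
  have k1 : 0 ≤ 2 * 0 + (∫ z in D.G, dt (p z) (p z + b z)) + (2 * ip τ τ - ip τ τ) := by
    refine ge_of_tendsto' (((l3.const_mul 2).add_const _).add ((l4.const_mul 2).sub_const _))
      fun n => ?_
    have k := hv (fun z => 2 * (x n).1 z, fun y => |2| * (x n).2.1 y, 0)
      ⟨⟨(hx n).1.1.cmul 2, (hx n).1.2.cmul 2⟩, rfl⟩
    rw [← integral_const_mul, ← integral_add ((p1_int ((hx n).1.1.fn.l2.sub hp) hc).const_mul 2)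
      (p1_int hp hc)]
    simp only [ip_cmul, abs_two, one_mul, add_zero] at k
    rw [setIntegral_congr_fun (G_meas D) (g := fun z => 2 * dt ((gr (x n).1 - p) z) (p z + b z) +
      dt (p z) (p z + b z)) fun z hz => by
        simp only [gr_cmul 2 ((hx n).1.1.fn.diffAt hz), dt, Pi.sub_apply, sub_re, sub_im, smul_re,
          smul_im, smul_eq_mul]
        ring] at k
    linarith
  have k2 : (∫ z in D.G, dt (p z) (p z + b z)) = -ip τ τ := by
    simp only [dt] at k1 ⊢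
    linarith
  refine ⟨fun n => (x n).1, fun n => (x n).2.1, p, τ, fun n => (hx n).1.1, hp, hτ, l1, l2, k2,
    fun h r hh => abs_le.2 ⟨by linarith [key h r hh], ?_⟩⟩
  have k3 := key (fun z => -h z) r ⟨hh.1.neg, by simpa using hh.2.cmul (-1)⟩
  have e : ∀ z, dt (gr (fun z => -h z) z) (p z + b z) = -dt (gr h z) (p z + b z) := fun z => by
    simp only [gr_neg, dt, neg_re, neg_im]
    ring
  simp only [e, integral_neg] at k3
  linarith

/-- `χ` from `cut_big`, `X = -χ * re`, `Y = -χ * im` (in `Fn`: smooth with compact support),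
`b = gr X + I * gr Y`.  `min_field` with `c = 1` on `A = {x | InB S x.1 x.2.1 ∧ x.2.2 = 0}`.
Testing with `0` and with `2 • x n` gives `∫ dt p (p + b) + ip τ τ = 0`, hence
`0 ≤ ∫ dt (gr h) (p + b) + ip r τ` whenever `InB S h r` (also for `-h`).  Apply `hol_limit` to
`(x n).1 + X` and the field `p + gr X` (`dt a (I * c) = -wd a c`, `om_wd`, `in_wd`), get `d, v`;
`c` from `tendsto_const` (`gr_hol`); `f z = z + d z + v z * I - c`, `e = d - X - c.re`,
`k = v - Y - c.im`.  Then `gr e = p`, `gr k = I * (p + b)` almost everywhere and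
`wd a (I * c) = dt a c`; `In S e τ` by `in_lim`. -/
theorem exists_ext (hS : Str S) : ∃ f e k s, Ext S f e k s := by
  obtain ⟨χ, hχ, hcs, -⟩ := cut_big D isCompact_empty
  obtain ⟨X, hX⟩ : ∃ X : ℂ → ℝ, X = fun z => χ z * -z.re := ⟨_, rfl⟩
  obtain ⟨Y, hY⟩ : ∃ Y : ℂ → ℝ, Y = fun z => χ z * -z.im := ⟨_, rfl⟩
  have fX : D.Fn X := hX ▸ p1_fn (hχ.wd.sm.mul reCLM.contDiff.neg) hcs.mul_right
  have fY : D.Fn Y := hY ▸ p1_fn (hχ.wd.sm.mul imCLM.contDiff.neg) hcs.mul_right
  have hb : MemLp (fun z => gr X z + I * gr Y z) 2 (volume.restrict D.G) :=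
    fX.l2.add (fY.l2.const_mul I)
  obtain ⟨x, a, p, τ, hx, hp, hτ, l1, l2, k1, k2⟩ := p1_min hS hb
  have hpb : MemLp (fun z => p z + (gr X z + I * gr Y z)) 2 (volume.restrict D.G) := hp.add hb
  obtain ⟨d, v, fd, fv, hol, hd⟩ := hol_limit (f := fun n z => x n z + X z)
    (p := fun z => p z + gr X z) (fun n => (hx n).fn.add fX) (hp.add fX.l2)
    (l1.congr fun n => setIntegral_congr_fun (G_meas D) fun z hz => by
      simp only [gr_add ((hx n).fn.diffAt hz) (fX.diffAt hz), add_sub_add_right_eq_sub])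
    fun η u hη => by
      obtain ⟨M, hM, -⟩ := hη.bd
      have k3 := k2 η _ ⟨in_wd hS hη, M, hM⟩
      rw [ip_zero, abs_nonpos_iff] at k3
      have k4 := om_wd hη fY
      rw [← add_zero (0 : ℝ)]
      nth_rw 1 [← k3, ← k4]
      rw [Dom.om, ← integral_add (p1_int hη.fn.l2 hpb) (int_wd hη.fn fY)]
      refine integral_congr_ae (Eventually.of_forall fun z => ?_)
      simp only [dt, wd, add_re, add_im, mul_re, mul_im, I_re, I_im]
      ring
  obtain ⟨c, hc⟩ := tendsto_const D.cpt hol (fd.l2.of_le (measurable_deriv _).aestronglyMeasurable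
    ((ae_restrict_mem (G_meas D)).mono fun z hz => (gr_hol (G_open D) hol hz).2.1.le))
  have fe : D.Fn fun z => d z - X z - c.re := (fd.sub fX).sub (fn_const D _)
  have fk : D.Fn fun z => v z - Y z - c.im := (fv.sub fY).sub (fn_const D _)
  have ge : ∀ᵐ z ∂volume.restrict D.G, gr (fun z => d z - X z - c.re) z = p z := by
    filter_upwards [hd, ae_restrict_mem (G_meas D)] with z h1 hz
    rw [gr_sub ((fd.sub fX).diffAt hz) (differentiableAt_const _), gr_sub (fd.diffAt hz)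
      (fX.diffAt hz), gr_const, h1]
    ring
  have gk : ∀ h : ℂ → ℝ, D.om h (fun z => v z - Y z - c.im) =
      ∫ z in D.G, dt (gr h z) (p z + (gr X z + I * gr Y z)) := fun h => by
    refine integral_congr_ae ?_
    filter_upwards [hd, ae_restrict_mem (G_meas D)] with z h1 hz
    rw [gr_sub ((fv.sub fY).diffAt hz) (differentiableAt_const _), gr_sub (fv.diffAt hz)
      (fY.diffAt hz), gr_const, (gr_hol (G_open D) hol hz).1, h1]
    simp only [dt, wd, add_re, add_im, mul_re, mul_im, I_re, I_im, sub_re, sub_im, zero_re, zero_im]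
    ring
  refine ⟨fun z => z + (d z + v z * I) - c, fun z => d z - X z - c.re, fun z => v z - Y z - c.im, τ,
    (differentiableOn_id.add hol).sub_const c, ?_, ⟨χ, hχ, fun z _ => ?_⟩,
    in_lim hS hx fe hτ ?_ l2, ⟨fk, hτ, fun h r hh => ?_⟩, ?_⟩
  · have := hc.sub_const c
    rw [sub_self] at this
    exact this.congr fun z => by ring
  · apply Complex.ext <;> simp [cx, hX, hY] <;> ring
  · have := l1.sqrt
    rw [Real.sqrt_zero] at this
    refine this.congr fun n => ?_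
    rw [Dom.nr]
    congr 1
    refine integral_congr_ae ?_
    filter_upwards [ge, ae_restrict_mem (G_meas D)] with z h1 hz
    rw [gr_sub ((hx n).fn.diffAt hz) (fe.diffAt hz), h1]
  · rw [gk]
    exact k2 h r hh
  · rw [gk, ← k1]
    refine integral_congr_ae ?_
    filter_upwards [ge] with z h1
    rw [h1]

end Vale.P116D
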