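import Vale.Agent.P116D.P0
import Vale.Agent.P116D.KAP

/-!
P6: the side function.
-/

namespace Vale.P116D

open Set Filter Topology MeasureTheory Complex Metric
open scoped ContDiff ComplexConjugate

variable {D : Dom} {S : Gens D} {φ ψ χ η e k w : ℂ → ℝ} {s σ r v : D.End → ℝ} {y : D.End}
  {f F : ℂ → ℂ} {q : D.End → ℂ} {Θ : ℂ → ℝ} {U V O Z : Set ℂ} {z p : ℂ}

/-- `κ, M₁` from `kap`; `M₀` with `K' ⊆ ball 0 M₀`, `M₁ ≤ M₀`.  Given `V` take the split
`A₁, A₂` for `V ∩ ball 0 M`, `c` one near `A₁` with support in `V ∩ ball 0 M` minus `A₂`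
(`eh_bump`), `H p = κ p * (1 - c p) * (h p.re * β p.im)`.  Near a point off `[a', b']` the
factor `h` vanishes, near `Z` the factor `1 - c` vanishes, elsewhere `κ` is locally constant.
A convex `Q` lies in `A₁` or in `A₂`, and `κ` is constant on the convex set `Q ∩ strip`. -/
theorem side_ex {p₁ p₂ : ℂ} {b₁ b₂ : ℝ} (hc : IsCompact (F '' D.G)ᶜ) (hZ : Tent D F y Z)
    (h1 : p₁ ∈ Z) (h2 : p₂ ∈ Z) (l1 : p₁.re ≤ b₁) (l2 : b₂ ≤ p₂.re) :
    ∃ M, 0 < M ∧ (F '' D.G)ᶜ ⊆ ball 0 M ∧ ∀ (h β : ℝ → ℝ) (a' b' : ℝ), b₁ < a' → b' < b₂ →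
      Wt a' b' h → (∀ x, h x ∈ Icc (0 : ℝ) 1) → ContDiff ℝ ∞ β → (∀ x, β x ∈ Icc (0 : ℝ) 1) →
      (∀ x ≤ -3 * M, β x = 0) → (∀ x, -2 * M ≤ x → β x = 1) →
      ∀ V, IsOpen V → Z ⊆ V → ∃ H, Side (F '' D.G)ᶜ V h β b₁ b₂ M H := by
  obtain ⟨κ, k01, kloc, M₁, kM⟩ := kap hZ.cpt hZ.conn hZ.cc h1 h2 l1 l2
  obtain ⟨M₀, hM₀, hK₀⟩ := hc.isBounded.subset_ball_lt 0 (0 : ℂ)
  have hZK : Z ⊆ (F '' D.G)ᶜ := by
    obtain ⟨A₁, A₂, -, -, -, e, z1, -⟩ := hZ.split univ isOpen_univ (subset_univ _)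
    exact z1.trans (e ▸ subset_union_left)
  obtain ⟨M, m0, m1⟩ : ∃ M, M₀ ≤ M ∧ M₁ ≤ M := ⟨max M₀ M₁, le_max_left _ _, le_max_right _ _⟩
  have hK : (F '' D.G)ᶜ ⊆ ball 0 M := hK₀.trans (ball_subset_ball m0)
  refine ⟨M, hM₀.trans_le m0, hK, fun h β a' b' ha hb hW hh hβ hβ1 β0 β1 V hV hZV => ?_⟩
  obtain ⟨A₁, A₂, c1, c2, hd, e, z1, a1⟩ := hZ.split (V ∩ ball 0 M) (hV.inter isOpen_ball)
    (subset_inter hZV (hZK.trans hK))
  obtain ⟨c, cs, -, ct, c01, cA⟩ := eh_bump c1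
    ((hV.inter isOpen_ball).inter c2.isClosed.isOpen_compl) (subset_inter a1 hd.subset_compl_right)
  have kI : ∀ z, κ z ∈ Icc (0 : ℝ) 1 := fun z => by rcases k01 z with h | h <;> simp [h]
  have hst : ∀ p : ℂ, h p.re ≠ 0 → p.re ∈ Ioo b₁ b₂ := fun p hp =>
    ⟨ha.trans_le (hW.2 _ hp).1, (hW.2 _ hp).2.trans_lt hb⟩
  have h0 : ∀ p : ℂ, p.re ∉ Icc a' b' → ∀ᶠ z : ℂ in 𝓝 p, h z.re = 0 := fun p hp => by
    filter_upwards [(isClosed_Icc.preimage continuous_re).isOpen_compl.mem_nhds hp] with z hz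
    exact by_contra fun hz' => hz (hW.2 _ hz')
  have c0 : ∀ p, p ∉ tsupport c → ∀ᶠ z in 𝓝 p, c z = 0 := fun p hp => by
    filter_upwards [(isClosed_tsupport c).isOpen_compl.mem_nhds hp] with z hz
    exact image_eq_zero_of_notMem_tsupport hz
  have hin : ∀ p : ℂ, p.re ∈ Icc a' b' → p.re ∈ Ioo b₁ b₂ := fun p hp =>
    ⟨ha.trans_le hp.1, hp.2.trans_lt hb⟩
  have hsm : ContDiff ℝ ∞ fun p : ℂ => h p.re * β p.im :=
    (hW.1.comp reCLM.contDiff).mul (hβ.comp imCLM.contDiff)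
  refine ⟨fun p => κ p * (1 - c p) * (h p.re * β p.im), ?_, fun p => ?_, fun p hp => ?_,
    fun p hp => ?_, fun p hp hp' => ?_, fun Q hQ hQK => ?_⟩
  · refine contDiff_iff_contDiffAt.2 fun p => ?_
    by_cases hp : p.re ∈ Icc a' b'
    · by_cases hz : p ∈ Z
      · refine (contDiffAt_const (c := (0 : ℝ))).congr_of_eventuallyEq ?_
        filter_upwards [(mem_nhdsSet_iff_forall.1 cA) p (z1 hz)] with z hz
        simp [show c z = 1 from hz]
      · refine ((contDiff_const (c := κ p)).mul ((contDiff_const (c := 1)).sub cs) |>.mul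
          hsm).contDiffAt.congr_of_eventuallyEq ?_
        filter_upwards [kloc p (hin p hp) hz] with z hz
        rw [hz]
    · refine (contDiffAt_const (c := (0 : ℝ))).congr_of_eventuallyEq ?_
      filter_upwards [h0 p hp] with z hz
      simp [hz]
  · have := kI p
    have := c01 p
    have := hh p.re
    have := hβ1 p.im
    simp only [mem_Icc] at *
    exact ⟨mul_nonneg (mul_nonneg (by tauto) (by linarith)) (mul_nonneg (by tauto) (by tauto)),
      mul_le_one₀ (mul_le_one₀ (by tauto) (by linarith) (by linarith))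
        (mul_nonneg (by tauto) (by tauto)) (mul_le_one₀ (by tauto) (by tauto) (by tauto))⟩
  · simp only [ne_eq, mul_eq_zero, not_or] at hp
    obtain ⟨⟨q1, -⟩, q2, q3⟩ := hp
    have r1 := hst p q2
    have r2 : p.im ≤ M := by_contra fun h' => q1 ((kM p r1).2 (by linarith [not_le.1 h']))
    have r3 : -3 * M < p.im := by_contra fun h' => q3 (β0 _ (not_lt.1 h'))
    have r4 := abs_le.1 ((abs_re_le_norm p₁).trans (mem_ball_zero_iff.1 (hK (hZK h1))).le)
    have r5 := abs_le.1 ((abs_re_le_norm p₂).trans (mem_ball_zero_iff.1 (hK (hZK h2))).le)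
    have r6 : |p.re| ≤ M := abs_le.2 ⟨by linarith [r1.1], by linarith [r1.2]⟩
    have r7 : |p.im| ≤ 3 * M := abs_le.2 ⟨by linarith, by linarith⟩
    linarith [norm_le_abs_re_add_abs_im p]
  · by_cases hp' : p.re ∈ Icc a' b'
    · refine ⟨κ p, kI p, ?_⟩
      filter_upwards [kloc p (hin p hp') fun hz => hp (hZV hz), c0 p fun hz => hp (ct hz).1.1]
        with z e1 e2
      rw [e1, e2, sub_zero, mul_one]
    · refine ⟨0, by simp, ?_⟩
      filter_upwards [h0 p hp'] with z hz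
      simp [hz]
  · have hn : p ∉ tsupport c := fun hz => by
      have := abs_le.1 ((abs_im_le_norm p).trans (mem_ball_zero_iff.1 (ct hz).1.2).le)
      linarith
    filter_upwards [c0 p hn, (isOpen_Ioo.preimage continuous_re).mem_nhds hp,
      (isOpen_lt continuous_im continuous_const).mem_nhds hp'] with z e1 e2 e3
    have e4 : z.im < -M := e3
    rw [e1, (kM z e2).1 (by linarith), sub_zero, mul_one, one_mul]
  · rcases isPreconnected_iff_subset_of_disjoint_closed.1 hQ.isPreconnected A₁ A₂ c1.isClosed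
      c2.isClosed (e ▸ hQK) (by rw [hd.inter_eq, inter_empty]) with hA | hA
    · exact ⟨0, by simp, fun p hp => by simp [cA.self_of_nhdsSet p (hA hp)]⟩
    have hv : ∀ p ∈ Q, κ p * (1 - c p) * (h p.re * β p.im) = κ p * h p.re := fun p hp => by
      have := abs_le.1 ((abs_im_le_norm p).trans (mem_ball_zero_iff.1 (hK (hQK hp))).le)
      rw [image_eq_zero_of_notMem_tsupport (f := c) fun hz => (ct hz).2 (hA hp),
        β1 _ (by linarith), sub_zero, mul_one, mul_one]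
    rcases (Q ∩ re ⁻¹' Ioo b₁ b₂).eq_empty_or_nonempty with he | ⟨p₀, hp₀⟩
    · refine ⟨0, by simp, fun p hp => ?_⟩
      have : h p.re = 0 := by_contra fun h' => (he ▸ (⟨hp, hst p h'⟩ : p ∈ Q ∩ re ⁻¹' Ioo b₁ b₂) :
        p ∈ (∅ : Set ℂ))
      simp [this]
    · refine ⟨κ p₀, kI p₀, fun p hp => ?_⟩
      by_cases h' : h p.re = 0
      · simp [h']
      have hcv : Convex ℝ (Q ∩ re ⁻¹' Ioo b₁ b₂) :=
        hQ.inter ((convex_Ioo b₁ b₂).linear_preimage reLm)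
      have : κ p = κ p₀ := by
        refine hcv.isPreconnected.induction₂' (fun x y => κ x = κ y) (fun x hx => ?_)
          (fun x y z _ _ _ => Eq.trans) ⟨hp, hst p h'⟩ hp₀
        filter_upwards [mem_nhdsWithin_of_mem_nhds
          (kloc x hx.2 fun hz => hd.le_bot ⟨z1 hz, hA hx.1⟩)] with z hz
        exact ⟨hz.symm, hz⟩
      exact (hv p hp).trans (by rw [this])

end Vale.P116D
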