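import Vale.Agent.P116D.P9
import Vale.Agent.P116D.P6
import Vale.Agent.P116D.APX

/-!
P10: no tentacles.
-/

namespace Vale.P116D

open Set Filter Topology MeasureTheory Complex Metric
open scoped ContDiff ComplexConjugate

variable {D : Dom} {S : Gens D} {φ ψ χ η e k w : ℂ → ℝ} {s σ r v : D.End → ℝ} {y : D.End}
  {f F : ℂ → ℂ} {q : D.End → ℂ} {Θ : ℂ → ℝ} {U V O Z : Set ℂ} {z p : ℂ} {R : Rect} {l : ℝ → ℝ}

theorem p10_const {T : ℝ → ℝ} {a b x x' : ℝ} (hT : ContDiff ℝ ∞ T)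
    (h : ∀ x, x ∉ Icc a b → deriv T x = 0) (hx : (x < a ∧ x' < a) ∨ (b < x ∧ b < x')) :
    T x = T x' := by
  have h1 := hT.differentiable (by simp)
  rcases hx with hx | hx
  · exact isOpen_Iio.is_const_of_deriv_eq_zero isPreconnected_Iio h1.differentiableOn
      (fun t ht => h t fun h2 => (ht.trans_le h2.1).false) hx.1 hx.2
  · exact isOpen_Ioi.is_const_of_deriv_eq_zero isPreconnected_Ioi h1.differentiableOn
      (fun t ht => h t fun h2 => (h2.2.trans_lt ht).false) hx.1 hx.2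

theorem p10_pre {T : ℝ → ℝ} {a b c d x : ℝ} (hT : ContDiff ℝ ∞ T)
    (h : ∀ x, deriv T x ∈ Icc (0 : ℝ) 1) (hi : ∀ x ∈ Icc a b, T x = x) (hc : c ∈ Icc a b)
    (hd : d ∈ Icc a b) (hx : T x ∈ Ioo c d) : x ∈ Ioo c d := by
  have h1 := mono_of_deriv hT fun x => (h x).1
  refine ⟨lt_of_not_ge fun h2 => hx.1.not_ge ?_, lt_of_not_ge fun h2 => hx.2.not_ge ?_⟩
  · exact (h1 h2).trans (hi c hc).le
  · exact (hi d hd).ge.trans (h1 h2)

theorem p10_abs {T : ℝ → ℝ} (h : ∀ x, deriv T x ∈ Icc (0 : ℝ) 1) (x : ℝ) : |deriv T x| ≤ 1 := by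
  rw [abs_of_nonneg (h x).1]
  exact (h x).2

/-- The function to be approximated. -/
theorem nt_fun {b₁ b₂ δ : ℝ} (hS : Max S) (hF : Good S F s q) (hδ : 0 < δ) (e : b₂ = b₁ + 8 * δ)
    (hI : ∀ p ∈ P116.sq (q y) (s y / 2), ∀ p' ∈ P116.sq (q y) (s y / 2),
      p = p' ∨ (p.re ≤ b₁ ∧ p'.re ≤ b₁) ∨ (b₂ ≤ p.re ∧ b₂ ≤ p'.re)) (hη : D.Cut η D.fi) :
    ∃ (φ : ℂ → ℝ) (t : D.End → ℝ) (Λ : ℝ → ℝ) (a b κ : ℝ), InB S φ t ∧ (∀ y, t y ≤ s y) ∧
      Cert S y φ ∧ (∀ z, η z = 1 → φ z = Λ (F z).re) ∧ ContDiff ℝ ∞ Λ ∧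
      (∀ x, deriv Λ x ∈ Icc (0 : ℝ) 1) ∧ b₁ + 3 * δ ≤ a ∧ a < b ∧ b ≤ b₂ - 3 * δ ∧
      κ ∉ Ioo a b ∧ (∀ x, Λ x + κ ∈ Ioo a b → x ∈ Ioo a b) ∧ ∀ x ∈ Ioo a b, Λ x = x - κ := by
  obtain ⟨Λ, s1, d1, i1, m1, z1⟩ := clamp_ex (a := b₁ + 3 * δ) (b := b₂ - 3 * δ) (by linarith) hδ
  have c1 : Cost (upd s y 0) := hF.co.upd y le_rfl
  have h1 := hF.box (fun p => Λ p.re) (s1.comp reCLM.contDiff) η _ hη.wd rfl _ c1
    fun (y' : D.End) _ p hp p' hp' => by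
      by_cases e' : y' = y
      · subst e'
        rw [p8_upd_self]
        rcases hI p hp p' hp' with h2 | h2 | h2
        · rw [h2, sub_self]
        · exact (sub_eq_zero.2 (p10_const s1 z1 (Or.inl ⟨by linarith [h2.1], by linarith [h2.2]⟩))).le
        · exact (sub_eq_zero.2 (p10_const s1 z1 (Or.inr ⟨by linarith [h2.1], by linarith [h2.2]⟩))).le
      rw [p8_upd_ne _ _ e']
      have b1 := abs_le.1 hp.1
      have b2 := abs_le.1 hp'.1
      have b3 := (le_abs_self _).trans (lip_of_deriv s1 (p10_abs d1) p.re p'.re)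
      have b4 : |p.re - p'.re| ≤ s y' := abs_le.2 ⟨by linarith [b1.1, b2.2], by linarith [b1.2, b2.1]⟩
      exact b3.trans (by linarith)
  have h2 : InB S (fun z => η z * Λ (F z).re) fun y' => |D.fi y'| * upd s y 0 y' :=
    ⟨h1, Dom.Bd.mul ⟨1, fun z _ => by rw [abs_of_nonneg (hη.mem z).1]; exact (hη.mem z).2⟩
      ⟨|b₁| + |b₂| + 2 * δ, fun z _ => by
        have b1 := m1 (F z).re
        exact abs_le.2 ⟨by linarith [b1.1, neg_abs_le b₁, abs_nonneg b₂],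
          by linarith [b1.2, le_abs_self b₂, abs_nonneg b₁]⟩⟩⟩
  obtain ⟨c, hc⟩ := hS.tcl _ _ h2 y
  rw [p8_upd_self, mul_zero, add_zero] at hc
  obtain ⟨a, b, l1, l2, l3, l4⟩ : ∃ a b, b₁ + 3 * δ ≤ a ∧ a < b ∧ b ≤ b₂ - 3 * δ ∧
      (c + δ / 2 ≤ a ∨ b + δ / 2 ≤ c) := by
    rcases le_total c (b₁ + 4 * δ) with h3 | h3
    · exact ⟨b₁ + 4 * δ + δ / 2, b₁ + 5 * δ, by linarith, by linarith, by linarith,
        Or.inl (by linarith)⟩
    · exact ⟨b₁ + 3 * δ, b₁ + 4 * δ - δ / 2, by linarith, by linarith, by linarith,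
        Or.inr (by linarith)⟩
  obtain ⟨T, s2, d2, i2, m2, z2⟩ := clamp_ex l2.le (δ := δ / 8) (by linarith)
  have s3 : ContDiff ℝ ∞ fun x => T x - T c := s2.sub contDiff_const
  have d3 : ∀ x, deriv (fun x => T x - T c) x = deriv T x := fun x => deriv_sub_const _
  have h3 := In.comp (C := 1) (M := b - a + δ) h1 hS.1 s3 zero_le_one
    (fun x => by rw [d3]; exact p10_abs d2 x) fun x =>
      abs_le.2 ⟨by linarith [(m2 x).1, (m2 c).2], by linarith [(m2 x).2, (m2 c).1]⟩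
  have h4 := cert_one (δ := δ / 8) hS.1 h2 hc s3 (by linarith) fun x hx => sub_eq_zero.2
    (p10_const s2 z2 (l4.imp (fun h5 => ⟨by linarith [hx.2], by linarith⟩)
      fun h5 => ⟨by linarith [hx.1], by linarith⟩))
  have ma : a ∈ Icc (b₁ + 3 * δ) (b₂ - 3 * δ) := ⟨l1, by linarith⟩
  have mb : b ∈ Icc (b₁ + 3 * δ) (b₂ - 3 * δ) := ⟨by linarith, l3⟩
  refine ⟨_, _, fun x => T (Λ x) - T c, a, b, T c, h3, fun y' => ?_, h4, fun z hz => ?_,
    (s2.comp s1).sub contDiff_const, fun x => ?_, l1, l2, l3, fun h5 => ?_, fun x hx => ?_,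
    fun x hx => ?_⟩
  · have b1 : |D.fi y'| ≤ 1 := by cases y' <;> simp [Dom.fi]
    have b2 : upd s y 0 y' ≤ s y' := by
      by_cases e' : y' = y
      · rw [e', p8_upd_self]
        exact hF.co.1 y
      · rw [p8_upd_ne _ _ e']
    rw [one_mul]
    exact (mul_le_of_le_one_left (c1.1 y') b1).trans b2
  · simp only [hz, one_mul]
  · rw [deriv_sub_const, ← Function.comp_def T Λ, deriv_comp x (s2.differentiable (by simp) _)
      (s1.differentiable (by simp) _)]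
    exact ⟨mul_nonneg (d2 _).1 (d1 _).1, mul_le_one₀ (d2 _).2 (d1 _).1 (d1 _).2⟩
  · have h6 := p10_pre s2 d2 i2 (left_mem_Icc.2 l2.le) (right_mem_Icc.2 l2.le) h5
    rcases l4 with h7 | h7 <;> linarith [h6.1, h6.2]
  · rw [sub_add_cancel] at hx
    exact p10_pre s1 d1 i1 ma mb
      (p10_pre s2 d2 i2 (left_mem_Icc.2 l2.le) (right_mem_Icc.2 l2.le) hx)
  · show T (Λ x) - T c = x - T c
    rw [i1 x ⟨l1.trans hx.1.le, hx.2.le.trans l3⟩, i2 x (Ioo_subset_Icc_self hx)]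

theorem nt_pt (hF : DifferentiableOn ℂ F D.G) (hi : InjOn F D.G) (hO : IsOpen O) (hG : O ⊆ D.G)
    (hz : z ∈ O) : ∃ z ∈ O, deriv F z ≠ 0 := by
  by_contra h
  simp only [not_exists, not_and, not_not] at h
  obtain ⟨ε, hε, h1⟩ := Metric.isOpen_iff.1 hO z hz
  have h2 : z + (ε / 2 : ℝ) ∈ ball z ε := by
    rw [mem_ball_iff_norm, add_sub_cancel_left, norm_real, Real.norm_of_nonneg (by linarith)]
    linarith
  have h3 := hi (hG (h1 h2)) (hG hz) (isOpen_ball.is_const_of_deriv_eq_zero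
    (convex_ball z ε).isPreconnected (hF.mono (h1.trans hG)) (fun x hx => h x (h1 hx)) h2
    (mem_ball_self hε))
  have h4 := congrArg re h3
  simp only [add_re, ofReal_re] at h4
  linarith

theorem nt_eps {c L N n : ℝ} (hc : 0 < c) (hL : 0 ≤ L) (hN : 0 ≤ N) (hn : 0 ≤ n) :
    ∃ ε, 0 < ε ∧ ε ≤ 1 ∧ L * (ε * (n + 1)) + 5 * L * (ε + N * ε) + 2 * L * (N * ε) < c := by
  have h : 0 < L * (n + 1) + 5 * L * (1 + N) + 2 * L * N + 1 := by positivity
  refine ⟨min 1 (c / (L * (n + 1) + 5 * L * (1 + N) + 2 * L * N + 1)),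
    lt_min one_pos (div_pos hc h), min_le_left _ _, ?_⟩
  have h1 := (le_div_iff₀ h).1 (min_le_right 1 (c / (L * (n + 1) + 5 * L * (1 + N) + 2 * L * N + 1)))
  have h2 := lt_min one_pos (div_pos hc h)
  linarith

theorem nt_mid {u : ℂ → ℝ} {C : Set ℂ} (fu : D.Fn u) (fw : D.Fn w) (fφ : D.Fn φ) (hC : IsCompact C)
    (mU : MeasurableSet U) (hU : U ⊆ Cᶜ) (h : ∀ z ∈ D.G, z ∈ U → ‖gr φ z‖ ≤ ‖gr u z‖) :
    ∫ z in D.G ∩ U, ‖gr u z‖ * ‖gr w z‖ ≤
      (∫ z in D.G \ C, ‖gr u z‖ ^ 2) + D.nr u * D.nr fun z => w z - φ z := by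
  have i1 := int_sq fu
  have i2 := int_mul fu (fw.sub fφ)
  have h1 : ∫ z in D.G ∩ U, ‖gr u z‖ * ‖gr w z‖ ≤
      ∫ z in D.G ∩ U, (‖gr u z‖ ^ 2 + ‖gr u z‖ * ‖gr (fun z => w z - φ z) z‖) := by
    refine setIntegral_mono_on ((int_mul fu fw).mono_set inter_subset_left)
      ((i1.add i2).mono_set inter_subset_left) ((G_meas D).inter mU) fun z hz => ?_
    rw [sq, ← mul_add, gr_sub (fw.diffAt hz.1) (fφ.diffAt hz.1)]
    refine mul_le_mul_of_nonneg_left ?_ (norm_nonneg _)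
    have h2 := norm_add_le (gr φ z) (gr w z - gr φ z)
    rw [add_sub_cancel] at h2
    linarith [h z hz.1 hz.2]
  rw [integral_add (i1.mono_set inter_subset_left) (i2.mono_set inter_subset_left)] at h1
  refine h1.trans (add_le_add ?_ (le_trans ?_ (int_mul_le fu (fw.sub fφ))))
  · exact setIntegral_mono_set (i1.mono_set sdiff_subset)
      (Eventually.of_forall fun z => by positivity)
      (LE.le.eventuallyLE (fun z hz => ⟨hz.1, hU hz.2⟩ : D.G ∩ U ⊆ D.G \ C))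
  · exact setIntegral_mono_set i2 (Eventually.of_forall fun z => by positivity)
      (LE.le.eventuallyLE inter_subset_left)

theorem nt_pos {g : ℂ → ℝ} {A : Set ℂ} (hA : IsCompact A) (hG : A ⊆ D.G) (hg : ContinuousOn g D.G)
    (h0 : ∀ z, 0 ≤ g z) (hz : z ∈ interior A) (hp : g z ≠ 0) : 0 < ∫ z in A, g z := by
  refine (setIntegral_pos_iff_support_of_nonneg_ae (Eventually.of_forall h0)
    ((hg.mono hG).integrableOn_compact hA)).2 (Measure.measure_pos_of_mem_nhds _ (x := z) ?_)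
  exact inter_mem ((hg.continuousAt ((G_open D).mem_nhds (hG (interior_subset hz)))).eventually_ne
    hp) (mem_interior_iff_mem_nhds.1 hz)

end Vale.P116D
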