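import Vale.Agent.P116D.P10

/-!
P11: no tentacles, the contradiction.
-/

namespace Vale.P116D

open Set Filter Topology MeasureTheory Complex Metric
open scoped ContDiff ComplexConjugate

variable {D : Dom} {S : Gens D} {s : D.End → ℝ} {y : D.End} {F : ℂ → ℂ} {q : D.End → ℂ}
  {Z : Set ℂ}

theorem nt_far (hF : Good S F s q) (M : ℝ) :
    ∃ R, D.K ⊆ ball 0 R ∧ ∀ z, ‖F z‖ ≤ M → ‖z‖ ≤ R := by
  obtain ⟨R, hR⟩ := closedBall_compl_subset_of_mem_cocompact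
    (hF.pro (isCompact_closedBall (0 : ℂ) M).compl_mem_cocompact) 0
  obtain ⟨R', -, hR'⟩ := D.cpt.isBounded.subset_ball_lt 0 0
  refine ⟨max R R', hR'.trans (ball_subset_ball (le_max_right _ _)), fun z hz => ?_⟩
  refine le_trans (mem_closedBall_zero_iff.1 (by_contra fun h => ?_)) (le_max_left _ _)
  exact hR h (mem_closedBall_zero_iff.2 hz)

theorem no_tent {p₁ p₂ : ℂ} {b₁ b₂ : ℝ} (hS : Max S) (hF : Good S F s q) (hZ : Tent D F y Z)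
    (h1 : p₁ ∈ Z) (h2 : p₂ ∈ Z) (l1 : p₁.re ≤ b₁) (l0 : b₁ < b₂) (l2 : b₂ ≤ p₂.re)
    (hI : ∀ p ∈ P116.sq (q y) (s y / 2), ∀ p' ∈ P116.sq (q y) (s y / 2),
      p = p' ∨ (p.re ≤ b₁ ∧ p'.re ≤ b₁) ∨ (b₂ ≤ p.re ∧ b₂ ≤ p'.re)) : False := by
  obtain ⟨δ, hδ, e⟩ : ∃ δ, 0 < δ ∧ b₂ = b₁ + 8 * δ := ⟨(b₂ - b₁) / 8, by linarith, by ring⟩
  obtain ⟨M, hM, hK, hside⟩ := side_ex hF.cpt hZ h1 h2 l1 l2
  have hZK : ∀ p ∈ Z, |p.re| ≤ M := fun p hp => by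
    obtain ⟨A₁, A₂, -, -, -, h3, h4, -⟩ := hZ.split univ isOpen_univ (subset_univ _)
    exact (abs_re_le_norm p).trans (mem_ball_zero_iff.1 (hK (h3 ▸ Or.inl (h4 hp)))).le
  obtain ⟨h, wh, vh, ⟨L₁, dh⟩, ih⟩ := bump_ex (a' := b₁ + δ) (a := b₁ + 2 * δ) (b := b₂ - 2 * δ)
    (b' := b₂ - δ) (by linarith) (by linarith) (by linarith)
  obtain ⟨β, L₂, sβ, vβ, dβ, zβ, oβ, pβ⟩ := step_ex (a := -3 * M) (b := -2 * M) (by linarith)
  obtain ⟨R₁, hR₁, far⟩ := nt_far hF (4 * M)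
  obtain ⟨η, hη, -, h1η⟩ := cut_big D (isCompact_closedBall (0 : ℂ) R₁)
  have one : ∀ z : ℂ, ‖z‖ ≤ R₁ → ∀ᶠ z' in 𝓝 z, η z' = 1 := fun z hz =>
    eventually_nhdsSet_iff_forall.1 h1η z (Or.inr (mem_closedBall_zero_iff.2 hz))
  obtain ⟨φ, t, Λ, a, b, κ, hφ, ht, hc, eφ, sΛ, dΛ, la, lab, lb, hκ, wΛ, iΛ⟩ :=
    nt_fun hS hF hδ e hI hη
  have eφ' : ∀ z ∈ D.G, ‖z‖ ≤ R₁ → φ =ᶠ[𝓝 z] fun z => Λ (F z).re := fun z _ hz =>
    (one z hz).mono fun z' h => eφ z' h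
  have dF : ∀ z ∈ D.G, DifferentiableAt ℂ F z := fun z hz =>
    hF.hol.differentiableAt ((G_open D).mem_nhds hz)
  obtain ⟨O, hO, mO⟩ : ∃ O, IsOpen O ∧ ∀ z, z ∈ O ↔
      z ∈ D.G ∧ (F z).re ∈ Ioo a b ∧ (F z).im ∈ Ioo (-3 * M) (-2 * M) :=
    ⟨D.G ∩ F ⁻¹' (re ⁻¹' Ioo a b ∩ im ⁻¹' Ioo (-3 * M) (-2 * M)),
      hF.hol.continuousOn.isOpen_inter_preimage (G_open D)
        ((isOpen_Ioo.preimage continuous_re).inter (isOpen_Ioo.preimage continuous_im)),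
      fun _ => Iff.rfl⟩
  obtain ⟨z₁, hz₁, ez₁⟩ : (⟨(a + b) / 2, -(5 / 2 * M)⟩ : ℂ) ∈ F '' D.G := by_contra fun h3 => by
    have h4 := (abs_im_le_norm _).trans_lt (mem_ball_zero_iff.1 (hK h3))
    rw [abs_neg, abs_of_pos (by positivity)] at h4
    linarith
  obtain ⟨z₀, hz₀, hd⟩ := nt_pt hF.hol hF.inj hO (fun z hz => ((mO z).1 hz).1) ((mO z₁).2
    ⟨hz₁, by rw [ez₁]; exact ⟨by simp only; linarith, by simp only; linarith⟩,
      by rw [ez₁]; exact ⟨by simp only; linarith, by simp only; linarith⟩⟩)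
  have oR : ∀ z ∈ O, ‖z‖ ≤ R₁ := fun z hz => far z (by
    obtain ⟨-, b1, b2⟩ := (mO z).1 hz
    have b3 := abs_le.1 (hZK _ h1)
    have b4 := abs_le.1 (hZK _ h2)
    have b5 : |(F z).re| ≤ M := abs_le.2 ⟨by linarith [b1.1, b3.1], by linarith [b1.2, b4.2]⟩
    have b6 : |(F z).im| ≤ 3 * M := abs_le.2 ⟨by linarith [b2.1], by linarith [b2.2]⟩
    linarith [norm_le_abs_re_add_abs_im (F z)])
  have oφ : ∀ z ∈ O, φ z = Λ (F z).re := fun z hz =>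
    (eφ' z ((mO z).1 hz).1 (oR z hz)).self_of_nhds
  have d1 : ∀ x ∈ Ioo a b, deriv Λ x = 1 := fun x hx => by
    have h3 : Λ =ᶠ[𝓝 x] fun x => x - κ := mem_of_superset (isOpen_Ioo.mem_nhds hx) iΛ
    rw [h3.deriv_eq, deriv_sub_const, deriv_id'']
  obtain ⟨g₀, r₀, i₀⟩ := (mO z₀).1 hz₀
  have hg : gr φ z₀ ≠ 0 := by
    rw [gr_congr (eφ' z₀ g₀ (oR z₀ hz₀)), p9_gr (dF z₀ g₀) sΛ, d1 _ r₀]
    simpa using hd
  obtain ⟨R, hR, hRO, hz₀R⟩ := box_ex hφ.1.fn.sm g₀ hg (hO.mem_nhds hz₀)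
  have win : ∀ x ∈ Ioo R.t₁ R.t₂, x + κ ∈ Ioo a b := fun x hx => by
    have b1 : φ R.bot < R.t₁ := hR.bot 0 (by simpa using hR.a0.le)
    have b2 : R.t₂ < φ R.top := hR.top 0 (by simpa using hR.a0.le)
    have b3 := ((mO _).1 (hRO hR.top_mem.1)).2.1
    have b4 := ((mO _).1 (hRO hR.top_mem.2)).2.1
    rw [oφ _ (hRO hR.top_mem.2), iΛ _ b4] at b1
    rw [oφ _ (hRO hR.top_mem.1), iΛ _ b3] at b2
    exact ⟨by linarith [hx.1, b4.1], by linarith [hx.2, b3.2]⟩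
  obtain ⟨-, c₁, c₂⟩ := interior_subset hz₀R
  obtain ⟨l, wl, vl, ⟨L₃, dl⟩, il⟩ := bump_ex (a' := (R.t₁ + φ z₀) / 2) (a := φ z₀) (b := φ z₀)
    (b' := (φ z₀ + R.t₂) / 2) (by linarith) le_rfl (by linarith)
  have pos : 0 < ∫ z in R.set, ntd F Λ β l z := by
    refine nt_pos hR.cpt hR.sub (ntd_cont hF.hol sΛ sβ wl.1) (fun z => mul_nonneg (sq_nonneg _)
      (mul_nonneg (mul_nonneg (dβ _).1 (dΛ _).1) (sq_nonneg _)))
      (interior_mono (fun z hz => hz.1) hz₀R) ?_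
    have b1 := pβ _ i₀
    have b2 := norm_pos_iff.2 hd
    rw [ntd, ← oφ _ hz₀, il _ (left_mem_Icc.2 le_rfl), d1 _ r₀]
    positivity
  obtain ⟨L, L1, L2, L3⟩ : ∃ L, L₁ ≤ L ∧ L₂ ≤ L ∧ L₃ ≤ L := ⟨max L₁ (max L₂ L₃), le_max_left _ _,
    le_max_of_le_right (le_max_left _ _), le_max_of_le_right (le_max_right _ _)⟩
  have L0 : 0 ≤ L := ((abs_nonneg _).trans (dl 0)).trans L3
  have fu := (hF.loc η _ hη.wd rfl).1
  have gu : ∀ z ∈ D.G, ‖z‖ ≤ R₁ → ‖gr (fun z => η z * (F z).re) z‖ = ‖deriv F z‖ := fun z hz h3 => by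
    have h4 : (fun z => η z * (F z).re) =ᶠ[𝓝 z] fun z => (F z).re :=
      (one z h3).mono fun z' h5 => by simp only [h5, one_mul]
    rw [gr_congr h4, gr_hcomp (Θ := fun p => p.re) (dF z hz) reCLM.differentiableAt, gr_re, mul_one,
      norm_conj]
  obtain ⟨ε, hε, ε1, hε'⟩ := nt_eps pos L0 (nr_nonneg D fun z => η z * (F z).re) (nl_nonneg s)
  obtain ⟨T₀, hT₀⟩ := hF.co.2.tail hε
  obtain ⟨C₀, cC₀, gC₀, iC₀⟩ := p7_small (int_sq fu) hε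
  obtain ⟨T, ζ, a', p1, p2, p3, p4⟩ := part hη rfl T₀ (U := C₀ᶜ ∩ closedBall 0 R₁) fun y' hy' => by
    refine inter_mem (compl_mem cC₀ gC₀ y') ?_
    obtain _ | c := y'
    · exact (hy' rfl).elim
    · exact D.eh_mem_nb_some.2 ⟨_, isOpen_ball, (D.eh_cmp_sub c).trans hR₁,
        fun z hz _ => ball_subset_closedBall hz⟩
  obtain ⟨C₁, cC₁, iC₁, gC₁⟩ := exists_compact_between hR.cpt (G_open D) hR.sub
  choose Cζ k1 k2 k3 using fun y => (p1 y).1.wd.cs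
  obtain ⟨w, r, hr, nr', inw, reg, nw, ew, vw, gw⟩ := apx hS hφ hc (C := C₁ ∪ ⋃ y ∈ T, Cζ y)
    (cC₁.union (T.isCompact_biUnion fun y _ => k1 y))
    (union_subset gC₁ (iUnion₂_subset fun y _ => k2 y)) hε
  obtain ⟨V, hV, hZV, bV⟩ := hZ.back _ vw
  obtain ⟨H, hH⟩ := hside h β _ _ (by linarith) (by linarith) wh vh sβ vβ zβ oβ V hV hZV
  have ew' : ∀ z ∈ R.set, w =ᶠ[𝓝 z] φ := fun z hz =>
    mem_of_superset (mem_interior_iff_mem_nhds.1 (iC₁ hz)) fun z' h3 => ew (Or.inl h3)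
  have d : Nt S F s q w (fun y => t y + r y) R Λ h β l H (fun z => η z * (F z).re) V R₁ L M b₁ b₂ :=
    { max := hS, good := hF, inw := inw, reg := reg, box := hR.p7_congr ew'
      ad := fun y' h3 => (gw y' h3).elim fun g h4 => ad_of_gen hS.1 (σ := g.2) h4.1 h4.2
      sΛ := sΛ, dΛ := dΛ, sh := wh.1, vh := vh, dh := fun x => (dh x).trans L1, sβ := sβ, vβ := vβ
      dβ := fun x => ⟨(dβ x).1, (dβ x).2.trans L2⟩
      lam := ⟨_, _, by linarith, by linarith, wl⟩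
      vl := vl, dl := fun x => (dl x).trans L3
      win := fun x hx => by
        have b1 := wl.2 _ hx
        have b2 := wΛ x (win _ ⟨by linarith [b1.1], by linarith [b1.2]⟩)
        exact ih x ⟨by linarith [b2.1], by linarith [b2.2]⟩
      side := hH
      off := fun z hz h3 => by
        have b1 : w z = 0 := bV z hz.1 h3
        have b2 := win _ hz.2.1
        rw [b1, zero_add] at b2
        exact hκ b2
      fu := fu, gu := gu, far := fun z _ => far z }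
  have lo := d.lower hη.wd rfl one hφ.1.fn eφ' fun z hz => by
    obtain ⟨-, b1, b2⟩ := (mO z).1 (hRO hz)
    exact ⟨(ew' z hz).self_of_nhds.trans (oφ z (hRO hz)),
      ⟨by linarith [b1.1], by linarith [b1.2]⟩, by linarith [b2.2], oR z (hRO hz)⟩
  have mU : MeasurableSet (C₀ᶜ ∩ closedBall (0 : ℂ) R₁) :=
    cC₀.measurableSet.compl.inter measurableSet_closedBall
  have up := d.upper inter_subset_right mU p1 p2 p3 fun y' hy' z hz h3 h4 => by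
    have b1 : z ∈ Cζ y' := by_contra fun h5 => h3 (by simp [gr, k3 y' z h5, Complex.ext_iff])
    exact (ew (Or.inr (mem_biUnion hy' b1))).trans (eφ' z hz h4).self_of_nhds
  have mid := nt_mid fu reg.fn hφ.1.fn cC₀ mU inter_subset_left fun z hz h3 => by
    have b1 := mem_closedBall_zero_iff.1 h3.2
    rw [gu z hz b1, gr_congr (eφ' z hz b1), p9_gr (dF z hz) sΛ, norm_mul, norm_conj, norm_real]
    exact mul_le_of_le_one_right (norm_nonneg _) (p10_abs dΛ _)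
  have n1 : nl (fun y => t y + r y) ≤ nl s + 1 :=
    (nl_add hφ.1.co.2 hr.2).trans (add_le_add (nl_mono hF.co.2 fun y' => by
      rw [abs_of_nonneg (hφ.1.co.1 y'), abs_of_nonneg (hF.co.1 y')]
      exact ht y') (nr'.trans ε1))
  have n2 := (p4 s _ hF.co reg.co).trans (mul_le_mul (hT₀ T₀ subset_rfl) n1 (nl_nonneg _) hε.le)
  have n3 := mul_le_mul_of_nonneg_left nw (nr_nonneg D fun z => η z * (F z).re)
  have n4 := mul_le_mul_of_nonneg_left n2 L0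
  have n5 := mul_le_mul_of_nonneg_left (mid.trans (add_le_add iC₀ n3)) (by linarith : 0 ≤ 5 * L)
  have n6 := mul_le_mul_of_nonneg_left n3 (by linarith : 0 ≤ 2 * L)
  linarith [neg_le_of_abs_le up]

end Vale.P116D
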