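import Vale.Agent.P116D.P0

/-!
P2: area identity and positivity for the extremal map.
-/

namespace Vale.P116D

open Set Filter Topology MeasureTheory Complex Metric
open scoped ContDiff ComplexConjugate

variable {D : Dom} {S : Gens D} {φ ψ χ η e k w : ℂ → ℝ} {s σ r v : D.End → ℝ} {y : D.End}
  {f F : ℂ → ℂ} {q : D.End → ℂ} {Θ : ℂ → ℝ} {U V O Z : Set ℂ} {z p : ℂ}

theorem Ext.near (h : Ext S f e k s) (hy : y ≠ none) : f =ᶠ[D.nb y] cx e k := by
  obtain ⟨χ, hχ, he⟩ := h.eq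
  cases y with
  | none => exact absurd rfl hy
  | some c =>
    filter_upwards [hχ.wd.ev (some c), G_mem (D := D) (some c)] with z hz hG
    rw [he z hG, hz]
    simp [Dom.fi]

theorem p2_bd (h : D.Wd η v) : D.Bd η := let ⟨M, hM, _⟩ := h.bd; ⟨M, hM⟩

theorem p2_sre (h : Ext S f e k s) : ContDiffOn ℝ ∞ (fun z => (f z).re) D.G :=
  reCLM.contDiff.comp_contDiffOn (hol_sm h.hol)

theorem p2_sim (h : Ext S f e k s) : ContDiffOn ℝ ∞ (fun z => (f z).im) D.G :=
  imCLM.contDiff.comp_contDiffOn (hol_sm h.hol)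

/-- a function of `f` minus the same function of `cx e k`, cut off at infinity -/
theorem p2_van (h : Ext S f e k s) (hη : D.Wd η v) (hv : v none = 0) (B : ℝ → ℝ → ℝ) (y : D.End) :
    D.Van y fun z => η z * B (f z).re (f z).im - η z * B (e z) (k z) := by
  by_cases hy : y = none
  · subst hy
    filter_upwards [hη.ev none] with z hz
    rw [hz, hv]
    ring
  · filter_upwards [h.near hy] with z hz
    rw [hz]
    simp [cx]

theorem p2_fn (hφ : D.Fn φ) (hψ : ContDiffOn ℝ ∞ ψ D.G) (h0 : ∀ y, D.Van y fun z => ψ z - φ z) :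
    D.Fn ψ :=
  (hφ.add (fn_van (hψ.sub hφ.sm) h0)).congr fun z _ => by ring

theorem p2_om (hφ : D.Fn φ) (hψ : ContDiffOn ℝ ∞ ψ D.G) (h0 : ∀ y, D.Van y fun z => ψ z - φ z)
    (hw : D.Fn w) : D.om ψ w = D.om φ w := by
  have h1 := om_sub (p2_fn hφ hψ h0) hφ hw
  rw [om_van (hψ.sub hφ.sm) h0 hw.sm] at h1
  linarith

/-- `η * re f - η * e` is smooth and vanishes near all ends (`fn_van`, `Fn.wmul`) -/
theorem Ext.loc (h : Ext S f e k s) : Loc D f := fun _ _ hη hv =>
  ⟨p2_fn (h.ine.fn.wmul hη (p2_bd hη)) (hη.sm.contDiffOn.mul (p2_sre h))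
      (p2_van h hη hv fun x _ => x),
    p2_fn (h.du.fn.wmul hη (p2_bd hη)) (hη.sm.contDiffOn.mul (p2_sim h))
      (p2_van h hη hv fun _ t => t)⟩

theorem p2_cut {R : ℝ} (h0 : ∀ z : ℂ, R ≤ ‖z‖ → φ z = 0)
    (h1 : ∀ᶠ z in 𝓝ˢ (D.K ∪ closedBall 0 R), η z = 1) (g : ℂ → ℝ) :
    D.om φ g = D.om φ fun z => η z * g z := by
  unfold Dom.om
  refine setIntegral_congr_fun (G_meas D) fun z _ => ?_
  by_cases hz : ‖z‖ ≤ R
  · have h2 : ∀ᶠ x in 𝓝 z, η x = 1 :=
      mem_nhdsSet_iff_forall.1 h1 z (Or.inr (mem_closedBall_zero_iff.2 hz))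
    have h3 : gr g z = gr (fun z => η z * g z) z :=
      gr_congr (by filter_upwards [h2] with x hx; rw [hx, one_mul])
    simp only [h3]
  · have h2 : ∀ᶠ x in 𝓝 z, R < ‖x‖ :=
      (isOpen_lt continuous_const continuous_norm).mem_nhds (not_le.1 hz)
    have h3 : gr φ z = gr (fun _ => (0 : ℝ)) z :=
      gr_congr (by filter_upwards [h2] with x hx; exact h0 x hx.le)
    simp only [h3, gr_const]
    simp [wd]

/-- `im f = k + (1 - χ) * im`; with `η` from `cut_big` equal to one near the support of `φ`,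
`om φ (im f) = om φ (η * im f)`, `om φ k = om φ (η * k)` and `η * (im f - k)` vanishes near all
ends (`om_van`, `om_swap`, `om_sub`). -/
theorem Ext.om_im (h : Ext S f e k s) (hφ : D.Fn φ) (h0 : D.Van none φ) :
    D.om φ (fun z => (f z).im) = D.om φ k := by
  obtain ⟨R, -, -, hR⟩ := D.eh_mem_nb_none.1 h0
  obtain ⟨η, hη, -, h1⟩ := cut_big D (isCompact_closedBall (0 : ℂ) R)
  rw [p2_cut hR h1, p2_cut hR h1 k, om_swap, om_swap D φ]
  congr 1
  exact p2_om (h.du.fn.wmul hη.wd (p2_bd hη.wd)) (hη.wd.sm.contDiffOn.mul (p2_sim h))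
    (p2_van h hη.wd rfl fun _ t => t) hφ

/-- `Du.le'` for `η * e` and `(1 - η) * e` (`In.cut`, `Cut.compl`); the two add up to `tot` -/
theorem Ext.area (h : Ext S f e k s) (hS : Str S) (hη : D.Cut η v) :
    D.om (fun z => η z * e z) k = -ip (fun y => v y * s y) s := by
  have h1 := h.ine.cut hS hη
  have h2 := h.ine.cut hS hη.compl
  have a1 := abs_le.1 (h.du.le' hS h1)
  have a2 := abs_le.1 (h.du.le' hS h2)
  have b1 := om_add h1.fn h2.fn h.du.fn
  have b2 := ip_add h1.co.2 h2.co.2 h.ine.co.2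
  rw [show (fun z => η z * e z + (1 - η z) * e z) = e from funext fun z => by ring, h.tot] at b1
  rw [show (fun y => v y * s y + (1 - v y) * s y) = s from funext fun z => by ring] at b2
  linarith [a1.1, a2.1]

theorem p2_abs {x : ℝ} (h : x ∈ Icc (0 : ℝ) 1) : |x| ≤ 1 := abs_le.2 ⟨by linarith [h.1], h.2⟩

theorem p2_fnP {A a : ℝ → ℝ} {M L : ℝ} (hb : Bmp A a M L) (he : D.Fn e) (hk : D.Fn k) :
    D.Fn fun z => A (e z) * a (k z) :=
  (he.comp hb.sA fun _ _ => p2_abs (hb.dA _)).mul (hk.comp hb.sa fun _ _ => hb.da _)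
    ⟨L, fun _ _ => hb.bA _⟩ ⟨1, fun _ _ => p2_abs (hb.va _)⟩

theorem p2_trunc {A a T : ℝ → ℝ} {M L N : ℝ} (hb : Bmp A a M L) (hT : Monotone T) (hN : |M| ≤ N)
    (hi : ∀ x, |x| ≤ N → T x = x) (x : ℝ) : A (T x) = A x ∧ a (T x) = a x := by
  have h0 : 0 ≤ N := (abs_nonneg M).trans hN
  have hM : M ≤ N := (le_abs_self M).trans hN
  rcases le_total x (-N) with h1 | h1
  · have h2 : T x ≤ -N := (hT h1).trans (hi _ (by rw [abs_neg, abs_of_nonneg h0])).le
    rw [hb.lo _ (by linarith), hb.lo _ (by linarith), hb.za _ (le_abs.2 (Or.inr (by linarith))),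
      hb.za _ (le_abs.2 (Or.inr (by linarith)))]
    exact ⟨rfl, rfl⟩
  rcases le_total x N with h2 | h2
  · rw [hi x (abs_le.2 ⟨h1, h2⟩)]
    exact ⟨rfl, rfl⟩
  · have h3 : N ≤ T x := (hi _ (by rw [abs_of_nonneg h0])).ge.trans (hT h2)
    rw [hb.hi (T x) (by linarith), hb.hi x (by linarith), hb.za _ (le_abs.2 (Or.inl (by linarith))),
      hb.za _ (le_abs.2 (Or.inl (by linarith)))]
    exact ⟨rfl, rfl⟩

theorem p2_sq {A a : ℝ → ℝ} {M L : ℝ} (hb : Bmp A a M L) (q : D.End → ℂ) (y : D.End) :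
    SqLe (fun p => p.re - (A p.re - A ((q y).re - s y / 2)) * a p.im) q s
      (upd (fun y' => (2 + 2 * L ^ 2) * s y') y (s y)) := by
  intro y' _ p hp p' hp'
  have hA := lip_of_deriv hb.sA fun x => p2_abs (hb.dA x)
  have ha := lip_of_deriv hb.sa hb.da
  have hm := mono_of_deriv hb.sA fun x => (hb.dA x).1
  obtain ⟨p1, p2⟩ := abs_le.1 hp.1
  obtain ⟨p3, p4⟩ := abs_le.1 hp.2
  obtain ⟨q1, q2⟩ := abs_le.1 hp'.1
  obtain ⟨q3, q4⟩ := abs_le.1 hp'.2
  unfold upd
  split_ifs with hy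
  · subst hy
    have h1 : 0 ≤ A p.re - A ((q y').re - s y' / 2) := sub_nonneg.2 (hm (by linarith))
    have h2 : 0 ≤ A p'.re - A ((q y').re - s y' / 2) := sub_nonneg.2 (hm (by linarith))
    have h3 := (le_abs_self _).trans (hA p'.re ((q y').re - s y' / 2))
    rw [one_mul, abs_of_nonneg (by linarith)] at h3
    have h4 := mul_nonneg h1 (hb.va p.im).1
    have h5 := mul_le_of_le_one_right h2 (hb.va p'.im).2
    dsimp only
    linarith
  · have hL : 0 ≤ L := (abs_nonneg _).trans (hb.bA 0)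
    have h1 : |p.re - p'.re| ≤ s y' := abs_le.2 ⟨by linarith, by linarith⟩
    have h2 : |p.im - p'.im| ≤ s y' := abs_le.2 ⟨by linarith, by linarith⟩
    have h3 : |(A p.re - A p'.re) * a p.im| ≤ s y' := by
      rw [abs_mul]
      refine (mul_le_of_le_one_right (abs_nonneg _) (p2_abs (hb.va _))).trans ?_
      linarith [hA p.re p'.re]
    have h4 : |(A p'.re - A ((q y).re - s y / 2)) * (a p.im - a p'.im)| ≤ (2 * L) * (L * s y') := by
      rw [abs_mul]
      refine mul_le_mul ?_ ((ha _ _).trans (mul_le_mul_of_nonneg_left h2 hL)) (abs_nonneg _)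
        (by positivity)
      linarith [abs_sub (A p'.re) (A ((q y).re - s y / 2)), hb.bA p'.re, hb.bA ((q y).re - s y / 2)]
    have h5 := abs_le.1 h1
    have h6 := abs_le.1 h3
    have h7 := abs_le.1 h4
    dsimp only
    nlinarith [h5.2, h6.1, h7.1]

/-- `T n` from `trunc_ex`, `n ≥ M`; `q` from `b2_of` for `T n ∘ e`, `T n ∘ k` (`Str.trunc`,
`Du.isIn`), `α = (q y).re - s y / 2`, test `ψ p = p.re - (A p.re - A α) * a p.im`: on the square
at `y` its values lie in `[α, α + s y]`, on the other squares the oscillation is at most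
`(2 + 2 L ^ 2) s`.  `A (T n x) = A x`, `a (T n x) = a x` (`mono_of_deriv`), `om_fun` kills the
term with `A α`, `om (η * T n e) k = om (T n e) (η * k) → om (η * e) k` (`om_mul`, `conv_trunc`,
`om_tendsto`), `Ext.area`, `ip_split`.  If `y = none` all terms at `y` vanish. -/
theorem Ext.pos1 {A a : ℝ → ℝ} {M L : ℝ} (h : Ext S f e k s) (hS : Str S) (hb : Bmp A a M L)
    (hη : D.Cut η v) (hv : v none = 0) (y : D.End) :
    D.om (fun z => η z * (A (e z) * a (k z))) k ≤
      (2 + 2 * L ^ 2) * ip (upd (fun y' => v y' * s y') y 0) s := by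
  obtain ⟨T, hT, hd, hi, hB⟩ := trunc_ex
  have hs := h.ine.co
  have bη := p2_bd hη.wd
  have hv1 : ∀ y, 0 ≤ v y ∧ v y ≤ 1 := fun y => by
    rcases hη.val y with h1 | h1 <;> rw [h1] <;> norm_num
  have hC : 0 ≤ 2 + 2 * L ^ 2 := by positivity
  set r := upd (fun y' => (2 + 2 * L ^ 2) * s y') y (s y) with hr
  have cr : Cost r := (hs.cmul hC).upd y (hs.1 y)
  have tin : ∀ {φ : ℂ → ℝ}, In S φ s → ∀ n, InB S (fun z => T n (φ z)) s := fun hφ n =>
    ⟨hS.trunc _ _ hφ (T n) (hT n) (fun x => p2_abs (hd n x)) ⟨_, hB n⟩, _, fun z _ => hB n _⟩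
  have fP := (p2_fnP hb h.ine.fn h.du.fn).wmul hη.wd bη
  have fa := (h.du.fn.comp hb.sa fun _ _ => hb.da _).wmul hη.wd bη
  have key : ∀ n : ℕ, |M| ≤ n → D.om (fun z => η z * (A (e z) * a (k z))) k ≤
      D.om (fun z => η z * T n (e z)) k + ip (fun y' => v y' * r y') s := fun n hn => by
    obtain ⟨q, hq⟩ := b2_of hS (tin h.ine n) (tin (h.du.isIn hS) n)
    have ht := p2_trunc hb (mono_of_deriv (hT n) fun x => (hd n x).1) hn (hi n)
    have sm : ContDiff ℝ ∞ fun p : ℂ => p.re - (A p.re - A ((q y).re - s y / 2)) * a p.im :=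
      reCLM.contDiff.sub (((hb.sA.comp reCLM.contDiff).sub contDiff_const).mul
        (hb.sa.comp imCLM.contDiff))
    have h1 := (abs_le.1 (h.du.le' hS (hq _ sm η v hη.wd hv r cr (p2_sq hb q y)))).1
    have fe := (tin h.ine n).1.fn.wmul hη.wd bη
    have e1 : (fun z => η z * ((cx (fun z => T n (e z)) (fun z => T n (k z)) z).re -
        (A (cx (fun z => T n (e z)) (fun z => T n (k z)) z).re - A ((q y).re - s y / 2)) *
          a (cx (fun z => T n (e z)) (fun z => T n (k z)) z).im)) =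
        fun z => (η z * T n (e z) - η z * (A (e z) * a (k z))) +
          A ((q y).re - s y / 2) * (η z * a (k z)) := by
      funext z
      simp only [cx, (ht _).1, (ht _).2]
      ring
    have e2 : (fun y' => |v y'| * r y') = fun y' => v y' * r y' := by
      funext y'
      rw [abs_of_nonneg (hv1 y').1]
    rw [e1, e2, om_add (fe.sub fP) (fa.cmul _) h.du.fn, om_sub fe fP h.du.fn, om_cmul fa,
      om_fun hη.wd hb.sa (fun x => p2_abs (hb.va x)) h.du.fn] at h1
    linarith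
  have lim := om_tendsto (fun n => (tin h.ine n).1.fn.wmul hη.wd bη) (h.ine.fn.wmul hη.wd bη)
    h.du.fn ((conv_trunc h.ine.fn hT (fun n x => p2_abs (hd n x)) hi).wmul
      (fun n => (tin h.ine n).1.fn) h.ine.fn hη.wd).1
  have h2 := ge_of_tendsto (lim.add_const (ip (fun y' => v y' * r y') s))
    ((tendsto_natCast_atTop_atTop.eventually_ge_atTop |M|).mono key)
  have cvs := hs.bmul hv1
  rw [h.area hS hη, ip_split cvs.2 hs.2 y, ip_split (cr.bmul hv1).2 hs.2 y] at h2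
  have e3 : upd (fun y' => v y' * r y') y 0 =
      fun y' => (2 + 2 * L ^ 2) * upd (fun y' => v y' * s y') y 0 y' := by
    funext y'
    simp only [hr, upd]
    split_ifs <;> ring
  have e4 : r y = s y := by simp [hr, upd]
  rw [e3, ip_cmul, e4] at h2
  have h3 := ip_nonneg (cvs.upd y le_rfl).1 hs.1
  linarith

/-- `part` with `F` from `Sq.tail`, `Ext.pos1` on each cell, `om_van` for the rest and for the
passage from `cx e k` to `f`, `Ext.om_im`. -/
theorem Ext.pos {A a : ℝ → ℝ} {M L : ℝ} (h : Ext S f e k s) (hS : Str S) (hb : Bmp A a M L)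
    (hη : D.Cut η D.fi) :
    D.om (fun z => η z * (A (f z).re * a (f z).im)) (fun z => (f z).im) ≤ 0 := by
  have hs := h.ine.co
  have fP := p2_fnP hb h.ine.fn h.du.fn
  have fη := fP.wmul hη.wd (p2_bd hη.wd)
  have sm : ContDiffOn ℝ ∞ (fun z => η z * (A (f z).re * a (f z).im)) D.G :=
    hη.wd.sm.contDiffOn.mul
      ((hb.sA.comp_contDiffOn (p2_sre h)).mul (hb.sa.comp_contDiffOn (p2_sim h)))
  have hv := p2_van h hη.wd rfl fun x t => A x * a t
  have h0 : D.Van none fun z => η z * (A (f z).re * a (f z).im) := by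
    filter_upwards [hη.wd.ev none] with z hz
    rw [hz]
    simp [Dom.fi]
  rw [h.om_im (p2_fn fη sm hv) h0, p2_om fη sm hv h.du.fn]
  have hC : 0 ≤ 2 + 2 * L ^ 2 := by positivity
  have key : ∀ ε > 0, D.om (fun z => η z * (A (e z) * a (k z))) k ≤
      ε * ((2 + 2 * L ^ 2) * nl s) := fun ε hε => by
    obtain ⟨F, hF⟩ := hs.2.tail hε
    obtain ⟨T, ζ, b, h1, -, h2, h3⟩ := part (U := univ) hη rfl F fun _ _ => univ_mem
    have fζ : ∀ y ∈ T, D.Fn fun z => ζ y z * (A (e z) * a (k z)) := fun y _ =>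
      fP.wmul (h1 y).1.wd (p2_bd (h1 y).1.wd)
    have h4 : ∀ y', D.Van y' fun z => η z * (A (e z) * a (k z)) -
        ∑ y ∈ T, ζ y z * (A (e z) * a (k z)) := fun y' => by
      filter_upwards [h2.ev y'] with z hz
      rw [← Finset.sum_mul, ← sub_mul, hz, zero_mul]
    rw [p2_om (Dom.Fn.sum T fζ) fη.sm h4 h.du.fn, om_sum T fζ h.du.fn]
    refine (Finset.sum_le_sum fun y _ => h.pos1 hS hb (h1 y).1 (h1 y).2.1 y).trans ?_
    rw [← Finset.mul_sum]
    refine (mul_le_mul_of_nonneg_left ((h3 s s hs hs).trans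
      (mul_le_mul_of_nonneg_right (hF F le_rfl) (nl_nonneg s))) hC).trans_eq (by ring)
  have hc : 0 ≤ (2 + 2 * L ^ 2) * nl s := mul_nonneg hC (nl_nonneg s)
  refine le_of_forall_pos_le_add fun δ hδ => ?_
  refine (key (δ / ((2 + 2 * L ^ 2) * nl s + 1)) (by positivity)).trans ?_
  rw [zero_add, div_mul_eq_mul_div, div_le_iff₀ (by positivity)]
  nlinarith

end Vale.P116D
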