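import Vale.Agent.P116D.P0

/-!
P3: positivity gives univalence.
-/

namespace Vale.P116D

open Set Filter Topology MeasureTheory Complex Metric
open scoped ContDiff ComplexConjugate

variable {D : Dom} {S : Gens D} {φ ψ χ η e k w : ℂ → ℝ} {s σ r v : D.End → ℝ} {y : D.End}
  {f F : ℂ → ℂ} {q : D.End → ℂ} {Θ : ℂ → ℝ} {U V O Z : Set ℂ} {z p : ℂ}

theorem p3_grCont (h : ContDiffOn ℝ ∞ φ D.G) : ContinuousOn (gr φ) D.G := by
  have h1 := h.continuousOn_fderiv_of_isOpen (G_open D) (by simp)
  have e : gr φ = fun z => ((fderiv ℝ φ z 1 : ℝ) : ℂ) + ((fderiv ℝ φ z I : ℝ) : ℂ) * I := by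
    funext z; apply Complex.ext <;> simp [gr]
  rw [e]
  exact (continuous_ofReal.comp_continuousOn (h1.clm_apply continuousOn_const)).add
    ((continuous_ofReal.comp_continuousOn (h1.clm_apply continuousOn_const)).mul continuousOn_const)

theorem p3_wdCont {a b : ℂ → ℂ} (ha : ContinuousOn a U) (hb : ContinuousOn b U) :
    ContinuousOn (fun z => wd (a z) (b z)) U := by
  unfold wd
  exact ((continuous_re.comp_continuousOn ha).mul (continuous_im.comp_continuousOn hb)).sub
    ((continuous_im.comp_continuousOn ha).mul (continuous_re.comp_continuousOn hb))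

theorem p3_off (hη : D.Wd η v) :
    ∃ C, IsCompact C ∧ C ⊆ D.G ∧ ∀ z, z ∉ C → gr η z = 0 := by
  obtain ⟨C, hC, hG, h0⟩ := hη.cs
  refine ⟨C, hC, hG, fun z hz => ?_⟩
  apply Complex.ext <;> simp [gr, h0 z hz]

theorem p3_int {g : ℂ → ℝ} (hη : D.Wd η v) (hg : ContinuousOn g D.G)
    (h0 : ∀ z, gr η z = 0 → g z = 0) : IntegrableOn g D.G := by
  obtain ⟨C, hC, hG, h1⟩ := p3_off hη
  exact ((hg.mono hG).integrableOn_compact hC).of_forall_diff_eq_zero (G_meas D)
    fun z hz => h0 z (h1 z hz.2)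

theorem p3_const {P : ℝ → ℝ} (hP : ContDiff ℝ ∞ P) {s t : ℝ} (hst : s ≤ t)
    (h : ∀ x, s < x → x < t → deriv P x = 0) : P s = P t := by
  rcases hst.eq_or_lt with rfl | hlt
  · rfl
  obtain ⟨c, hc, he⟩ := exists_deriv_eq_slope P hlt hP.continuous.continuousOn
    (hP.differentiable (by simp)).differentiableOn
  rw [h c hc.1 hc.2, eq_div_iff (by linarith : t - s ≠ 0)] at he
  linarith

theorem p3_const' {P : ℝ → ℝ} (hP : ContDiff ℝ ∞ P) {s t M : ℝ}
    (h : ∀ x, M ≤ |x| → deriv P x = 0) (hst : (M ≤ s ∧ M ≤ t) ∨ (s ≤ -M ∧ t ≤ -M)) :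
    P s = P t := by
  rcases le_total s t with h1 | h1
  · refine p3_const hP h1 fun x a b => h x ?_
    rcases hst with ⟨c, d⟩ | ⟨c, d⟩
    · exact le_abs.2 (Or.inl (by linarith))
    · exact le_abs.2 (Or.inr (by linarith))
  · refine (p3_const hP h1 fun x a b => h x ?_).symm
    rcases hst with ⟨c, d⟩ | ⟨c, d⟩
    · exact le_abs.2 (Or.inl (by linarith))
    · exact le_abs.2 (Or.inr (by linarith))

theorem p3_dlo {T : ℝ → ℝ} {a c x : ℝ} (h : ∀ x, x ≤ a → T x = c) (hx : x < a) : deriv T x = 0 := by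
  have : T =ᶠ[𝓝 x] fun _ => c := by
    filter_upwards [Iio_mem_nhds hx] with t ht using h t (le_of_lt ht)
  rw [this.deriv_eq, deriv_const]

theorem p3_dhi {T : ℝ → ℝ} {a c x : ℝ} (h : ∀ x, a ≤ x → T x = c) (hx : a < x) : deriv T x = 0 := by
  have : T =ᶠ[𝓝 x] fun _ => c := by
    filter_upwards [Ioi_mem_nhds hx] with t ht using h t (le_of_lt ht)
  rw [this.deriv_eq, deriv_const]

theorem p3_re (hf : DifferentiableOn ℂ f D.G) : ContDiffOn ℝ ∞ (fun z => (f z).re) D.G :=
  reCLM.contDiff.comp_contDiffOn (hol_sm hf)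

theorem p3_im (hf : DifferentiableOn ℂ f D.G) : ContDiffOn ℝ ∞ (fun z => (f z).im) D.G :=
  imCLM.contDiff.comp_contDiffOn (hol_sm hf)

theorem p3_thc {A a : ℝ → ℝ} {M L : ℝ} (hf : DifferentiableOn ℂ f D.G) (hb : Bmp A a M L) :
    ContinuousOn (fun z => A (f z).re * a (f z).im) D.G :=
  (hb.sA.continuous.comp_continuousOn (p3_re hf).continuousOn).mul
    (hb.sa.continuous.comp_continuousOn (p3_im hf).continuousOn)

theorem p3_th {A a : ℝ → ℝ} {M L : ℝ} (hb : Bmp A a M L) :
    ContDiff ℝ ∞ fun p : ℂ => A p.re * a p.im :=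
  (hb.sA.comp reCLM.contDiff).mul (hb.sa.comp imCLM.contDiff)

/-- the case of the identity map -/
theorem p3_id {A a : ℝ → ℝ} {M L R : ℝ} (hb : Bmp A a M L) (hη : D.Wd η v)
    (hc : HasCompactSupport η) (hR : 2 * |M| ≤ R) (h1 : ∀ z : ℂ, ‖z‖ ≤ R → η z = 1) :
    ∫ z in D.G, A z.re * a z.im * wd (gr η z) I = -∫ p : ℂ, deriv A p.re * a p.im := by
  obtain ⟨C, hC, hG, h0⟩ := p3_off hη
  have hd := int_dx (hη.sm.mul (p3_th hb)) hc.mul_right
  have e : ∀ z : ℂ, (gr (fun z => η z * (A z.re * a z.im)) z).re =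
      deriv A z.re * a z.im + A z.re * a z.im * wd (gr η z) I := by
    intro z
    rw [gr_mul (hη.sm.differentiable (by simp) z) ((p3_th hb).differentiable (by simp) z),
      gr_prod (hb.sA.differentiable (by simp) _) (hb.sa.differentiable (by simp) _)]
    have h2 : η z * (deriv A z.re * a z.im) = deriv A z.re * a z.im := by
      by_cases hz : ‖z‖ ≤ R
      · rw [h1 z hz, one_mul]
      have h3 := norm_le_abs_re_add_abs_im z
      by_cases hy : M ≤ |z.im|
      · rw [hb.za _ hy]; simp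
      have h4 : |M| < |z.re| := by linarith [le_abs_self M, not_le.1 hz, not_le.1 hy]
      have h5 : deriv A z.re = 0 := by
        rcases lt_abs.1 h4 with h | h
        · exact p3_dhi hb.hi (by linarith [le_abs_self M])
        · exact p3_dlo hb.lo (by linarith [le_abs_self M])
      rw [h5]; simp
    simp only [add_re, smul_re, smul_eq_mul, wd, I_re, I_im, h2]
    ring
  have hi : IntegrableOn (fun z : ℂ => A z.re * a z.im * wd (gr η z) I) D.G :=
    p3_int hη ((p3_th hb).continuous.continuousOn.mul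
      (p3_wdCont (p3_grCont hη.sm.contDiffOn) continuousOn_const)) fun z hz => by simp [hz, wd]
  have hz : ∀ z, z ∉ D.G → A z.re * a z.im * wd (gr η z) I = 0 := fun z hz => by
    simp [h0 z fun h => hz (hG h), wd]
  have hi' : Integrable fun z : ℂ => A z.re * a z.im * wd (gr η z) I :=
    hi.integrable_of_forall_notMem_eq_zero hz
  simp only [e] at hd
  have hj : Integrable fun z : ℂ => deriv A z.re * a z.im := by
    refine (hd.1.sub hi').congr (Eventually.of_forall fun z => ?_)
    simp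
  rw [setIntegral_eq_integral_of_forall_compl_eq_zero hz]
  have := hd.2
  rw [integral_add hj hi'] at this
  linarith

/-- The boundary term has degree one. -/
theorem deg_one {A a : ℝ → ℝ} {M L : ℝ} (hf : DifferentiableOn ℂ f D.G)
    (hi : Tendsto (fun z => f z - z) (cocompact ℂ) (𝓝 0)) (hb : Bmp A a M L) :
    ∃ R, ∀ η, D.Cut η D.fi → HasCompactSupport η → (∀ᶠ z in 𝓝ˢ (closedBall (0 : ℂ) R), η z = 1) →
      ∫ z in D.G, A (f z).re * a (f z).im * wd (gr η z) (gr (fun z => (f z).im) z) =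
        -∫ p : ℂ, deriv A p.re * a p.im := by
  obtain ⟨R₀, -, h0⟩ := P116B.far_one hi
  obtain ⟨P, hP, hPa⟩ := prim_ex hb.sa
  obtain ⟨T, C, hT, -, -, hT0, hT1, -⟩ := step_ex (show (-1 : ℝ) < 1 by norm_num)
  refine ⟨max R₀ (2 * |M| + 4), fun η hη hc h1 => ?_⟩
  have hR1 := le_max_left R₀ (2 * |M| + 4)
  have hR2 := le_max_right R₀ (2 * |M| + 4)
  set R := max R₀ (2 * |M| + 4)
  have hβ : ContDiffOn ℝ ∞ (fun z => P (f z).im - P z.im) D.G :=
    (hP.comp_contDiffOn (p3_im hf)).sub (hP.comp imCLM.contDiff).contDiffOn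
  have hσ : ContDiff ℝ ∞ fun z : ℂ => T z.re := hT.comp reCLM.contDiff
  have hs : ContDiffOn ℝ ∞ (fun z => T z.re * (P (f z).im - P z.im)) D.G := hσ.contDiffOn.mul hβ
  have key : ∀ z ∈ D.G, A (f z).re * a (f z).im * wd (gr η z) (gr (fun z => (f z).im) z) =
      A z.re * a z.im * wd (gr η z) I +
        A M * wd (gr η z) (gr (fun z => T z.re * (P (f z).im - P z.im)) z) := by
    intro z hz
    by_cases hzR : ‖z‖ ≤ R
    · have : gr η z = 0 := by
        rw [gr_congr (ψ := fun _ => 1) (h1.filter_mono (nhds_le_nhdsSet (by simpa using hzR))),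
          gr_const]
      simp [this, wd]
    have hn := (G_open D).mem_nhds hz
    have dv : DifferentiableAt ℝ (fun z => (f z).im) z :=
      ((p3_im hf).contDiffAt hn).differentiableAt (by simp)
    have dP := hP.differentiable (by simp)
    have dim : DifferentiableAt ℝ (fun z : ℂ => z.im) z := imCLM.differentiableAt
    have dre : DifferentiableAt ℝ (fun z : ℂ => z.re) z := reCLM.differentiableAt
    rw [gr_mul (hσ.differentiable (by simp) z) ((hβ.contDiffAt hn).differentiableAt (by simp)),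
      gr_sub (φ := fun z => P (f z).im) (ψ := fun z => P z.im) ((dP _).comp z dv)
        ((dP _).comp z dim), gr_comp (dP _) dv, gr_comp (dP _) dim,
      gr_comp (hT.differentiable (by simp) _) dre, gr_im, gr_re, hPa]
    have h2 := h0 z (by linarith [not_le.1 hzR])
    have h3 := abs_le.1 ((abs_re_le_norm (f z - z)).trans h2)
    have h4 := abs_le.1 ((abs_im_le_norm (f z - z)).trans h2)
    simp only [sub_re, sub_im] at h3 h4
    have hM := le_abs_self M
    have hM0 := abs_nonneg M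
    by_cases hy : |M| + 1 ≤ |z.im|
    · have e1 : a z.im = 0 := hb.za _ (by linarith)
      have h5 : (M ≤ (f z).im ∧ M ≤ z.im) ∨ ((f z).im ≤ -M ∧ z.im ≤ -M) := by
        rcases le_abs.1 hy with h | h
        · exact Or.inl ⟨by linarith, by linarith⟩
        · exact Or.inr ⟨by linarith, by linarith⟩
      have e2 : a (f z).im = 0 := hb.za _ (by
        rcases h5 with h | h
        · exact le_abs.2 (Or.inl h.1)
        · exact le_abs.2 (Or.inr (by linarith)))
      have e3 : P (f z).im = P z.im := p3_const' hP (fun x hx => by rw [hPa]; exact hb.za x hx) h5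
      simp [e1, e2, e3, wd]
    have h5 := norm_le_abs_re_add_abs_im z
    have h6 : |M| + 3 ≤ |z.re| := by linarith [not_le.1 hzR, not_le.1 hy]
    rcases le_abs.1 h6 with h | h
    · rw [hb.hi (f z).re (by linarith), hb.hi z.re (by linarith), hT1 z.re (by linarith),
        p3_dhi hT1 (by linarith : 1 < z.re)]
      simp only [wd, add_re, add_im, sub_re, sub_im, smul_re, smul_im, smul_eq_mul, I_re, I_im,
        one_re, one_im]
      ring
    · rw [hb.lo (f z).re (by linarith), hb.lo z.re (by linarith), hT0 z.re (by linarith),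
        p3_dlo hT0 (by linarith : z.re < -1)]
      simp [wd]
  have i1 : IntegrableOn (fun z : ℂ => A z.re * a z.im * wd (gr η z) I) D.G :=
    p3_int hη.wd ((p3_th hb).continuous.continuousOn.mul
      (p3_wdCont (p3_grCont hη.wd.sm.contDiffOn) continuousOn_const)) fun z hz => by simp [hz, wd]
  have i2 : IntegrableOn
      (fun z => wd (gr η z) (gr (fun z => T z.re * (P (f z).im - P z.im)) z)) D.G :=
    p3_int hη.wd (p3_wdCont (p3_grCont hη.wd.sm.contDiffOn) (p3_grCont hs))
      fun z hz => by simp [hz, wd]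
  have h2 := om_wd' hη.wd hs
  unfold Dom.om at h2
  rw [setIntegral_congr_fun (G_meas D) key, integral_add i1 (i2.const_mul _), integral_const_mul,
    h2, mul_zero, add_zero]
  exact p3_id hb hη.wd hc (R := R) (by linarith) fun z hz =>
    h1.self_of_nhdsSet z (by simpa using hz)

theorem p3_grim (hf : DifferentiableOn ℂ f D.G) (hz : z ∈ D.G) :
    gr (fun z => (f z).im) z = conj (deriv f z) * I := by
  rw [← gr_im (f z)]
  exact gr_hcomp (Θ := fun z => z.im) (hf.differentiableAt ((G_open D).mem_nhds hz))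
    imCLM.differentiableAt

theorem p3_dc (hf : DifferentiableOn ℂ f D.G) : ContinuousOn (deriv f) D.G :=
  (hf.deriv (G_open D)).continuousOn

theorem p3_jc {A a : ℝ → ℝ} {M L : ℝ} (hf : DifferentiableOn ℂ f D.G) (hb : Bmp A a M L) :
    ContinuousOn (fun z => deriv A (f z).re * a (f z).im * ‖deriv f z‖ ^ 2) D.G :=
  (((hb.sA.continuous_deriv (by simp)).comp_continuousOn (p3_re hf).continuousOn).mul
    (hb.sa.continuous.comp_continuousOn (p3_im hf).continuousOn)).mul ((p3_dc hf).norm.pow 2)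

/-- The weighted area of the image is at most the total weight. -/
theorem area_le {A a : ℝ → ℝ} {M L : ℝ} (hf : DifferentiableOn ℂ f D.G)
    (hi : Tendsto (fun z => f z - z) (cocompact ℂ) (𝓝 0)) (hl : Loc D f) (hb : Bmp A a M L)
    (hp : ∀ η, D.Cut η D.fi →
      D.om (fun z => η z * (A (f z).re * a (f z).im)) (fun z => (f z).im) ≤ 0)
    {C : Set ℂ} (hC : IsCompact C) (hG : C ⊆ D.G) :
    ∫ z in C, deriv A (f z).re * a (f z).im * ‖deriv f z‖ ^ 2 ≤ ∫ p : ℂ, deriv A p.re * a p.im := by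
  obtain ⟨R, hR⟩ := deg_one hf hi hb
  obtain ⟨η, hη, hc, h1⟩ := cut_big D (hC.union (isCompact_closedBall (0 : ℂ) R))
  obtain ⟨η', hη', -, h1'⟩ := cut_big D hc.isCompact
  have hd := hR η hη hc (h1.filter_mono (nhdsSet_mono fun z hz => Or.inr (Or.inr hz)))
  have hj : ∀ z, 0 ≤ deriv A (f z).re * a (f z).im ∧ deriv A (f z).re * a (f z).im ≤ 1 := fun z =>
    ⟨mul_nonneg (hb.dA _).1 (hb.va _).1, mul_le_one₀ (hb.dA _).2 (hb.va _).1 (hb.va _).2⟩
  have key : ∀ z ∈ D.G, wd (gr (fun z => η z * (A (f z).re * a (f z).im)) z)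
      (gr (fun z => (f z).im) z) = η z * (deriv A (f z).re * a (f z).im * ‖deriv f z‖ ^ 2) +
        A (f z).re * a (f z).im * wd (gr η z) (gr (fun z => (f z).im) z) := by
    intro z hz
    have df := hf.differentiableAt ((G_open D).mem_nhds hz)
    have dΘ := (p3_th hb).differentiable (by simp) (f z)
    have e1 := gr_hcomp df dΘ
    have e2 := wd_mul (conj (deriv f z)) (gr (fun p : ℂ => A p.re * a p.im) (f z)) I
    rw [← e1, ← p3_grim hf hz,
      gr_prod (hb.sA.differentiable (by simp) _) (hb.sa.differentiable (by simp) _)] at e2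
    rw [gr_mul (ψ := fun z => A (f z).re * a (f z).im) (hη.wd.sm.differentiable (by simp) z)
      (dΘ.comp z (df.restrictScalars ℝ))]
    simp only [wd, add_re, add_im, smul_re, smul_im, smul_eq_mul, I_re, I_im, RCLike.norm_conj]
      at e2 ⊢
    linear_combination η z * e2
  have i1 : IntegrableOn
      (fun z => η z * (deriv A (f z).re * a (f z).im * ‖deriv f z‖ ^ 2)) D.G := by
    refine (int_sq (hl η' _ hη'.wd rfl).2).mono'
      ((hη.wd.sm.continuous.continuousOn.mul (p3_jc hf hb)).aestronglyMeasurable (G_meas D)) ?_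
    refine ae_restrict_of_forall_mem (G_meas D) fun z hz => ?_
    by_cases h0 : η z = 0
    · simp [h0]
    have h2 : gr (fun z => η' z * (f z).im) z = gr (fun z => (f z).im) z := by
      refine gr_congr ?_
      filter_upwards [h1'.filter_mono (nhds_le_nhdsSet
        (mem_union_right _ (subset_tsupport _ h0)))] with t ht
      rw [ht, one_mul]
    rw [h2, p3_grim hf hz, norm_mul _ I, norm_I, mul_one, RCLike.norm_conj, Real.norm_eq_abs,
      abs_of_nonneg (mul_nonneg (hη.mem z).1 (mul_nonneg (hj z).1 (by positivity))), ← mul_assoc]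
    exact mul_le_of_le_one_left (by positivity) (mul_le_one₀ (hη.mem z).2 (hj z).1 (hj z).2)
  have i2 : IntegrableOn
      (fun z => A (f z).re * a (f z).im * wd (gr η z) (gr (fun z => (f z).im) z)) D.G :=
    p3_int hη.wd ((p3_thc hf hb).mul (p3_wdCont (p3_grCont hη.wd.sm.contDiffOn)
      (p3_grCont (p3_im hf)))) fun z hz => by simp [hz, wd]
  have h2 := hp η hη
  unfold Dom.om at h2
  rw [setIntegral_congr_fun (G_meas D) key, integral_add i1 i2, hd] at h2
  have h3 := setIntegral_mono_set i1 (Eventually.of_forall fun z =>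
    mul_nonneg (hη.mem z).1 (mul_nonneg (hj z).1 (by positivity))) hG.eventuallyLE
  have h4 : ∫ z in C, η z * (deriv A (f z).re * a (f z).im * ‖deriv f z‖ ^ 2) =
      ∫ z in C, deriv A (f z).re * a (f z).im * ‖deriv f z‖ ^ 2 :=
    setIntegral_congr_fun hC.measurableSet fun z hz => by
      simp only [h1.self_of_nhdsSet z (Or.inr (Or.inl hz)), one_mul]
  linarith

theorem p3_open (hf : DifferentiableOn ℂ f D.G)
    (hi : Tendsto (fun z => f z - z) (cocompact ℂ) (𝓝 0)) :
    ∀ s ⊆ D.G, IsOpen s → IsOpen (f '' s) := by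
  refine ((hf.analyticOnNhd (G_open D)).is_constant_or_isOpen
    (G_conn D).isPreconnected).resolve_left ?_
  rintro ⟨w, hw⟩
  have h1 : Tendsto (fun z : ℂ => w - z) (cocompact ℂ) (𝓝 0) := by
    refine hi.congr' ?_
    filter_upwards [D.cpt.compl_mem_cocompact] with z hz
    rw [hw z hz]
  have h2 : Tendsto (fun z : ℂ => ‖z‖) (cocompact ℂ) (𝓝 ‖w‖) := by
    simpa using (h1.const_sub w).norm
  exact not_tendsto_nhds_of_tendsto_atTop (tendsto_norm_cocompact_atTop (E := ℂ)) _ h2

/-- a product test concentrated near `w` -/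
theorem p3_bmp (w : ℂ) {δ : ℝ} (hδ : 0 < δ) : ∃ A a M L, Bmp A a M L ∧
    deriv A w.re * a w.im ≠ 0 ∧ ∀ p : ℂ, deriv A p.re * a p.im ≠ 0 → p ∈ closedBall w δ := by
  obtain ⟨b, ⟨sb, zb⟩, mb, -, ob⟩ := bump_ex (show w.re - δ / 2 < w.re by linarith) le_rfl
    (show w.re < w.re + δ / 2 by linarith)
  obtain ⟨a, ⟨sa, za⟩, ma, ⟨C, hC⟩, oa⟩ := bump_ex (show w.im - δ / 2 < w.im by linarith) le_rfl
    (show w.im < w.im + δ / 2 by linarith)
  obtain ⟨P, hP, hPb⟩ := prim_ex sb
  have h1 := abs_le.1 (abs_re_le_norm w)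
  have h2 := abs_le.1 (abs_im_le_norm w)
  set M := ‖w‖ + δ with hM
  have hd : deriv (fun x => P x - P (-M)) = b := by
    funext x; rw [deriv_sub_const, hPb]
  have hz : ∀ x, M ≤ |x| → deriv P x = 0 := fun x hx => by
    rw [hPb]
    by_contra h
    have := zb x h
    rcases le_abs.1 hx with h | h <;> linarith [this.1, this.2]
  have hm : Monotone P := mono_of_deriv hP fun x => by rw [hPb]; exact (mb x).1
  have lo : ∀ x, x ≤ -M → P x = P (-M) := fun x hx => p3_const' hP hz (Or.inr ⟨hx, le_rfl⟩)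
  have hi : ∀ x, M ≤ x → P x = P M := fun x hx => p3_const' hP hz (Or.inl ⟨hx, le_rfl⟩)
  refine ⟨fun x => P x - P (-M), a, M, max C (P M - P (-M)), ⟨hP.sub contDiff_const, sa,
    fun x => by rw [hd]; exact mb x, ma, fun x => (hC x).trans (le_max_left _ _), fun x => ?_,
    fun x hx => by rw [lo x hx, sub_self], fun x hx => by rw [hi x hx], fun x hx => ?_⟩, ?_, ?_⟩
  · refine le_trans ?_ (le_max_right _ _)
    have a1 : P (-M) ≤ P x := by
      rcases le_total x (-M) with h | h
      exacts [(lo x h).ge, hm h]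
    have a2 : P x ≤ P M := by
      rcases le_total M x with h | h
      exacts [(hi x h).le, hm h]
    rw [abs_of_nonneg (by linarith)]
    linarith
  · by_contra h
    have := za x h
    rcases le_abs.1 hx with h | h <;> linarith [this.1, this.2]
  · rw [hd, ob _ ⟨le_rfl, le_rfl⟩, oa _ ⟨le_rfl, le_rfl⟩]
    norm_num
  · intro p hp
    rw [hd] at hp
    have a1 := zb _ (left_ne_zero_of_mul hp)
    have a2 := za _ (right_ne_zero_of_mul hp)
    rw [mem_closedBall, dist_eq_norm]
    refine (norm_le_abs_re_add_abs_im _).trans ?_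
    have a3 : |(p - w).re| ≤ δ / 2 := abs_le.2 ⟨by simp; linarith [a1.1], by simp; linarith [a1.2]⟩
    have a4 : |(p - w).im| ≤ δ / 2 := abs_le.2 ⟨by simp; linarith [a2.1], by simp; linarith [a2.2]⟩
    linarith

/-- Positivity gives univalence. -/
theorem inj_of_pos (hf : DifferentiableOn ℂ f D.G)
    (hi : Tendsto (fun z => f z - z) (cocompact ℂ) (𝓝 0)) (hl : Loc D f)
    (hp : ∀ A a M L, Bmp A a M L → ∀ η, D.Cut η D.fi →
      D.om (fun z => η z * (A (f z).re * a (f z).im)) (fun z => (f z).im) ≤ 0) :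
    InjOn f D.G := by
  intro z₁ h₁ z₂ h₂ he
  by_contra hne
  obtain ⟨ρ₁, p₁, b₁⟩ := nhds_basis_closedBall.mem_iff.1 ((G_open D).mem_nhds h₁)
  obtain ⟨ρ₂, p₂, b₂⟩ := nhds_basis_closedBall.mem_iff.1 ((G_open D).mem_nhds h₂)
  have hd : 0 < dist z₁ z₂ := dist_pos.2 hne
  obtain ⟨ρ, r0, r1, r2, r3⟩ : ∃ ρ, 0 < ρ ∧ ρ ≤ ρ₁ ∧ ρ ≤ ρ₂ ∧ ρ + ρ < dist z₁ z₂ :=
    ⟨min (min ρ₁ ρ₂) (dist z₁ z₂ / 3), by positivity, (min_le_left _ _).trans (min_le_left _ _),
      (min_le_left _ _).trans (min_le_right _ _),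
      by linarith [min_le_right (min ρ₁ ρ₂) (dist z₁ z₂ / 3)]⟩
  have c₁ : closedBall z₁ ρ ⊆ D.G := (closedBall_subset_closedBall r1).trans b₁
  have c₂ : closedBall z₂ ρ ⊆ D.G := (closedBall_subset_closedBall r2).trans b₂
  have o₁ := p3_open hf hi _ (ball_subset_closedBall.trans c₁) isOpen_ball
  have o₂ := p3_open hf hi _ (ball_subset_closedBall.trans c₂) isOpen_ball
  obtain ⟨δ, d0, d1⟩ := nhds_basis_closedBall.mem_iff.1 ((o₁.inter o₂).mem_nhds
    (x := f z₁) ⟨⟨z₁, mem_ball_self r0, rfl⟩, ⟨z₂, mem_ball_self r0, he.symm⟩⟩)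
  obtain ⟨A, a, M, L, hb, n0, hs⟩ := p3_bmp (f z₁) d0
  have hc : Continuous fun p : ℂ => deriv A p.re * a p.im :=
    ((hb.sA.continuous_deriv (by simp)).comp continuous_re).mul (hb.sa.continuous.comp continuous_im)
  have h0 : ∀ p : ℂ, 0 ≤ deriv A p.re * a p.im := fun p => mul_nonneg (hb.dA _).1 (hb.va _).1
  have hk : HasCompactSupport fun p : ℂ => deriv A p.re * a p.im :=
    HasCompactSupport.intro (isCompact_closedBall (f z₁) δ) fun p hp => by
      by_contra h
      exact hp (hs p h)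
  have hpos := hc.integral_pos_of_hasCompactSupport_nonneg_nonzero (μ := volume) hk h0 n0
  have ic : ∀ z, closedBall z ρ ⊆ D.G → IntegrableOn
      (fun z => deriv A (f z).re * a (f z).im * ‖deriv f z‖ ^ 2) (closedBall z ρ) := fun z hz =>
    ((p3_jc hf hb).mono hz).integrableOn_compact (isCompact_closedBall _ _)
  have one : ∀ z, closedBall z ρ ⊆ D.G → closedBall (f z₁) δ ⊆ f '' ball z ρ →
      ∫ p : ℂ, deriv A p.re * a p.im ≤
        ∫ z in closedBall z ρ, deriv A (f z).re * a (f z).im * ‖deriv f z‖ ^ 2 := by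
    intro z hz hs'
    have a1 := area_ineq isOpen_ball (hf.mono (ball_subset_closedBall.trans hz))
      (((((p3_dc hf).norm.pow 2).mono hz).integrableOn_compact (isCompact_closedBall _ _)).mono_set
        ball_subset_closedBall) hc h0 hk
    rw [setIntegral_eq_integral_of_forall_compl_eq_zero fun p hp => by
      by_contra h
      exact hp (hs' (hs p h))] at a1
    exact a1.trans (setIntegral_mono_set (ic z hz) (Eventually.of_forall fun z =>
      mul_nonneg (h0 _) (by positivity)) ball_subset_closedBall.eventuallyLE)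
  have a1 := one z₁ c₁ fun p hp => (d1 hp).1
  have a2 := one z₂ c₂ fun p hp => (d1 hp).2
  have a3 := area_le hf hi hl hb (hp A a M L hb)
    ((isCompact_closedBall z₁ ρ).union (isCompact_closedBall z₂ ρ)) (union_subset c₁ c₂)
  rw [setIntegral_union (closedBall_disjoint_closedBall r3) measurableSet_closedBall (ic z₁ c₁)
    (ic z₂ c₂)] at a3
  linarith

end Vale.P116D
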