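import Vale.Agent.P116D.P0
import Vale.Agent.P116D.ConnH

/-!
P4: ends and components of the complement of the image.
-/

namespace Vale.P116D

open Set Filter Topology MeasureTheory Complex Metric
open scoped ContDiff ComplexConjugate

variable {D : Dom} {S : Gens D} {φ ψ χ η e k w : ℂ → ℝ} {s σ r v : D.End → ℝ} {y : D.End}
  {f F : ℂ → ℂ} {q : D.End → ℂ} {Θ : ℂ → ℝ} {U V O Z : Set ℂ} {z p : ℂ}

/-- as `P116B.Ends.back` (`exists_pre`, `mem_of_cluster`) -/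
theorem back2 {K₁ K₂ E₁ E₂ : Set ℂ} (h1 : IsCompact K₁) (h2 : IsCompact K₂)
    (hf : P116.NormMap (K₁ ∪ K₂) f) (c2 : IsCompact E₂) (hd : Disjoint E₁ E₂)
    (hE : E₁ ⊆ (f '' (K₁ ∪ K₂)ᶜ)ᶜ) (t2 : Tendsto f (𝓝ˢ K₂ ⊓ 𝓟 (K₁ ∪ K₂)ᶜ) (𝓝ˢ E₂))
    (hO : O ∈ 𝓝ˢ K₁) : ∀ᶠ p in 𝓝ˢ E₁, ∀ z, z ∉ K₁ ∪ K₂ → f z = p → z ∈ O := by
  have h0 : E₁ ⊆ (closure (f '' ((K₁ ∪ K₂)ᶜ \ O)))ᶜ := fun w hw h => by
    obtain ⟨x, h3, h4, h5⟩ := P116B.exists_pre (h1.union h2) hf sdiff_subset h (hE hw)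
    rcases h3 with h3 | h3
    · obtain ⟨y, h7, h8⟩ := mem_closure_iff_nhds.1 h4 O (nhds_le_nhdsSet h3 hO)
      exact h8.2 h7
    · exact disjoint_left.1 hd hw (P116B.mem_of_cluster c2 (t2.mono_left
        (inf_le_inf (nhds_le_nhdsSet h3) (principal_mono.2 sdiff_subset))) h5)
  filter_upwards [isClosed_closure.isOpen_compl.mem_nhdsSet.2 h0] with w hw z hz h
  exact by_contra fun h2 => hw (subset_closure ⟨z, ⟨hz, h2⟩, h⟩)

/-- `ends2` for the inverse map (`normMap_inv`, `NormMap.image_props`), then `back2` -/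
theorem split_inv {A₁ A₂ : Set ℂ} (hf : P116.NormMap D.K f) (h1 : IsCompact A₁) (h2 : IsCompact A₂)
    (hd : Disjoint A₁ A₂) (hu : A₁ ∪ A₂ = (f '' D.G)ᶜ) :
    ∃ B₁ B₂, IsCompact B₁ ∧ IsCompact B₂ ∧ Disjoint B₁ B₂ ∧ B₁ ∪ B₂ = D.K ∧
      Tendsto f (𝓝ˢ B₁ ⊓ 𝓟 D.G) (𝓝ˢ A₁) ∧ Tendsto f (𝓝ˢ B₂ ⊓ 𝓟 D.G) (𝓝ˢ A₂) := by
  obtain ⟨g, hg, hgf⟩ := P116B.normMap_inv D.cpt D.conn hf
  have hu' : A₁ ∪ A₂ = (f '' D.Kᶜ)ᶜ := hu
  have hc : IsConnected (A₁ ∪ A₂)ᶜ := by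
    rw [hu', compl_compl]
    exact (hf.image_props D.cpt D.conn).2.1
  have hg' : P116.NormMap (A₁ ∪ A₂) g := hu' ▸ hg
  have himg : (g '' (A₁ ∪ A₂)ᶜ)ᶜ = D.K := by
    rw [hu', compl_compl, image_image, image_congr (s := D.Kᶜ) (g := id) fun z hz => hgf z hz,
      image_id,
      compl_compl]
  have key : ∀ {A₁ A₂ B₁ B₂ : Set ℂ}, IsCompact A₁ → IsCompact A₂ → A₁ ∪ A₂ = (f '' D.Kᶜ)ᶜ →
      IsCompact B₂ → Disjoint B₁ B₂ → B₁ ⊆ (g '' (A₁ ∪ A₂)ᶜ)ᶜ →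
      Tendsto g (𝓝ˢ A₂ ⊓ 𝓟 (A₁ ∪ A₂)ᶜ) (𝓝ˢ B₂) → Tendsto f (𝓝ˢ B₁ ⊓ 𝓟 D.G) (𝓝ˢ A₁) := by
    intro A₁ A₂ B₁ B₂ a1 a2 au b2 bd bs t O hO
    have h3 := back2 a1 a2 (au ▸ hg) b2 bd bs t hO
    rw [mem_map, mem_inf_principal]
    filter_upwards [h3] with p hp hG
    refine hp (f p) ?_ (hgf p hG)
    rw [au]
    exact fun h => h ⟨p, hG, rfl⟩
  obtain ⟨B₁, B₂, b1, b2, bd, bu, t1, t2⟩ := P116B.ends2 h1 h2 hd hc hg'
  refine ⟨B₁, B₂, b1, b2, bd, bu.trans himg, key h1 h2 hu' b2 bd (bu ▸ subset_union_left) t2,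
    key h2 h1 (union_comm A₁ A₂ ▸ hu') b1 bd.symm ?_ ?_⟩
  · rw [union_comm A₂ A₁, ← bu]
    exact subset_union_right
  · rwa [union_comm A₂ A₁]

/-- `ends2` with `K₂ = ∅` gives `Tendsto f (𝓝ˢ K ⊓ 𝓟 G) (𝓝ˢ K')` -/
theorem to_img (hf : P116.NormMap D.K f) : Tendsto f (𝓝ˢ D.K ⊓ 𝓟 D.G) (𝓝ˢ (f '' D.G)ᶜ) := by
  obtain ⟨E₁, E₂, -, -, -, hu, t1, -⟩ := P116B.ends2 (K₁ := D.K) (K₂ := ∅) (f := f) D.cpt
    isCompact_empty (disjoint_empty _) (by rw [union_empty]; exact D.conn) (by rwa [union_empty])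
  rw [union_empty] at hu t1
  exact t1.mono_right (nhdsSet_mono (subset_union_left.trans hu.subset))

theorem nb_le (hy : y ≠ none) : D.nb y ≤ 𝓝ˢ D.K ⊓ 𝓟 D.G := by
  cases y with
  | none => exact absurd rfl hy
  | some c => exact inf_le_inf_right _ (nhdsSet_mono (D.eh_cmp_sub c))

/-- a frontier point of the component is a cluster value, as in `P116B.top` -/
theorem link1 (hf : P116.NormMap D.K f) (hp : p ∈ (f '' D.G)ᶜ) : ∃ y, y ≠ none ∧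
    ∃ p' ∈ connectedComponentIn (f '' D.G)ᶜ p, MapClusterPt p' (D.nb y) f := by
  obtain ⟨hE, -, -⟩ := hf.image_props D.cpt D.conn
  have hZE := connectedComponentIn_subset (f '' D.Kᶜ)ᶜ p
  have hZc : IsPreconnected (connectedComponentIn (f '' D.Kᶜ)ᶜ p) :=
    isPreconnected_connectedComponentIn
  have hZ0 : p ∈ connectedComponentIn (f '' D.Kᶜ)ᶜ p := mem_connectedComponentIn hp
  have hZb := hE.isBounded.subset hZE
  have hcl : closure (connectedComponentIn (f '' D.Kᶜ)ᶜ p) ⊆ connectedComponentIn (f '' D.Kᶜ)ᶜ p :=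
    hZc.closure.subset_connectedComponentIn (subset_closure hZ0) (closure_minimal hZE hE.isClosed)
  obtain ⟨w, hw⟩ := nonempty_frontier_iff.2 ⟨⟨p, hZ0⟩, fun h1 =>
    NormedSpace.unbounded_univ ℝ ℂ (h1 ▸ hZb)⟩
  have h1 := hcl hw.1
  have h2 : w ∈ closure (f '' D.Kᶜ) := by
    by_contra h2
    obtain ⟨ε, hε, h3⟩ := Metric.isOpen_iff.1 isClosed_closure.isOpen_compl w h2
    refine hw.2 (mem_interior.2 ⟨ball w ε, ?_, isOpen_ball, mem_ball_self hε⟩)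
    rw [connectedComponentIn_eq h1]
    exact (convex_ball w ε).isPreconnected.subset_connectedComponentIn (mem_ball_self hε)
      (h3.trans (compl_subset_compl.2 subset_closure))
  obtain ⟨x, hx, -, h3⟩ := P116B.exists_pre D.cpt hf subset_rfl h2 (hZE h1)
  refine ⟨some (ConnectedComponents.mk ⟨x, hx⟩), Option.some_ne_none _, w, h1, h3.mono (map_mono ?_)⟩
  exact inf_le_inf_right _ (nhds_le_nhdsSet (D.eh_mem_cmp.2 ⟨hx, rfl⟩))

/-- `to_img`, compactness -/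
theorem link2 (hf : P116.NormMap D.K f) (hy : y ≠ none) :
    ∃ p ∈ (f '' D.G)ᶜ, MapClusterPt p (D.nb y) f := by
  have hE : IsCompact (f '' D.G)ᶜ := (hf.image_props D.cpt D.conn).1
  have h1 : map f (D.nb y) ≤ 𝓝ˢ (f '' D.G)ᶜ := (to_img hf).mono_left (nb_le hy)
  by_contra h
  have h2 : Disjoint (𝓝ˢ (f '' D.G)ᶜ) (map f (D.nb y)) := hE.disjoint_nhdsSet_left.2 fun x hx =>
    disjoint_iff.2 (not_neBot.1 fun h3 => h ⟨x, hx, h3⟩)
  exact (inferInstance : (map f (D.nb y)).NeBot).ne (h2.symm.eq_bot_of_le h1)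

/-- `split`: `eh_clopen` for the `Dom` with `K = (f '' G)ᶜ`; `cc`: union of the complements of
the pieces (`ch_compl_piece`), all contain a far point; `back`: `eh_clopen`, `ends2`, `back2`. -/
theorem tent_of (hf : P116.NormMap D.K f) (hy : y ≠ none) (hp : p ∈ (f '' D.G)ᶜ)
    (hc : MapClusterPt p (D.nb y) f) : Tent D f y (connectedComponentIn (f '' D.G)ᶜ p) := by
  obtain ⟨hE, hC, -⟩ := hf.image_props D.cpt D.conn
  obtain ⟨D', hD'⟩ : ∃ D' : Dom, D'.K = (f '' D.G)ᶜ := ⟨⟨_, hE, by rwa [compl_compl]⟩, rfl⟩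
  have hp' : p ∈ D'.K := hD' ▸ hp
  have e : D'.cmp (ConnectedComponents.mk ⟨p, hp'⟩) = connectedComponentIn (f '' D.G)ᶜ p := by
    rw [D'.eh_cmp_eq hp', hD']
  have hsplit : ∀ V, IsOpen V → connectedComponentIn (f '' D.G)ᶜ p ⊆ V → ∃ A₁ A₂, IsCompact A₁ ∧
      IsCompact A₂ ∧ Disjoint A₁ A₂ ∧ A₁ ∪ A₂ = (f '' D.G)ᶜ ∧
      connectedComponentIn (f '' D.G)ᶜ p ⊆ A₁ ∧ A₁ ⊆ V := by
    intro V hV h
    rw [← e] at h ⊢
    rw [← hD']
    exact D'.eh_clopen _ hV h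
  have hZE := connectedComponentIn_subset (f '' D.G)ᶜ p
  refine ⟨hy, e ▸ D'.eh_cmp_cpt _, isPreconnected_connectedComponentIn, ?_, hsplit, ?_⟩
  · obtain ⟨a, ha⟩ := hC.nonempty
    refine ⟨⟨a, fun h => hZE h ha⟩, isPreconnected_of_forall a fun w hw => ?_⟩
    obtain ⟨A₁, A₂, a1, a2, ad, au, s1, s2⟩ := hsplit {w}ᶜ isOpen_compl_singleton
      (subset_compl_singleton_iff.2 hw)
    refine ⟨A₁ᶜ, compl_subset_compl.2 s1, fun h => (au.subset (Or.inl h)) ha, fun h => s2 h rfl,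
      ch_compl_piece a1 a2 ad ?_⟩
    rw [au, compl_compl]
    exact hC
  · intro U hU
    cases y with
    | none => exact absurd rfl hy
    | some c =>
      obtain ⟨O, hO, h1, h2⟩ := D.eh_mem_nb_some.1 hU
      obtain ⟨K₁, K₂, k1, k2, kd, ku, s1, s2⟩ := D.eh_clopen c hO h1
      have hf' : P116.NormMap (K₁ ∪ K₂) f := ku ▸ hf
      obtain ⟨E₁, E₂, e1, e2, ed, eu, t1, t2⟩ := P116B.ends2 k1 k2 kd (ku ▸ D.conn) hf'
      have h3 := back2 k1 k2 hf' e2 ed (eu ▸ subset_union_left) t2 (hO.mem_nhdsSet.2 s2)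
      rw [ku] at eu t1 h3
      have h4 : p ∈ E₁ := P116B.mem_of_cluster e1
        (t1.mono_left (inf_le_inf_right _ (nhdsSet_mono s1))) hc
      have h5 : connectedComponentIn (f '' D.G)ᶜ p ⊆ E₁ := by
        rcases isPreconnected_iff_subset_of_disjoint_closed.1
          (isPreconnected_connectedComponentIn (F := (f '' D.G)ᶜ) (x := p)) E₁ E₂ e1.isClosed
          e2.isClosed (hZE.trans eu.symm.subset) (by rw [ed.inter_eq, inter_empty]) with h5 | h5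
        · exact h5
        · exact absurd (h5 (mem_connectedComponentIn hp)) (disjoint_left.1 ed h4)
      obtain ⟨V, hV, h6, h7⟩ := mem_nhdsSet_iff_exists.1 h3
      exact ⟨V, hV, h5.trans h6, fun z hz hzV => h2 z (h7 hzV z hz rfl) hz⟩

/-- `f` is bounded on bounded parts of the domain -/
theorem bdd_loc (hf : P116.NormMap D.K f) (R : ℝ) : ∃ M, ∀ z ∈ D.G, ‖z‖ ≤ R → ‖f z‖ ≤ M := by
  have hE : IsCompact (f '' D.G)ᶜ := (hf.image_props D.cpt D.conn).1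
  obtain ⟨M₁, h1⟩ := hE.isBounded.subset_ball 0
  obtain ⟨O, hO, h2, h3⟩ := mem_nhdsSet_iff_exists.1 (eventually_inf_principal.1
    ((to_img hf).eventually (isOpen_ball.mem_nhdsSet.2 h1)))
  have h4 : IsCompact (closedBall (0 : ℂ) R \ O) := (isCompact_closedBall 0 R).diff hO
  obtain ⟨M₂, h5⟩ := h4.exists_bound_of_continuousOn
    (hf.1.continuousOn.mono fun z hz h => hz.2 (h2 h))
  refine ⟨max M₁ M₂, fun z hz hR => ?_⟩
  by_cases h : z ∈ O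
  · exact (mem_ball_zero_iff.1 (h3 h hz)).le.trans (le_max_left _ _)
  · exact (h5 z ⟨mem_closedBall_zero_iff.2 hR, h⟩).trans (le_max_right _ _)

/-- The rotation. -/
noncomputable def p4_m : ℂ ≃ₜ ℂ := Homeomorph.mulLeft₀ (-I) (neg_ne_zero.2 I_ne_zero)

theorem p4_coe : (p4_m : ℂ → ℂ) = fun p => -I * p := rfl

theorem p4_img (F : ℂ → ℂ) (A : Set ℂ) :
    ((fun z => -I * F z) '' A)ᶜ = (fun p => -I * p) '' (F '' A)ᶜ := by
  rw [← p4_coe, image_compl_eq p4_m.bijective, image_image]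
  rfl

theorem p4_sq {c p : ℂ} {t : ℝ} : -I * p ∈ P116.sq (-I * c) t ↔ p ∈ P116.sq c t := by
  have e1 : (-I * p).re - (-I * c).re = p.im - c.im := by simp
  have e2 : (-I * p).im - (-I * c).im = -(p.re - c.re) := by
    simp
    ring
  simp only [P116.sq, mem_ofPred_eq, e1, e2, abs_neg]
  exact and_comm

theorem Good.rot (h : Good S F s q) : Good S (fun z => -I * F z) s fun y => -I * q y := by
  refine ⟨h.hol.const_mul _, fun z hz w hw e => h.inj hz hw (p4_m.injective e), ?_,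
    p4_m.isClosedEmbedding.tendsto_cocompact.comp h.pro, h.co, fun η v hη hv => ?_,
    fun Θ hΘ η v hη hv r hr hs => ?_, fun y hy h0 w hw => ?_⟩
  · rw [p4_img]
    exact h.cpt.image p4_m.continuous
  · obtain ⟨h1, h2⟩ := h.loc η v hη hv
    refine ⟨h2.congr fun z _ => ?_, h1.neg.congr fun z _ => ?_⟩
    · simp
    · simp
  · exact h.box (fun p => Θ (-I * p)) (hΘ.comp (contDiff_const.mul contDiff_id)) η v hη hv r hr
      fun y hy p hp p' hp' => hs y hy _ (p4_sq.2 hp) _ (p4_sq.2 hp')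
  · rintro ⟨z, hz, rfl⟩
    exact h.sub y hy h0 (p4_sq.1 hw) ⟨z, hz, rfl⟩

theorem Tent.rot (h : Tent D F y Z) : Tent D (fun z => -I * F z) y ((fun p => -I * p) '' Z) := by
  refine ⟨h.fin, h.cpt.image p4_m.continuous, h.conn.image _ p4_m.continuous.continuousOn, ?_,
    fun V hV hZ => ?_, fun U hU => ?_⟩
  · rw [← p4_coe, ← image_compl_eq p4_m.bijective]
    exact h.cc.image _ p4_m.continuous.continuousOn
  · obtain ⟨A₁, A₂, a1, a2, ad, au, s1, s2⟩ := h.split (p4_m ⁻¹' V) (hV.preimage p4_m.continuous)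
      (image_subset_iff.1 hZ)
    refine ⟨p4_m '' A₁, p4_m '' A₂, a1.image p4_m.continuous, a2.image p4_m.continuous,
      disjoint_image_of_injective p4_m.injective ad, ?_, image_mono s1, image_subset_iff.2 s2⟩
    rw [p4_img, ← au, ← image_union]
    rfl
  · obtain ⟨V, hV, h1, h2⟩ := h.back U hU
    refine ⟨p4_m '' V, p4_m.isOpenMap V hV, image_mono h1, fun z hz ⟨w, hw, e⟩ => h2 z hz ?_⟩
    rwa [← p4_m.injective e]

end Vale.P116D
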