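import Vale.Agent.P116D.P5x

/-!
P5: the squares lie in the complement of the image.
-/

namespace Vale.P116D

open Set Filter Topology MeasureTheory Complex Metric
open scoped ContDiff ComplexConjugate

variable {D : Dom} {S : Gens D} {φ ψ χ η e k w : ℂ → ℝ} {s σ r v : D.End → ℝ} {y : D.End}
  {f F : ℂ → ℂ} {q : D.End → ℂ} {Θ : ℂ → ℝ} {U V O Z : Set ℂ} {z p : ℂ}

/-- Take `h` smooth with compact support, one near `A₁`, zero near `A₂` (`eh_bump`).  Then
`(η - h ∘ f) * Θ ∘ f` vanishes near all ends (`om_van`), and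
`om ((h Θ) ∘ f) (im f) = ∫ ‖f'‖ ^ 2 (gr (h Θ) (f z)).re` (`gr_hcomp`, `wd_mul`), `chg`, `int_dx`.
To split `om` use integrability: the first summand has compact support in `G`, the second is
bounded by `C ‖f'‖ ^ 2` on a bounded set (`Loc`). -/
theorem pic_formula {B₁ B₂ A₁ A₂ : Set ℂ} (hf : P116.NormMap D.K f) (hl : Loc D f)
    (hB : B₁ ∪ B₂ = D.K) (h1 : IsCompact A₁) (h2 : IsCompact A₂) (hd : Disjoint A₁ A₂)
    (hu : A₁ ∪ A₂ = (f '' D.G)ᶜ) (t1 : Tendsto f (𝓝ˢ B₁ ⊓ 𝓟 D.G) (𝓝ˢ A₁))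
    (t2 : Tendsto f (𝓝ˢ B₂ ⊓ 𝓟 D.G) (𝓝ˢ A₂)) (hη : ContDiff ℝ ∞ η) (hc : HasCompactSupport η)
    (e1 : ∀ᶠ z in 𝓝ˢ B₁, η z = 1) (e2 : ∀ᶠ z in 𝓝ˢ B₂, η z = 0) (hΘ : ContDiff ℝ ∞ Θ) :
    D.om (fun z => η z * Θ (f z)) (fun z => (f z).im) = -∫ p in A₁, (gr Θ p).re :=
  p5_pic hf hl hB h1 h2 hd hu t1 t2 hη hc e1 e2 hΘ

/-- With `ψ a b x = smoothTransition (a - x) + smoothTransition (x - b)` (zero exactly on
`[a, b]`) test `Θ p = P p.re`, `P' = ψ`, and `Θ p = T p.re * ψ p.im`, `T` a clamp that is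
the identity on the real parts of `Z`.  So `Z \ Q` is null, `volume_sq`, hence `Q \ Z` is null,
`interior Q \ Z` is open and empty, and `Q` is the closure of its interior. -/
theorem sq_of_tests {t : ℝ} (hZ : IsCompact Z) (ht : 0 < t) (hv : t ^ 2 ≤ volume.real Z)
    (h : ∀ (Θ : ℂ → ℝ) (C : ℝ), ContDiff ℝ ∞ Θ → (∀ p, ‖fderiv ℝ Θ p‖ ≤ C) →
      (∀ p, 0 ≤ (gr Θ p).re) → (∀ p' ∈ P116.sq p (t / 2), ∀ p'' ∈ P116.sq p (t / 2), Θ p' = Θ p'') →
      ∫ p in Z, (gr Θ p).re ≤ 0) : P116.sq p (t / 2) ⊆ Z := p5_sq hZ ht hv h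

/-- For `V ⊇ Z` open: `Tent.split`, `split_inv`, `eh_cut_piece`, `pic_formula` with `Θ = re`,
`Ext.om_im`, `om_van` (`η * re f - η * e`), `Ext.area`: `volume.real V ≥ ip (v s) s ≥ s y ^ 2`
(the component of `y` lies in `B₁` because of the cluster value).  Outer regularity. -/
theorem Ext.vol (h : Ext S f e k s) (hS : Str S) (hi : InjOn f D.G) (hy : y ≠ none)
    (hp : p ∈ (f '' D.G)ᶜ) (hc : MapClusterPt p (D.nb y) f) :
    s y ^ 2 ≤ volume.real (connectedComponentIn (f '' D.G)ᶜ p) := by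
  have hf : P116.NormMap D.K f := ⟨h.hol, hi, h.inf⟩
  have tent := tent_of hf hy hp hc
  by_contra hlt
  rw [not_le] at hlt
  have h1 : volume (connectedComponentIn (f '' D.G)ᶜ p) < ENNReal.ofReal (s y ^ 2) :=
    (ENNReal.lt_ofReal_iff_toReal_lt tent.cpt.measure_lt_top.ne).2 hlt
  obtain ⟨V, hV, hVo, hVl⟩ := Set.exists_isOpen_lt_of_lt _ _ h1
  obtain ⟨A₁, A₂, a1, a2, ad, au, aZ, aV⟩ := tent.split V hVo hV
  obtain ⟨B₁, B₂, b1, b2, bd, bu, t1, t2⟩ := split_inv hf a1 a2 ad au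
  obtain ⟨η, v, hη, hcs, -, hv0, hv1, -, e1, e2⟩ :=
    Dom.eh_cut_piece b1 b2 bd bu isOpen_univ (subset_univ _)
  have pf := pic_formula hf h.loc bu a1 a2 ad au t1 t2 hη.wd.sm hcs e1 e2
    (Θ := fun z => z.re) Complex.reCLM.contDiff
  simp only [gr_re, one_re, integral_const, smul_eq_mul, mul_one, MeasurableSet.univ,
    measureReal_restrict_apply, univ_inter] at pf
  have f1 : D.Fn fun z => η z * (f z).re := (h.loc η v hη.wd hv0).1
  have f2 : D.Fn fun z => η z * e z :=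
    h.ine.fn.wmul hη.wd ⟨1, fun z _ => abs_le.2 ⟨by linarith [(hη.mem z).1], (hη.mem z).2⟩⟩
  have o1 := h.om_im f1 (p5_van hcs)
  have o2 := om_sub f1 f2 h.du.fn
  have o3 : D.om (fun z => η z * (f z).re - η z * e z) k = 0 := by
    refine om_van (f1.sub f2).sm (fun y' => ?_) h.du.fn.sm
    by_cases hy' : y' = none
    · subst hy'
      filter_upwards [p5_van (D := D) (φ := fun z => (f z).re - e z) hcs] with z hz
      rw [← hz]; ring
    · filter_upwards [h.near hy'] with z hz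
      rw [hz]; simp [cx]
  have o4 := h.area hS hη
  have hvy : v y = 1 := by
    obtain ⟨c, rfl⟩ := Option.ne_none_iff_exists'.1 hy
    rcases D.eh_cmp_side b1 b2 bd bu c with hh | hh
    · exact hv1 c hh
    · have hle : D.nb (some c) ≤ 𝓝ˢ B₂ ⊓ 𝓟 D.G := inf_le_inf_right _ (nhdsSet_mono hh)
      exact absurd (p5_clus hc hle t2 a2)
        (disjoint_left.1 ad (aZ (mem_connectedComponentIn hp)))
  have c1 : Cost fun y => v y * s y :=
    h.ine.co.bmul (C := 1) fun y => by rcases hη.val y with hh | hh <;> simp [hh]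
  have o5 := sum_le_ip c1 h.ine.co {y}
  rw [Finset.sum_singleton, hvy] at o5
  have o6 : volume.real A₁ < s y ^ 2 :=
    (ENNReal.lt_ofReal_iff_toReal_lt a1.measure_lt_top.ne).1 ((measure_mono aV).trans_lt hVl)
  nlinarith

/-- `nb_tail`, `eh_clopen`, `eh_cut_piece`, `ends2`, `pic_formula`, `B2` with the cost
`upd (2 C s) y 0` (`sqLe_of_lip`), `Du.le'`; the component lies in `E₁`. -/
theorem Ext.test {C : ℝ} (h : Ext S f e k s) (hS : Str S) (hi : InjOn f D.G) (hq : B2 S f s q)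
    (hy : y ≠ none) (hp : p ∈ (f '' D.G)ᶜ) (hc : MapClusterPt p (D.nb y) f) (hΘ : ContDiff ℝ ∞ Θ)
    (hC : ∀ p, ‖fderiv ℝ Θ p‖ ≤ C) (h0 : ∀ p, 0 ≤ (gr Θ p).re)
    (hQ : ∀ p' ∈ P116.sq (q y) (s y / 2), ∀ p'' ∈ P116.sq (q y) (s y / 2), Θ p' = Θ p'') :
    ∫ p in connectedComponentIn (f '' D.G)ᶜ p, (gr Θ p).re ≤ 0 := by
  have hf : P116.NormMap D.K f := ⟨h.hol, hi, h.inf⟩
  have hC0 : 0 ≤ C := (norm_nonneg _).trans (hC 0)
  have hs := h.ine.co
  have hN := nl_nonneg s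
  refine le_of_forall_pos_le_add fun δ hδ => ?_
  obtain ⟨ε, hε, hεδ⟩ : ∃ ε > 0, 2 * C * ε * nl s ≤ δ := by
    have : 0 < 2 * C * nl s + 1 := by positivity
    refine ⟨δ / (2 * C * nl s + 1), by positivity, ?_⟩
    rw [mul_right_comm, ← mul_div_assoc, div_le_iff₀ this]
    nlinarith
  obtain ⟨U, hU, hU'⟩ := nb_tail hs.2 y hε
  obtain ⟨c, rfl⟩ := Option.ne_none_iff_exists'.1 hy
  obtain ⟨O, hO, hcO, hOU⟩ := D.eh_mem_nb_some.1 hU
  obtain ⟨K₁, K₂, b1, b2, bd, bu, hc1, hKO⟩ := D.eh_clopen c hO hcO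
  obtain ⟨η, v, hη, hcs, hts, hv0, -, -, e1, e2⟩ := Dom.eh_cut_piece b1 b2 bd bu hO hKO
  have hsup : D.Supp η U := fun z hz hz' =>
    image_eq_zero_of_notMem_tsupport fun hh => hz' (hOU z (hts hh) hz)
  obtain ⟨E₁, E₂, a1, a2, ad, au, t1, t2⟩ :=
    P116B.ends2 b1 b2 bd (by rw [bu]; exact D.conn) (f := f) (by rw [bu]; exact hf)
  rw [bu] at au t1 t2
  have pf := pic_formula hf h.loc bu a1 a2 ad au t1 t2 hη.wd.sm hcs e1 e2 hΘ
  have c1 : Cost fun y => 2 * C * s y := hs.cmul (by linarith)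
  have c2 : Cost (upd (fun y => 2 * C * s y) (some c) 0) := c1.upd _ le_rfl
  have sl : SqLe Θ q s (upd (fun y => 2 * C * s y) (some c) 0) := by
    intro y' hy' x hx x' hx'
    unfold upd
    split_ifs with hh
    · subst hh
      rw [hQ x hx x' hx', sub_self]
    · exact sqLe_of_lip hs (hΘ.differentiable (by simp)) hC y' hy' x hx x' hx'
  have hin := hq Θ hΘ η v hη.wd hv0 _ c2 sl
  have o1 := h.om_im hin.fn (p5_van hcs)
  have o2 := h.du.le' hS hin
  have e : (fun y => |v y| * upd (fun y => 2 * C * s y) (some c) 0 y) =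
      fun y => 2 * C * upd (fun y' => v y' * s y') (some c) 0 y := by
    funext y'
    have : 0 ≤ v y' := by rcases hη.val y' with hh | hh <;> simp [hh]
    unfold upd
    split_ifs
    · simp
    · rw [abs_of_nonneg this]; ring
  have o3 := (le_abs_self _).trans (abs_ip_le hin.co.2 hs.2)
  rw [e, nl_cmul, abs_of_nonneg (by linarith)] at o3
  rw [e] at o2
  have o4 := hU' η v hη hsup
  have o5 : 2 * C * nl (upd (fun y' => v y' * s y') (some c) 0) * nl s ≤ 2 * C * ε * nl s := by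
    gcongr
  have hp1 : p ∈ E₁ := p5_clus hc (inf_le_inf_right _ (nhdsSet_mono hc1)) t1 a1
  have hZ : connectedComponentIn (f '' D.G)ᶜ p ⊆ E₁ := by
    have := isPreconnected_iff_subset_of_disjoint_closed.1
      (isPreconnected_connectedComponentIn (x := p) (F := (f '' D.G)ᶜ)) E₁ E₂ a1.isClosed a2.isClosed
      (by rw [au]; exact connectedComponentIn_subset _ _) (by rw [ad.inter_eq, inter_empty])
    rcases this with hh | hh
    · exact hh
    · exact absurd (hh (mem_connectedComponentIn hp)) (disjoint_left.1 ad hp1)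
  have o6 : ∫ p in connectedComponentIn (f '' D.G)ᶜ p, (gr Θ p).re ≤ ∫ p in E₁, (gr Θ p).re :=
    setIntegral_mono_set
      ((Complex.continuous_re.comp (p5_grc hΘ)).continuousOn.integrableOn_compact a1)
      (Eventually.of_forall h0) hZ.eventuallyLE
  have o7 := neg_abs_le (D.om (fun z => η z * Θ (f z)) k)
  linarith

/-- `e`, `k` are bounded (`bdd_loc`, `Ext.inf`, `χ = 0` far out), `b2_of`, `B2.congr` -/
theorem Ext.b2 (h : Ext S f e k s) (hS : Str S) (hi : InjOn f D.G) : ∃ q, B2 S f s q := by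
  have hf : P116.NormMap D.K f := ⟨h.hol, hi, h.inf⟩
  obtain ⟨χ, hχ, he⟩ := h.eq
  have h1 : ∀ᶠ z in cocompact ℂ, ‖f z - z‖ ≤ 1 := by
    filter_upwards [h.inf.eventually (closedBall_mem_nhds 0 one_pos)] with z hz
    simpa using hz
  have h2 : ∀ᶠ z in D.nb none, ‖f z - z‖ ≤ 1 ∧ χ z = 0 :=
    (h1.filter_mono inf_le_left).and (hχ.wd.ev none)
  obtain ⟨R, hR, -, hR'⟩ := D.eh_mem_nb_none.1 h2
  obtain ⟨M, hM⟩ := bdd_loc hf R
  have hb : ∀ z ∈ D.G, ‖cx e k z‖ ≤ |M| + R + 1 := by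
    intro z hz
    rw [he z hz]
    have := abs_nonneg M
    rcases le_total R ‖z‖ with hh | hh
    · obtain ⟨b1, b2⟩ := hR' z hh
      rw [b2]
      simp only [sub_zero, ofReal_one, one_mul]
      linarith
    · have b1 := (hM z hz hh).trans (le_abs_self M)
      have b2 : ‖((1 - χ z : ℝ) : ℂ) * z‖ ≤ 1 * R := by
        rw [norm_mul, norm_real, Real.norm_eq_abs]
        have := hχ.mem z
        exact mul_le_mul (abs_le.2 ⟨by linarith [this.2], by linarith [this.1]⟩) hh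
          (norm_nonneg _) zero_le_one
      linarith [norm_sub_le (f z) (((1 - χ z : ℝ) : ℂ) * z)]
  obtain ⟨q, hq⟩ := b2_of hS (e := e) (k := k) (s := s)
    ⟨h.ine, _, fun z hz => (abs_re_le_norm (cx e k z)).trans (hb z hz)⟩
    ⟨h.du.isIn hS, _, fun z hz => (abs_im_le_norm (cx e k z)).trans (hb z hz)⟩
  refine ⟨q, hq.congr hS ?_ (hol_sm h.hol) fun y hy => h.near hy⟩
  have h3 : ContDiff ℝ ∞ fun z : ℂ => ((1 - χ z : ℝ) : ℂ) * z :=
    (Complex.ofRealCLM.contDiff.comp (contDiff_const.sub hχ.wd.sm)).mul contDiff_id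
  exact ((hol_sm h.hol).sub h3.contDiffOn).congr he

theorem Ext.good (h : Ext S f e k s) (hS : Str S) (hi : InjOn f D.G) :
    ∃ q, Good S f s q ∧ ∀ y p, y ≠ none → p ∈ (f '' D.G)ᶜ → MapClusterPt p (D.nb y) f → 0 < s y →
      P116.sq (q y) (s y / 2) ⊆ connectedComponentIn (f '' D.G)ᶜ p := by
  have hf : P116.NormMap D.K f := ⟨h.hol, hi, h.inf⟩
  obtain ⟨q, hq⟩ := h.b2 hS hi
  have key : ∀ y p, y ≠ none → p ∈ (f '' D.G)ᶜ → MapClusterPt p (D.nb y) f → 0 < s y →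
      P116.sq (q y) (s y / 2) ⊆ connectedComponentIn (f '' D.G)ᶜ p := fun y p hy hp hc h0 =>
    sq_of_tests (tent_of hf hy hp hc).cpt h0 (h.vol hS hi hy hp hc)
      fun Θ C hΘ hC h1 hQ => h.test hS hi hq hy hp hc hΘ hC h1 hQ
  refine ⟨q, ⟨h.hol, hi, (hf.image_props D.cpt D.conn).1, P116B.normMap_tendsto hf, h.ine.co, h.loc,
    hq, fun y hy h0 => ?_⟩, key⟩
  obtain ⟨p, hp, hc⟩ := link2 hf hy
  exact (key y p hy hp hc h0).trans (connectedComponentIn_subset _ _)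

end Vale.P116D
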