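import Vale.Agent.P116D.P2
import Vale.Agent.P116D.P4

/-!
P5x: the picture formula and the recognition of squares.
-/

namespace Vale.P116D

open Set Filter Topology MeasureTheory Complex Metric
open scoped ContDiff ComplexConjugate

variable {D : Dom} {S : Gens D} {φ ψ χ η e k w : ℂ → ℝ} {s σ r v : D.End → ℝ} {y : D.End}
  {f F : ℂ → ℂ} {q : D.End → ℂ} {Θ : ℂ → ℝ} {U V O Z : Set ℂ} {z p : ℂ}

theorem p5_clus {l l' : Filter ℂ} {A : Set ℂ} (hc : MapClusterPt p l f) (hl : l ≤ l')
    (ht : Tendsto f l' (𝓝ˢ A)) (hA : IsCompact A) : p ∈ A := by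
  by_contra hp
  have h1 : Disjoint (𝓝ˢ A) (𝓝 p) := by
    rw [disjoint_nhdsSet_nhds, hA.isClosed.closure_eq]; exact hp
  have h2 : map f l ≤ 𝓝ˢ A := (map_mono hl).trans ht
  have h3 : (𝓝 p ⊓ map f l).NeBot := hc
  exact h3.ne (disjoint_iff.1 (h1.symm.mono_right h2))

theorem p5_grc (hΘ : ContDiff ℝ ∞ Θ) : Continuous (gr Θ) := by
  have h := hΘ.continuous_fderiv (by simp)
  have e : gr Θ = fun z => ((fderiv ℝ Θ z 1 : ℝ) : ℂ) + (fderiv ℝ Θ z I : ℝ) * I := by
    funext z
    apply Complex.ext <;> simp [gr]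
  rw [e]
  fun_prop

theorem p5_van (hc : HasCompactSupport η) : D.Van none fun z => η z * φ z := by
  have h1 : ∀ᶠ z in cocompact ℂ, z ∉ tsupport η := hc.isCompact.compl_mem_cocompact
  have h2 : ∀ᶠ z in D.nb none, z ∉ tsupport η := h1.filter_mono inf_le_left
  filter_upwards [h2] with z hz
  rw [image_eq_zero_of_notMem_tsupport hz, zero_mul]

theorem p5_wd_meas (φ ψ : ℂ → ℝ) : Measurable fun z => wd (gr φ z) (gr ψ z) := by
  have h1 := gr_meas φ
  have h2 := gr_meas ψ
  unfold wd
  exact ((Complex.measurable_re.comp h1).mul (Complex.measurable_im.comp h2)).sub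
    ((Complex.measurable_im.comp h1).mul (Complex.measurable_re.comp h2))

theorem p5_wd_add (a b c : ℂ) : wd (a + b) c = wd a c + wd b c := by
  simp only [wd, add_re, add_im]; ring

theorem p5_int1 (h : ContDiffOn ℝ ∞ χ D.G) (h0 : ∀ y, D.Van y χ) (hf : DifferentiableOn ℂ f D.G)
    (hl : Loc D f) : IntegrableOn (fun z => wd (gr χ z) (gr (fun z => (f z).im) z)) D.G := by
  obtain ⟨C, hC, hG, hs⟩ := cs_of_van h0
  obtain ⟨η, hη, -, h1⟩ := cut_big D hC
  have h2 := int_wd (fn_van h h0) (hl η _ hη.wd rfl).2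
  refine h2.congr_fun (fun z hz => ?_) (G_meas D)
  by_cases hz' : z ∈ C
  · have e : (fun z => η z * (f z).im) =ᶠ[𝓝 z] fun z => (f z).im := by
      filter_upwards [h1.filter_mono (nhds_le_nhdsSet (mem_union_right _ hz'))] with x hx
      rw [hx, one_mul]
    simp only [gr_congr e]
  · have e : χ =ᶠ[𝓝 z] fun _ => 0 := by
      filter_upwards [(G_open D).mem_nhds hz, hC.isClosed.isOpen_compl.mem_nhds hz'] with x hx hx'
      exact hs x hx hx'
    simp only [gr_congr e, gr_const, wd, zero_re, zero_im, zero_mul, sub_zero]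

theorem p5_gr_im (hf : DifferentiableOn ℂ f D.G) (hz : z ∈ D.G) :
    gr (fun z => (f z).im) z = conj (deriv f z) * I := by
  rw [gr_hcomp (Θ := fun z => z.im) (hf.differentiableAt ((G_open D).mem_nhds hz))
    Complex.imCLM.differentiableAt, gr_im]

theorem p5_wd_H {H : ℂ → ℝ} (hf : DifferentiableOn ℂ f D.G) (hH : ContDiff ℝ ∞ H) (hz : z ∈ D.G) :
    wd (gr (fun z => H (f z)) z) (gr (fun z => (f z).im) z) = ‖deriv f z‖ ^ 2 * (gr H (f z)).re := by
  rw [p5_gr_im hf hz, gr_hcomp (hf.differentiableAt ((G_open D).mem_nhds hz))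
    (hH.differentiable (by simp) _), wd_mul, Complex.norm_conj]
  simp [wd]

theorem p5_int2 {H : ℂ → ℝ} (hf : P116.NormMap D.K f) (hl : Loc D f) (hH : ContDiff ℝ ∞ H)
    (hc : HasCompactSupport H) :
    IntegrableOn (fun z => wd (gr (fun z => H (f z)) z) (gr (fun z => (f z).im) z)) D.G := by
  have hd : DifferentiableOn ℂ f D.G := hf.1
  have h1 : ∀ᶠ z in cocompact ℂ, f z ∉ tsupport H :=
    (P116B.normMap_tendsto hf).eventually hc.isCompact.compl_mem_cocompact
  obtain ⟨C, hC, hC'⟩ := mem_cocompact.1 h1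
  obtain ⟨η, hη, -, h2⟩ := cut_big D hC
  have h3 := int_sq (hl η _ hη.wd rfl).2
  have z0 : ∀ p, p ∉ tsupport H → gr H p = 0 := by
    intro p hp
    rw [gr_congr (notMem_tsupport_iff_eventuallyEq.1 hp)]
    exact gr_const 0 p
  obtain ⟨M, hM⟩ := hc.isCompact.exists_bound_of_continuousOn (p5_grc hH).continuousOn
  have hM' : ∀ p, |(gr H p).re| ≤ |M| := by
    intro p
    by_cases hp : p ∈ tsupport H
    · exact (abs_re_le_norm _).trans ((hM p hp).trans (le_abs_self M))
    · rw [z0 p hp]; simp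
  refine Integrable.mono' (h3.const_mul |M|) (p5_wd_meas _ _).aestronglyMeasurable ?_
  refine (ae_restrict_iff' (G_meas D)).2 (Eventually.of_forall fun z hz => ?_)
  rw [p5_wd_H hd hH hz]
  by_cases hz' : z ∈ C
  · have e : (fun z => η z * (f z).im) =ᶠ[𝓝 z] fun z => (f z).im := by
      filter_upwards [h2.filter_mono (nhds_le_nhdsSet (mem_union_right _ hz'))] with x hx
      rw [hx, one_mul]
    rw [gr_congr e, p5_gr_im hd hz, Real.norm_eq_abs, norm_mul, Complex.norm_conj, norm_I, mul_one,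
      abs_mul, abs_of_nonneg (sq_nonneg _), mul_comm]
    exact mul_le_mul_of_nonneg_right (hM' _) (sq_nonneg _)
  · rw [z0 _ (hC' hz')]
    simp only [zero_re, mul_zero, norm_zero]
    positivity

theorem p5_pic {B₁ B₂ A₁ A₂ : Set ℂ} (hf : P116.NormMap D.K f) (hl : Loc D f)
    (hB : B₁ ∪ B₂ = D.K) (h1 : IsCompact A₁) (h2 : IsCompact A₂) (hd : Disjoint A₁ A₂)
    (hu : A₁ ∪ A₂ = (f '' D.G)ᶜ) (t1 : Tendsto f (𝓝ˢ B₁ ⊓ 𝓟 D.G) (𝓝ˢ A₁))
    (t2 : Tendsto f (𝓝ˢ B₂ ⊓ 𝓟 D.G) (𝓝ˢ A₂)) (hη : ContDiff ℝ ∞ η) (hc : HasCompactSupport η)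
    (e1 : ∀ᶠ z in 𝓝ˢ B₁, η z = 1) (e2 : ∀ᶠ z in 𝓝ˢ B₂, η z = 0) (hΘ : ContDiff ℝ ∞ Θ) :
    D.om (fun z => η z * Θ (f z)) (fun z => (f z).im) = -∫ p in A₁, (gr Θ p).re := by
  have hdf : DifferentiableOn ℂ f D.G := hf.1
  obtain ⟨b, hb, hbc, hbs, -, hb1⟩ := eh_bump h1 h2.isClosed.isOpen_compl hd.subset_compl_right
  have hb2 : ∀ᶠ p in 𝓝ˢ A₂, b p = 0 := by
    have : (tsupport b)ᶜ ∈ 𝓝ˢ A₂ :=
      (isClosed_tsupport b).isOpen_compl.mem_nhdsSet.2 (subset_compl_comm.1 hbs)
    filter_upwards [this] with p hp using image_eq_zero_of_notMem_tsupport hp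
  have hH : ContDiff ℝ ∞ fun p => b p * Θ p := hb.mul hΘ
  have hHc : HasCompactSupport fun p => b p * Θ p := hbc.mul_right
  have sf := hol_sm hdf
  have ha : ContDiffOn ℝ ∞ (fun z => (η z - b (f z)) * Θ (f z)) D.G :=
    (hη.contDiffOn.sub (hb.comp_contDiffOn sf)).mul (hΘ.comp_contDiffOn sf)
  have ha0 : ∀ y, D.Van y fun z => (η z - b (f z)) * Θ (f z) := by
    intro y
    by_cases hy : y = none
    · subst hy
      have a1 : ∀ᶠ z in cocompact ℂ, z ∉ tsupport η := hc.isCompact.compl_mem_cocompact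
      have a2 : ∀ᶠ z in cocompact ℂ, f z ∉ tsupport b :=
        (P116B.normMap_tendsto hf).eventually hbc.isCompact.compl_mem_cocompact
      have a3 : ∀ᶠ z in D.nb none, z ∉ tsupport η ∧ f z ∉ tsupport b :=
        (a1.and a2).filter_mono inf_le_left
      filter_upwards [a3] with z hz
      rw [image_eq_zero_of_notMem_tsupport hz.1, image_eq_zero_of_notMem_tsupport hz.2, sub_zero,
        zero_mul]
    · refine Eventually.filter_mono (nb_le hy) ?_
      rw [← hB, nhdsSet_union, inf_sup_right, eventually_sup]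
      constructor
      · filter_upwards [e1.filter_mono inf_le_left, t1.eventually hb1] with z hz hz'
        rw [hz, hz', sub_self, zero_mul]
      · filter_upwards [e2.filter_mono inf_le_left, t2.eventually hb2] with z hz hz'
        rw [hz, hz', sub_self, zero_mul]
  have sim : ContDiffOn ℝ ∞ (fun z => (f z).im) D.G := Complex.imCLM.contDiff.comp_contDiffOn sf
  have i1 := p5_int1 ha ha0 hdf hl
  have i2 := p5_int2 hf hl hH hHc
  have o1 := om_van ha ha0 sim
  have step : D.om (fun z => η z * Θ (f z)) (fun z => (f z).im) =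
      ∫ z in D.G, ‖deriv f z‖ ^ 2 * (gr (fun p => b p * Θ p) (f z)).re := by
    have e : D.om (fun z => η z * Θ (f z)) (fun z => (f z).im) = ∫ z in D.G,
        (wd (gr (fun z => (η z - b (f z)) * Θ (f z)) z) (gr (fun z => (f z).im) z) +
          wd (gr (fun z => b (f z) * Θ (f z)) z) (gr (fun z => (f z).im) z)) := by
      refine setIntegral_congr_fun (G_meas D) fun z hz => ?_
      have d1 := (ha.contDiffAt ((G_open D).mem_nhds hz)).differentiableAt (by simp)
      have d2 : DifferentiableAt ℝ (fun z => b (f z) * Θ (f z)) z :=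
        ((hH.comp_contDiffOn sf).contDiffAt ((G_open D).mem_nhds hz)).differentiableAt (by simp)
      rw [← p5_wd_add, ← gr_add d1 d2]
      congr 2
      funext x
      ring
    rw [e, integral_add i1 i2]
    have o2 : ∫ z in D.G, wd (gr (fun z => (η z - b (f z)) * Θ (f z)) z)
        (gr (fun z => (f z).im) z) = 0 := o1
    rw [o2, zero_add]
    exact setIntegral_congr_fun (G_meas D) fun z hz => p5_wd_H hdf hH hz
  rw [step, ← chg (h := fun p => (gr (fun p => b p * Θ p) p).re) (G_open D) hdf hf.2.1]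
  obtain ⟨j1, j2⟩ := int_dx hH hHc
  have j3 := integral_add_compl (h1.union h2).measurableSet j1
  rw [j2, setIntegral_union hd h2.measurableSet j1.integrableOn j1.integrableOn, hu,
    compl_compl] at j3
  have j4 : ∫ p in A₂, (gr (fun p => b p * Θ p) p).re = 0 := by
    refine setIntegral_eq_zero_of_forall_eq_zero fun p hp => ?_
    have e : (fun p => b p * Θ p) =ᶠ[𝓝 p] fun _ => 0 := by
      filter_upwards [hb2.filter_mono (nhds_le_nhdsSet hp)] with x hx
      rw [hx, zero_mul]
    rw [gr_congr e, gr_const, zero_re]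
  have j5 : ∫ p in A₁, (gr (fun p => b p * Θ p) p).re = ∫ p in A₁, (gr Θ p).re := by
    refine setIntegral_congr_fun h1.measurableSet fun p hp => ?_
    have e : (fun p => b p * Θ p) =ᶠ[𝓝 p] Θ := by
      filter_upwards [hb1.filter_mono (nhds_le_nhdsSet hp)] with x hx
      rw [hx, one_mul]
    simp only [gr_congr e]
  rw [j4, j5] at j3
  linarith

theorem p5_off (a b : ℝ) : ∃ (u : ℝ → ℝ) (C : ℝ), ContDiff ℝ ∞ u ∧ (∀ x, u x ∈ Icc (0 : ℝ) 2) ∧
    (∀ x, |deriv u x| ≤ C) ∧ (∀ x ∈ Icc a b, u x = 0) ∧ ∀ x, u x = 0 → x ∈ Icc a b := by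
  obtain ⟨T, C, hT, h01, hd, h0, h1, hp⟩ := step_ex (a := 0) (b := 1) one_pos
  have dT : Differentiable ℝ T := hT.differentiable (by simp)
  have pos : ∀ x, T x = 0 → x ≤ 0 := by
    intro x hx
    by_contra hx'
    rw [not_le] at hx'
    rcases le_or_gt 1 x with h | h
    · rw [h1 x h] at hx; exact one_ne_zero hx
    · have sm : StrictMonoOn T (Icc 0 1) :=
        strictMonoOn_of_deriv_pos (convex_Icc 0 1) dT.continuous.continuousOn
          (by rw [interior_Icc]; exact hp)
      have := sm ⟨le_rfl, zero_le_one⟩ ⟨hx'.le, h.le⟩ hx'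
      rw [h0 0 le_rfl, hx] at this
      exact lt_irrefl _ this
  refine ⟨fun x => T (a - x) + T (x - b), C, by fun_prop, fun x => ?_, fun x => ?_,
    fun x hx => ?_, fun x hx => ?_⟩
  · have := h01 (a - x)
    have := h01 (x - b)
    constructor <;> grind
  · have d1 : HasDerivAt (fun x => T (a - x)) (deriv T (a - x) * -1) x :=
      (dT _).hasDerivAt.comp x ((hasDerivAt_id x).const_sub a)
    have d2 : HasDerivAt (fun x => T (x - b)) (deriv T (x - b) * 1) x :=
      (dT _).hasDerivAt.comp x ((hasDerivAt_id x).sub_const b)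
    rw [(d1.fun_add d2).deriv, abs_le]
    have := hd (a - x)
    have := hd (x - b)
    constructor <;> grind
  · simp only
    rw [h0 _ (by linarith [hx.1]), h0 _ (by linarith [hx.2]), add_zero]
  · have a1 := (h01 (a - x)).1
    have a2 := (h01 (x - b)).1
    simp only at hx
    have b1 := pos (a - x) (by linarith)
    have b2 := pos (x - b) (by linarith)
    constructor <;> linarith

theorem p5_ae {g : ℂ → ℝ} (hZ : IsCompact Z) (hg : Continuous g) (h0 : ∀ p, 0 ≤ g p)
    (h : ∫ p in Z, g p ≤ 0) : ∀ᵐ p ∂volume.restrict Z, g p = 0 := by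
  have h1 : ∫ p in Z, g p = 0 := le_antisymm h (integral_nonneg h0)
  exact (integral_eq_zero_iff_of_nonneg h0 (hg.continuousOn.integrableOn_compact hZ)).1 h1

theorem p5_sq {t : ℝ} (hZ : IsCompact Z) (ht : 0 < t) (hv : t ^ 2 ≤ volume.real Z)
    (h : ∀ (Θ : ℂ → ℝ) (C : ℝ), ContDiff ℝ ∞ Θ → (∀ p, ‖fderiv ℝ Θ p‖ ≤ C) →
      (∀ p, 0 ≤ (gr Θ p).re) → (∀ p' ∈ P116.sq p (t / 2), ∀ p'' ∈ P116.sq p (t / 2), Θ p' = Θ p'') →
      ∫ p in Z, (gr Θ p).re ≤ 0) : P116.sq p (t / 2) ⊆ Z := by
  have cre : ContDiff ℝ ∞ fun z : ℂ => z.re := Complex.reCLM.contDiff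
  have cim : ContDiff ℝ ∞ fun z : ℂ => z.im := Complex.imCLM.contDiff
  have a1 : ∀ᵐ x ∂volume.restrict Z, x.re ∈ Icc (p.re - t / 2) (p.re + t / 2) := by
    obtain ⟨u, C, hu, h02, -, hz, hz'⟩ := p5_off (p.re - t / 2) (p.re + t / 2)
    obtain ⟨P, hP, hPu⟩ := prim_ex hu
    have dP : Differentiable ℝ P := hP.differentiable (by simp)
    have g1 : ∀ x, gr (fun x : ℂ => P x.re * (fun _ : ℝ => (1 : ℝ)) x.im) x = ⟨u x.re, 0⟩ := by
      intro x
      rw [gr_prod (dP _) (differentiableAt_const _), hPu]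
      simp
    have key := h (fun x : ℂ => P x.re * (fun _ : ℝ => (1 : ℝ)) x.im) 2
      ((hP.comp cre).mul contDiff_const) (fun x => ?_) (fun x => ?_) (fun x hx x' hx' => ?_)
    · simp only [g1] at key
      filter_upwards [p5_ae hZ (hu.continuous.comp Complex.continuous_re) (fun x => (h02 _).1) key]
        with x hx using hz' _ hx
    · refine (norm_fderiv_le _ x).trans ((norm_le_abs_re_add_abs_im _).trans ?_)
      rw [g1]
      simp only [abs_zero, add_zero]
      rw [abs_of_nonneg (h02 _).1]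
      exact (h02 _).2
    · rw [g1]; exact (h02 _).1
    · have m : ∀ x ∈ P116.sq p (t / 2), x.re ∈ Icc (p.re - t / 2) (p.re + t / 2) := by
        intro x hx
        have := abs_le.1 hx.1
        constructor <;> linarith [this.1, this.2]
      have := (convex_Icc (p.re - t / 2) (p.re + t / 2)).norm_image_sub_le_of_norm_deriv_le (C := 0)
        (fun x _ => dP x) (fun x hx => by rw [hPu, hz x hx, norm_zero]) (m x' hx') (m x hx)
      rw [zero_mul, norm_le_zero_iff, sub_eq_zero] at this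
      simp only [this]
  have a2 : ∀ᵐ x ∂volume.restrict Z, x.im ∈ Icc (p.im - t / 2) (p.im + t / 2) := by
    obtain ⟨u, C, hu, h02, hC, hz, hz'⟩ := p5_off (p.im - t / 2) (p.im + t / 2)
    obtain ⟨M, hM⟩ := hZ.isBounded.exists_norm_le
    have hM0 : (0 : ℝ) ≤ |M| := abs_nonneg M
    obtain ⟨T, hT, hT1, hTi, hTb, -⟩ := clamp_ex (a := -(|M| + 1)) (b := |M| + 1) (δ := 1)
      (by linarith) one_pos
    have g1 : ∀ x, gr (fun x : ℂ => T x.re * u x.im) x =
        ⟨deriv T x.re * u x.im, T x.re * deriv u x.im⟩ := fun x =>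
      gr_prod (hT.differentiable (by simp) _) (hu.differentiable (by simp) _)
    have key := h (fun x : ℂ => T x.re * u x.im) (2 + (|M| + 2) * C)
      ((hT.comp cre).mul (hu.comp cim)) (fun x => ?_) (fun x => ?_) (fun x hx x' hx' => ?_)
    · simp only [g1] at key
      have e : ∫ x in Z, deriv T x.re * u x.im = ∫ x in Z, u x.im := by
        refine setIntegral_congr_fun hZ.measurableSet fun x hx => ?_
        have b1 := abs_le.1 ((abs_re_le_norm x).trans ((hM x hx).trans (le_abs_self M)))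
        have b2 : T =ᶠ[𝓝 x.re] id := by
          filter_upwards [Icc_mem_nhds (show -(|M| + 1) < x.re by linarith [b1.1])
            (show x.re < |M| + 1 by linarith [b1.2])] with y hy using hTi y hy
        simp only [b2.deriv_eq, deriv_id, one_mul]
      rw [e] at key
      filter_upwards [p5_ae hZ (hu.continuous.comp Complex.continuous_im) (fun x => (h02 _).1) key]
        with x hx using hz' _ hx
    · refine (norm_fderiv_le _ x).trans ((norm_le_abs_re_add_abs_im _).trans ?_)
      rw [g1]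
      simp only [abs_mul]
      have b1 : |T x.re| ≤ |M| + 2 := by
        have := hTb x.re
        rw [abs_le]; constructor <;> linarith [this.1, this.2]
      have b2 : |deriv T x.re| * |u x.im| ≤ 1 * 2 := by
        rw [abs_of_nonneg (hT1 _).1, abs_of_nonneg (h02 _).1]
        exact mul_le_mul (hT1 _).2 (h02 _).2 (h02 _).1 zero_le_one
      have b3 : |T x.re| * |deriv u x.im| ≤ (|M| + 2) * C :=
        mul_le_mul b1 (hC _) (abs_nonneg _) (by linarith)
      linarith
    · rw [g1]; exact mul_nonneg (hT1 _).1 (h02 _).1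
    · have m : ∀ x ∈ P116.sq p (t / 2), u x.im = 0 := by
        intro x hx
        have := abs_le.1 hx.2
        exact hz _ ⟨by linarith [this.1], by linarith [this.2]⟩
      simp only [m x hx, m x' hx', mul_zero]
  have hQ := P116B.isCompact_sq p (t / 2)
  have a3 : volume (Z \ P116.sq p (t / 2)) = 0 := by
    have : ∀ᵐ x ∂volume.restrict Z, x ∈ P116.sq p (t / 2) := by
      filter_upwards [a1, a2] with x h1 h2
      exact ⟨abs_le.2 ⟨by linarith [h1.1], by linarith [h1.2]⟩,
        abs_le.2 ⟨by linarith [h2.1], by linarith [h2.2]⟩⟩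
    rw [ae_restrict_iff' hZ.measurableSet, ae_iff] at this
    refine measure_mono_null (fun x hx => ?_) this
    exact fun hh => hx.2 (hh hx.1)
  have a4 : volume (P116.sq p (t / 2) \ Z) = 0 := by
    have b1 := measure_inter_add_diff (μ := volume) Z hQ.measurableSet
    have b2 := measure_inter_add_diff (μ := volume) (P116.sq p (t / 2)) hZ.measurableSet
    rw [a3, add_zero] at b1
    rw [inter_comm, b1] at b2
    have b3 : volume (P116.sq p (t / 2)) ≤ volume Z := by
      rw [P116B.volume_sq p (by linarith), ← ENNReal.ofReal_toReal hZ.measure_lt_top.ne]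
      refine ENNReal.ofReal_le_ofReal (le_trans (le_of_eq (by ring)) hv)
    rw [← b2] at b3
    have b4 : volume Z + volume (P116.sq p (t / 2) \ Z) ≤ volume Z + 0 := by rwa [add_zero]
    exact le_antisymm ((ENNReal.add_le_add_iff_left hZ.measure_lt_top.ne).1 b4) zero_le
  have a5 : interior (P116.sq p (t / 2)) ⊆ Z := by
    have o : IsOpen (interior (P116.sq p (t / 2)) \ Z) := isOpen_interior.sdiff hZ.isClosed
    have := (o.measure_eq_zero_iff volume).1
      (measure_mono_null (diff_subset_diff_left interior_subset) a4)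
    exact diff_eq_empty.1 this
  have a6 : (interior (P116.sq p (t / 2))).Nonempty := by
    refine ⟨p, mem_interior_iff_mem_nhds.2 ?_⟩
    filter_upwards [closedBall_mem_nhds p (half_pos ht)] with x hx
    exact P116B.sq_of_norm (mem_closedBall_iff_norm.1 hx)
  calc P116.sq p (t / 2) ⊆ closure (P116.sq p (t / 2)) := subset_closure
    _ = closure (interior (P116.sq p (t / 2))) :=
        ((P116B.convex_sq p (t / 2)).closure_interior_eq_closure_of_nonempty_interior a6).symm
    _ ⊆ Z := closure_minimal a5 hZ.isClosed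

end Vale.P116D
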