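import Vale.Agent.P116D.P0
import Vale.Agent.P116D.GM
import Vale.Agent.P116D.Box

/-!
P7: tools for the pairing with the cycles, and the data of the no tentacle argument.
-/

namespace Vale.P116D

open Set Filter Topology MeasureTheory Complex Metric
open scoped ContDiff ComplexConjugate

variable {D : Dom} {S : Gens D} {φ ψ χ η e k w : ℂ → ℝ} {s σ r v : D.End → ℝ} {y : D.End}
  {f F : ℂ → ℂ} {q : D.End → ℂ} {Θ : ℂ → ℝ} {U V O Z : Set ℂ} {z p : ℂ} {R : Rect} {l : ℝ → ℝ}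

theorem p7_wd_add (a b c : ℂ) : wd (a + b) c = wd a c + wd b c := by
  simp only [wd, add_re, add_im]; ring

theorem p7_wd_add' (a b c : ℂ) : wd a (b + c) = wd a b + wd a c := by
  simp only [wd, add_re, add_im]; ring

theorem p7_wd_smul (t : ℝ) (a c : ℂ) : wd (t • a) c = t * wd a c := by
  simp only [wd, smul_re, smul_im, smul_eq_mul]; ring

theorem p7_wd_self (a : ℂ) : wd a a = 0 := by simp only [wd]; ring

theorem p7_bs_sub : Bs D w R ⊆ D.G := fun _ h => h.1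

theorem p7_ae_bs {P : ℂ → Prop} (hw : D.Fn w) (h : ∀ z ∈ Bs D w R, P z) :
    ∀ᵐ z ∂volume.restrict (Bs D w R), P z :=
  ae_restrict_of_forall_mem (bs_meas hw.contOn) h

theorem p7_int_lw {g : ℂ → ℝ} (hl : Continuous l) (hb : ∀ t, |l t| ≤ 1) (hw : D.Fn w)
    (hg : IntegrableOn g D.G) : IntegrableOn (fun z => l (w z) * g z) D.G :=
  Integrable.bdd_mul (c := 1) hg
    ((hl.comp_continuousOn hw.contOn).aestronglyMeasurable (G_meas D))
    (Eventually.of_forall fun z => hb (w z))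

theorem p7_int_omB (hl : Continuous l) (hb : ∀ t, |l t| ≤ 1) (hw : D.Fn w) (hφ : D.Fn φ) :
    IntegrableOn (fun z => l (w z) * wd (gr φ z) (gr w z)) (Bs D w R) :=
  (p7_int_lw hl hb hw (int_wd hφ hw)).mono_set p7_bs_sub

theorem p7_omB_add (hl : Continuous l) (hb : ∀ t, |l t| ≤ 1) (hw : D.Fn w) (hφ : D.Fn φ)
    (hψ : D.Fn ψ) : omB D w R l (fun z => φ z + ψ z) = omB D w R l φ + omB D w R l ψ := by
  rw [omB, omB, omB, ← integral_add (p7_int_omB hl hb hw hφ) (p7_int_omB hl hb hw hψ)]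
  refine integral_congr_ae (p7_ae_bs hw fun z hz => ?_)
  simp only [gr_add (hφ.diffAt hz.1) (hψ.diffAt hz.1), p7_wd_add, mul_add]

theorem p7_omB_sum {ι : Type} (T : Finset ι) {a : ι → ℂ → ℝ} (hl : Continuous l) (hb : ∀ t, |l t| ≤ 1)
    (hw : D.Fn w) (h : ∀ i ∈ T, D.Fn (a i)) :
    omB D w R l (fun z => ∑ i ∈ T, a i z) = ∑ i ∈ T, omB D w R l (a i) := by
  classical
  induction T using Finset.induction_on with
  | empty => simp [omB, gr_const, wd]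
  | insert i T hi ih =>
    have h1 : ∀ j ∈ T, D.Fn (a j) := fun j hj => h j (Finset.mem_insert_of_mem hj)
    simp only [Finset.sum_insert hi]
    rw [p7_omB_add hl hb hw (h i (Finset.mem_insert_self _ _)) (Dom.Fn.sum T h1), ih h1]

theorem p7_gm (hS : Max S) (hw : In S w σ) (hr : Reg D w σ) (hR : IsBox D w R)
    (had : ∀ y, 0 < D.osc y w → AD S w R y) (hχ : In S χ s) (hl : Lam R l) :
    |omB D w R l χ| ≤ ip s (cl D w l) := by
  have h := gm hS hw hr hR had hχ _ _ (wd_const D 1) (fun _ h => h.elim) l hl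
  simpa using h

theorem p7_cl_le (hr : Reg D w σ) (hb : ∀ t, |l t| ≤ 1) (y : D.End) :
    0 ≤ cl D w l y ∧ cl D w l y ≤ σ y := by
  refine ⟨integral_nonneg fun _ => abs_nonneg _, ?_⟩
  have h1 := norm_setIntegral_le_of_norm_le_const (μ := volume) (s := Icc (D.lo y w) (D.hi y w))
    (f := fun t => |l t|) (C := 1) measure_Icc_lt_top fun t _ => by simpa using hb t
  rw [Real.volume_real_Icc_of_le (lo_le_hi hr.bd y), one_mul] at h1
  exact ((le_abs_self _).trans h1).trans (hr.le y)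

theorem p7_small {g : ℂ → ℝ} {ε : ℝ} (hg : IntegrableOn g D.G) (hε : 0 < ε) :
    ∃ C, IsCompact C ∧ C ⊆ D.G ∧ ∫ z in D.G \ C, g z ≤ ε := by
  obtain ⟨C, h1, h2⟩ := exhaust D
  have h3 : Antitone fun n => D.G \ C n := antitone_nat_of_succ_le fun n =>
    sdiff_subset_sdiff_right ((h1 n).2.2.trans interior_subset)
  have h4 := tendsto_setIntegral_of_antitone (μ := volume) (f := g)
    (fun n => (G_meas D).diff (h1 n).1.measurableSet) h3 ⟨0, hg.mono_set sdiff_subset⟩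
  have h5 : ⋂ n, D.G \ C n = ∅ := eq_empty_of_forall_notMem fun z hz => by
    obtain ⟨n, hn⟩ := h2 {z} isCompact_singleton (singleton_subset_iff.2 (mem_iInter.1 hz 0).1)
    exact (mem_iInter.1 hz n).2 (hn rfl)
  rw [h5, setIntegral_empty] at h4
  obtain ⟨n, hn⟩ := (h4.eventually (gt_mem_nhds hε)).exists
  exact ⟨C n, (h1 n).1, (h1 n).2.1, hn.le⟩

theorem Good.fn_cs (h : Good S F s q) (hΘ : ContDiff ℝ ∞ Θ) (hc : HasCompactSupport Θ)
    (hη : D.Wd η v) (hv : v none = 0) : D.Fn fun z => η z * Θ (F z) := by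
  obtain ⟨C, hC⟩ := (hc.fderiv ℝ).exists_bound_of_continuous (hΘ.continuous_fderiv (by simp))
  have h0 : 0 ≤ C := (norm_nonneg _).trans (hC 0)
  exact (h.box Θ hΘ η v hη hv _ (h.co.cmul (by positivity))
    (sqLe_of_lip h.co (hΘ.differentiable (by simp)) hC)).fn

theorem IsBox.p7_congr (h : IsBox D φ R) (e : ∀ z ∈ R.set, w =ᶠ[𝓝 z] φ) : IsBox D w R := by
  have hb := h.b0
  refine ⟨h.un, h.a0, h.b0, h.lt, h.sub, fun z hz => ?_, fun x hx => ?_, fun x hx => ?_⟩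
  · rw [(e z hz).fderiv_eq]
    exact h.up z hz
  · rw [(e _ ⟨x, -R.b, hx, by rw [abs_neg, abs_of_pos hb], rfl⟩).self_of_nhds]
    exact h.bot x hx
  · rw [(e _ ⟨x, R.b, hx, by rw [abs_of_pos hb], rfl⟩).self_of_nhds]
    exact h.top x hx

/-- The data of the no tentacle argument. -/
structure Nt (S : Gens D) (F : ℂ → ℂ) (s : D.End → ℝ) (q : D.End → ℂ) (w : ℂ → ℝ) (σ : D.End → ℝ)
    (R : Rect) (Λ h β l : ℝ → ℝ) (H u : ℂ → ℝ) (V : Set ℂ) (R₁ L M b₁ b₂ : ℝ) : Prop where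
  max : Max S
  good : Good S F s q
  inw : In S w σ
  reg : Reg D w σ
  box : IsBox D w R
  ad : ∀ y, 0 < D.osc y w → AD S w R y
  sΛ : ContDiff ℝ ∞ Λ
  dΛ : ∀ x, deriv Λ x ∈ Icc (0 : ℝ) 1
  sh : ContDiff ℝ ∞ h
  vh : ∀ x, h x ∈ Icc (0 : ℝ) 1
  dh : ∀ x, |deriv h x| ≤ L
  sβ : ContDiff ℝ ∞ β
  vβ : ∀ x, β x ∈ Icc (0 : ℝ) 1
  dβ : ∀ x, deriv β x ∈ Icc 0 L
  lam : Lam R l
  vl : ∀ x, l x ∈ Icc (0 : ℝ) 1
  dl : ∀ x, |deriv l x| ≤ L
  win : ∀ x, l (Λ x) ≠ 0 → h x = 1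
  side : Side (F '' D.G)ᶜ V h β b₁ b₂ M H
  off : ∀ z ∈ Bs D w R, F z ∉ V
  fu : D.Fn u
  gu : ∀ z ∈ D.G, ‖z‖ ≤ R₁ → ‖gr u z‖ = ‖deriv F z‖
  far : ∀ z ∈ D.G, ‖F z‖ ≤ 4 * M → ‖z‖ ≤ R₁

namespace Nt

variable {Λ h β : ℝ → ℝ} {H u : ℂ → ℝ} {R₁ L M b₁ b₂ : ℝ}

theorem sl (d : Nt S F s q w σ R Λ h β l H u V R₁ L M b₁ b₂) : ContDiff ℝ ∞ l := by
  obtain ⟨a, b, -, -, h1⟩ := d.lam
  exact h1.1

theorem al (d : Nt S F s q w σ R Λ h β l H u V R₁ L M b₁ b₂) (t : ℝ) : |l t| ≤ 1 := by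
  rw [abs_of_nonneg (d.vl t).1]
  exact (d.vl t).2

theorem L0 (d : Nt S F s q w σ R Λ h β l H u V R₁ L M b₁ b₂) : 0 ≤ L :=
  (abs_nonneg _).trans (d.dl 0)

theorem csH (d : Nt S F s q w σ R Λ h β l H u V R₁ L M b₁ b₂) : HasCompactSupport H :=
  HasCompactSupport.intro (isCompact_closedBall (0 : ℂ) (4 * M)) fun p hp =>
    by_contra fun h0 => hp (mem_closedBall_zero_iff.2 (d.side.bd p h0))

theorem dF (d : Nt S F s q w σ R Λ h β l H u V R₁ L M b₁ b₂) (hz : z ∈ D.G) :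
    DifferentiableAt ℂ F z := d.good.hol.differentiableAt ((G_open D).mem_nhds hz)

theorem dHF (d : Nt S F s q w σ R Λ h β l H u V R₁ L M b₁ b₂) (hz : z ∈ D.G)
    (hΘ : ContDiff ℝ ∞ Θ) : DifferentiableAt ℝ (fun z => Θ (F z)) z :=
  (hΘ.differentiable (by simp) _).comp z ((d.dF hz).restrictScalars ℝ)

/-- the gradient of the side function off `V` -/
theorem grH (d : Nt S F s q w σ R Λ h β l H u V R₁ L M b₁ b₂) (hp : p ∉ V) :
    ∃ n ∈ Icc (0 : ℝ) 1, gr H p = n • (⟨deriv h p.re * β p.im, h p.re * deriv β p.im⟩ : ℂ) := by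
  obtain ⟨n, hn, h1⟩ := d.side.off p hp
  have a1 := d.sh.differentiable (by simp)
  have a2 := d.sβ.differentiable (by simp)
  refine ⟨n, hn, ?_⟩
  rw [gr_congr h1, gr_cmul n (by fun_prop), gr_prod (a1 _) (a2 _)]

theorem nP (d : Nt S F s q w σ R Λ h β l H u V R₁ L M b₁ b₂) (p : ℂ) :
    ‖(⟨deriv h p.re * β p.im, h p.re * deriv β p.im⟩ : ℂ)‖ ≤ 2 * L := by
  refine (norm_le_abs_re_add_abs_im _).trans ?_
  have a1 := d.dh p.re
  have a2 := d.vβ p.im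
  have a3 := d.vh p.re
  have a4 := d.dβ p.im
  have := d.L0
  simp only [abs_mul, abs_of_nonneg a2.1, abs_of_nonneg a3.1, abs_of_nonneg a4.1]
  nlinarith [a2.1, a2.2, a3.1, a3.2, a4.1, a4.2, abs_nonneg (deriv h p.re)]

theorem nH (d : Nt S F s q w σ R Λ h β l H u V R₁ L M b₁ b₂) (hp : p ∉ V) : ‖gr H p‖ ≤ 2 * L := by
  obtain ⟨n, hn, h1⟩ := d.grH hp
  rw [h1, norm_smul, Real.norm_of_nonneg hn.1]
  have := d.nP p
  nlinarith [hn.1, hn.2, norm_nonneg (⟨deriv h p.re * β p.im, h p.re * deriv β p.im⟩ : ℂ)]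

theorem fnχ (d : Nt S F s q w σ R Λ h β l H u V R₁ L M b₁ b₂) (hη : D.Wd η v) (hv : v none = 0) :
    D.Fn fun z => η z * (l (w z) * H (F z)) := by
  obtain ⟨B, hB, -⟩ := hη.bd
  have h1 := d.good.fn_cs d.side.sm d.csH hη hv
  have h2 : D.Fn fun z => l (w z) := d.reg.fn.comp d.sl fun z _ => d.dl _
  have h3 : D.Bd fun z => H (F z) := ⟨1, fun z _ => by
    rw [abs_of_nonneg (d.side.mem _).1]
    exact (d.side.mem _).2⟩
  refine (h2.mul h1 ⟨1, fun z _ => d.al _⟩ (Dom.Bd.mul ⟨B, hB⟩ h3)).congr fun z _ => ?_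
  ring

end Nt

end Vale.P116D
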