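import Vale.Agent.P116D.P7

/-!
P8: upper and lower bounds for the pairing of the test function with the cycles.
-/

namespace Vale.P116D

open Set Filter Topology MeasureTheory Complex Metric
open scoped ContDiff ComplexConjugate

variable {D : Dom} {S : Gens D} {φ ψ χ η e k w : ℂ → ℝ} {s σ r v : D.End → ℝ} {y : D.End}
  {f F : ℂ → ℂ} {q : D.End → ℂ} {Θ : ℂ → ℝ} {U V O Z : Set ℂ} {z p : ℂ} {R : Rect} {l : ℝ → ℝ}

theorem p8_upd_self {Y : Type} (s : Y → ℝ) (y : Y) (a : ℝ) : upd s y a y = a := if_pos rfl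

theorem p8_upd_ne {Y : Type} (s : Y → ℝ) {y y' : Y} (a : ℝ) (h : y' ≠ y) : upd s y a y' = s y' :=
  if_neg h

namespace Nt

variable {Λ h β : ℝ → ℝ} {H u : ℂ → ℝ} {R₁ L M b₁ b₂ : ℝ}

theorem sq_val (d : Nt S F s q w σ R Λ h β l H u V R₁ L M b₁ b₂) (y : D.End) :
    ∃ n ∈ Icc (0 : ℝ) 1, y ≠ none → ∀ c, ∀ p ∈ P116.sq (q y) (s y / 2),
      ∀ p' ∈ P116.sq (q y) (s y / 2), l (Λ p.re) * (H p - c) - l (Λ p'.re) * (H p' - c) =
        (n - c) * (l (Λ p.re) - l (Λ p'.re)) := by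
  by_cases hy : y = none
  · exact ⟨0, ⟨le_rfl, zero_le_one⟩, fun h => (h hy).elim⟩
  rcases (d.good.co.1 y).eq_or_lt with h0 | h0
  · refine ⟨0, ⟨le_rfl, zero_le_one⟩, fun _ c p hp p' hp' => ?_⟩
    rw [← h0, zero_div, P116B.sq_zero] at hp hp'
    rw [hp, hp', sub_self, sub_self, mul_zero]
  obtain ⟨n, hn, h1⟩ := d.side.cvx _ (P116B.convex_sq _ _) (d.good.sub y hy h0)
  have h2 : ∀ c, ∀ p ∈ P116.sq (q y) (s y / 2),
      l (Λ p.re) * (H p - c) = (n - c) * l (Λ p.re) := fun c p hp => by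
    by_cases h3 : l (Λ p.re) = 0
    · rw [h3, zero_mul, mul_zero]
    · rw [h1 p hp, d.win _ h3]
      ring
  refine ⟨n, hn, fun _ c p hp p' hp' => ?_⟩
  rw [h2 c p hp, h2 c p' hp']
  ring

theorem sq_le (d : Nt S F s q w σ R Λ h β l H u V R₁ L M b₁ b₂) (y : D.End) :
    ∃ c ∈ Icc (0 : ℝ) 1, SqLe (fun p => l (Λ p.re) * (H p - c)) q s
      (upd (fun y' => L * s y') y 0) := by
  obtain ⟨c, hc, h1⟩ := d.sq_val y
  refine ⟨c, hc, fun (y' : D.End) hy' p hp p' hp' => ?_⟩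
  by_cases e : y' = y
  · subst e
    rw [p8_upd_self]
    exact ((h1 hy' c p hp p' hp').trans (by rw [sub_self, zero_mul])).le
  obtain ⟨n, hn, h2⟩ := d.sq_val y'
  rw [p8_upd_ne _ _ e]
  refine (h2 hy' c p hp p' hp').trans_le ?_
  have a1 := lip_of_deriv d.sl d.dl (Λ p.re) (Λ p'.re)
  have a2 := lip_of_deriv (C := 1) d.sΛ (fun x => by
    rw [abs_of_nonneg (d.dΛ x).1]
    exact (d.dΛ x).2) p.re p'.re
  have a3 : |p.re - p'.re| ≤ s y' := by
    have b1 := abs_le.1 hp.1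
    have b2 := abs_le.1 hp'.1
    exact abs_le.2 ⟨by linarith [b1.1, b2.2], by linarith [b1.2, b2.1]⟩
  have a4 : |n - c| ≤ 1 := abs_le.2 ⟨by linarith [hn.1, hc.2], by linarith [hn.2, hc.1]⟩
  have a5 := d.L0
  refine (le_abs_self _).trans ?_
  rw [abs_mul]
  calc _ ≤ 1 * (L * s y') := by
        refine mul_le_mul a4 (a1.trans ?_) (abs_nonneg _) zero_le_one
        exact mul_le_mul_of_nonneg_left (by linarith) a5
    _ = _ := one_mul _

theorem sγ (d : Nt S F s q w σ R Λ h β l H u V R₁ L M b₁ b₂) (c : ℝ) :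
    ContDiff ℝ ∞ fun p : ℂ => l (Λ p.re) * (H p - c) :=
  (d.sl.comp (d.sΛ.comp reCLM.contDiff)).mul (d.side.sm.sub contDiff_const)

theorem nγ (d : Nt S F s q w σ R Λ h β l H u V R₁ L M b₁ b₂) {c : ℝ} (hc : c ∈ Icc (0 : ℝ) 1)
    (hp : p ∉ V) : ‖gr (fun p : ℂ => l (Λ p.re) * (H p - c)) p‖ ≤ 3 * L := by
  have a1 := d.sl.differentiable (by simp)
  have a2 := d.sΛ.differentiable (by simp)
  have a3 := d.side.sm.differentiable (by simp)
  have a4 : DifferentiableAt ℝ (fun p : ℂ => p.re) p := reCLM.differentiableAt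
  rw [gr_mul (by fun_prop) (by fun_prop), gr_sub (a3 p) (differentiableAt_const c), gr_const,
    sub_zero, gr_comp (a1 _) (by fun_prop), gr_comp (a2 _) a4, gr_re]
  refine (norm_add_le _ _).trans ?_
  simp only [norm_smul, Real.norm_eq_abs, norm_one, mul_one]
  have b1 := d.al (Λ p.re)
  have b2 := d.nH hp
  have b3 := d.dl (Λ p.re)
  have b4 := d.dΛ p.re
  have b5 := d.side.mem p
  have b6 : |H p - c| ≤ 1 := abs_le.2 ⟨by linarith [b5.1, hc.2], by linarith [b5.2, hc.1]⟩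
  have b7 : |l (Λ p.re)| * ‖gr H p‖ ≤ 1 * (2 * L) :=
    mul_le_mul b1 b2 (norm_nonneg _) zero_le_one
  have b8 : |deriv l (Λ p.re)| * |deriv Λ p.re| ≤ L * 1 :=
    mul_le_mul b3 (by rw [abs_of_nonneg b4.1]; exact b4.2) (abs_nonneg _) d.L0
  have b9 : |H p - c| * (|deriv l (Λ p.re)| * |deriv Λ p.re|) ≤ 1 * (L * 1) :=
    mul_le_mul b6 b8 (by positivity) zero_le_one
  linarith

theorem pt_piece (d : Nt S F s q w σ R Λ h β l H u V R₁ L M b₁ b₂) (hη : D.Cut η v)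
    (hs : D.Supp η (closedBall 0 R₁)) (hw : ∀ z ∈ D.G, gr η z ≠ 0 → w z = Λ (F z).re) {c : ℝ}
    (hc : c ∈ Icc (0 : ℝ) 1) (hz : z ∈ Bs D w R) :
    |l (w z) * wd (gr (fun z => η z * (l (w z) * H (F z))) z) (gr w z) -
      l (w z) * wd (gr (fun z => η z * (l (Λ (F z).re) * (H (F z) - c))) z) (gr w z) -
      c * (l (w z) ^ 2 * wd (gr η z) (gr w z))| ≤ 5 * L * (η z * (‖gr u z‖ * ‖gr w z‖)) := by
  have a1 := hη.wd.sm.differentiable (by simp) z
  have a2 := d.reg.fn.diffAt hz.1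
  have a3 := d.sl.differentiable (by simp)
  have a4 := d.dHF hz.1 d.side.sm
  have a5 := d.dHF hz.1 (d.sγ c)
  have a6 : DifferentiableAt ℝ (fun z => l (w z)) z := (a3 _).comp z a2
  rw [gr_mul a1 (a6.fun_mul a4), gr_mul a6 a4, gr_comp (a3 _) a2, gr_mul a1 a5]
  have e1 := gr_hcomp (d.dF hz.1) (d.side.sm.differentiable (by simp) (F z))
  have e2 := gr_hcomp (d.dF hz.1) ((d.sγ c).differentiable (by simp) (F z))
  have n1 : ‖gr (fun z => H (F z)) z‖ ≤ ‖deriv F z‖ * (2 * L) := by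
    rw [e1, norm_mul, norm_conj]
    exact mul_le_mul_of_nonneg_left (d.nH (d.off z hz)) (norm_nonneg _)
  have n2 : ‖gr (fun z => l (Λ (F z).re) * (H (F z) - c)) z‖ ≤ ‖deriv F z‖ * (3 * L) := by
    rw [e2, norm_mul, norm_conj]
    exact mul_le_mul_of_nonneg_left (d.nγ hc (d.off z hz)) (norm_nonneg _)
  generalize gr (fun z => H (F z)) z = X at *
  generalize gr (fun z => l (Λ (F z).re) * (H (F z) - c)) z = Y at *
  simp only [p7_wd_add, p7_wd_smul, p7_wd_self]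
  have e3 : (l (w z) * H (F z) - l (Λ (F z).re) * (H (F z) - c) - c * l (w z)) *
      wd (gr η z) (gr w z) = 0 := by
    by_cases h0 : gr η z = 0
    · simp [h0, wd]
    · rw [hw z hz.1 h0]
      ring
  have e4 : ∀ A B C : ℝ, (l (w z) * H (F z) - l (Λ (F z).re) * (H (F z) - c) - c * l (w z)) * C = 0 →
      l (w z) * (η z * (l (w z) * A + H (F z) * (deriv l (w z) * 0)) + l (w z) * H (F z) * C) -
      l (w z) * (η z * B + l (Λ (F z).re) * (H (F z) - c) * C) - c * (l (w z) ^ 2 * C) =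
      η z * (l (w z) * (l (w z) * A - B)) := fun A B C h0 => by
    linear_combination l (w z) * h0
  rw [e4 _ _ _ e3, abs_mul, abs_of_nonneg (hη.mem z).1]
  by_cases h0 : η z = 0
  · simp [h0]
  have h1 : ‖z‖ ≤ R₁ := mem_closedBall_zero_iff.1 (by_contra fun h2 => h0 (hs z hz.1 h2))
  rw [d.gu z hz.1 h1, mul_left_comm]
  refine mul_le_mul_of_nonneg_left ?_ (hη.mem z).1
  have b1 := d.al (w z)
  have b2 := (abs_wd_le X (gr w z)).trans (mul_le_mul_of_nonneg_right n1 (norm_nonneg _))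
  have b3 := (abs_wd_le Y (gr w z)).trans (mul_le_mul_of_nonneg_right n2 (norm_nonneg _))
  have b4 : |l (w z) * wd X (gr w z)| ≤ |wd X (gr w z)| := by
    rw [abs_mul]
    exact mul_le_of_le_one_left (abs_nonneg _) b1
  rw [abs_mul]
  refine (mul_le_of_le_one_left (abs_nonneg _) b1).trans ((abs_sub _ _).trans ?_)
  linarith

theorem int_cut (d : Nt S F s q w σ R Λ h β l H u V R₁ L M b₁ b₂) (hη : D.Cut η v) :
    IntegrableOn (fun z => η z * (‖gr u z‖ * ‖gr w z‖)) D.G :=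
  Integrable.bdd_mul (c := 1) (int_mul d.fu d.reg.fn) hη.wd.sm.continuous.aestronglyMeasurable
    (Eventually.of_forall fun z => by
      rw [Real.norm_of_nonneg (hη.mem z).1]
      exact (hη.mem z).2)

theorem piece (d : Nt S F s q w σ R Λ h β l H u V R₁ L M b₁ b₂) (hη : D.Cut η v) (hv : v none = 0)
    (hs : D.Supp η (closedBall 0 R₁)) (hw : ∀ z ∈ D.G, gr η z ≠ 0 → w z = Λ (F z).re) (y : D.End) :
    |omB D w R l fun z => η z * (l (w z) * H (F z))| ≤
      L * ip (upd (fun y' => v y' * s y') y 0) σ +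
        5 * L * ∫ z in D.G, η z * (‖gr u z‖ * ‖gr w z‖) := by
  obtain ⟨c, hc, h1⟩ := d.sq_le y
  have c1 : Cost (upd (fun y' => L * s y') y 0) := (d.good.co.cmul d.L0).upd y le_rfl
  have h2 := d.good.box _ (d.sγ c) η v hη.wd hv _ c1 h1
  have h3 := p7_gm d.max d.inw d.reg d.box d.ad h2 d.lam
  have v0 : ∀ y, 0 ≤ v y ∧ v y ≤ 1 := fun y => by rcases hη.val y with e | e <;> simp [e]
  have c2 : Cost (upd (fun y' => v y' * s y') y 0) := (d.good.co.bmul v0).upd y le_rfl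
  have c3 : Cost (cl D w l) := d.reg.co.mono (p7_cl_le d.reg d.al)
  have h4 : ip (fun y' => |v y'| * upd (fun y' => L * s y') y 0 y') (cl D w l) ≤
      L * ip (upd (fun y' => v y' * s y') y 0) σ := by
    rw [← ip_cmul]
    refine ip_le_of h2.co.2 c3.2 (c2.cmul d.L0).2 d.reg.co.2 fun y' => ?_
    have e : |v y'| * upd (fun y' => L * s y') y 0 y' = L * upd (fun y' => v y' * s y') y 0 y' := by
      by_cases e : y' = y
      · simp [upd, e]
      · simp only [upd, if_neg e, abs_of_nonneg (v0 y').1]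
        ring
    rw [e]
    exact mul_le_mul_of_nonneg_left (p7_cl_le d.reg d.al y').2 (mul_nonneg d.L0 (c2.1 y'))
  have l2 : Lam R fun t => l t ^ 2 := by
    obtain ⟨a, b, h5, h6, h7⟩ := d.lam
    exact ⟨a, b, h5, h6, h7.1.pow 2, fun t ht => h7.2 t fun h0 => ht (by simp [h0])⟩
  have h5 := p7_gm d.max d.inw d.reg d.box d.ad (in_wd d.max.1 hη.wd) l2
  rw [ip_zero, abs_nonpos_iff] at h5
  have i1 := p7_int_omB (R := R) d.sl.continuous d.al d.reg.fn (d.fnχ hη.wd hv)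
  have i2 := p7_int_omB (R := R) d.sl.continuous d.al d.reg.fn h2.fn
  have i3 := p7_int_omB (R := R) (l := fun t => l t ^ 2) (d.sl.continuous.pow 2) (fun t => by
    rw [abs_pow]
    exact pow_le_one₀ (abs_nonneg _) (d.al t)) d.reg.fn hη.wd.fn
  have i4 := d.int_cut hη
  have h6 := norm_integral_le_of_norm_le ((i4.mono_set (p7_bs_sub (R := R))).const_mul (5 * L))
    (p7_ae_bs d.reg.fn fun z hz => (Real.norm_eq_abs _).trans_le (d.pt_piece hη hs hw hc hz))
  have i5 := integral_sub (i1.sub i2) (i3.const_mul c)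
  simp only [Pi.sub_apply] at i5
  rw [i5, integral_sub i1 i2, integral_const_mul, integral_const_mul] at h6
  have h7 : ∫ z in Bs D w R, η z * (‖gr u z‖ * ‖gr w z‖) ≤
      ∫ z in D.G, η z * (‖gr u z‖ * ‖gr w z‖) :=
    setIntegral_mono_set i4 (Eventually.of_forall fun z => mul_nonneg (hη.mem z).1 (by positivity))
      (LE.le.eventuallyLE p7_bs_sub)
  have h8 := mul_le_mul_of_nonneg_left h7 (by linarith [d.L0] : 0 ≤ 5 * L)
  simp only [omB] at h3 h5 ⊢
  rw [h5, mul_zero, sub_zero, Real.norm_eq_abs] at h6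
  have h9 := abs_sub_abs_le_abs_sub
    (∫ z in Bs D w R, l (w z) * wd (gr (fun z => η z * (l (w z) * H (F z))) z) (gr w z))
    (∫ z in Bs D w R,
      l (w z) * wd (gr (fun z => η z * (l (Λ (F z).re) * (H (F z) - c))) z) (gr w z))
  linarith

end Nt

end Vale.P116D
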