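import Vale.Agent.P116D.P8

/-!
P9: the two estimates of the no tentacle argument.
-/

namespace Vale.P116D

open Set Filter Topology MeasureTheory Complex Metric
open scoped ContDiff ComplexConjugate

variable {D : Dom} {S : Gens D} {φ ψ χ η e k w : ℂ → ℝ} {s σ r v : D.End → ℝ} {y : D.End}
  {f F : ℂ → ℂ} {q : D.End → ℂ} {Θ : ℂ → ℝ} {U V O Z : Set ℂ} {z p : ℂ} {R : Rect} {l : ℝ → ℝ}

/-- The density of the main term. -/
noncomputable def ntd (F : ℂ → ℂ) (Λ β l : ℝ → ℝ) (z : ℂ) : ℝ :=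
  l (Λ (F z).re) ^ 2 * (deriv β (F z).im * deriv Λ (F z).re * ‖deriv F z‖ ^ 2)

theorem ntd_cont {Λ β : ℝ → ℝ} (hF : DifferentiableOn ℂ F D.G) (h1 : ContDiff ℝ ∞ Λ)
    (h2 : ContDiff ℝ ∞ β) (h3 : ContDiff ℝ ∞ l) : ContinuousOn (ntd F Λ β l) D.G := by
  have a1 := hF.continuousOn
  have a2 := (hF.deriv (G_open D)).continuousOn
  have a3 := h1.continuous
  have a4 := h1.continuous_deriv (by simp)
  have a5 := h2.continuous_deriv (by simp)
  have a6 := h3.continuous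
  unfold ntd
  fun_prop

theorem p9_gr {Λ : ℝ → ℝ} (hF : DifferentiableAt ℂ F z) (h1 : ContDiff ℝ ∞ Λ) :
    gr (fun z => Λ (F z).re) z = conj (deriv F z) * (deriv Λ (F z).re : ℝ) := by
  have a1 := h1.differentiable (by simp)
  have a2 : DifferentiableAt ℝ (fun p : ℂ => p.re) (F z) := reCLM.differentiableAt
  rw [gr_hcomp (Θ := fun p => Λ p.re) hF (by fun_prop), gr_comp (a1 _) a2, gr_re, real_smul, mul_one]

namespace Nt

variable {Λ h β : ℝ → ℝ} {H u : ℂ → ℝ} {R₁ L M b₁ b₂ : ℝ}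

theorem zero_far (d : Nt S F s q w σ R Λ h β l H u V R₁ L M b₁ b₂) (hz : z ∈ D.G)
    (h1 : ¬‖z‖ ≤ R₁) : ∀ᶠ z' in 𝓝 z, H (F z') = 0 := by
  have h2 : 4 * M < ‖F z‖ := lt_of_not_ge fun h3 => h1 (d.far z hz h3)
  filter_upwards [(d.dF hz).continuousAt.norm.eventually (lt_mem_nhds h2)] with z' h3
  exact by_contra fun h4 => (d.side.bd _ h4).not_gt h3

theorem pt_lower (d : Nt S F s q w σ R Λ h β l H u V R₁ L M b₁ b₂)
    (h1 : ∀ z : ℂ, ‖z‖ ≤ R₁ → ∀ᶠ z' in 𝓝 z, η z' = 1) (fφ : D.Fn φ)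
    (hφ : ∀ z ∈ D.G, ‖z‖ ≤ R₁ → φ =ᶠ[𝓝 z] fun z => Λ (F z).re)
    (hR : ∀ z ∈ R.set, w z = Λ (F z).re ∧ (F z).re ∈ Ioo b₁ b₂ ∧ (F z).im < -M ∧ ‖z‖ ≤ R₁)
    (hz : z ∈ Bs D w R) :
    l (w z) * wd (gr (fun z => η z * (l (w z) * H (F z))) z) (gr w z) ≤
      -R.set.indicator (ntd F Λ β l) z + 2 * L * (‖gr u z‖ * ‖gr (fun z => w z - φ z) z‖) := by
  have L0 := d.L0
  by_cases h2 : ‖z‖ ≤ R₁
  swap
  · have h3 : (fun z => η z * (l (w z) * H (F z))) =ᶠ[𝓝 z] fun _ => 0 :=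
      (d.zero_far hz.1 h2).mono fun z' h4 => by simp [h4]
    rw [gr_congr h3, gr_const, indicator_of_notMem fun h4 => h2 (hR z h4).2.2.2]
    simp only [wd, zero_re, zero_im, zero_mul, sub_self, mul_zero, neg_zero, zero_add]
    positivity
  have a2 := d.reg.fn.diffAt hz.1
  have a3 := d.sl.differentiable (by simp)
  have a4 := d.dHF hz.1 d.side.sm
  have a6 : DifferentiableAt ℝ (fun z => l (w z)) z := (a3 _).comp z a2
  have h3 : (fun z => η z * (l (w z) * H (F z))) =ᶠ[𝓝 z] fun z => l (w z) * H (F z) :=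
    (h1 z h2).mono fun z' h4 => by simp [h4]
  have h4 : gr w z = conj (deriv F z) * (deriv Λ (F z).re : ℝ) + gr (fun z => w z - φ z) z := by
    rw [gr_sub a2 (fφ.diffAt hz.1), gr_congr (hφ z hz.1 h2), p9_gr (d.dF hz.1) d.sΛ]
    ring
  have h5 : ∃ n ∈ Icc (0 : ℝ) 1, gr H (F z) = n • (⟨deriv h (F z).re * β (F z).im,
      h (F z).re * deriv β (F z).im⟩ : ℂ) ∧ (z ∈ R.set → n = 1) := by
    by_cases h6 : z ∈ R.set
    · refine ⟨1, ⟨zero_le_one, le_rfl⟩, ?_, fun _ => rfl⟩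
      rw [gr_congr (d.side.low _ (hR z h6).2.1 (hR z h6).2.2.1), one_smul,
        gr_prod (d.sh.differentiable (by simp) _) (d.sβ.differentiable (by simp) _)]
    · obtain ⟨n, hn, h7⟩ := d.grH (d.off z hz)
      exact ⟨n, hn, h7, fun h8 => (h6 h8).elim⟩
  obtain ⟨n, hn, h5, h6⟩ := h5
  have e1 := gr_hcomp (d.dF hz.1) (d.side.sm.differentiable (by simp) (F z))
  have n1 : ‖gr (fun z => H (F z)) z‖ ≤ ‖gr u z‖ * (2 * L) := by
    rw [e1, norm_mul, norm_conj, d.gu z hz.1 h2]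
    exact mul_le_mul_of_nonneg_left (d.nH (d.off z hz)) (norm_nonneg _)
  have e2 : wd (gr (fun z => H (F z)) z) (conj (deriv F z) * (deriv Λ (F z).re : ℝ)) =
      -(n * h (F z).re * (deriv β (F z).im * deriv Λ (F z).re * ‖deriv F z‖ ^ 2)) := by
    rw [e1, wd_mul, norm_conj, h5, p7_wd_smul]
    simp only [wd, ofReal_re, ofReal_im]
    ring
  rw [gr_congr h3, gr_mul a6 a4, gr_comp (a3 _) a2]
  simp only [p7_wd_add, p7_wd_smul, p7_wd_self, mul_zero, add_zero]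
  rw [h4, p7_wd_add', e2]
  have b1 := (le_abs_self _).trans ((abs_wd_le (gr (fun z => H (F z)) z)
    (gr (fun z => w z - φ z) z)).trans (mul_le_mul_of_nonneg_right n1 (norm_nonneg _)))
  have b2 := d.vl (w z)
  have b3 : l (w z) * l (w z) ≤ 1 := mul_le_one₀ b2.2 b2.1 b2.2
  have b4 : 0 ≤ ‖gr u z‖ * (2 * L) * ‖gr (fun z => w z - φ z) z‖ := by positivity
  have b5 : l (w z) * l (w z) * wd (gr (fun z => H (F z)) z) (gr (fun z => w z - φ z) z) ≤
      ‖gr u z‖ * (2 * L) * ‖gr (fun z => w z - φ z) z‖ :=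
    (mul_le_mul_of_nonneg_left b1 (mul_self_nonneg _)).trans (mul_le_of_le_one_left b4 b3)
  have b6 : R.set.indicator (ntd F Λ β l) z ≤ l (w z) * l (w z) *
      (n * h (F z).re * (deriv β (F z).im * deriv Λ (F z).re * ‖deriv F z‖ ^ 2)) := by
    by_cases h7 : z ∈ R.set
    · rw [indicator_of_mem h7, ntd, h6 h7, (hR z h7).1]
      by_cases h8 : l (Λ (F z).re) = 0
      · simp [h8]
      · rw [d.win _ h8]
        exact le_of_eq (by ring)
    · rw [indicator_of_notMem h7]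
      exact mul_nonneg (mul_self_nonneg _) (mul_nonneg (mul_nonneg hn.1 (d.vh _).1)
        (mul_nonneg (mul_nonneg (d.dβ _).1 (d.dΛ _).1) (sq_nonneg _)))
  linarith

theorem lower (d : Nt S F s q w σ R Λ h β l H u V R₁ L M b₁ b₂) (hη : D.Wd η v) (hv : v none = 0)
    (h1 : ∀ z : ℂ, ‖z‖ ≤ R₁ → ∀ᶠ z' in 𝓝 z, η z' = 1) (fφ : D.Fn φ)
    (hφ : ∀ z ∈ D.G, ‖z‖ ≤ R₁ → φ =ᶠ[𝓝 z] fun z => Λ (F z).re)
    (hR : ∀ z ∈ R.set, w z = Λ (F z).re ∧ (F z).re ∈ Ioo b₁ b₂ ∧ (F z).im < -M ∧ ‖z‖ ≤ R₁) :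
    omB D w R l (fun z => η z * (l (w z) * H (F z))) ≤
      -(∫ z in R.set, ntd F Λ β l z) + 2 * L * (D.nr u * D.nr fun z => w z - φ z) := by
  have m1 := d.box.cpt.measurableSet
  have m2 := bs_meas (R := R) d.reg.fn.contOn
  have i1 := p7_int_omB (R := R) d.sl.continuous d.al d.reg.fn (d.fnχ hη hv)
  have i2 : Integrable (R.set.indicator (ntd F Λ β l)) := (integrable_indicator_iff m1).2
    (((ntd_cont d.good.hol d.sΛ d.sβ d.sl).mono d.box.sub).integrableOn_compact d.box.cpt)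
  have i3 := int_mul d.fu (d.reg.fn.sub fφ)
  have h2 := setIntegral_mono_on i1 (i2.integrableOn.neg.add
    ((i3.mono_set (p7_bs_sub (w := w) (R := R))).const_mul (2 * L))) m2
    fun z hz => d.pt_lower h1 fφ hφ hR hz
  have h3 := integral_add (i2.integrableOn (s := Bs D w R)).neg
    ((i3.mono_set (p7_bs_sub (w := w) (R := R))).const_mul (2 * L))
  simp only [Pi.add_apply, Pi.neg_apply] at h2 h3
  rw [h3, integral_neg, integral_const_mul, setIntegral_indicator m1] at h2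
  have h4 : ∫ z in R.set, ntd F Λ β l z = ∫ z in Bs D w R ∩ R.set, ntd F Λ β l z := by
    refine setIntegral_eq_of_subset_of_forall_sdiff_eq_zero m1 inter_subset_right fun z hz => ?_
    have h5 : l (Λ (F z).re) = 0 := by_contra fun h6 => by
      obtain ⟨a, b, h7, h8, h9⟩ := d.lam
      have h10 := h9.2 _ h6
      rw [← (hR z hz.1).1] at h10
      exact hz.2 ⟨d.box.core_sub d.reg.fn.contOn ⟨hz.1, h7.trans_le h10.1, h10.2.trans_lt h8⟩, hz.1⟩
    simp [ntd, h5]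
  have h5 : ∫ z in Bs D w R, ‖gr u z‖ * ‖gr (fun z => w z - φ z) z‖ ≤
      D.nr u * D.nr fun z => w z - φ z :=
    (setIntegral_mono_set i3 (Eventually.of_forall fun z => by positivity)
      (LE.le.eventuallyLE p7_bs_sub)).trans (int_mul_le d.fu (d.reg.fn.sub fφ))
  have h6 := mul_le_mul_of_nonneg_left h5 (by linarith [d.L0] : 0 ≤ 2 * L)
  rw [h4, omB]
  linarith

theorem upper (d : Nt S F s q w σ R Λ h β l H u V R₁ L M b₁ b₂)
    {T : Finset D.End} {ζ : D.End → ℂ → ℝ} {a : D.End → D.End → ℝ} (hU : U ⊆ closedBall 0 R₁)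
    (mU : MeasurableSet U) (h1 : ∀ y, D.Cut (ζ y) (a y) ∧ a y none = 0 ∧ D.Supp (ζ y) U)
    (h2 : ∀ z, ∑ y ∈ T, ζ y z ≤ 1) (h3 : D.Wd (fun z => η z - ∑ y ∈ T, ζ y z) fun _ => 0)
    (hw : ∀ y ∈ T, ∀ z ∈ D.G, gr (ζ y) z ≠ 0 → ‖z‖ ≤ R₁ → w z = Λ (F z).re) :
    |omB D w R l fun z => η z * (l (w z) * H (F z))| ≤
      L * ∑ y ∈ T, ip (upd (fun y' => a y y' * s y') y 0) σ +
        5 * L * ∫ z in D.G ∩ U, ‖gr u z‖ * ‖gr w z‖ := by
  have f1 := fun y => d.fnχ (h1 y).1.wd (h1 y).2.1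
  have f2 := d.fnχ h3 rfl
  have e1 : (fun z => η z * (l (w z) * H (F z))) = fun z =>
      (η z - ∑ y ∈ T, ζ y z) * (l (w z) * H (F z)) + ∑ y ∈ T, ζ y z * (l (w z) * H (F z)) := by
    funext z
    rw [← Finset.sum_mul]
    ring
  have e2 := p7_gm d.max d.inw d.reg d.box d.ad (in_van d.max.1 f2 fun y =>
    (h3.ev y).mono fun z hz => mul_eq_zero_of_left hz _) d.lam
  rw [ip_zero, abs_nonpos_iff] at e2
  rw [e1, p7_omB_add d.sl.continuous d.al d.reg.fn f2 (Dom.Fn.sum T fun y _ => f1 y), e2, zero_add,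
    p7_omB_sum T d.sl.continuous d.al d.reg.fn fun y _ => f1 y]
  have s1 : ∀ y, D.Supp (ζ y) (closedBall 0 R₁) := fun y z hz h4 =>
    (h1 y).2.2 z hz fun h5 => h4 (hU h5)
  refine (Finset.abs_sum_le_sum_abs _ _).trans ((Finset.sum_le_sum fun y hy =>
    d.piece (h1 y).1 (h1 y).2.1 (s1 y) (fun z hz h4 => hw y hy z hz h4 ?_) y).trans ?_)
  · refine by_contra fun h5 => h4 ?_
    have h6 : ζ y =ᶠ[𝓝 z] fun _ => 0 := by
      filter_upwards [(G_open D).mem_nhds hz, isClosed_closedBall.isOpen_compl.mem_nhds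
        (fun h7 => h5 (mem_closedBall_zero_iff.1 h7))] with z' h7 h8 using s1 y z' h7 h8
    rw [gr_congr h6, gr_const]
  rw [Finset.sum_add_distrib, ← Finset.mul_sum, ← Finset.mul_sum,
    ← integral_finsetSum T fun y _ => d.int_cut (h1 y).1, ← setIntegral_indicator mU]
  refine add_le_add le_rfl (mul_le_mul_of_nonneg_left ?_ (by linarith [d.L0]))
  refine setIntegral_mono_on (integrable_finsetSum T fun y _ => d.int_cut (h1 y).1)
    ((int_mul d.fu d.reg.fn).indicator mU) (G_meas D) fun z hz => ?_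
  rw [← Finset.sum_mul]
  by_cases h4 : z ∈ U
  · rw [indicator_of_mem h4]
    exact mul_le_of_le_one_left (by positivity) (h2 z)
  · rw [indicator_of_notMem h4, Finset.sum_eq_zero fun y _ => (h1 y).2.2 z hz h4, zero_mul]

end Nt

end Vale.P116D
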