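import Vale.Agent.P116D.S2
import Vale.Agent.P116D.K9
import Vale.Agent.P116D.EndsH
import Vale.Agent.P116B.Sq
import Vale.Agent.P116B.Top

/-!
PDef: notions for the picture (PROOF69 section 6).
-/

namespace Vale.P116D

open Set Filter Topology MeasureTheory Complex Metric
open scoped ContDiff ComplexConjugate

noncomputable section

variable {D : Dom}

/-- One at the finite ends, zero at infinity. -/
def Dom.fi (D : Dom) : D.End → ℝ
  | none => 0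
  | some _ => 1

/-- The complex function with the given real and imaginary parts. -/
def cx (e k : ℂ → ℝ) (z : ℂ) : ℂ := ⟨e z, k z⟩

/-- `r` bounds the oscillation of `Θ` on the squares with centres `q` and sides `s`. -/
def SqLe (Θ : ℂ → ℝ) (q : D.End → ℂ) (s r : D.End → ℝ) : Prop :=
  ∀ y, y ≠ none → ∀ p ∈ P116.sq (q y) (s y / 2), ∀ p' ∈ P116.sq (q y) (s y / 2), Θ p - Θ p' ≤ r y

/-- The box calculus for a complex function, for cutoffs that vanish at infinity. -/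
def B2 (S : Gens D) (F : ℂ → ℂ) (s : D.End → ℝ) (q : D.End → ℂ) : Prop :=
  ∀ Θ : ℂ → ℝ, ContDiff ℝ ∞ Θ → ∀ η v, D.Wd η v → v none = 0 → ∀ r, Cost r → SqLe Θ q s r →
    In S (fun z => η z * Θ (F z)) fun y => |v y| * r y

/-- The extremal map. -/
structure Ext (S : Gens D) (f : ℂ → ℂ) (e k : ℂ → ℝ) (s : D.End → ℝ) : Prop where
  hol : DifferentiableOn ℂ f D.G
  inf : Tendsto (fun z => f z - z) (cocompact ℂ) (𝓝 0)
  eq : ∃ χ, D.Cut χ D.fi ∧ ∀ z ∈ D.G, cx e k z = f z - ((1 - χ z : ℝ) : ℂ) * z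
  ine : In S e s
  du : Du S k s
  tot : D.om e k = -ip s s

/-- Product tests `A x * a t`, increasing in `x`. -/
structure Bmp (A a : ℝ → ℝ) (M L : ℝ) : Prop where
  sA : ContDiff ℝ ∞ A
  sa : ContDiff ℝ ∞ a
  dA : ∀ x, deriv A x ∈ Icc (0 : ℝ) 1
  va : ∀ x, a x ∈ Icc (0 : ℝ) 1
  da : ∀ x, |deriv a x| ≤ L
  bA : ∀ x, |A x| ≤ L
  lo : ∀ x, x ≤ -M → A x = 0
  hi : ∀ x, M ≤ x → A x = A M
  za : ∀ x, M ≤ |x| → a x = 0

/-- The cutoffs at the finite ends localise `f` to finite energy. -/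
def Loc (D : Dom) (f : ℂ → ℂ) : Prop :=
  ∀ η v, D.Wd η v → v none = 0 → D.Fn (fun z => η z * (f z).re) ∧ D.Fn fun z => η z * (f z).im

/-- Univalent maps with squares in the complement of the image. -/
structure Good (S : Gens D) (F : ℂ → ℂ) (s : D.End → ℝ) (q : D.End → ℂ) : Prop where
  hol : DifferentiableOn ℂ F D.G
  inj : InjOn F D.G
  cpt : IsCompact (F '' D.G)ᶜ
  pro : Tendsto F (cocompact ℂ) (cocompact ℂ)
  co : Cost s
  loc : Loc D F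
  box : B2 S F s q
  sub : ∀ y, y ≠ none → 0 < s y → P116.sq (q y) (s y / 2) ⊆ (F '' D.G)ᶜ

/-- `Z` is the component of the complement of the image that belongs to the end `y`. -/
structure Tent (D : Dom) (F : ℂ → ℂ) (y : D.End) (Z : Set ℂ) : Prop where
  fin : y ≠ none
  cpt : IsCompact Z
  conn : IsPreconnected Z
  cc : IsConnected Zᶜ
  split : ∀ V, IsOpen V → Z ⊆ V → ∃ A₁ A₂, IsCompact A₁ ∧ IsCompact A₂ ∧ Disjoint A₁ A₂ ∧
    A₁ ∪ A₂ = (F '' D.G)ᶜ ∧ Z ⊆ A₁ ∧ A₁ ⊆ V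
  back : ∀ U ∈ D.nb y, ∃ V, IsOpen V ∧ Z ⊆ V ∧ ∀ z ∈ D.G, F z ∈ V → z ∈ U

/-- The side function `H` of a continuum, cut off inside `V`, for the profile `h x * β t`. -/
structure Side (K' V : Set ℂ) (h β : ℝ → ℝ) (b₁ b₂ M : ℝ) (H : ℂ → ℝ) : Prop where
  sm : ContDiff ℝ ∞ H
  mem : ∀ p, H p ∈ Icc (0 : ℝ) 1
  bd : ∀ p, H p ≠ 0 → ‖p‖ ≤ 4 * M
  off : ∀ p, p ∉ V → ∃ n ∈ Icc (0 : ℝ) 1, H =ᶠ[𝓝 p] fun p => n * (h p.re * β p.im)
  low : ∀ p : ℂ, p.re ∈ Ioo b₁ b₂ → p.im < -M → H =ᶠ[𝓝 p] fun p => h p.re * β p.im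
  cvx : ∀ Q, Convex ℝ Q → Q ⊆ K' → ∃ n ∈ Icc (0 : ℝ) 1, ∀ p ∈ Q, H p = n * h p.re

end

end Vale.P116D
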