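import Vale.Agent.P116D.P1
import Vale.Agent.P116D.P3
import Vale.Agent.P116D.P5
import Vale.Agent.P116D.P11

/-!
Pic: the picture and the end of the proof (PROOF69 section 6).
-/

namespace Vale.P116D

open Set Filter Topology MeasureTheory Complex
open scoped ContDiff

variable {D : Dom} {S : Gens D} {s : D.End → ℝ} {y : D.End} {F : ℂ → ℂ} {q : D.End → ℂ}
  {Z : Set ℂ} {p p' : ℂ}

theorem pic_re_eq (hS : Max S) (hF : Good S F s q) (hZ : Tent D F y Z) (h0 : s y = 0) (hp : p ∈ Z)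
    (hp' : p' ∈ Z) : p.re = p'.re := by
  have h1 : ∀ b₁ b₂ : ℝ, ∀ a ∈ P116.sq (q y) (s y / 2), ∀ a' ∈ P116.sq (q y) (s y / 2),
      a = a' ∨ (a.re ≤ b₁ ∧ a'.re ≤ b₁) ∨ (b₂ ≤ a.re ∧ b₂ ≤ a'.re) := fun _ _ a ha a' ha' => by
    rw [h0, zero_div, P116B.sq_zero] at ha ha'
    exact Or.inl (ha.trans ha'.symm)
  rcases lt_trichotomy p.re p'.re with h | h | h
  · exact (no_tent hS hF hZ hp hp' le_rfl h le_rfl (h1 _ _)).elim
  · exact h
  · exact (no_tent hS hF hZ hp' hp le_rfl h le_rfl (h1 _ _)).elim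

theorem pic_re_le (hS : Max S) (hF : Good S F s q) (hZ : Tent D F y Z) (hq : q y ∈ Z) (hp : p ∈ Z) :
    |p.re - (q y).re| ≤ s y / 2 := by
  have h0 := hF.co.1 y
  refine abs_le.2 ⟨le_of_not_gt fun h => ?_, le_of_not_gt fun h => ?_⟩
  · exact no_tent (b₂ := (q y).re - s y / 2) hS hF hZ hp hq le_rfl (by linarith) (by linarith)
      fun a ha a' ha' => Or.inr (Or.inr
        ⟨by linarith [(abs_le.1 ha.1).1], by linarith [(abs_le.1 ha'.1).1]⟩)
  · exact no_tent (b₁ := (q y).re + s y / 2) hS hF hZ hq hp (by linarith) (by linarith) le_rfl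
      fun a ha a' ha' => Or.inr (Or.inl
        ⟨by linarith [(abs_le.1 ha.1).2], by linarith [(abs_le.1 ha'.1).2]⟩)

theorem picture (hS : Max S) : ∃ f : ℂ → ℂ, P116.NormMap D.K f ∧ P116.SquareComps (f '' D.Kᶜ)ᶜ := by
  obtain ⟨f, e, k, s, h⟩ := exists_ext hS.1
  have hi := inj_of_pos h.hol h.inf h.loc fun A a M L hb η hη => h.pos hS.1 hb hη
  have hf : P116.NormMap D.K f := ⟨h.hol, hi, h.inf⟩
  obtain ⟨q, hq, hs⟩ := h.good hS.1 hi
  refine ⟨f, hf, fun w hw => ?_⟩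
  obtain ⟨y, hy, p, hp, hc⟩ := link1 hf hw
  have hp' := connectedComponentIn_subset _ _ hp
  have hZ := tent_of hf hy hp' hc
  have e1 : ∀ a : ℂ, (-I * a).re = a.im := fun a => by simp
  change ∃ c t, 0 ≤ t ∧ connectedComponentIn (f '' D.G)ᶜ w = P116.sq c t
  rw [connectedComponentIn_eq hp]
  rcases (hq.co.1 y).eq_or_lt with h0 | h0
  · refine ⟨p, 0, le_rfl, ?_⟩
    have m := mem_connectedComponentIn hp'
    rw [P116B.sq_zero]
    refine eq_singleton_iff_unique_mem.2 ⟨m, fun a ha => Complex.ext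
      (pic_re_eq hS hq hZ h0.symm ha m) ?_⟩
    rw [← e1, ← e1]
    exact pic_re_eq hS hq.rot hZ.rot h0.symm (mem_image_of_mem _ ha) (mem_image_of_mem _ m)
  · have h1 := hs y p hy hp' hc h0
    have m := h1 (P116B.sq_of_norm (x := q y) (y := q y) (by rw [sub_self, norm_zero]; linarith))
    refine ⟨q y, s y / 2, by linarith, subset_antisymm (fun a ha => ⟨pic_re_le hS hq hZ m ha, ?_⟩) h1⟩
    rw [← e1, ← e1]
    exact pic_re_le hS hq.rot hZ.rot (mem_image_of_mem _ m) (mem_image_of_mem _ ha)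

end Vale.P116D
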