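import Vale.Agent.P116D.K2
import Vale.Agent.P116D.K3
import Vale.Agent.P116D.K6
import Vale.Agent.P116D.K8
import Vale.Agent.P116D.K13

/-!
S1: algebra of the cone and first consequences of the axioms.
-/

namespace Vale.P116D

open Set Filter Topology MeasureTheory Complex
open scoped ContDiff

variable {D : Dom} {S : Gens D} {φ ψ χ η g d v w : ℂ → ℝ} {s σ r τ u : D.End → ℝ} {y : D.End}
  {U : Set ℂ} {z : ℂ}

theorem In.congr (h : In S φ s) (e : EqOn ψ φ D.G) : In S ψ s :=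
  ⟨h.fn.congr e, h.co, fun p hp => by
    rw [om_congr e fun _ _ => rfl]
    exact h.le p hp⟩
theorem In.mono (h : In S φ s) (hS : Str S) (hr : Cost r) (e : ∀ y, s y ≤ r y) : In S φ r :=
  ⟨h.fn, hr, fun p hp => (h.le p hp).trans (ip_mono h.co.2 hr.2 (hS.reg p hp).co e)⟩
theorem In.anti {S' : Gens D} (h : In S' φ s) (e : S ⊆ S') : In S φ s :=
  ⟨h.fn, h.co, fun p hp => h.le p (e hp)⟩
theorem In.add (h : In S φ s) (h' : In S ψ r) (hS : Str S) :
    In S (fun z => φ z + ψ z) fun y => s y + r y :=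
  ⟨h.fn.add h'.fn, h.co.add h'.co, fun p hp => by
    rw [om_add h.fn h'.fn (hS.reg p hp).fn, ip_add h.co.2 h'.co.2 (hS.reg p hp).co.2]
    exact (abs_add_le _ _).trans (add_le_add (h.le p hp) (h'.le p hp))⟩
theorem In.neg (h : In S φ s) : In S (fun z => -φ z) s :=
  ⟨h.fn.neg, h.co, fun p hp => by
    rw [om_neg, abs_neg]
    exact h.le p hp⟩
theorem In.sub (h : In S φ s) (h' : In S ψ r) (hS : Str S) :
    In S (fun z => φ z - ψ z) fun y => s y + r y :=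
  (h.add h'.neg hS).congr fun _ _ => sub_eq_add_neg _ _
theorem In.cmul (h : In S φ s) (c : ℝ) : In S (fun z => c * φ z) fun y => |c| * s y :=
  ⟨h.fn.cmul c, h.co.cmul (abs_nonneg c), fun p hp => by
    rw [om_cmul h.fn, ip_cmul, abs_mul]
    exact mul_le_mul_of_nonneg_left (h.le p hp) (abs_nonneg c)⟩
theorem in_wd (hS : Str S) (h : D.Wd η u) : In S η fun _ => 0 :=
  ⟨h.fn, cost_zero, fun p hp => by rw [om_wd h (hS.reg p hp).fn, ip_zero, abs_zero]⟩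
theorem in_sum {ι : Type} (F : Finset ι) {f : ι → ℂ → ℝ} {a : ι → D.End → ℝ} (hS : Str S)
    (h : ∀ i ∈ F, In S (f i) (a i)) : In S (fun z => ∑ i ∈ F, f i z) fun y => ∑ i ∈ F, a i y := by
  classical
  induction F using Finset.induction_on with
  | empty => simpa using in_wd hS (wd_const D 0)
  | insert b F hb ih =>
    simp only [Finset.sum_insert hb]
    exact (h b (Finset.mem_insert_self _ _)).add
      (ih fun i hi => h i (Finset.mem_insert_of_mem hi)) hS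
theorem In.add_wd (h : In S φ s) (hS : Str S) (hη : D.Wd η u) : In S (fun z => φ z + η z) s := by
  simpa using h.add (in_wd hS hη) hS
theorem in_van (hS : Str S) (h : D.Fn χ) (h0 : ∀ y, D.Van y χ) : In S χ fun _ => 0 := by
  obtain ⟨C, hC, hG, hs⟩ := cs_of_van h0
  exact ⟨h, cost_zero, fun p hp => by rw [om_cs h hC hG hs (hS.reg p hp).fn, ip_zero, abs_zero]⟩
theorem in_lim {f : ℕ → ℂ → ℝ} {a : ℕ → D.End → ℝ} (hS : Str S) (h : ∀ n, In S (f n) (a n))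
    (hφ : D.Fn φ) (hs : Cost s) (hl : Tendsto (fun n => D.nr fun z => f n z - φ z) atTop (𝓝 0))
    (hl' : Tendsto (fun n => nl fun y => a n y - s y) atTop (𝓝 0)) : In S φ s :=
  ⟨hφ, hs, fun p hp => le_of_tendsto_of_tendsto'
    (om_tendsto (fun n => (h n).fn) hφ (hS.reg p hp).fn hl).abs
    (ip_tendsto (fun n => (h n).co.2) hs.2 (hS.reg p hp).co.2 hl') fun n => (h n).le p hp⟩
theorem in_of_eps (hS : Str S) (hφ : D.Fn φ) (hs : Cost s) (h : ∀ ε > 0, ∃ ψ r, Cost r ∧ nl r ≤ ε ∧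
    In S ψ (fun y => s y + r y) ∧ D.nr (fun z => ψ z - φ z) ≤ ε) : In S φ s := by
  choose ψ r _ h2 h3 h4 using fun n : ℕ => h (1 / ((n : ℝ) + 1)) (by positivity)
  refine in_lim hS h3 hφ hs ?_ ?_
  · exact squeeze_zero (fun n => nr_nonneg _ _) h4 tendsto_one_div_add_atTop_nhds_zero_nat
  · simp only [add_sub_cancel_left]
    exact squeeze_zero (fun n => nl_nonneg _) h2 tendsto_one_div_add_atTop_nhds_zero_nat
theorem s1_nr_self (D : Dom) (φ : ℂ → ℝ) : D.nr (fun z => φ z - φ z) = 0 := by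
  simp [Dom.nr, gr_const]
theorem s1_nl_zero {Y : Type} : nl (fun _ : Y => (0 : ℝ)) = 0 := by simp [nl]
/-- the same function with a small extra cost -/
theorem s1_small (hS : Str S) (hs : Cost s) (h : ∀ ε > 0, ∃ r, Cost r ∧ nl r ≤ ε ∧
    In S φ fun y => s y + r y) : In S φ s := by
  obtain ⟨_, -, -, h1⟩ := h 1 one_pos
  refine in_of_eps hS h1.fn hs fun ε hε => ?_
  obtain ⟨r, h2, h3, h4⟩ := h ε hε
  exact ⟨φ, r, h2, h3, h4, by rw [s1_nr_self]; exact hε.le⟩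
/-- a vanishing multiple of a fixed extra cost -/
theorem s1_of_mul (hS : Str S) (hs : Cost s) (hr : Cost r)
    (h : ∀ δ > 0, In S φ fun y => s y + δ * r y) : In S φ s := by
  refine s1_small hS hs fun ε hε => ?_
  have h0 := nl_nonneg r
  have hδ : 0 < ε / (nl r + 1) := by positivity
  refine ⟨_, hr.cmul hδ.le, ?_, h _ hδ⟩
  rw [nl_cmul, abs_of_pos hδ, div_mul_eq_mul_div, div_le_iff₀ (by positivity)]
  nlinarith
theorem in_of_pw (hS : Str S) (hs : Cost s) (hr : Cost r)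
    (h : ∀ F : Finset D.End, In S φ (pw F s r)) : In S φ s := by
  refine s1_small hS hs fun ε hε => ?_
  obtain ⟨F, hF⟩ := hr.2.tail hε
  have hc : Cost (pw F (fun _ => 0) r) := hr.pw F fun _ _ => le_rfl
  refine ⟨_, hc, hF F le_rfl, (h F).mono hS (hs.add hc) fun y => ?_⟩
  unfold pw
  split_ifs
  · simp
  · linarith [hs.1 y]
theorem s1_wmul (h : InB S φ s) (hS : Str S) (hη : D.Wd η u) :
    In S (fun z => η z * φ z) fun y => |u y| * s y := by
  obtain ⟨a, ha⟩ := hS.box 1 (fun _ => φ) (fun _ => s) fun _ => h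
  refine ha (fun x => x 0) (contDiff_apply ℝ ℝ 0) η u hη s h.1.co fun y x x' hx hx' => ?_
  linarith [(hx 0).2, (hx' 0).1]
theorem In.wmul (h : In S φ s) (hS : Str S) (hη : D.Wd η u) :
    In S (fun z => η z * φ z) fun y => |u y| * s y := by
  obtain ⟨T, h1, h2, h3, h4⟩ := trunc_ex
  have h2' : ∀ n x, |deriv (T n) x| ≤ 1 := fun n x =>
    abs_le.2 ⟨by linarith [(h2 n x).1], (h2 n x).2⟩
  have h5 : ∀ n, InB S (fun z => T n (φ z)) s := fun n =>
    ⟨hS.trunc φ s h (T n) (h1 n) (h2' n) ⟨_, h4 n⟩, _, fun z _ => h4 n _⟩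
  obtain ⟨M, hM, -⟩ := hη.bd
  have h6 := fun n => s1_wmul (h5 n) hS hη
  refine in_lim hS h6 (h.fn.wmul hη ⟨M, hM⟩) (h6 0).co
    ((conv_trunc h.fn h1 h2' h3).wmul (fun n => (h5 n).1.fn) h.fn hη).1 ?_
  simp only [sub_self, s1_nl_zero]
  exact tendsto_const_nhds
theorem Dom.Cut.s1_abs (h : D.Cut η u) (y : D.End) : |u y| = u y := by
  rcases h.val y with e | e <;> simp [e]
theorem Dom.Cut.s1_mem (h : D.Cut η u) (y : D.End) : 0 ≤ u y ∧ u y ≤ 1 := by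
  rcases h.val y with e | e <;> simp [e]
theorem Dom.Cut.s1_bd (h : D.Cut η u) : D.Bd η :=
  ⟨1, fun z _ => abs_le.2 ⟨by linarith [(h.mem z).1], (h.mem z).2⟩⟩
theorem In.cut (h : In S φ s) (hS : Str S) (hη : D.Cut η u) :
    In S (fun z => η z * φ z) fun y => u y * s y := by
  simpa only [hη.s1_abs] using h.wmul hS hη.wd
/-- interpolation by a cutoff -/
theorem In.mix (h : In S φ s) (h' : In S ψ r) (hS : Str S) (hη : D.Cut η u) :
    In S (fun z => η z * φ z + (1 - η z) * ψ z) fun y => u y * s y + (1 - u y) * r y :=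
  (h.cut hS hη).add (h'.cut hS hη.compl) hS
/-- the corners can be taken in a bounded interval -/
theorem box_clip (hS : Str S) {k : ℕ} {f : Fin k → ℂ → ℝ} {a : Fin k → D.End → ℝ} {p q : Fin k → ℝ}
    (h : ∀ i, In S (f i) (a i)) (hb : ∀ i, ∀ z ∈ D.G, f i z ∈ Icc (p i) (q i)) {δ : ℝ} (hδ : 0 < δ) :
    ∃ c, BoxAt S f a c ∧ ∀ i y, c i y ∈ Icc (p i - δ) (q i + δ) := by
  obtain ⟨z₀, hz₀⟩ := (G_conn D).nonempty
  choose T h1 h2 h3 h4 _ using fun i => clamp_ex ((hb i z₀ hz₀).1.trans (hb i z₀ hz₀).2) hδ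
  obtain ⟨c, hc⟩ := hS.box k f a fun i => ⟨h i, max |p i| |q i|, fun z hz =>
    abs_le_max_abs_abs (hb i z hz).1 (hb i z hz).2⟩
  refine ⟨fun i y => T i (c i y), fun Θ hΘ η v hη r hr ho => ?_, fun i y => h4 i _⟩
  have key : ∀ i y t, t ∈ Icc (c i y) (c i y + a i y) →
      T i t ∈ Icc (T i (c i y)) (T i (c i y) + a i y) := fun i y t ht => by
    refine ⟨mono_of_deriv (h1 i) (fun x => (h2 i x).1) ht.1, ?_⟩
    have := lip_of_deriv (C := 1) (h1 i)
      (fun x => abs_le.2 ⟨by linarith [(h2 i x).1], (h2 i x).2⟩) t (c i y)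
    rw [abs_of_nonneg (sub_nonneg.2 ht.1)] at this
    linarith [le_abs_self (T i t - T i (c i y)), ht.2]
  refine (hc (fun x => Θ fun i => T i (x i))
    (hΘ.comp (contDiff_pi.2 fun i => (h1 i).comp (contDiff_apply ℝ ℝ i))) η v hη r hr
    fun y x x' hx hx' => ho y _ _ (fun i => key i y _ (hx i)) fun i => key i y _ (hx' i)).congr
    fun z hz => ?_
  simp only [fun i => h3 i _ (hb i z hz)]
theorem s1_box (hS : Str S) {k : ℕ} {f : Fin k → ℂ → ℝ} {a : Fin k → D.End → ℝ}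
    {Θ : (Fin k → ℝ) → ℝ} (h : ∀ i, InB S (f i) (a i)) (hΘ : ContDiff ℝ ∞ Θ) (hr : Cost r)
    (hL : ∀ y (x x' : Fin k → ℝ), (∀ i, |x i - x' i| ≤ a i y) → Θ x - Θ x' ≤ r y) :
    In S (fun z => Θ fun i => f i z) r := by
  obtain ⟨c, hc⟩ := hS.box k f a h
  simpa using hc Θ hΘ _ _ (wd_const D 1) r hr fun y x x' hx hx' => hL y x x' fun i =>
    abs_le.2 ⟨by linarith [(hx i).1, (hx' i).2], by linarith [(hx i).2, (hx' i).1]⟩
theorem in_lip (hS : Str S) {k : ℕ} {f : Fin k → ℂ → ℝ} {a : Fin k → D.End → ℝ}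
    {Θ : (Fin k → ℝ) → ℝ} {C : ℝ} (h : ∀ i, InB S (f i) (a i)) (hΘ : ContDiff ℝ ∞ Θ) (hC : 0 ≤ C)
    (hL : ∀ x x', |Θ x - Θ x'| ≤ C * ∑ i, |x i - x' i|) :
    InB S (fun z => Θ fun i => f i z) fun y => C * ∑ i, a i y :=
  ⟨s1_box hS h hΘ ((Cost.sum _ fun i _ => (h i).1.co).cmul hC) fun _ x x' hx =>
    (le_abs_self _).trans ((hL x x').trans
      (mul_le_mul_of_nonneg_left (Finset.sum_le_sum fun i _ => hx i) hC)),
    (fn_compB (fun i => (h i).1.fn) (fun i => (h i).2) hΘ).2⟩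
/-- a clamp at level `M` -/
theorem s1_clamp (M : ℝ) {δ : ℝ} (hδ : 0 < δ) : ∃ T : ℝ → ℝ, ContDiff ℝ ∞ T ∧
    (∀ x x', |T x - T x'| ≤ |x - x'|) ∧ (∀ x, |x| ≤ M → T x = x) ∧ ∀ x, |T x| ≤ |M| + δ := by
  obtain ⟨T, h1, h2, h3, h4, -⟩ := clamp_ex (neg_le_self (abs_nonneg M)) hδ
  refine ⟨T, h1, fun x x' => ?_, fun x hx => h3 x (abs_le.1 (hx.trans (le_abs_self M))),
    fun x => abs_le.2 ⟨by linarith [(h4 x).1], (h4 x).2⟩⟩
  simpa using lip_of_deriv (C := 1) h1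
    (fun x => abs_le.2 ⟨by linarith [(h2 x).1], (h2 x).2⟩) x x'
/-- the constant depends only on `Θ` and on the bound `M` -/
theorem in_lipB (hS : Str S) {k : ℕ} {Θ : (Fin k → ℝ) → ℝ} (hΘ : ContDiff ℝ ∞ Θ) (M : ℝ) :
    ∃ C, 0 ≤ C ∧ ∀ (f : Fin k → ℂ → ℝ) (a : Fin k → D.End → ℝ), (∀ i, In S (f i) (a i)) →
      (∀ i, D.Le (f i) M) → InB S (fun z => Θ fun i => f i z) fun y => C * ∑ i, a i y := by
  obtain ⟨T, h1, h2, h3, h4⟩ := s1_clamp M one_pos
  obtain ⟨C, hC, hL⟩ := lip_cube hΘ (|M| + 1)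
  refine ⟨C, hC, fun f a h hM => ?_⟩
  have := in_lip hS (fun i => ⟨h i, M, hM i⟩) (Θ := fun x => Θ fun i => T (x i))
    (hΘ.comp (contDiff_pi.2 fun i => h1.comp (contDiff_apply ℝ ℝ i))) hC fun x x' =>
      (hL _ _ (fun i => h4 _) fun i => h4 _).trans
        (mul_le_mul_of_nonneg_left (Finset.sum_le_sum fun i _ => h2 _ _) hC)
  refine ⟨this.1.congr fun z hz => ?_, (fn_compB (fun i => (h i).fn) (fun i => ⟨M, hM i⟩) hΘ).2⟩
  simp only [fun i => h3 _ (hM i z hz)]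
theorem In.comp {T : ℝ → ℝ} {C M : ℝ} (h : In S φ s) (hS : Str S) (hT : ContDiff ℝ ∞ T) (hC : 0 ≤ C)
    (h1 : ∀ x, |deriv T x| ≤ C) (hM : ∀ x, |T x| ≤ M) : InB S (fun z => T (φ z)) fun y => C * s y := by
  refine ⟨?_, M, fun z _ => hM _⟩
  rcases hC.eq_or_lt with rfl | hC
  · have e : ∀ x, T x = T 0 := fun x => by
      have := lip_of_deriv hT h1 x 0
      rwa [zero_mul, abs_nonpos_iff, sub_eq_zero] at this
    simpa only [zero_mul] using (in_wd hS (wd_const D (T 0))).congr fun z _ => e (φ z)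
  · have h2 := hS.trunc φ s h (fun x => C⁻¹ * T x) (contDiff_const.mul hT) (fun x => by
      rw [deriv_const_mul_field, abs_mul, abs_of_pos (inv_pos.2 hC), inv_mul_le_iff₀ hC, mul_one]
      exact h1 x) ⟨C⁻¹ * M, fun x => by
        rw [abs_mul, abs_of_pos (inv_pos.2 hC)]
        exact mul_le_mul_of_nonneg_left (hM x) (inv_pos.2 hC).le⟩
    have h3 := h2.cmul C
    rw [abs_of_pos hC] at h3
    exact h3.congr fun z _ => (mul_inv_cancel_left₀ hC.ne' _).symm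
theorem Dom.Le.s1_nonneg {M : ℝ} (h : D.Le φ M) : 0 ≤ M := by
  obtain ⟨z, hz⟩ := (G_conn D).nonempty
  exact (abs_nonneg _).trans (h z hz)
theorem In.mul {M M' : ℝ} (h : In S φ s) (h' : In S ψ r) (hS : Str S) (b : D.Le φ M) (b' : D.Le ψ M') :
    In S (fun z => φ z * ψ z) fun y => M' * s y + M * r y := by
  refine s1_of_mul hS ((h.co.cmul b'.s1_nonneg).add (h'.co.cmul b.s1_nonneg)) (h.co.add h'.co)
    fun δ hδ => ?_
  obtain ⟨T, h1, h2, h3, h4⟩ := s1_clamp M hδ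
  obtain ⟨T', h1', h2', h3', h4'⟩ := s1_clamp M' hδ
  rw [abs_of_nonneg b.s1_nonneg] at h4
  rw [abs_of_nonneg b'.s1_nonneg] at h4'
  have hc : Cost fun y => M' * s y + M * r y + δ * (s y + r y) :=
    ((h.co.cmul b'.s1_nonneg).add (h'.co.cmul b.s1_nonneg)).add ((h.co.add h'.co).cmul hδ.le)
  refine (s1_box hS (f := ![φ, ψ]) (a := ![s, r]) (Θ := fun x => T (x 0) * T' (x 1))
    (Fin.forall_fin_two.2 ⟨⟨h, M, b⟩, ⟨h', M', b'⟩⟩)
    ((h1.comp (contDiff_apply ℝ ℝ 0)).mul (h1'.comp (contDiff_apply ℝ ℝ 1))) hc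
    fun y x x' hx => ?_).congr fun z hz => ?_
  · have e0 : |x 0 - x' 0| ≤ s y := hx 0
    have e1 : |x 1 - x' 1| ≤ r y := hx 1
    have e2 : |(T (x 0) - T (x' 0)) * T' (x 1)| ≤ s y * (M' + δ) := by
      rw [abs_mul]
      exact mul_le_mul ((h2 _ _).trans e0) (h4' _) (abs_nonneg _) (h.co.1 y)
    have e3 : |(T' (x 1) - T' (x' 1)) * T (x' 0)| ≤ r y * (M + δ) := by
      rw [abs_mul]
      exact mul_le_mul ((h2' _ _).trans e1) (h4 _) (abs_nonneg _) (h'.co.1 y)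
    linarith [le_abs_self ((T (x 0) - T (x' 0)) * T' (x 1)),
      le_abs_self ((T' (x 1) - T' (x' 1)) * T (x' 0))]
  · show φ z * ψ z = T (φ z) * T' (ψ z)
    rw [h3 _ (b z hz), h3' _ (b' z hz)]

end Vale.P116D
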