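import Vale.Agent.P116D.TDefs

/-!
T1a: the problem at one end.  `ta_mem` is the definition.  `ta_sol`: `min_sol` with `c = 1`
(convexity: `In.add`, `In.cmul`, `osc_add`, `osc_cmul`; wired functions are bounded on `G` (`Dom.Wd.bd`) and constant
near `y` (`osc_congr`, `osc_add_const`)).  `zero`: `abs_le_nl` and `tc`.  `seq`: replace the cost at `y` of
`(x m).1` by its oscillation (`InB.osc_upd`), which is at most `osc y ψ + (x m).2.2 / κ`; convergent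
sequences are bounded.  `vi`: the variational inequality `sol.vi` with `sol.om`; `lim`: `sol.conv`,
`sol.tc`, `sol.rc`, `abs_di_le`, `ip_tendsto`.  `el`: `vi` at `((x m).1 + χ, upd (t + s) y 0,
(x m).2.2 + κ * osc y χ)`, pass to the limit with `lim`; do the same for `-χ`.  `rho`: `vi` at
`(η ψ, upd (u s) y 0, 0)`.
-/

namespace Vale.P116D

open Set Filter Topology MeasureTheory Complex
open scoped ContDiff

variable {D : Dom} {S : Gens D} {φ ψ χ η ξ ζ g d e v w : ℂ → ℝ} {s σ r τ u : D.End → ℝ}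
  {y : D.End} {U V O : Set ℂ} {z : ℂ} {Θ : ℂ → ℝ} {L M c ε κ ρ C : ℝ} {dm : ℕ → ℂ → ℝ}
  {τm : ℕ → D.End → ℝ} {x : ℕ → (ℂ → ℝ) × (D.End → ℝ) × ℝ}

theorem ta_mem {t : D.End → ℝ} (h : InB S φ t) (hρ : κ * D.osc y (fun z => ψ z - φ z) ≤ ρ) :
    (φ, upd t y 0, ρ) ∈ TA S y ψ κ := ⟨t, h, rfl, hρ⟩

theorem ta_sol (hS : Str S) (y : D.End) (hψ : D.Bd ψ) (hκ : 0 < κ) :
    ∃ d v τ ρ x, TSol S y ψ κ d v τ ρ x := by
  suffices h : ∃ d v τ ρ x, MinSol (TA S y ψ κ) 1 d v τ ρ x by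
    obtain ⟨d, v, τ, ρ, x, h⟩ := h
    exact ⟨d, v, τ, ρ, x, hψ, hκ, h⟩
  refine min_sol one_pos ?_ ⟨_, ta_mem ⟨in_wd hS (wd_const D 0), bd_const D 0⟩ le_rfl⟩ ?_ ?_
  · rintro ⟨φ, _, ρ⟩ ⟨t, h, rfl, hρ⟩ ⟨φ', _, ρ'⟩ ⟨t', h', rfl, hρ'⟩ θ hθ
    have e1 : |θ| = θ := abs_of_nonneg hθ.1
    have e2 : |1 - θ| = 1 - θ := abs_of_nonneg (sub_nonneg.2 hθ.2)
    refine ⟨_, le_rfl, _, ⟨(h.1.cmul θ).add (h'.1.cmul (1 - θ)) hS,
      (h.2.cmul θ).add (h'.2.cmul (1 - θ))⟩, funext fun y' => ?_, ?_⟩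
    · by_cases e : y' = y
      · simp [upd, e]
      · simp only [upd, e, if_false, e1, e2]
    · have h1 := osc_add ((hψ.sub h.2).cmul θ) ((hψ.sub h'.2).cmul (1 - θ)) y
      rw [osc_cmul (hψ.sub h.2), osc_cmul (hψ.sub h'.2), e1, e2] at h1
      have h2 : (fun z => ψ z - (θ * φ z + (1 - θ) * φ' z)) =
          fun z => θ * (ψ z - φ z) + (1 - θ) * (ψ z - φ' z) := funext fun z => by ring
      simp only [h2] at hρ hρ' h1 ⊢
      nlinarith [mul_le_mul_of_nonneg_left h1 hκ.le, mul_le_mul_of_nonneg_left hρ hθ.1,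
        mul_le_mul_of_nonneg_left hρ' (sub_nonneg.2 hθ.2)]
  · rintro ⟨φ, _, ρ⟩ ⟨t, h, rfl, hρ⟩
    exact ⟨h.1.fn, h.1.co.upd y le_rfl, (mul_nonneg hκ.le (osc_nonneg (hψ.sub h.2) y)).trans hρ⟩
  · rintro ⟨φ, _, ρ⟩ ⟨t, h, rfl, hρ⟩ η u hη
    refine ⟨t, ⟨h.1.add_wd hS hη, h.2.add (hη.bd.imp fun _ hM => hM.1)⟩, rfl, le_trans (le_of_eq ?_) hρ⟩
    rw [← osc_add_const (hψ.sub h.2) (-u y) y]
    refine congrArg _ (osc_congr ?_)
    filter_upwards [hη.ev y] with z hz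
    rw [hz]
    ring

theorem TSol.zero (h : TSol S y ψ κ d v τ ρ x) : τ y = 0 := by
  refine abs_nonpos_iff.1 (ge_of_tendsto' h.sol.tc fun n => ?_)
  obtain ⟨t, ht, e, -⟩ := h.sol.mem n
  rw [e]
  simpa [upd] using abs_le_nl ((ht.1.co.2.upd y 0).sub h.sol.co.2) y

theorem TSol.seq (h : TSol S y ψ κ d v τ ρ x) (hS : Str S) :
    ∃ τm C, Seq S d (fun m => (x m).1) τm C ∧ ∀ m, (x m).2.1 = upd (τm m) y 0 ∧
      κ * D.osc y (fun z => ψ z - (x m).1 z) ≤ (x m).2.2 := by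
  choose t ht e hρ using h.sol.mem
  obtain ⟨C1, h1⟩ := h.sol.tc.bddAbove_range
  obtain ⟨C2, h2⟩ := h.sol.rc.bddAbove_range
  refine ⟨fun m => upd (t m) y (D.osc y (x m).1), C1 + nl τ + (D.osc y ψ + C2 / κ),
    ⟨h.sol.fd, h.sol.conv, fun m => ⟨(ht m).osc_upd hS y, (ht m).2⟩, fun m => ?_⟩,
    fun m => ⟨(e m).trans (funext fun y' => ?_), hρ m⟩⟩
  · refine (nl_upd_le (ht m).1.co.2 y _).trans (add_le_add ?_ ?_)
    · have h3 := nl_add (((ht m).1.co.2.upd y 0).sub h.sol.co.2) h.sol.co.2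
      have h4 := h1 (mem_range_self m)
      simp only [sub_add_cancel, e m] at h3 h4
      exact h3.trans (add_le_add h4 le_rfl)
    · have h3 := osc_sub h.bd (h.bd.sub (ht m).2) y
      simp only [sub_sub_cancel] at h3
      rw [abs_of_nonneg (osc_nonneg (ht m).2 y)]
      refine h3.trans (add_le_add le_rfl ((le_div_iff₀' h.k0).2 ?_))
      exact (hρ m).trans (h2 (mem_range_self m))
  · by_cases e' : y' = y
    · simp [upd, e']
    · simp [upd, e']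

theorem TSol.vi {t : D.End → ℝ} {ρ' : ℝ} (h : TSol S y ψ κ d v τ ρ x) (hφ : InB S φ t)
    (hρ : κ * D.osc y (fun z => ψ z - φ z) ≤ ρ') :
    D.om d v + ip τ τ + ρ ≤ D.om φ v + ip t τ + ρ' := by
  have h1 := h.sol.vi _ (ta_mem hφ hρ)
  rw [h.sol.om, h.sol.om, ip_split hφ.1.co.2 h.sol.co.2 y, h.zero]
  simp only [] at h1
  linarith

theorem TSol.lim (h : TSol S y ψ κ d v τ ρ x) (hs : Seq S d (fun m => (x m).1) τm C)
    (e : ∀ m, (x m).2.1 = upd (τm m) y 0) :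
    Tendsto (fun m => D.om (x m).1 v + ip (τm m) τ + (x m).2.2) atTop
      (𝓝 (D.om d v + ip τ τ + ρ)) := by
  refine ((om_tendsto (fun m => (hs.mem m).1.fn) h.sol.fd h.sol.fv h.sol.conv.1).add
    ((ip_tendsto (fun m => ?_) h.sol.co.2 h.sol.co.2 h.sol.tc).congr fun m => ?_)).add h.sol.rc
  · rw [e m]
    exact (hs.mem m).1.co.2.upd y 0
  · rw [e m, ip_split (hs.mem m).1.co.2 h.sol.co.2 y, h.zero, mul_zero, add_zero]

theorem TSol.el (h : TSol S y ψ κ d v τ ρ x) (hS : Str S) : EL S y v (upd τ y κ) := by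
  obtain ⟨τm, C, hs, e⟩ := h.seq hS
  have key : ∀ χ s, InB S χ s → 0 ≤ D.om χ v + ip s τ + κ * D.osc y χ := fun χ s hχ => by
    have h1 := ge_of_tendsto' ((h.lim hs fun m => (e m).1).const_sub (D.om d v + ip τ τ + ρ)).neg
      (b := -(D.om χ v + ip s τ + κ * D.osc y χ)) fun m => by
        have h2 := osc_sub (h.bd.sub (hs.mem m).2) hχ.2 y
        simp only [sub_sub] at h2
        have h3 := h.vi (ρ' := (x m).2.2 + κ * D.osc y χ)
          ⟨(hs.mem m).1.add hχ.1 hS, (hs.mem m).2.add hχ.2⟩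
          (by nlinarith [mul_le_mul_of_nonneg_left h2 h.k0.le, (e m).2])
        rw [om_add (hs.mem m).1.fn hχ.1.fn h.sol.fv,
          ip_add (hs.mem m).1.co.2 hχ.1.co.2 h.sol.co.2] at h3
        linarith
    linarith
  refine ⟨h.sol.fv, h.sol.co.upd y h.k0.le, fun χ s hχ => ?_⟩
  have e1 : ip (upd s y 0) (upd τ y κ) = ip s τ := tsum_congr fun y' => by
    by_cases e' : y' = y
    · simp [upd, e', h.zero]
    · simp [upd, e']
  have e2 : upd τ y κ y = κ := if_pos rfl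
  have k1 := key χ s hχ
  have k2 := key _ _ ⟨hχ.1.cmul (-1), hχ.2.cmul (-1)⟩
  rw [om_cmul hχ.1.fn, osc_cmul hχ.2, ip_cmul, abs_neg, abs_one] at k2
  rw [e1, e2, abs_le]
  constructor <;> linarith

theorem TSol.rho (h : TSol S y ψ κ d v τ ρ x) (hS : Str S) (hψ : In S ψ s) (hη : D.Cut η u)
    (hy : u y = 1) : ρ ≤ D.om (fun z => η z * ψ z) v + ip (fun y' => u y' * s y') τ := by
  have h0 : D.osc y (fun z => ψ z - η z * ψ z) = 0 := osc_const (c := 0) (by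
    filter_upwards [hη.wd.ev y] with z hz
    rw [hz, hy, one_mul, sub_self])
  have h1 := h.vi (ρ' := 0) ⟨hψ.cut hS hη, hη.s1_bd.mul h.bd⟩ (by rw [h0, mul_zero])
  have h2 := ip_nonneg h.sol.co.1 h.sol.co.1
  rw [h.sol.om d, ← nr_sq] at h1
  linarith [sq_nonneg (D.nr d)]

end Vale.P116D
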