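import Vale.Agent.P116D.T1a

/-!
T1b: solutions are critical at the other ends.  `nb_sep` gives disjoint `U ∈ nb y'`, `U' ∈ nb y`;
a function supported in `U` vanishes near `y`.  `loc`: `TSol.el` (`osc_const`, `TSol.zero`, `ip_split`).
`svi`: `e = d`, the sequence of `TSol.seq`, `U m = U`, `ε₀ = 1`; `TSol.vi` at
`η (d m - ε χ) + (1 - η) d m` (`In.mix`) with `ρ' = (x m).2.2` (it equals `d m` near `y`), then
`TSol.lim` and division by `ε`.
-/

namespace Vale.P116D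

open Set Filter Topology MeasureTheory Complex
open scoped ContDiff

variable {D : Dom} {S : Gens D} {φ ψ χ η ξ ζ g d e v w : ℂ → ℝ} {s σ r τ u : D.End → ℝ}
  {y : D.End} {U V O : Set ℂ} {z : ℂ} {Θ : ℂ → ℝ} {L M c ε κ ρ C : ℝ} {dm : ℕ → ℂ → ℝ}
  {τm : ℕ → D.End → ℝ} {x : ℕ → (ℂ → ℝ) × (D.End → ℝ) × ℝ}

theorem t1b_van (hU : V ∈ D.nb y) (hd : Disjoint U V) (h : D.Supp χ U) :
    ∀ᶠ z in D.nb y, χ z = 0 := by
  filter_upwards [hU, G_mem y] with z hz hG
  exact h z hG fun hz' => Set.disjoint_left.1 hd hz' hz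

theorem t1b_step (h : TSol S y ψ κ d v τ ρ x) (hS : Str S) {t : D.End → ℝ} {ρ' : ℝ}
    (hφ : InB S φ t) (hρ : κ * D.osc y (fun z => ψ z - φ z) ≤ ρ') (hχ : D.Fn χ)
    (hle : D.Le χ 1) (hr : Sq r) (hη : D.Cut η u) (h0 : ∀ᶠ z in D.nb y, η z = 0)
    (hin : In S (fun z => φ z - ε * χ z) fun y' => t y' + ε * r y') :
    D.om d v + ip τ τ + ρ + ε * D.om (fun z => η z * χ z) v ≤
      D.om φ v + ip t τ + ρ' + ε * ip τ fun y' => u y' * r y' := by
  have hb : D.Bd χ := ⟨1, hle⟩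
  have h1 := hin.mix hφ.1 hS hη
  have e1 : (fun z => η z * (φ z - ε * χ z) + (1 - η z) * φ z) =
      fun z => φ z - ε * (η z * χ z) := by
    funext z
    ring
  have e2 : (fun y' => u y' * (t y' + ε * r y') + (1 - u y') * t y') =
      fun y' => t y' + ε * (u y' * r y') := by
    funext z
    ring
  rw [e1, e2] at h1
  have hf : D.Fn fun z => η z * χ z := hχ.wmul hη.wd hη.s1_bd
  have hq : Sq fun y' => u y' * r y' := hr.bmul (C := 1) fun y' => by
    rw [hη.s1_abs]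
    exact (hη.s1_mem y').2
  have h2 := h.vi (ρ' := ρ') ⟨h1, hφ.2.sub ((hη.s1_bd.mul hb).cmul ε)⟩ (by
    refine le_of_eq_of_le (congrArg (κ * ·) (osc_congr ?_)) hρ
    filter_upwards [h0] with z hz
    simp [hz])
  rw [om_sub hφ.1.fn (hf.cmul ε) h.sol.fv, om_cmul hf, ip_add hφ.1.co.2 (hq.cmul ε) h.sol.co.2,
    ip_cmul, ip_comm (fun y' => u y' * r y')] at h2
  linarith

theorem TSol.crit {y' : D.End} (h : TSol S y ψ κ d v τ ρ x) (hS : Str S) (hy : y' ≠ y) :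
    Crit S d v 1 τ y' := by
  obtain ⟨U, hU, V, hV, hd⟩ := nb_sep hy
  obtain ⟨τm, C, hs, hm⟩ := h.seq hS
  refine ⟨h.sol.fd, h.sol.fv, zero_le_one, h.sol.co, ⟨D.G, G_mem y', G_open D, h.sol.hol⟩,
    fun ε hε => ⟨U, hU, fun χ s hin hle hsu _ => ?_⟩,
    1, d, fun m => (x m).1, τm, fun _ => U, C, one_pos, h.sol.fd, EventuallyEq.rfl, hs.conv,
    fun m => ⟨hs.mem m, hU, hs.le m⟩, fun ε hε _ χ r η w hh δ hδ => ?_⟩
  · have h1 := (h.el hS).le χ s ⟨hin, 1, hle⟩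
    have h2 : ip (upd s y 0) (upd τ y κ) = ip τ s := by
      refine tsum_congr fun a => ?_
      by_cases ha : a = y
      · simp [upd, ha, h.zero]
      · simp [upd, ha, mul_comm]
    rw [osc_const (t1b_van hV hd hsu), h2] at h1
    have h3 := le_abs_self (D.om χ v)
    linarith
  · have h1 := (h.lim hs fun m => (hm m).1).eventually
      (gt_mem_nhds (lt_add_of_pos_right _ (mul_pos hε hδ)))
    filter_upwards [h1] with m hlt
    obtain ⟨a1, a2, a3, a4, a5, a6⟩ := hh m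
    have h2 := t1b_step h hS (hs.mem m) (hm m).2 a1 a2 a3 a4 (t1b_van hV hd a5) a6
    refine le_of_mul_le_mul_left ?_ hε
    linarith

end Vale.P116D
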