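import Vale.Agent.P116D.TDefs

/-!
T1c: the condition `EL`.  Use `ip_upd`, `ip_split`, `ip_comm`, `om_swap`, `om_mul`, `osc_wmul`,
`InB.osc_upd`.  `Adm.el`: with `ζ`, `r` from `Adm` apply `EL.le` to `φ - ζ` (cost `s + r`,
`osc_le_of`), bound `om ζ g` by `abs_om_le`, let `δ`, `ε` tend to zero (`le_of_forall_pos_le_add`).
`App.le`: the same with `f`, `r` from `App`.
-/

namespace Vale.P116D

open Set Filter Topology MeasureTheory Complex
open scoped ContDiff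

variable {D : Dom} {S : Gens D} {φ ψ χ η ξ ζ g d e v w : ℂ → ℝ} {s σ r τ u : D.End → ℝ}
  {y : D.End} {U V O : Set ℂ} {z : ℂ} {Θ : ℂ → ℝ} {L M c ε κ ρ C : ℝ} {dm : ℕ → ℂ → ℝ}
  {τm : ℕ → D.End → ℝ} {x : ℕ → (ℂ → ℝ) × (D.End → ℝ) × ℝ}

theorem t1c_eps {x A K : ℝ} (h : ∀ ε > 0, x ≤ A + ε * K) : x ≤ A := by
  have h1 : Tendsto (fun ε : ℝ => A + ε * K) (𝓝[>] 0) (𝓝 (A + 0 * K)) :=
    (tendsto_const_nhds.add (tendsto_id.mul_const K)).mono_left nhdsWithin_le_nhds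
  rw [zero_mul, add_zero] at h1
  exact ge_of_tendsto h1 (eventually_mem_nhdsWithin.mono h)

theorem t1c_add (hs : Sq s) (hr : Sq r) (hσ : Sq σ) (y : D.End) :
    ip (upd (fun y' => s y' + r y') y 0) σ ≤ ip (upd s y 0) σ + nl (upd r y 0) * nl σ := by
  have e : upd (fun y' => s y' + r y') y 0 = fun y' => upd s y 0 y' + upd r y 0 y' := by
    funext y'
    unfold upd
    split_ifs <;> simp
  rw [e, ip_add (hs.upd y 0) (hr.upd y 0) hσ]
  exact add_le_add le_rfl ((le_abs_self _).trans (abs_ip_le (hr.upd y 0) hσ))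

theorem EL.reg (h : EL S y g σ) (hχ : InB S χ s) (ho : D.osc y χ ≤ s y) : |D.om χ g| ≤ ip s σ := by
  rw [ip_split hχ.1.co.2 h.co.2 y, mul_comm (s y)]
  exact (h.le χ s hχ).trans (add_le_add le_rfl (mul_le_mul_of_nonneg_left ho (h.co.1 y)))

theorem EL.isIn (h : EL S y g σ) (hS : Str S) : In S g σ := by
  refine ⟨h.fn, h.co, fun p hp => ?_⟩
  rw [om_swap, abs_neg, ip_comm]
  exact h.reg ⟨hS.iso p hp, (hS.reg p hp).bd⟩ ((hS.reg p hp).le y)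

theorem EL.cut (h : EL S y g σ) (hS : Str S) (hη : D.Cut η u) :
    EL S y (fun z => η z * g z) fun y' => u y' * σ y' := by
  refine ⟨h.fn.wmul hη.wd hη.s1_bd, h.co.bmul hη.s1_mem, fun χ s hχ => ?_⟩
  have h1 := h.le _ _ ⟨hχ.1.cut hS hη, hη.s1_bd.mul hχ.2⟩
  have e : ip (upd (fun y' => u y' * s y') y 0) σ = ip (upd s y 0) fun y' => u y' * σ y' := by
    unfold ip upd
    refine tsum_congr fun y' => ?_
    split_ifs <;> ring
  rw [om_mul hη.wd hη.s1_bd hχ.1.fn h.fn, osc_wmul hχ.2 hη.wd, hη.s1_abs, e] at h1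
  refine h1.trans (le_of_eq ?_)
  ring

theorem EL.du (h : EL S y g σ) (h0 : σ y = 0) : Du S g σ := by
  refine ⟨h.fn, h.co, fun φ s hφ => ?_⟩
  have h1 := h.le φ s hφ
  rw [ip_split hφ.1.co.2 h.co.2 y]
  rw [h0] at h1 ⊢
  simpa using h1

theorem Str.el (hS : Str S) (h : (g, σ) ∈ S) (y : D.End) : EL S y g σ := by
  have hr := hS.reg _ h
  refine ⟨hr.fn, hr.co, fun χ s hχ => ?_⟩
  have h1 := (hχ.osc_upd hS y).le _ h
  rw [ip_upd hχ.1.co.2 hr.co.2, mul_comm] at h1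
  exact h1

theorem Reg.cut (h : Reg D g σ) (hη : D.Cut η u) :
    Reg D (fun z => η z * g z) fun y' => u y' * σ y' := by
  refine ⟨h.fn.wmul hη.wd hη.s1_bd, hη.s1_bd.mul h.bd, h.co.bmul hη.s1_mem, fun y => ?_⟩
  rw [osc_wmul h.bd hη.wd, hη.s1_abs]
  exact mul_le_mul_of_nonneg_left (h.le y) (hη.s1_mem y).1

theorem Adm.el {a b : ℝ} (ha : Adm S y φ a b) (hS : Str S) (hφ : InB S φ s) (h : EL S y g σ) :
    |D.om φ g| ≤ ip (upd s y (b - a)) σ := by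
  refine t1c_eps (K := D.nr g + nl σ + 2 * σ y) fun ε hε => ?_
  obtain ⟨ζ, r, hζ, -, h1, h2, h3⟩ := ha ε hε ε hε univ univ_mem
  have a1 := h.le _ _ ⟨hφ.1.sub hζ.1 hS, hφ.2.sub hζ.2⟩
  have a2 := t1c_add hφ.1.co.2 hζ.1.co.2 h.co.2 y
  have a3 := mul_le_mul_of_nonneg_left (osc_le_of h3) (h.co.1 y)
  have a4 := (abs_om_le hζ.1.fn h.fn).trans (mul_le_mul_of_nonneg_right h1 (nr_nonneg D g))
  have a5 := mul_le_mul_of_nonneg_right h2 (nl_nonneg σ)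
  have a6 := abs_add_le (D.om φ g - D.om ζ g) (D.om ζ g)
  rw [om_sub hφ.1.fn hζ.1.fn h.fn] at a1
  rw [sub_add_cancel] at a6
  rw [ip_upd hφ.1.co.2 h.co.2]
  linarith

theorem App.le (ha : App S y φ s) (hφ : D.Fn φ) (hs : Cost s) (h : EL S y g σ) :
    |D.om φ g| ≤ ip s σ := by
  refine t1c_eps (K := D.nr g + nl σ + σ y) fun ε hε => ?_
  obtain ⟨f, r, hr, h2, hf, h1, h3⟩ := ha ε hε
  have a1 := h.le _ _ hf
  have a2 := t1c_add hs.2 hr.2 h.co.2 y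
  have a3 := mul_le_mul_of_nonneg_left h3 (h.co.1 y)
  have a4 := (abs_om_le (hf.1.fn.sub hφ) h.fn).trans
    (mul_le_mul_of_nonneg_right h1 (nr_nonneg D g))
  have a5 := mul_le_mul_of_nonneg_right ((a1_nl_upd hr.2 y).trans h2) (nl_nonneg σ)
  have a6 := abs_sub (D.om f g) (D.om f g - D.om φ g)
  rw [om_sub hf.1.fn hφ h.fn] at a4
  rw [sub_sub_cancel] at a6
  rw [ip_split hs.2 h.co.2 y]
  linarith

theorem sub_vv (hS : Str S) (y : D.End) : S ⊆ VV S y := fun p hp => ⟨hS.reg p hp, hS.el hp y⟩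

theorem vv_cut (hS : Str S) (h : (g, σ) ∈ VV S y) (hη : D.Cut η u) :
    (fun z => η z * g z, fun y' => u y' * σ y') ∈ VV S y := ⟨h.1.cut hη, h.2.cut hS hη⟩

end Vale.P116D
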