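import Vale.Agent.P116D.T1b
import Vale.Agent.P116D.T1c
import Vale.Agent.P116D.C2e
import Vale.Agent.P116D.C2g

/-!
T2a: the global test.  `glob`: by contradiction pick `m` with `κ < m`, `ofReal m < volume (v '' G)`
(`ENNReal.lt_iff_exists_real_btwn`).  `low` with `ξ = 1`, `V = O = G` (the norm of a constant is zero).
For `ε > 0` take `F₀` from `Sq.tail`, `F = F₀.erase y`; `test_up` with `r = 0` (`in_wd`, `wd_const`), the sequence
of `TSol.seq`, `B = ε * K + κ`: `TSol.el` for the function of `test_in` (`osc_le_of`), `ip_rest`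
(`τ y = 0`), `K = L * (C + nl σ)`.  `range`: `v '' G` is preconnected, so it contains the interval
between two values (`IsPreconnected.Icc_subset`, `Real.volume_Icc`).
-/

namespace Vale.P116D

open Set Filter Topology MeasureTheory Complex
open scoped ContDiff

variable {D : Dom} {S : Gens D} {φ ψ χ η ξ ζ g d e v w : ℂ → ℝ} {s σ r τ u : D.End → ℝ}
  {y : D.End} {U V O : Set ℂ} {z : ℂ} {Θ : ℂ → ℝ} {L M c ε κ ρ C : ℝ} {dm : ℕ → ℂ → ℝ}
  {τm : ℕ → D.End → ℝ} {x : ℕ → (ℂ → ℝ) × (D.End → ℝ) × ℝ}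

theorem t2a_lim {X K : ℝ} (h : ∀ ε > 0, X ≤ ε * K + κ) : X ≤ κ := by
  have h1 : Tendsto (fun ε : ℝ => ε * K + κ) (𝓝[>] 0) (𝓝 (0 * K + κ)) :=
    ((continuous_id.mul continuous_const).add continuous_const).continuousAt.tendsto.mono_left
      nhdsWithin_le_nhds
  rw [zero_mul, zero_add] at h1
  exact ge_of_tendsto h1 (eventually_nhdsWithin_of_forall fun ε hε => h ε hε)

theorem t2a_swap (s τ : D.End → ℝ) (y : D.End) (κ : ℝ) :
    ip (upd s y 0) (upd τ y κ) = ip τ (upd s y 0) := by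
  refine tsum_congr fun y' => ?_
  by_cases hy : y' = y
  · simp [upd, hy]
  · simp [upd, hy, mul_comm]

theorem t2a_up (h : TSol S y ψ κ d v τ ρ x) (hS : Str S) (hΘ : Nice Θ L M) :
    D.om (fun z => Θ (d z + v z * I) * 1) v ≤ κ := by
  classical
  obtain ⟨τm, C, hs, -⟩ := h.seq hS
  have hel := h.el hS
  have hv : In S v (upd τ y κ) := hel.isIn hS
  have hξ : In S (fun _ => (1 : ℝ)) fun _ => 0 := in_wd hS (wd_const D 1)
  have h01 : ∀ z ∈ D.G, (fun _ : ℂ => (1 : ℝ)) z ∈ Icc (0 : ℝ) 1 := fun _ _ => ⟨zero_le_one, le_rfl⟩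
  have hL := hΘ.nonneg
  refine t2a_lim (K := L * (C + nl (upd τ y κ))) fun ε hε => ?_
  obtain ⟨F₀, hF⟩ := h.sol.co.2.tail hε
  have key := test_up (B := ε * (L * (C + nl (upd τ y κ))) + κ) (F₀.erase y) hS
    (fun y' hy' => h.crit hS (Finset.ne_of_mem_erase hy')) h.sol.fd hv hΘ hξ h01 hs
    (fun _ _ _ => rfl) ?_
  · simpa using key
  intro η u hη hu m
  obtain ⟨hin, hb⟩ := test_in hS (hs.mem m) hv hΘ hξ h01 hη
  have hbd : D.Bd fun z => η z * (Θ ((x m).1 z + v z * I) * 1) :=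
    ⟨1, fun z hz => abs_le.2 ⟨le_trans (by norm_num) (hb z hz).1, (hb z hz).2⟩⟩
  have h1 := hel.le _ _ ⟨hin, hbd⟩
  have h2 : D.osc y (fun z => η z * (Θ ((x m).1 z + v z * I) * 1)) ≤ 1 - 0 :=
    osc_le_of (mem_of_superset (G_mem y) hb)
  have hc : Cost fun y' => τm m y' + upd τ y κ y' := (hs.mem m).1.co.add hv.co
  have hc' : Cost fun y' => L * (τm m y' + upd τ y κ y') := hc.cmul hL
  have h3 := ip_rest (F := F₀) h.sol.co (hin.co.upd y le_rfl) hc'.2 (hF F₀ subset_rfl)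
    (fun y' hy' => by
      by_cases e : y' = y
      · simp [upd, e]
      · simp [upd, e, hu y' (Finset.mem_erase.2 ⟨e, hy'⟩)])
    (fun y' => by
      have h4 := hc'.1 y'
      have h5 := hη.s1_mem y'
      by_cases e : y' = y
      · simpa only [upd, e, if_true] using hc'.1 y
      · have e' : ∀ a : D.End → ℝ, upd a y 0 y' = a y' := fun a => by simp [upd, e]
        rw [e', add_zero]
        exact mul_le_of_le_one_left h4 h5.2)
  have h4 : nl (fun y' => L * (τm m y' + upd τ y κ y')) ≤ L * (C + nl (upd τ y κ)) := by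
    rw [nl_cmul, abs_of_nonneg hL]
    exact mul_le_mul_of_nonneg_left
      ((nl_add (hs.mem m).1.co.2 hv.co.2).trans (add_le_add (hs.le m) le_rfl)) hL
  have h5 : upd τ y κ y = κ := by simp [upd]
  rw [t2a_swap, h5] at h1
  have h6 := mul_le_mul_of_nonneg_left h2 h.k0.le
  have h7 := mul_le_mul_of_nonneg_left h4 hε.le
  have h8 := le_abs_self (D.om (fun z => η z * (Θ ((x m).1 z + v z * I) * 1)) v)
  linarith

theorem TSol.glob (h : TSol S y ψ κ d v τ ρ x) (hS : Str S) :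
    volume (v '' D.G) ≤ ENNReal.ofReal κ := by
  by_contra hc
  obtain ⟨m, -, h1, h2⟩ := ENNReal.lt_iff_exists_real_btwn.1 (not_le.1 hc)
  have h3 : κ < m := (ENNReal.ofReal_lt_ofReal_iff_of_nonneg h.k0.le).1 h1
  obtain ⟨Θ, L, M, hΘ, h4⟩ := low (ξ := fun _ => 1) h.sol.fd h.sol.fv (G_open D) h.sol.hol
    (wd_const D 1).fn (fun _ _ => ⟨zero_le_one, le_rfl⟩) (fun _ hz hz' => (hz' hz).elim) (G_open D)
    subset_rfl subset_rfl (fun _ _ => rfl) h2
  have h5 : D.nr (fun _ => (1 : ℝ)) = 0 := by simp [Dom.nr, gr_const]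
  have h6 := t2a_up h hS hΘ
  rw [h5, zero_mul, add_zero] at h4
  linarith

theorem TSol.range (h : TSol S y ψ κ d v τ ρ x) (hS : Str S) :
    ∀ z ∈ D.G, ∀ z' ∈ D.G, v z - v z' ≤ κ := by
  intro z hz z' hz'
  have hp : IsPreconnected (v '' D.G) := D.conn.isPreconnected.image v h.sol.fv.contOn
  have h1 : volume (Icc (v z') (v z)) ≤ ENNReal.ofReal κ :=
    (measure_mono (hp.Icc_subset (mem_image_of_mem v hz') (mem_image_of_mem v hz))).trans (h.glob hS)
  rw [Real.volume_Icc] at h1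
  exact (ENNReal.ofReal_le_ofReal_iff h.k0.le).1 h1

theorem t2a_bd (h : TSol S y ψ κ d v τ ρ x) (hS : Str S) : D.Bd v := by
  obtain ⟨z₀, hz₀⟩ := D.conn.nonempty
  refine ⟨|v z₀| + κ, fun z hz => abs_le.2 ⟨?_, ?_⟩⟩
  · have h1 := h.range hS z₀ hz₀ z hz
    have h2 := neg_abs_le (v z₀)
    linarith
  · have h1 := h.range hS z hz z₀ hz₀
    have h2 := le_abs_self (v z₀)
    linarith

theorem TSol.inB (h : TSol S y ψ κ d v τ ρ x) (hS : Str S) : InB S v (upd τ y κ) :=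
  ⟨(h.el hS).isIn hS, t2a_bd h hS⟩

theorem TSol.osc (h : TSol S y ψ κ d v τ ρ x) (hS : Str S) : D.osc y v ≤ κ :=
  osc_le_of_pair (t2a_bd h hS) (G_mem y) (h.range hS)

end Vale.P116D
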