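import Vale.Agent.P116D.T1c
import Vale.Agent.P116D.K7

/-!
T2b: approximation.  `seq`: `choose` with `ε = 1 / (n + 1)`, `poinc`, subtract the constants
(`In.add_wd`, `wd_const`, `osc_add_const`).  `trunc`: `T (f n)` (`hS.trunc`, `Dom.Conv.comp`, `osc_lip`,
`lip_of_deriv`).  `adm`: `adm_of_seq` with `ψ = φ`, `a n = s + r n`, `nb_tail` for `s`.
-/

namespace Vale.P116D

open Set Filter Topology MeasureTheory Complex
open scoped ContDiff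

variable {D : Dom} {S : Gens D} {φ ψ χ η ξ ζ g d e v w : ℂ → ℝ} {s σ r τ u : D.End → ℝ}
  {y : D.End} {U V O : Set ℂ} {z : ℂ} {Θ : ℂ → ℝ} {L M c ε κ ρ C : ℝ} {dm : ℕ → ℂ → ℝ}
  {τm : ℕ → D.End → ℝ} {x : ℕ → (ℂ → ℝ) × (D.End → ℝ) × ℝ}

theorem t2b_small {ε : ℝ} (hε : 0 < ε) : ∀ᶠ n : ℕ in atTop, 1 / ((n : ℝ) + 1) ≤ ε :=
  tendsto_one_div_add_atTop_nhds_zero_nat.eventually (eventually_le_nhds hε)

theorem App.seq (ha : App S y φ s) (hS : Str S) (hφ : D.Fn φ) :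
    ∃ (f : ℕ → ℂ → ℝ) (r : ℕ → D.End → ℝ), D.Conv f φ ∧ ∀ n : ℕ, Cost (r n) ∧
      nl (r n) ≤ 1 / (n + 1) ∧ InB S (f n) (fun y' => s y' + r n y') ∧
      D.osc y (f n) ≤ s y + 1 / (n + 1) := by
  choose f r h1 h2 h3 h4 h5 using fun n : ℕ => ha (1 / ((n : ℝ) + 1)) (by positivity)
  obtain ⟨c, hc⟩ := poinc (fun n => (h3 n).1.fn) hφ
    (squeeze_zero (fun n => Real.sqrt_nonneg _) h4 tendsto_one_div_add_atTop_nhds_zero_nat)
  refine ⟨fun n z => f n z + -c n, r, hc, fun n => ⟨h1 n, h2 n,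
    ⟨(h3 n).1.add_wd hS (wd_const D (-c n)), (h3 n).2.add (bd_const D _)⟩, ?_⟩⟩
  rw [osc_add_const (h3 n).2]
  exact h5 n

theorem App.trunc {T : ℝ → ℝ} (ha : App S y φ s) (hS : Str S) (hφ : D.Fn φ) (hT : ContDiff ℝ ∞ T)
    (h1 : ∀ t, |deriv T t| ≤ 1) (hM : ∀ t, |T t| ≤ M) : App S y (fun z => T (φ z)) s := by
  obtain ⟨f, r, hc, h⟩ := ha.seq hS hφ
  have hc' := hc.comp (fun n => (h n).2.2.1.1.fn) hφ hT h1
  intro ε hε
  obtain ⟨n, h2, h3⟩ := ((t2b_small hε).and (hc'.1.eventually (eventually_le_nhds hε))).exists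
  obtain ⟨a1, a2, a3, a4⟩ := h n
  refine ⟨fun z => T (f n z), r n, a1, a2.trans h2,
    ⟨hS.trunc _ _ a3.1 T hT h1 ⟨M, hM⟩, M, fun z _ => hM _⟩, h3, ?_⟩
  have := osc_lip a3.2 zero_le_one (lip_of_deriv hT h1) y
  linarith

theorem App.adm (ha : App S y φ s) (hS : Str S) (hφ : InB S φ s) :
    ∃ a, Adm S y φ a (a + s y) := by
  obtain ⟨f, r, hc, h⟩ := ha.seq hS hφ.1.fn
  obtain ⟨C, hC⟩ := hφ.2
  refine adm_of_seq hS hφ EventuallyEq.rfl hφ.1.fn (fun n => (h n).2.2.1) hc (fun ε hε => ?_)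
    (fun ε hε => ?_) (hφ.1.co.1 y) hC
  · obtain ⟨U, hU, h1⟩ := nb_tail hφ.1.co.2 y (half_pos hε)
    refine ⟨U, hU, (t2b_small (half_pos hε)).mono fun n hn η u hη hs => ?_⟩
    have h2 := a1_nl hη hφ.1.co.2 (h n).1.2 y
    have h3 : nl (upd (fun y' => u y' * r n y') y 0) ≤ nl (r n) := by
      refine nl_mono (h n).1.2 fun y' => ?_
      unfold upd
      split_ifs
      · simp
      · rw [abs_mul]
        exact mul_le_of_le_one_left (abs_nonneg _) (a1_u hη y')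
    linarith [h1 η u hη hs, (h n).2.1]
  · exact (t2b_small hε).mono fun n hn => by linarith [(h n).2.2.2]

end Vale.P116D
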