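import Vale.Agent.P116D.T1a

/-!
T2c: estimates for the approximation lemma.  `small`: `MinSol.le` at the element `ta_mem`
(`nl_nonneg`, `nr_nonneg`, `abs_le_abs`/`pow_le_pow_left₀`).  `out`: for large `m` the function
`f = ψ - (x m).1` works: `nr (x m).1 ≤ nr d + ε` (`sol.conv`), `nl (x m).2.1 ≤ nl τ + ε` (`sol.tc`),
`(x m).2.2 ≤ ρ + κ ε` (`sol.rc`); cost `s + τm m` (`In.sub`), at `y` replaced by the oscillation
(`InB.osc_upd`, `In.mono`), `r = upd (τm m) y (b + ε)`, `nl_upd_le`.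
-/

namespace Vale.P116D

open Set Filter Topology MeasureTheory Complex
open scoped ContDiff

variable {D : Dom} {S : Gens D} {φ ψ χ η ξ ζ g d e v w : ℂ → ℝ} {s σ r τ u : D.End → ℝ}
  {y : D.End} {U V O : Set ℂ} {z : ℂ} {Θ : ℂ → ℝ} {L M c ε κ ρ C : ℝ} {dm : ℕ → ℂ → ℝ}
  {τm : ℕ → D.End → ℝ} {x : ℕ → (ℂ → ℝ) × (D.End → ℝ) × ℝ}

theorem t2c_sq {a b : ℝ} (hb : 0 ≤ b) (h : a ^ 2 ≤ b ^ 2) : a ≤ b :=
  (le_abs_self a).trans (abs_le_of_sq_le_sq' h hb |> abs_le.2)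

theorem TSol.small {t : D.End → ℝ} (h : TSol S y ψ κ d v τ ρ x) (hφ : InB S φ t) (hε : 0 ≤ ε)
    (h1 : D.nr φ ≤ 2 * ε) (h2 : nl (upd t y 0) ≤ 2 * ε)
    (h3 : κ * D.osc y (fun z => ψ z - φ z) ≤ ε ^ 2) : D.nr d ≤ 4 * ε ∧ nl τ ≤ 4 * ε := by
  have h4 := h.sol.le zero_le_one (ta_mem hφ h3) hφ.1.fn (hφ.1.co.2.upd y 0)
  have a1 := pow_le_pow_left₀ (nr_nonneg D φ) h1 2
  have a2 := pow_le_pow_left₀ (nl_nonneg _) h2 2
  have a3 := h.sol.r0
  have a4 := sq_nonneg (D.nr d)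
  have a5 := sq_nonneg (nl τ)
  have a6 := sq_nonneg ε
  simp only [one_mul] at h4
  constructor
  · exact t2c_sq (by positivity) (by nlinarith)
  · exact t2c_sq (by positivity) (by nlinarith)

theorem TSol.out {a b : ℝ} (h : TSol S y ψ κ d v τ ρ x) (hS : Str S) (hψ : In S ψ s) (hε : 0 < ε)
    (hb : 0 ≤ b) (h1 : D.nr d ≤ a) (h2 : nl τ ≤ a) (h3 : ρ ≤ κ * (s y + b)) :
    ∃ f r, Cost r ∧ nl r ≤ a + b + 2 * ε ∧ InB S f (fun y' => s y' + r y') ∧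
      D.nr (fun z => f z - ψ z) ≤ a + ε ∧ D.osc y f ≤ s y + b + ε := by
  have e1 := h.sol.conv.1.eventually (ge_mem_nhds hε)
  have e2 := h.sol.tc.eventually (ge_mem_nhds hε)
  have e3 := h.sol.rc.eventually (ge_mem_nhds (lt_add_of_pos_right ρ (mul_pos h.k0 hε)))
  obtain ⟨m, m1, m2, m3⟩ := (e1.and (e2.and e3)).exists
  obtain ⟨t, ht, e4, e5⟩ := h.sol.mem m
  have hf : InB S (fun z => ψ z - (x m).1 z) fun y => s y + t y :=
    ⟨hψ.sub ht.1 hS, h.bd.sub ht.2⟩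
  have ho : D.osc y (fun z => ψ z - (x m).1 z) ≤ s y + b + ε :=
    le_of_mul_le_mul_left (by nlinarith) h.k0
  have hr : Cost (upd t y (b + ε)) := ht.1.co.upd y (by positivity)
  refine ⟨_, upd t y (b + ε), hr, ?_, ⟨(hf.osc_upd hS y).mono hS (hψ.co.add hr) fun y' => ?_, hf.2⟩,
    ?_, ho⟩
  · have a1 := nl_upd_le ht.1.co.2 y (b + ε)
    have a2 := nl_add ((ht.1.co.2.upd y 0).sub h.sol.co.2) h.sol.co.2
    simp only [sub_add_cancel] at a2
    rw [e4] at m2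
    rw [abs_of_pos (by positivity)] at a1
    have a3 : nl (upd t y 0) ≤ ε + a := a2.trans (add_le_add m2 h2)
    linarith
  · unfold upd
    split_ifs with hy
    · rw [hy]; linarith
    · exact le_rfl
  · have a1 := nr_add (ht.1.fn.sub h.sol.fd) h.sol.fd
    simp only [sub_add_cancel] at a1
    have a2 : D.nr (fun z => ψ z - (x m).1 z - ψ z) = D.nr fun z => -1 * (x m).1 z :=
      nr_congr fun z _ => by ring
    rw [a2, nr_cmul ht.1.fn]
    have a3 : D.nr (x m).1 ≤ ε + a := a1.trans (add_le_add m1 h1)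
    simp only [abs_neg, abs_one, one_mul]
    linarith

end Vale.P116D
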