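import Vale.Agent.P116D.T2c

/-!
T2d: the approximation lemma TL.
-/

namespace Vale.P116D

open Set Filter Topology MeasureTheory Complex
open scoped ContDiff

variable {D : Dom} {S : Gens D} {φ ψ χ η ξ ζ g d e v w : ℂ → ℝ} {s σ r τ u : D.End → ℝ}
  {y : D.End} {U V O : Set ℂ} {z : ℂ} {Θ : ℂ → ℝ} {L M c ε κ ρ C : ℝ} {dm : ℕ → ℂ → ℝ}
  {τm : ℕ → D.End → ℝ} {x : ℕ → (ℂ → ℝ) × (D.End → ℝ) × ℝ}

theorem T2d_ip (hs : Sq s) (hτ : Sq τ) (h0 : τ y = 0) : ip s τ ≤ nl (upd s y 0) * nl τ := by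
  rw [ip_split hs hτ y, h0, mul_zero, add_zero]
  exact (le_abs_self _).trans (abs_ip_le (hs.upd y 0) hτ)

theorem T2d_ip2 (hs : Sq s) (hτ : Sq τ) (κ : ℝ) :
    ip s (upd τ y κ) ≤ nl (upd s y 0) * nl τ + s y * κ := by
  rw [ip_split hs (hτ.upd y κ) y]
  have e1 : upd τ y κ y = κ := by simp [upd]
  have e2 : ip (upd s y 0) (upd τ y κ) = ip (upd s y 0) τ := by
    unfold ip
    congr 1
    funext y'
    by_cases h : y' = y <;> simp [upd, h]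
  rw [e1, e2]
  have := (le_abs_self _).trans (abs_ip_le (hs.upd y 0) hτ)
  linarith

theorem tl (hS : Str S) (hφ : In S φ s) (H : ∀ v σ, TS S y v σ → ∀ η u, D.Cut η u →
    |D.om (fun z => η z * φ z) v| ≤ ip (fun y' => u y' * s y') σ) : App S y φ s := by
  intro ε hε
  obtain ⟨T, hT, hT1, hTi, hTb⟩ := trunc_ex
  have hT1' : ∀ n t, |deriv (T n) t| ≤ 1 := fun n t =>
    abs_le.2 ⟨by linarith [(hT1 n t).1], (hT1 n t).2⟩
  have hTin : ∀ n, In S (fun z => T n (φ z)) s := fun n =>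
    hS.trunc φ s hφ (T n) (hT n) (hT1' n) ⟨_, hTb n⟩
  have hTbd : ∀ n, D.Bd fun z => T n (φ z) := fun n => ⟨_, fun z _ => hTb n _⟩
  have hconv := conv_trunc hφ.fn hT hT1' hTi
  have hcut : ∀ η u, D.Cut η u → ∀ δ > 0, ∀ᶠ n in atTop,
      D.nr (fun z => η z * T n (φ z) - η z * φ z) ≤ δ := fun η u hη δ hδ =>
    ((hconv.wmul (fun n => (hTin n).fn) hφ.fn hη.wd).1.eventually (ge_mem_nhds hδ))
  have hcb : ∀ {η : ℂ → ℝ} {u : D.End → ℝ}, D.Cut η u → D.Bd η := fun hη =>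
    ⟨1, fun z _ => abs_le.2 ⟨by linarith [(hη.mem z).1], (hη.mem z).2⟩⟩
  set a := ε / 18 with ha
  have ha0 : 0 < a := by positivity
  -- the first cutoff
  obtain ⟨U₀, hU₀, h₀⟩ := nb_tail hφ.co.2 y ha0
  obtain ⟨η₀, u₀, hη₀, hu₀, hs₀⟩ := cut_ex hU₀
  have c₀ := h₀ η₀ u₀ hη₀ hs₀
  obtain ⟨N, hN⟩ := eventually_atTop.1
    ((hcut η₀ u₀ hη₀ a ha0).and (hconv.1.eventually (ge_mem_nhds ha0)))
  -- the multiplier
  set κ := a ^ 2 / (2 * ((N : ℝ) + 1)) with hκ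
  have hκ0 : 0 < κ := by positivity
  obtain ⟨U₁, hU₁, h₁⟩ := nb_tail hφ.co.2 y hκ0
  obtain ⟨η₁, u₁, hη₁, hu₁, hs₁⟩ := cut_ex hU₁
  have c₁ := h₁ η₁ u₁ hη₁ hs₁
  obtain ⟨n, hn1, hn2⟩ := ((hcut η₁ u₁ hη₁ κ hκ0).and (eventually_ge_atTop N)).exists
  obtain ⟨d, v, τ, ρ, x, hx⟩ := ta_sol hS y (hTbd n) hκ0
  -- the competitor
  have hf : ∀ (m : ℕ) {η : ℂ → ℝ} {u : D.End → ℝ}, D.Cut η u → D.Fn fun z => η z * T m (φ z) :=
    fun m _ _ hη => (hTin m).fn.wmul hη.wd (hcb hη)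
  have hf' : ∀ {η : ℂ → ℝ} {u : D.End → ℝ}, D.Cut η u → D.Fn fun z => η z * φ z :=
    fun hη => hφ.fn.wmul hη.wd (hcb hη)
  have hcomp : InB S (fun z => η₀ z * T n (φ z) - η₀ z * T N (φ z))
      fun y' => u₀ y' * s y' + u₀ y' * s y' :=
    ⟨((hTin n).cut hS hη₀).sub ((hTin N).cut hS hη₀) hS,
      ((hcb hη₀).mul (hTbd n)).sub ((hcb hη₀).mul (hTbd N))⟩
  have hsq : ∀ {η : ℂ → ℝ} {u : D.End → ℝ}, D.Cut η u → Sq fun y' => u y' * s y' :=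
    fun hη => (hφ.cut hS hη).co.2
  have e1 : D.nr (fun z => η₀ z * T n (φ z) - η₀ z * T N (φ z)) ≤ 2 * a := by
    have := nr_sub ((hf n hη₀).sub (hf' hη₀)) ((hf N hη₀).sub (hf' hη₀))
    rw [nr_congr (ψ := fun z => η₀ z * T n (φ z) - η₀ z * T N (φ z)) fun z _ => by ring] at this
    linarith [(hN n hn2).1, (hN N le_rfl).1]
  have e2 : nl (upd (fun y' => u₀ y' * s y' + u₀ y' * s y') y 0) ≤ 2 * a := by
    have := nl_add ((hsq hη₀).upd y 0) ((hsq hη₀).upd y 0)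
    have e : upd (fun y' => u₀ y' * s y' + u₀ y' * s y') y 0 = fun y' =>
        upd (fun y' => u₀ y' * s y') y 0 y' + upd (fun y' => u₀ y' * s y') y 0 y' := by
      funext y'
      by_cases h : y' = y <;> simp [upd, h]
    rw [e]
    linarith
  have e3 : κ * D.osc y (fun z => T n (φ z) - (η₀ z * T n (φ z) - η₀ z * T N (φ z))) ≤ a ^ 2 := by
    have e : (fun z => T n (φ z) - (η₀ z * T n (φ z) - η₀ z * T N (φ z))) =ᶠ[D.nb y]
        fun z => T N (φ z) := by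
      filter_upwards [hη₀.wd.ev y] with z hz
      rw [hz, hu₀]
      ring
    rw [osc_congr e]
    have := osc_le_two (φ := fun z => T N (φ z)) (M := N + 1) (fun z _ => hTb N _) y
    calc κ * D.osc y (fun z => T N (φ z)) ≤ κ * (2 * ((N : ℝ) + 1)) :=
          mul_le_mul_of_nonneg_left this hκ0.le
      _ = a ^ 2 := by rw [hκ]; field_simp
  obtain ⟨s1, s2⟩ := hx.small hcomp ha0.le e1 e2 e3
  -- the bound for the multiplier term
  have r1 := hx.rho hS (hTin n) hη₁ hu₁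
  have r2 := (le_abs_self _).trans (H v _ ⟨_, κ, d, τ, ρ, x, hx, rfl⟩ η₁ u₁ hη₁)
  have r3 := T2d_ip2 (y := y) (hsq hη₁) hx.sol.co.2 κ
  have r4 := T2d_ip (hsq hη₁) hx.sol.co.2 hx.zero
  have r5 : nl (upd (fun y' => u₁ y' * s y') y 0) * nl τ ≤ κ * (4 * a) :=
    mul_le_mul c₁ s2 (nl_nonneg _) hκ0.le
  have r6 : D.om (fun z => η₁ z * T n (φ z)) v - D.om (fun z => η₁ z * φ z) v ≤ κ * (4 * a) := by
    rw [← om_sub (hf n hη₁) (hf' hη₁) hx.sol.fv, hx.sol.om]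
    exact ((le_abs_self _).trans (abs_di_le ((hf n hη₁).sub (hf' hη₁)) hx.sol.fd)).trans
      (mul_le_mul hn1 s1 (nr_nonneg _ _) hκ0.le)
  have r7 : ρ ≤ κ * (s y + 12 * a) := by
    simp only [hu₁, one_mul] at r3
    nlinarith
  obtain ⟨f, r, hr, hr1, hfi, hf1, hf2⟩ := hx.out hS (hTin n) ha0 (by positivity) s1 s2 r7
  refine ⟨f, r, hr, by linarith, hfi, ?_, by linarith⟩
  have := nr_add (hfi.1.fn.sub (hTin n).fn) ((hTin n).fn.sub hφ.fn)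
  rw [nr_congr (ψ := fun z => f z - φ z) fun z _ => by ring] at this
  linarith [(hN n hn2).2]

end Vale.P116D
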