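import Vale.Agent.P116D.T2a
import Vale.Agent.P116D.T2b
import Vale.Agent.P116D.T2d
import Vale.Agent.P116D.C2

/-!
T2e: the conjugates of the solutions are regulated.  `du_app`: `tl` (`Du.isIn`); `om_mul`, `om_swap`,
`TSol.inB`, `In.cut`, `Du.le`, `ip_comm`.  `TSol.reg`: at `y` by `TSol.osc`.  At `y' ≠ y` take disjoint
`U ∈ nb y'`, `U' ∈ nb y` (`nb_sep`; an end with `U ∈ nb y''` is not `y` by `nb_neBot`), a cut `η` at `y'` supported
in `U`, so `u y = 0`; `η v` is dual (`EL.cut`, `EL.du`), `du_app`, `App.adm`, `Adm.congr`; then `reg_adm` with a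
clamp `T` that is the identity on the range of `v` (`clamp_ex`, `osc_congr`, `TSol.crit`).
`vv_app`: `tl` (`In.anti`, `sub_vv`), `ts_vv`, `vv_cut`, `om_mul`.
-/

namespace Vale.P116D

open Set Filter Topology MeasureTheory Complex
open scoped ContDiff

variable {D : Dom} {S : Gens D} {φ ψ χ η ξ ζ g d e v w : ℂ → ℝ} {s σ r τ u : D.End → ℝ}
  {y : D.End} {U V O : Set ℂ} {z : ℂ} {Θ : ℂ → ℝ} {L M c ε κ ρ C : ℝ} {dm : ℕ → ℂ → ℝ}
  {τm : ℕ → D.End → ℝ} {x : ℕ → (ℂ → ℝ) × (D.End → ℝ) × ℝ}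

theorem du_app (hS : Str S) (h : Du S g σ) (y : D.End) : App S y g σ := by
  refine tl hS (h.isIn hS) fun v σ' ⟨ψ, κ, d, τ, ρ, x, ht, e⟩ η u hη => ?_
  have hv := ht.inB hS
  rw [← e] at hv
  have h1 := h.le _ _ ⟨hv.1.cut hS hη, hη.s1_bd.mul hv.2⟩
  rw [om_mul hη.wd hη.s1_bd h.fn hv.1.fn, om_swap, abs_neg]
  exact h1.trans_eq (tsum_congr fun y' => by ring)

theorem TSol.reg (h : TSol S y ψ κ d v τ ρ x) (hS : Str S) : Reg D v (upd τ y κ) := by
  have hv := h.inB hS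
  refine ⟨hv.1.fn, hv.2, hv.1.co, fun y' => ?_⟩
  by_cases hy : y' = y
  · rw [hy]
    exact (h.osc hS).trans_eq (if_pos rfl).symm
  obtain ⟨U, hU, U', hU', hd⟩ := nb_sep hy
  have hn : ∀ y'', U ∈ D.nb y'' → y'' ≠ y := fun y'' h1 e =>
    empty_notMem (D.nb y) (hd.inter_eq ▸ inter_mem (e ▸ h1) hU')
  obtain ⟨η, u, hη, h1, hs⟩ := cut_ex hU
  have h0 : u y = 0 := (hη.val y).resolve_right fun e => hn y (hη.mem_of hs e) rfl
  have hd := ((h.el hS).cut hS hη).du (by simp only [h0, zero_mul])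
  obtain ⟨a, ha⟩ := (du_app hS hd y').adm hS ⟨hd.isIn hS, hη.s1_bd.mul hv.2⟩
  obtain ⟨M, hM⟩ := hv.2
  obtain ⟨T, hT, t1, t2, t3, -⟩ := clamp_ex (a := -M) (b := M) (by linarith [hM.s1_nonneg]) one_pos
  have e : (fun z => T (v z)) =ᶠ[D.nb y'] v :=
    mem_of_superset (G_mem y') fun z hz => t2 _ (abs_le.1 (hM z hz))
  have e' : v =ᶠ[D.nb y'] fun z => η z * v z := by
    filter_upwards [hη.one_mem h1] with z hz
    rw [hz, one_mul]
  have h2 := reg_adm (M := M + 1) hS hU (fun y'' h2 => h.crit hS (hn y'' h2)) hv.1 hT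
    (fun t => abs_le.2 ⟨by linarith [(t1 t).1], (t1 t).2⟩)
    (fun t => abs_le.2 ⟨by linarith [(t3 t).1], (t3 t).2⟩) (ha.congr (e.trans e'))
  rwa [osc_congr e, add_sub_cancel_left, h1, one_mul] at h2

theorem ts_vv (hS : Str S) (h : TS S y v σ) : (v, σ) ∈ VV S y := by
  obtain ⟨ψ, κ, d, τ, ρ, x, ht, rfl⟩ := h
  exact ⟨ht.reg hS, ht.el hS⟩

theorem vv_app (hS : Str S) (h : In (VV S y) φ s) : App S y φ s := by
  refine tl hS (h.anti (sub_vv hS y)) fun v σ ht η u hη => ?_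
  have hv := ts_vv hS ht
  rw [om_mul hη.wd hη.s1_bd h.fn hv.1.fn]
  exact (h.le _ (vv_cut hS hv hη)).trans_eq (tsum_congr fun y' => by ring)

end Vale.P116D
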