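import Vale.Agent.P116D.T2e

/-!
T3a: the box axiom for the enlarged set.  `vv_app`, `App.adm` give corners `p i` at `y`; `hS.box` gives
corners `a i` elsewhere; take `upd (a i) y (p i)`.  Given `Θ η u r`: `Θ` is bounded on the compact box with
corners `a i y`, so `BoxAt` for `S` applies with the cost `upd r y R`, `R` large.  The function `u y * Θ` maps the
box with corners `p i` into an interval `[q, q + |u y| * r y]` (`q` an infimum or a minimum over the compact
box), so `adm_comp`, `Adm.congr` (`η = u y` near `y`) and `Adm.el` give the inequality for each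
generator in `VV S y` (`fn_compB`, `Dom.Wd.bd`, `Dom.Bd.mul` for boundedness).
-/

namespace Vale.P116D

open Set Filter Topology MeasureTheory Complex
open scoped ContDiff

variable {D : Dom} {S : Gens D} {φ ψ χ η ξ ζ g d e v w : ℂ → ℝ} {s σ r τ u : D.End → ℝ}
  {y : D.End} {U V O : Set ℂ} {z : ℂ} {Θ : ℂ → ℝ} {L M c ε κ ρ C : ℝ} {dm : ℕ → ℂ → ℝ}
  {τm : ℕ → D.End → ℝ} {x : ℕ → (ℂ → ℝ) × (D.End → ℝ) × ℝ}

theorem t3a_self {Y : Type} (a : Y → ℝ) (y : Y) (t : ℝ) : upd a y t y = t := if_pos rfl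

theorem t3a_ne {Y : Type} (a : Y → ℝ) {y y' : Y} (t : ℝ) (h : y' ≠ y) : upd a y t y' = a y' :=
  if_neg h

theorem t3a_cpt {k : ℕ} (p q : Fin k → ℝ) :
    IsCompact {x : Fin k → ℝ | ∀ i, x i ∈ Icc (p i) (q i)} := by
  have : {x : Fin k → ℝ | ∀ i, x i ∈ Icc (p i) (q i)} = Set.pi univ fun i => Icc (p i) (q i) := by
    ext x
    exact ⟨fun h i _ => h i, fun h i => h i (mem_univ i)⟩
  rw [this]
  exact isCompact_univ_pi fun i => isCompact_Icc

theorem t3a_bound {k : ℕ} {P : (Fin k → ℝ) → ℝ} (hP : Continuous P) (p q : Fin k → ℝ) :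
    ∃ R, 0 ≤ R ∧ ∀ x x' : Fin k → ℝ, (∀ i, x i ∈ Icc (p i) (q i)) →
      (∀ i, x' i ∈ Icc (p i) (q i)) → P x - P x' ≤ R := by
  obtain ⟨C, hC⟩ := (t3a_cpt p q).exists_bound_of_continuousOn hP.continuousOn
  refine ⟨2 * |C|, by positivity, fun x x' hx hx' => ?_⟩
  have h1 := abs_le.1 (hC x hx)
  have h2 := abs_le.1 (hC x' hx')
  linarith [le_abs_self C, h1.2, h2.1]

theorem t3a_int {k : ℕ} {P : (Fin k → ℝ) → ℝ} (hP : Continuous P) {p q : Fin k → ℝ}
    (hpq : ∀ i, p i ≤ q i) {R : ℝ} (t : ℝ) (h : ∀ x x' : Fin k → ℝ, (∀ i, x i ∈ Icc (p i) (q i)) →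
      (∀ i, x' i ∈ Icc (p i) (q i)) → P x - P x' ≤ R) :
    ∃ m, ∀ x : Fin k → ℝ, (∀ i, x i ∈ Icc (p i) (q i)) → t * P x ∈ Icc m (m + |t| * R) := by
  obtain ⟨x₀, hx₀, hm⟩ := (t3a_cpt p q).exists_isMinOn (f := fun x => t * P x)
    ⟨p, fun i => ⟨le_rfl, hpq i⟩⟩ (continuous_const.mul hP).continuousOn
  refine ⟨t * P x₀, fun x hx => ⟨hm hx, ?_⟩⟩
  have h1 : |P x - P x₀| ≤ R := abs_le.2 ⟨by linarith [h x₀ x hx₀ hx], h x x₀ hx hx₀⟩
  have h2 : t * (P x - P x₀) ≤ |t| * R := by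
    refine (le_abs_self _).trans ?_
    rw [abs_mul]
    exact mul_le_mul_of_nonneg_left h1 (abs_nonneg t)
  linarith

theorem vv_box (hS : Str S) (y : D.End) (k : ℕ) (f : Fin k → ℂ → ℝ) (b : Fin k → D.End → ℝ)
    (h : ∀ i, InB (VV S y) (f i) (b i)) : ∃ a, BoxAt (VV S y) f b a := by
  have hi : ∀ i, InB S (f i) (b i) := fun i => ⟨(h i).1.anti (sub_vv hS y), (h i).2⟩
  choose p hp using fun i => (vv_app hS (h i).1).adm hS (hi i)
  obtain ⟨a, ha⟩ := hS.box k f b hi
  refine ⟨fun i => upd (a i) y (p i), fun P hP η u hη r hr ho => ?_⟩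
  obtain ⟨R, hR, hRb⟩ := t3a_bound hP.continuous (fun i => a i y) fun i => a i y + b i y
  have ho' : OscLe P a b (upd r y R) := by
    intro y' x x' hx hx'
    by_cases e : y' = y
    · subst e
      rw [t3a_self]
      exact hRb x x' hx hx'
    · rw [t3a_ne _ _ e]
      refine ho y' x x' (fun i => ?_) fun i => ?_
      · show x i ∈ Icc (upd (a i) y (p i) y') (upd (a i) y (p i) y' + b i y')
        rw [t3a_ne _ _ e]
        exact hx i
      · show x' i ∈ Icc (upd (a i) y (p i) y') (upd (a i) y (p i) y' + b i y')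
        rw [t3a_ne _ _ e]
        exact hx' i
  have hin := ha P hP η u hη _ (hr.upd y hR) ho'
  obtain ⟨M, hM, hM'⟩ := hη.bd
  have hbd : D.Bd fun z => η z * P fun i => f i z :=
    Dom.Bd.mul ⟨M, hM⟩ (fn_compB (fun i => (hi i).1.fn) (fun i => (hi i).2) hP).2
  obtain ⟨m, hm⟩ := t3a_int hP.continuous (p := p) (q := fun i => p i + b i y)
    (fun i => le_add_of_nonneg_right ((hi i).1.co.1 y)) (R := r y) (u y) fun x x' hx hx' => by
      refine ho y x x' (fun i => ?_) fun i => ?_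
      · show x i ∈ Icc (upd (a i) y (p i) y) (upd (a i) y (p i) y + b i y)
        rw [t3a_self]
        exact hx i
      · show x' i ∈ Icc (upd (a i) y (p i) y) (upd (a i) y (p i) y + b i y)
        rw [t3a_self]
        exact hx' i
  have h1 : Adm S y (fun z => u y * P fun i => f i z) m (m + |u y| * r y) :=
    adm_comp (Θ := fun x => u y * P x) hS hi hp (contDiff_const.mul hP) hm
  have h2 : Adm S y (fun z => η z * P fun i => f i z) m (m + |u y| * r y) :=
    h1.congr ((hη.ev y).mono fun z hz => by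
      show (η z * P fun i => f i z) = u y * P fun i => f i z
      rw [hz])
  refine ⟨hin.fn, hr.bmul (C := M) fun y' => ⟨abs_nonneg _, hM' y'⟩, fun q hq => ?_⟩
  have h3 := h2.el hS ⟨hin, hbd⟩ hq.2
  have e : upd (fun y' => |u y'| * upd r y R y') y (m + |u y| * r y - m) =
      fun y' => |u y'| * r y' := by
    funext y'
    by_cases e : y' = y
    · subst e
      rw [t3a_self]
      ring
    · rw [t3a_ne _ _ e, t3a_ne _ _ e]
  rwa [e] at h3

end Vale.P116D
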