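import Vale.Agent.P116D.A1
import Vale.Agent.P116D.K9
import Vale.Agent.P116D.K11b

/-!
Notions for the projection lemma and for the move at one end.
-/

namespace Vale.P116D

open Set Filter Topology MeasureTheory Complex
open scoped ContDiff

variable {D : Dom}

/-- Test functions: values in `[0, 1]`, increasing in the real direction, zero far from the
real axis. -/
structure Nice (Θ : ℂ → ℝ) (L M : ℝ) : Prop where
  sm : ContDiff ℝ ∞ Θ
  mem : ∀ p, Θ p ∈ Icc (0 : ℝ) 1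
  lip : ∀ p, ‖fderiv ℝ Θ p‖ ≤ L
  mono : ∀ t : ℝ, Monotone fun x : ℝ => Θ (x + t * I)
  van : ∀ p : ℂ, M ≤ |p.im| → Θ p = 0

/-- An approximating sequence of bounded members with bounded costs. -/
structure Seq (S : Gens D) (e : ℂ → ℝ) (dm : ℕ → ℂ → ℝ) (τm : ℕ → D.End → ℝ) (C : ℝ) : Prop where
  fn : D.Fn e
  conv : D.Conv dm e
  mem : ∀ m, InB S (dm m) (τm m)
  le : ∀ m, nl (τm m) ≤ C

/-- The constraint set of the problem at `y` with target `ψ`. -/
def TA (S : Gens D) (y : D.End) (ψ : ℂ → ℝ) (κ : ℝ) : Set ((ℂ → ℝ) × (D.End → ℝ) × ℝ) :=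
  {x | ∃ t, InB S x.1 t ∧ x.2.1 = upd t y 0 ∧ κ * D.osc y (fun z => ψ z - x.1 z) ≤ x.2.2}

/-- Solutions of the problem at `y`. -/
structure TSol (S : Gens D) (y : D.End) (ψ : ℂ → ℝ) (κ : ℝ) (d v : ℂ → ℝ) (τ : D.End → ℝ) (ρ : ℝ)
    (x : ℕ → (ℂ → ℝ) × (D.End → ℝ) × ℝ) : Prop where
  bd : D.Bd ψ
  k0 : 0 < κ
  sol : MinSol (TA S y ψ κ) 1 d v τ ρ x

/-- The conjugates of the solutions with their costs. -/
def TS (S : Gens D) (y : D.End) (v : ℂ → ℝ) (σ : D.End → ℝ) : Prop :=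
  ∃ ψ κ d τ ρ x, TSol S y ψ κ d v τ ρ x ∧ σ = upd τ y κ

/-- The linear condition in which the true oscillation is paid at `y`. -/
structure EL (S : Gens D) (y : D.End) (g : ℂ → ℝ) (σ : D.End → ℝ) : Prop where
  fn : D.Fn g
  co : Cost σ
  le : ∀ χ s, InB S χ s → |D.om χ g| ≤ ip (upd s y 0) σ + σ y * D.osc y χ

/-- Approximation by bounded members whose oscillation at `y` is almost at most the cost. -/
def App (S : Gens D) (y : D.End) (φ : ℂ → ℝ) (s : D.End → ℝ) : Prop :=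
  ∀ ε > 0, ∃ f r, Cost r ∧ nl r ≤ ε ∧ InB S f (fun y' => s y' + r y') ∧
    D.nr (fun z => f z - φ z) ≤ ε ∧ D.osc y f ≤ s y + ε

/-- The enlarged set of generators. -/
def VV (S : Gens D) (y : D.End) : Gens D := {p | Reg D p.1 p.2 ∧ EL S y p.1 p.2}

end Vale.P116D
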